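import Vale.Agent.P093.MathlibUsed
import Vale.Agent.P093.Comparison
import Vale.Agent.P093.CrossedDef
import Vale.Agent.P093.Bdl.B2

set_option linter.all false

section
open Filter Topology Set
open scoped ENNReal ComplexOrder
set_option linter.unusedSectionVars false
set_option linter.unusedSimpArgs false
namespace Vale.Agent.P093

section Core

variable {X : Type*} [TopologicalSpace X] [CompactSpace X]

theorem continuous_toOp {h : X ≃ₜ X} : Continuous (toOp (h := h)) := continuous_subtype_val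

end Core

end Vale.Agent.P093
end

section
open Filter Topology Set
open scoped ENNReal ComplexOrder
set_option linter.unusedSectionVars false
set_option linter.unusedSimpArgs false
namespace Vale.Agent.P093

section Crossed

variable {X : Type*} [TopologicalSpace X] [CompactSpace X]

theorem fullMat_apply (h : X ≃ₜ X) {m : ℕ} (β : Fin m → Fin m → C(X, ℂ)) (i j : Fin m) :
    fullMat h β i j = piHom h (β i j) := rfl

theorem fullMat_mul (h : X ≃ₜ X) {m : ℕ} (β γ : Fin m → Fin m → C(X, ℂ)) :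
    fullMat h β * fullMat h γ = fullMat h fun i k => ∑ j, β i j * γ j k := by
  ext i k
  rw [fullMat_apply]
  have h1 : (fullMat h β * fullMat h γ) i k = ∑ j, piHom h (β i j) * piHom h (γ j k) := rfl
  rw [h1, map_sum]
  simp_rw [map_mul]

theorem fullMat_star (h : X ≃ₜ X) {m : ℕ} (β : Fin m → Fin m → C(X, ℂ)) :
    star (fullMat h β) = fullMat h fun i j => star (β j i) := by
  ext i j
  rw [fullMat_apply, map_star]
  rfl

theorem fullMat_one (h : X ≃ₜ X) {m : ℕ} :
    fullMat h (fun i j => if i = j then (1 : C(X, ℂ)) else 0) =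
      (1 : CStarMatrix (Fin m) (Fin m) (CrossedProduct h)) := by
  ext i j
  rw [fullMat_apply, CStarMatrix.one_apply]
  split_ifs
  · exact map_one _
  · exact map_zero _

theorem fullMat_sub (h : X ≃ₜ X) {m : ℕ} (β γ : Fin m → Fin m → C(X, ℂ)) :
    fullMat h β - fullMat h γ = fullMat h fun i j => β i j - γ i j := by
  ext i j
  rw [fullMat_apply, CStarMatrix.sub_apply, map_sub]
  rfl

theorem diagMat_eq (h : X ≃ₜ X) {n : ℕ} (g : Fin n → C(X, ℂ)) :
    diagMat h g = fullMat h fun i l => if i = l then g l else 0 := by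
  ext i l
  rw [fullMat_apply]
  change (if i = l then piHom h (g l) else 0) = _
  split_ifs
  · rfl
  · exact (map_zero _).symm

theorem diagMat_mul (h : X ≃ₜ X) {n : ℕ} (g g' : Fin n → C(X, ℂ)) :
    diagMat h g * diagMat h g' = diagMat h (g * g') := by
  rw [diagMat_eq, diagMat_eq, diagMat_eq, fullMat_mul]
  congr 1
  funext i k
  by_cases hik : i = k
  · subst hik
    simp
  · rw [if_neg hik]
    refine Finset.sum_eq_zero fun j _ => ?_
    by_cases hij : i = j
    · subst hij
      rw [if_neg hik, mul_zero]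
    · rw [if_neg hij, zero_mul]

theorem diagMat_one (h : X ≃ₜ X) {n : ℕ} : diagMat h (1 : Fin n → C(X, ℂ)) = 1 := by
  rw [diagMat_eq, ← fullMat_one]
  rfl

theorem diagMat_pow (h : X ≃ₜ X) {n : ℕ} (g : Fin n → C(X, ℂ)) (k : ℕ) :
    diagMat h g ^ k = diagMat h (g ^ k) := by
  induction k with
  | zero => rw [pow_zero, pow_zero, diagMat_one]
  | succ k ih => rw [pow_succ, pow_succ, ih, diagMat_mul]

theorem diagMat_star (h : X ≃ₜ X) {n : ℕ} (g : Fin n → C(X, ℂ)) :
    star (diagMat h g) = diagMat h (star g) := by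
  rw [diagMat_eq, diagMat_eq, fullMat_star]
  congr 1
  funext i j
  by_cases hij : i = j
  · subst hij
    simp
  · rw [if_neg hij, if_neg fun hh => hij hh.symm, star_zero]

theorem diagMat_sub (h : X ≃ₜ X) {n : ℕ} (g g' : Fin n → C(X, ℂ)) :
    diagMat h g - diagMat h g' = diagMat h (g - g') := by
  rw [diagMat_eq, diagMat_eq, diagMat_eq, fullMat_sub]
  congr 1
  funext i k
  by_cases hik : i = k
  · subst hik
    simp
  · simp [hik]

set_option backward.isDefEq.respectTransparency false in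
theorem diagMat_nonneg (h : X ≃ₜ X) {n : ℕ} (g : Fin n → C(X, ℝ)) (hg : ∀ l x, 0 ≤ g l x) :
    0 ≤ diagMat h (fun l => cf (g l)) := by
  rw [CStarAlgebra.nonneg_iff_eq_star_mul_self]
  refine ⟨diagMat h (fun l => ⟨fun x => ((Real.sqrt (g l x) : ℝ) : ℂ), by fun_prop⟩), ?_⟩
  rw [diagMat_star, diagMat_mul]
  congr 1
  funext l
  ext x
  simp only [Pi.mul_apply, Pi.star_apply, ContinuousMap.mul_apply, ContinuousMap.star_apply,
    ContinuousMap.coe_mk, RCLike.star_def, Complex.conj_ofReal, cf_apply]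
  rw [← Complex.ofReal_mul, Real.mul_self_sqrt (hg l x)]

set_option backward.isDefEq.respectTransparency false in
theorem diagMat_le_one (h : X ≃ₜ X) {n : ℕ} (g : Fin n → C(X, ℝ)) (hg : ∀ l x, g l x ≤ 1) :
    diagMat h (fun l => cf (g l)) ≤ 1 := by
  rw [← sub_nonneg, ← diagMat_one, diagMat_sub]
  have := diagMat_nonneg h (fun l => 1 - g l) (fun l x => by
    simp only [ContinuousMap.sub_apply, ContinuousMap.one_apply]
    linarith [hg l x])
  convert this using 2
  funext l
  ext x
  simp [cf_apply]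

theorem traceEval_diag (h : X ≃ₜ X) {n : ℕ} (τ : TracialState (CrossedProduct h))
    (g : Fin n → C(X, ℂ)) : traceEval τ (diagMat h g) = (∑ l, τ.toFun (piHom h (g l))).re := by
  unfold traceEval
  congr 2
  funext i
  congr 1
  change (if i = i then piHom h (g i) else 0) = _
  rw [if_pos rfl]

/-- positivity of a trace on positive functions -/
theorem trace_fun_nonneg (h : X ≃ₜ X) (τ : TracialState (CrossedProduct h)) (g : C(X, ℝ))
    (hg : ∀ x, 0 ≤ g x) : 0 ≤ (τ.toFun (piHom h (cf g))).re := by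
  have h1 : cf g = star (⟨fun x => ((Real.sqrt (g x) : ℝ) : ℂ), by fun_prop⟩ : C(X, ℂ)) *
      ⟨fun x => ((Real.sqrt (g x) : ℝ) : ℂ), by fun_prop⟩ := by
    ext x
    simp only [ContinuousMap.mul_apply, ContinuousMap.star_apply,
      ContinuousMap.coe_mk, RCLike.star_def, Complex.conj_ofReal, cf_apply]
    rw [← Complex.ofReal_mul, Real.mul_self_sqrt (hg x)]
  rw [h1, map_mul, map_star]
  exact (Complex.nonneg_iff.1 (τ.nonneg _)).1

theorem trace_fun_mono (h : X ≃ₜ X) (τ : TracialState (CrossedProduct h)) (f g : C(X, ℝ))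
    (hfg : ∀ x, f x ≤ g x) :
    (τ.toFun (piHom h (cf f))).re ≤ (τ.toFun (piHom h (cf g))).re := by
  have h1 := trace_fun_nonneg h τ (g - f) (fun x => by
    simp only [ContinuousMap.sub_apply]; linarith [hfg x])
  have h2 : cf (g - f) = cf g - cf f := by
    ext x
    simp [cf_apply]
  rw [h2, map_sub, map_sub, Complex.sub_re] at h1
  linarith

set_option backward.isDefEq.respectTransparency false in
theorem dTau_diag_le (h : X ≃ₜ X) {n : ℕ} (τ : TracialState (CrossedProduct h))
    (g G : Fin n → C(X, ℝ)) (hg0 : ∀ l x, 0 ≤ g l x) (hg1 : ∀ l x, g l x ≤ 1)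
    (hG0 : ∀ l x, 0 ≤ G l x) (hG : ∀ l x, g l x ≠ 0 → 1 ≤ G l x) :
    dTau τ (diagMat h (fun l => cf (g l))) ≤ (τ.toFun (piHom h (cf (∑ l, G l)))).re := by
  refine dTau_le τ (diagMat_nonneg h g hg0) (diagMat_le_one h g hg1) _ fun m hm => ?_
  have hm0 : (0 : ℝ) < m := by exact_mod_cast hm
  let c : Fin n → C(X, ℝ) := fun l =>
    ⟨fun x => g l x ^ (1 / (m : ℝ)),
      (Real.continuous_rpow_const (by positivity)).comp (g l).continuous⟩
  have hc : ∀ l x, c l x = g l x ^ (1 / (m : ℝ)) := fun l x => rfl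
  have hc0 : ∀ l x, 0 ≤ c l x := fun l x => Real.rpow_nonneg (hg0 l x) _
  rw [cfc_root (c := diagMat h (fun l => cf (c l))) hm (diagMat_nonneg h c hc0) (by
    rw [diagMat_pow]
    congr 1
    funext l
    ext x
    simp only [Pi.pow_apply, ContinuousMap.pow_apply, cf_apply, hc]
    rw [← Complex.ofReal_pow, ← Real.rpow_natCast, ← Real.rpow_mul (hg0 l x),
      one_div_mul_cancel hm0.ne', Real.rpow_one])]
  rw [traceEval_diag, ← map_sum, ← map_sum]
  have h1 : ∑ l, cf (c l) = cf (∑ l, c l) := by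
    ext x
    simp [cf_apply]
  rw [h1]
  refine trace_fun_mono h τ _ _ fun x => ?_
  rw [ContinuousMap.sum_apply, ContinuousMap.sum_apply]
  refine Finset.sum_le_sum fun l _ => ?_
  rw [hc]
  by_cases h0 : g l x = 0
  · rw [h0, Real.zero_rpow (by positivity)]
    exact hG0 l x
  · exact (Real.rpow_le_one (hg0 l x) (hg1 l x) (by positivity)).trans (hG l x h0)

theorem trace_inv (h : X ≃ₜ X) (τ : TracialState (CrossedProduct h)) (f : C(X, ℂ)) :
    τ.toFun (piHom h (f.comp (h : C(X, X)))) = τ.toFun (piHom h f) := by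
  have h1 : piHom h (f.comp (h : C(X, X))) =
      star (uElt h) * (piHom h f * uElt h) := by
    rw [← u_pi, ← mul_assoc, star_u_mul_u, one_mul]
  rw [h1, τ.tracial, mul_assoc, u_mul_star_u, mul_one]

theorem trace_inv_pow (h : X ≃ₜ X) (τ : TracialState (CrossedProduct h)) (f : C(X, ℂ)) (j : ℕ) :
    τ.toFun (piHom h (f.comp ((h ^ (j : ℤ) : X ≃ₜ X) : C(X, X)))) = τ.toFun (piHom h f) := by
  induction j with
  | zero =>
    congr 2
  | succ j ih =>
    rw [← ih, ← trace_inv h τ (f.comp ((h ^ (j : ℤ) : X ≃ₜ X) : C(X, X)))]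
    congr 2

/-- averages along orbits control traces -/
theorem trace_average (h : X ≃ₜ X) (τ : TracialState (CrossedProduct h)) (f g : C(X, ℝ)) (c : ℝ)
    (N : ℕ) (hN : 0 < N)
    (hav : ∀ x, ∑ j ∈ Finset.range N, f ((h ^ (j : ℤ)) x) + c * N ≤
      ∑ j ∈ Finset.range N, g ((h ^ (j : ℤ)) x)) :
    (τ.toFun (piHom h (cf f))).re + c ≤ (τ.toFun (piHom h (cf g))).re := by
  have key : ∀ f : C(X, ℝ), (τ.toFun (piHom h (cf (∑ j ∈ Finset.range N,
      f.comp ((h ^ (j : ℤ) : X ≃ₜ X) : C(X, X)))))).re = N * (τ.toFun (piHom h (cf f))).re := by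
    intro f
    have h1 : cf (∑ j ∈ Finset.range N, f.comp ((h ^ (j : ℤ) : X ≃ₜ X) : C(X, X))) =
        ∑ j ∈ Finset.range N, (cf f).comp ((h ^ (j : ℤ) : X ≃ₜ X) : C(X, X)) := by
      ext x
      simp [cf_apply]
    rw [h1, map_sum, map_sum]
    simp_rw [trace_inv_pow]
    simp
  have h2 := trace_fun_mono h τ (∑ j ∈ Finset.range N, f.comp ((h ^ (j : ℤ) : X ≃ₜ X) : C(X, X)) +
    ContinuousMap.const X (c * N))
    (∑ j ∈ Finset.range N, g.comp ((h ^ (j : ℤ) : X ≃ₜ X) : C(X, X))) (fun x => by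
      simp only [ContinuousMap.add_apply, ContinuousMap.sum_apply, ContinuousMap.comp_apply,
        ContinuousMap.const_apply]
      exact hav x)
  have h3 : cf (∑ j ∈ Finset.range N, f.comp ((h ^ (j : ℤ) : X ≃ₜ X) : C(X, X)) +
      ContinuousMap.const X (c * N)) =
      cf (∑ j ∈ Finset.range N, f.comp ((h ^ (j : ℤ) : X ≃ₜ X) : C(X, X))) +
        ((c * N : ℝ) : ℂ) • (1 : C(X, ℂ)) := by
    ext x
    simp [cf_apply]
  rw [h3, map_add, map_add, Complex.add_re, key, key, map_smul, map_smul, map_one, τ.map_one,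
    smul_eq_mul, mul_one, Complex.ofReal_re] at h2
  have hN' : (0 : ℝ) < N := by exact_mod_cast hN
  nlinarith

set_option backward.isDefEq.respectTransparency false in
theorem fullMat_nonneg (h : X ≃ₜ X) {m : ℕ} (β : Fin m → Fin m → C(X, ℂ))
    (hβ : ∀ x, (Matrix.of fun k k' => β k k' x).PosSemidef) : 0 ≤ fullMat h β := by
  have hpos : ∀ x, 0 ≤ matAt β x := by
    intro x
    obtain ⟨B, hB⟩ := psd_factor (hβ x)
    rw [CStarAlgebra.nonneg_iff_eq_star_mul_self]
    exact ⟨CStarMatrix.ofMatrix B, hB⟩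
  have hc : Continuous fun x => CFC.sqrt (matAt β x) :=
    CFC.continuousOn_sqrt.comp_continuous (continuous_matAt β) hpos
  let γ : Fin m → Fin m → C(X, ℂ) := fun k k' => ⟨fun x => CFC.sqrt (matAt β x) k k', by
    exact (continuous_apply_apply k k').comp hc⟩
  have hsa : ∀ x, star (CFC.sqrt (matAt β x)) = CFC.sqrt (matAt β x) := fun x =>
    (IsSelfAdjoint.of_nonneg (CFC.sqrt_nonneg (matAt β x))).star_eq
  rw [CStarAlgebra.nonneg_iff_eq_star_mul_self]
  refine ⟨fullMat h γ, ?_⟩
  rw [fullMat_star, fullMat_mul]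
  congr 1
  funext k k'
  ext x
  have h1 := CFC.sqrt_mul_sqrt_self (matAt β x) (hpos x)
  have h2 : (star (CFC.sqrt (matAt β x)) * CFC.sqrt (matAt β x)) k k' = β k k' x := by
    rw [hsa, h1]
    rfl
  rw [← h2, ContinuousMap.sum_apply]
  rfl

set_option backward.isDefEq.respectTransparency false in
theorem fullMat_le_one (h : X ≃ₜ X) {m : ℕ} (β : Fin m → Fin m → C(X, ℂ))
    (hβ : ∀ x, (1 - Matrix.of fun k k' => β k k' x).PosSemidef) : fullMat h β ≤ 1 := by
  rw [← sub_nonneg, ← fullMat_one, fullMat_sub]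
  refine fullMat_nonneg h _ fun x => ?_
  have := hβ x
  convert this using 1
  ext k k'
  simp only [Matrix.of_apply, Matrix.sub_apply, Matrix.one_apply, ContinuousMap.sub_apply]
  split_ifs <;> simp

theorem traceEval_full (h : X ≃ₜ X) {m : ℕ} (τ : TracialState (CrossedProduct h))
    (β : Fin m → Fin m → C(X, ℂ))
    (hβ : ∀ x, (Matrix.of fun k k' => β k k' x).PosSemidef) :
    traceEval τ (fullMat h β) = (τ.toFun (piHom h (cf (trFun β)))).re := by
  unfold traceEval
  congr 1
  have h1 : cf (trFun β) = ∑ k, β k k := by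
    ext x
    rw [cf_apply, trFun_apply, ContinuousMap.sum_apply, Complex.ofReal_sum]
    refine Finset.sum_congr rfl fun k _ => ?_
    have h2 := (hβ x).1.apply k k
    simp only [Matrix.of_apply] at h2
    exact Complex.conj_eq_iff_re.1 h2
  rw [h1, map_sum, map_sum]
  rfl

end Crossed

end Vale.Agent.P093
end

section

/-!
For a free homeomorphism, a C*-algebra generated by a faithful covariant pair maps onto the
concrete crossed product.
-/

open Filter Topology Set
open scoped ComplexOrder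

set_option linter.unusedSectionVars false

namespace Vale.Agent.P093

section GCov

variable {X : Type*} [TopologicalSpace X] [CompactSpace X]

theorem multHom_apply (h : X ≃ₜ X) (f : C(X, ℂ)) : multHom h f = multOp h f := rfl

variable {A : Type*} [CStarAlgebra A]

variable {h : X ≃ₜ X} {π : C(X, ℂ) →⋆ₐ[ℂ] A} {u : A}

variable [T2Space X]

end GCov

end Vale.Agent.P093
end
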