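import Vale.Agent.P093.MathlibUsed
import Mathlib.Analysis.SpecialFunctions.Trigonometric.Bounds
import Mathlib.Analysis.Real.Pi.Bounds
import Vale.Agent.P093.MeanDim
import Vale.Agent.P093.Hom.OrderDef

set_option linter.all false

section

namespace Vale.Agent.P093

theorem pow_eq_iterate {X : Type*} [TopologicalSpace X] (h : X ≃ₜ X) (j : ℕ) :
    ⇑(h ^ j) = (⇑h)^[j] := by
  induction j with
  | zero => rfl
  | succ j ih =>
    rw [pow_succ', Function.iterate_succ']
    funext x
    change h ((h ^ j) x) = h ((⇑h)^[j] x)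
    rw [ih]

end Vale.Agent.P093
end

section

/-!
Cochain calculus on ordered tuples (lists). A cochain is a function `List Y → M`; the value on a
list of length `q + 1` is its component of degree `q`; the value on `[]` is irrelevant or zero.
-/

namespace Vale.Agent.P093.Hom

variable {Y Z W : Type*} {M N : Type*} [AddCommGroup M] [AddCommGroup N]

/-- coboundary of a function on ordered tuples: `dl F [y₀,…,y_q] = ∑ (-1)^i F (omit y_i)` -/
def dl : (List Y → M) → List Y → M
  | _, [] => 0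
  | F, y :: l => F l - dl (fun l' => F (y :: l')) l

/-- cup product: `cup f G [y₀,…,y_q] = ∑_k f [y₀,…,y_k] • G [y_k,…,y_q]` -/
def cup : (List Y → ℤ) → (List Y → M) → List Y → M
  | _, _, [] => 0
  | f, G, y :: l => f [y] • G (y :: l) + cup (fun l' => f (y :: l')) G l

/-- the sign operator `(-1)^deg` -/
def sg (F : List Y → M) (l : List Y) : M := (-1 : ℤ) ^ (l.length + 1) • F l

/-- prism between two vertex maps `a` and `b` -/
def pr (a b : Y → Z) : (List Z → M) → List Y → M
  | _, [] => 0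
  | F, y :: l => F (a y :: b y :: l.map b) - pr a b (fun l' => F (a y :: l')) l

@[simp] theorem dl_nil (F : List Y → M) : dl F [] = 0 := rfl
theorem dl_cons (F : List Y → M) (y : Y) (l : List Y) :
    dl F (y :: l) = F l - dl (fun l' => F (y :: l')) l := rfl
@[simp] theorem cup_nil (f : List Y → ℤ) (G : List Y → M) : cup f G [] = 0 := rfl
theorem cup_cons (f : List Y → ℤ) (G : List Y → M) (y : Y) (l : List Y) :
    cup f G (y :: l) = f [y] • G (y :: l) + cup (fun l' => f (y :: l')) G l := rfl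
@[simp] theorem pr_nil (a b : Y → Z) (F : List Z → M) : pr a b F [] = 0 := rfl
theorem pr_cons (a b : Y → Z) (F : List Z → M) (y : Y) (l : List Y) :
    pr a b F (y :: l) = F (a y :: b y :: l.map b) - pr a b (fun l' => F (a y :: l')) l := rfl

theorem dl_singleton (F : List Y → M) (y : Y) : dl F [y] = F [] := by simp [dl_cons]
theorem dl_pair (F : List Y → M) (y y' : Y) : dl F [y, y'] = F [y'] - F [y] := by
  simp [dl_cons]
theorem dl_triple (F : List Y → M) (y y' y'' : Y) :
    dl F [y, y', y''] = F [y', y''] - F [y, y''] + F [y, y'] := by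
  simp [dl_cons]; abel

theorem dl_add (F G : List Y → M) (l : List Y) :
    dl (fun l => F l + G l) l = dl F l + dl G l := by
  induction l generalizing F G with
  | nil => simp
  | cons y l ih => simp only [dl_cons]; rw [ih]; abel

theorem dl_sub (F G : List Y → M) (l : List Y) :
    dl (fun l => F l - G l) l = dl F l - dl G l := by
  induction l generalizing F G with
  | nil => simp
  | cons y l ih => simp only [dl_cons]; rw [ih]; abel

theorem dl_neg (F : List Y → M) (l : List Y) :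
    dl (fun l => - F l) l = - dl F l := by
  induction l generalizing F with
  | nil => simp
  | cons y l ih => simp only [dl_cons]; rw [ih]; abel

theorem dl_zero (l : List Y) : dl (fun _ => (0 : M)) l = 0 := by
  induction l with
  | nil => rfl
  | cons y l ih => simp only [dl_cons]; rw [ih]; abel

theorem dl_zsmul (n : ℤ) (F : List Y → M) (l : List Y) :
    dl (fun l => n • F l) l = n • dl F l := by
  induction l generalizing F with
  | nil => simp
  | cons y l ih => simp only [dl_cons]; rw [ih, smul_sub]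

theorem dl_map (D : M →+ N) (F : List Y → M) (l : List Y) :
    dl (fun l => D (F l)) l = D (dl F l) := by
  induction l generalizing F with
  | nil => simp
  | cons y l ih => simp only [dl_cons]; rw [ih, map_sub]

theorem dl_sum {ι : Type*} (s : Finset ι) (F : ι → List Y → M) (l : List Y) :
    dl (fun l => ∑ i ∈ s, F i l) l = ∑ i ∈ s, dl (F i) l := by
  induction l generalizing F with
  | nil => simp
  | cons y l ih => simp only [dl_cons]; rw [ih, Finset.sum_sub_distrib]

/-- the coboundary has square zero -/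
theorem dl_dl (F : List Y → M) (l : List Y) : dl (dl F) l = 0 := by
  induction l generalizing F with
  | nil => rfl
  | cons y l ih =>
    have : (fun l' => dl F (y :: l')) = fun l' => F l' - dl (fun l'' => F (y :: l'')) l' := by
      funext l'; rw [dl_cons]
    rw [dl_cons, this, dl_sub, ih]
    abel

/-- naturality -/
theorem dl_comp (a : Y → Z) (F : List Z → M) (l : List Y) :
    dl (fun l => F (l.map a)) l = dl F (l.map a) := by
  induction l generalizing F with
  | nil => rfl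
  | cons y l ih =>
    simp only [dl_cons, List.map_cons]
    rw [ih (fun l' => F (a y :: l'))]

theorem cup_add_left (f f' : List Y → ℤ) (G : List Y → M) (l : List Y) :
    cup (fun l => f l + f' l) G l = cup f G l + cup f' G l := by
  induction l generalizing f f' with
  | nil => simp
  | cons y l ih => simp only [cup_cons]; rw [ih, add_smul]; abel

theorem cup_sub_left (f f' : List Y → ℤ) (G : List Y → M) (l : List Y) :
    cup (fun l => f l - f' l) G l = cup f G l - cup f' G l := by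
  induction l generalizing f f' with
  | nil => simp
  | cons y l ih => simp only [cup_cons]; rw [ih, sub_smul]; abel

theorem cup_neg_left (f : List Y → ℤ) (G : List Y → M) (l : List Y) :
    cup (fun l => - f l) G l = - cup f G l := by
  induction l generalizing f with
  | nil => simp
  | cons y l ih => simp only [cup_cons]; rw [ih, neg_smul]; abel

theorem cup_zsmul_left (n : ℤ) (f : List Y → ℤ) (G : List Y → M) (l : List Y) :
    cup (fun l => n * f l) G l = n • cup f G l := by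
  induction l generalizing f with
  | nil => simp
  | cons y l ih => simp only [cup_cons]; rw [ih, smul_add, mul_smul]

theorem cup_sum_left {ι : Type*} (s : Finset ι) (f : ι → List Y → ℤ) (G : List Y → M)
    (l : List Y) : cup (fun l => ∑ i ∈ s, f i l) G l = ∑ i ∈ s, cup (f i) G l := by
  induction l generalizing f with
  | nil => simp
  | cons y l ih => simp only [cup_cons]; rw [ih, Finset.sum_smul, Finset.sum_add_distrib]

theorem cup_zero_left (G : List Y → M) (l : List Y) : cup (fun _ => 0) G l = 0 := by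
  induction l with
  | nil => simp
  | cons y l ih => simp only [cup_cons]; rw [ih]; simp

theorem cup_add_right (f : List Y → ℤ) (G G' : List Y → M) (l : List Y) :
    cup f (fun l => G l + G' l) l = cup f G l + cup f G' l := by
  induction l generalizing f with
  | nil => simp
  | cons y l ih => simp only [cup_cons]; rw [ih, smul_add]; abel

theorem cup_sub_right (f : List Y → ℤ) (G G' : List Y → M) (l : List Y) :
    cup f (fun l => G l - G' l) l = cup f G l - cup f G' l := by
  induction l generalizing f with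
  | nil => simp
  | cons y l ih => simp only [cup_cons]; rw [ih, smul_sub]; abel

theorem cup_neg_right (f : List Y → ℤ) (G : List Y → M) (l : List Y) :
    cup f (fun l => - G l) l = - cup f G l := by
  induction l generalizing f with
  | nil => simp
  | cons y l ih => simp only [cup_cons]; rw [ih, smul_neg]; abel

theorem cup_zero_right (f : List Y → ℤ) (l : List Y) : cup f (fun _ => (0 : M)) l = 0 := by
  induction l generalizing f with
  | nil => simp
  | cons y l ih => simp only [cup_cons]; rw [ih]; simp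

theorem cup_sum_right {ι : Type*} (s : Finset ι) (f : List Y → ℤ) (G : ι → List Y → M)
    (l : List Y) : cup f (fun l => ∑ i ∈ s, G i l) l = ∑ i ∈ s, cup f (G i) l := by
  induction l generalizing f with
  | nil => simp
  | cons y l ih => simp only [cup_cons]; rw [ih, Finset.smul_sum, Finset.sum_add_distrib]

theorem cup_zsmul_right (n : ℤ) (f : List Y → ℤ) (G : List Y → M) (l : List Y) :
    cup f (fun l => n • G l) l = n • cup f G l := by
  induction l generalizing f with
  | nil => simp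
  | cons y l ih => simp only [cup_cons]; rw [ih, smul_add, smul_comm]

theorem map_cup (D : M →+ N) (f : List Y → ℤ) (G : List Y → M) (l : List Y) :
    D (cup f G l) = cup f (fun l => D (G l)) l := by
  induction l generalizing f with
  | nil => simp
  | cons y l ih => simp only [cup_cons]; rw [map_add, map_zsmul, ih]

theorem cup_comp (a : Y → Z) (f : List Z → ℤ) (G : List Z → M) (l : List Y) :
    cup (fun l => f (l.map a)) (fun l => G (l.map a)) l = cup f G (l.map a) := by
  induction l generalizing f with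
  | nil => rfl
  | cons y l ih =>
    simp only [cup_cons, List.map_cons, List.map_nil]
    rw [ih (fun l' => f (a y :: l'))]

/-- associativity -/
theorem cup_assoc (f g : List Y → ℤ) (H : List Y → M) (l : List Y) :
    cup (cup f g) H l = cup f (cup g H) l := by
  induction l generalizing f g with
  | nil => rfl
  | cons y l ih =>
    have h1 : (fun l' => cup f g (y :: l')) =
        fun l' => f [y] * g (y :: l') + cup (fun l'' => f (y :: l'')) g l' := by
      funext l'; rw [cup_cons]; rfl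
    have h2 : cup f g [y] = f [y] * g [y] := by simp [cup_cons]
    rw [cup_cons, h1, cup_add_left, cup_zsmul_left, ih, h2, cup_cons, cup_cons, smul_add, mul_smul]
    abel

theorem sg_cons (F : List Y → M) (y : Y) (l : List Y) :
    sg F (y :: l) = - sg (fun l' => F (y :: l')) l := by
  simp only [sg, List.length_cons, pow_succ]
  simp

theorem sg_singleton (F : List Y → M) (y : Y) : sg F [y] = F [y] := by simp [sg]

/-- **Leibniz rule** -/
theorem dl_cup (f : List Y → ℤ) (G : List Y → M) (hG : G [] = 0) (l : List Y) :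
    dl (cup f G) l = cup (dl f) G l + cup (sg f) (dl G) l - f [] • G l := by
  induction l generalizing f with
  | nil => simp [hG]
  | cons y l ih =>
    have h1 : (fun l' => cup f G (y :: l')) =
        fun l' => f [y] • G (y :: l') + cup (fun l'' => f (y :: l'')) G l' := by
      funext l'; rw [cup_cons]
    have h2 : (fun l' => dl f (y :: l')) = fun l' => f l' - dl (fun l'' => f (y :: l'')) l' := by
      funext l'; rw [dl_cons]
    have h3 : (fun l' => sg f (y :: l')) = fun l' => - sg (fun l'' => f (y :: l'')) l' := by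
      funext l'; rw [sg_cons]
    rw [dl_cons, h1, dl_add, dl_zsmul, ih, cup_cons, cup_cons, h2, h3, cup_sub_left, cup_neg_left,
      dl_singleton, sg_singleton, dl_cons, smul_sub]
    abel

/-- Leibniz rule for functions vanishing at the empty list -/
theorem dl_cup' (f : List Y → ℤ) (G : List Y → M) (hf : f [] = 0) (hG : G [] = 0) (l : List Y) :
    dl (cup f G) l = cup (dl f) G l + cup (sg f) (dl G) l := by
  rw [dl_cup f G hG, hf]; simp

/-- **prism identity** -/
theorem pr_dl (a b : Y → Z) (F : List Z → M) (l : List Y) :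
    pr a b (dl F) l = F (l.map b) - F (l.map a) - dl (pr a b F) l := by
  induction l generalizing F with
  | nil => simp
  | cons y l ih =>
    have h1 : (fun l' => pr a b F (y :: l')) =
        fun l' => F (a y :: b y :: l'.map b) - pr a b (fun l'' => F (a y :: l'')) l' := by
      funext l'; rw [pr_cons]
    have h2 : (fun l' => dl F (a y :: l')) = fun l' => F l' - dl (fun l'' => F (a y :: l'')) l' := by
      funext l'; rw [dl_cons]
    have h4 : ∀ (F G : List Z → M) (l : List Y),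
        pr a b (fun l => F l - G l) l = pr a b F l - pr a b G l := by
      intro F G l
      induction l generalizing F G with
      | nil => simp
      | cons y l ih => simp only [pr_cons]; rw [ih]; abel
    rw [pr_cons, h2, h4, ih, dl_cons (pr a b F) y l, h1, dl_sub, dl_cons F (a y),
      dl_cons (fun l' => F (a y :: l')) (b y), dl_comp b (fun l' => F (a y :: b y :: l'))]
    simp only [List.map_cons]
    abel

theorem pr_add (a b : Y → Z) (F G : List Z → M) (l : List Y) :
    pr a b (fun l => F l + G l) l = pr a b F l + pr a b G l := by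
  induction l generalizing F G with
  | nil => simp
  | cons y l ih => simp only [pr_cons]; rw [ih]; abel

theorem pr_sub (a b : Y → Z) (F G : List Z → M) (l : List Y) :
    pr a b (fun l => F l - G l) l = pr a b F l - pr a b G l := by
  induction l generalizing F G with
  | nil => simp
  | cons y l ih => simp only [pr_cons]; rw [ih]; abel

theorem pr_neg (a b : Y → Z) (F : List Z → M) (l : List Y) :
    pr a b (fun l => - F l) l = - pr a b F l := by
  induction l generalizing F with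
  | nil => simp
  | cons y l ih => simp only [pr_cons]; rw [ih]; abel

theorem pr_zero (a b : Y → Z) (l : List Y) : pr a b (fun _ => (0 : M)) l = 0 := by
  induction l with
  | nil => simp
  | cons y l ih => simp only [pr_cons]; rw [ih]; abel

theorem pr_zsmul (a b : Y → Z) (n : ℤ) (F : List Z → M) (l : List Y) :
    pr a b (fun l => n • F l) l = n • pr a b F l := by
  induction l generalizing F with
  | nil => simp
  | cons y l ih => simp only [pr_cons]; rw [ih, smul_sub]

theorem pr_sum {ι : Type*} (a b : Y → Z) (s : Finset ι) (F : ι → List Z → M) (l : List Y) :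
    pr a b (fun l => ∑ i ∈ s, F i l) l = ∑ i ∈ s, pr a b (F i) l := by
  induction l generalizing F with
  | nil => simp
  | cons y l ih => simp only [pr_cons]; rw [ih, Finset.sum_sub_distrib]

theorem map_pr (D : M →+ N) (a b : Y → Z) (F : List Z → M) (l : List Y) :
    D (pr a b F l) = pr a b (fun l => D (F l)) l := by
  induction l generalizing F with
  | nil => simp
  | cons y l ih => simp only [pr_cons]; rw [map_sub, ih]

/-- prism of a cup product -/
theorem pr_cup (a b : Y → Z) (f : List Z → ℤ) (G : List Z → M) (l : List Y) :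
    pr a b (cup f G) l = cup (pr a b f) (fun l' => G (l'.map b)) l +
      cup (sg fun l' => f (l'.map a)) (pr a b G) l := by
  induction l generalizing f with
  | nil => simp
  | cons y l ih =>
    have h1 : (fun l' => cup f G (a y :: l')) =
        fun l' => f [a y] • G (a y :: l') + cup (fun l'' => f (a y :: l'')) G l' := by
      funext l'; rw [cup_cons]
    have h2 : (fun l' => pr a b f (y :: l')) =
        fun l' => f (a y :: b y :: l'.map b) - pr a b (fun l'' => f (a y :: l'')) l' := by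
      funext l'; rw [pr_cons]
    have h3 : (fun l' => sg (fun l'' => f (l''.map a)) (y :: l')) =
        fun l' => - sg (fun l'' => f (a y :: l''.map a)) l' := by
      funext l'; rw [sg_cons]; rfl
    rw [pr_cons, h1, pr_add, pr_zsmul, ih, cup_cons (pr a b f) _ y l, h2,
      cup_cons (sg fun l' => f (l'.map a)) _ y l, h3, cup_sub_left, cup_neg_left,
      sg_singleton, pr_cons a b G, pr_cons a b f, cup_cons f G (a y), cup_cons _ G (b y),
      cup_comp b (fun l' => f (a y :: b y :: l')) G]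
    simp only [List.map_cons, List.map_nil, pr_nil, sub_zero, smul_sub]
    abel

/-- a class of tuples closed under passing to subtuples -/
def Hered (S : Set (List Y)) : Prop := ∀ l ∈ S, ∀ l', l'.Sublist l → l' ∈ S

theorem Hered.tail {S : Set (List Y)} (hS : Hered S) {y : Y} {l : List Y} (h : y :: l ∈ S) :
    l ∈ S := hS _ h _ (List.sublist_cons_self _ _)

theorem Hered.cons_set {S : Set (List Y)} (hS : Hered S) (y : Y) :
    Hered {l | y :: l ∈ S} := fun _ hl _ hl' => hS _ hl _ (hl'.cons_cons y)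

theorem dl_congr {S : Set (List Y)} (hS : Hered S) {F G : List Y → M}
    (h : ∀ l ∈ S, F l = G l) {l : List Y} (hl : l ∈ S) : dl F l = dl G l := by
  induction l generalizing F G S with
  | nil => rfl
  | cons y l ih =>
    rw [dl_cons, dl_cons, h l (hS.tail hl),
      ih (hS.cons_set y) (F := fun l' => F (y :: l')) (G := fun l' => G (y :: l'))
        (fun l' hl' => h _ hl') hl]

theorem cup_congr {S : Set (List Y)} (hS : Hered S) {f g : List Y → ℤ} {F G : List Y → M}
    (hf : ∀ l ∈ S, f l = g l) (h : ∀ l ∈ S, F l = G l) {l : List Y} (hl : l ∈ S) :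
    cup f F l = cup g G l := by
  have key : ∀ (l : List Y), (∀ l', l'.IsSuffix l → F l' = G l') → ∀ (f g : List Y → ℤ),
      (∀ l', l'.IsPrefix l → l' ≠ [] → f l' = g l') → cup f F l = cup g G l := by
    intro l
    induction l with
    | nil => intro _ _ _ _; rfl
    | cons y l ih =>
      intro h1 f g h2
      rw [cup_cons, cup_cons, h2 [y] (by simp) (by simp), h1 (y :: l) (List.suffix_refl _)]
      congr 1
      refine ih (fun l' hl' => h1 l' (hl'.trans (List.suffix_cons _ _))) _ _ fun l' hl' _ =>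
        h2 _ ?_ (by simp)
      rwa [List.cons_prefix_cons, and_iff_right rfl]
  exact key l (fun l' hl' => h l' (hS _ hl _ hl'.sublist)) f g
    (fun l' hl' _ => hf l' (hS _ hl _ hl'.sublist))

end Vale.Agent.P093.Hom
end

section

/-!
Products of cubes (blocks): definitions.

A cube in the product is a list of cells `z` (the vertex 0), `o` (the vertex 1), `e` (the edge).
-/

namespace Vale.Agent.P093.Hom

/-- the three cells of the interval -/
inductive Cell | z | o | e
  deriving DecidableEq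

variable {Y : Type*} {M : Type*} [AddCommGroup M]

/-- dimension of a cube -/
def ecount : List Cell → ℕ
  | [] => 0
  | .z :: κ => ecount κ
  | .o :: κ => ecount κ
  | .e :: κ => ecount κ + 1

/-- the cochains attached to the cells of one coordinate `v` (with values `0`, `1`) -/
def cz (v : Y → ℤ) : List Y → ℤ
  | [y] => 1 - v y
  | _ => 0

@[inherit_doc cz]
def co (v : Y → ℤ) : List Y → ℤ
  | [y] => v y
  | _ => 0

@[inherit_doc cz]
def ce (v : Y → ℤ) : List Y → ℤ
  | [y, y'] => v y' - v y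
  | _ => 0

/-- the `0`-cochain with constant value `m` -/
def unit (m : M) : List Y → M
  | [_] => m
  | _ => 0

/-- top cochain `δv₁ ∪ … ∪ δv_g` -/
def tau : List (Y → ℤ) → List Y → ℤ
  | [] => unit 1
  | v :: vs => cup (ce v) (tau vs)

/-- value of a function on cubes on the boundary of a cube -/
def cb : (List Cell → M) → List Cell → M
  | _, [] => 0
  | T, .z :: κ => cb (fun κ' => T (.z :: κ')) κ
  | T, .o :: κ => cb (fun κ' => T (.o :: κ')) κ
  | T, .e :: κ => T (.o :: κ) - T (.z :: κ) - cb (fun κ' => T (.e :: κ')) κ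

/-- the product of the coordinate chain maps `vs`, with tail `S` -/
def cp : List (Y → ℤ) → (List Cell → List Y → M) → List Y → M
  | [], S, l => S [] l
  | v :: vs, S, l => cup (cz v) (cp vs fun κ => S (.z :: κ)) l +
      cup (co v) (cp vs fun κ => S (.o :: κ)) l + cup (ce v) (cp vs fun κ => S (.e :: κ)) l

/-- a block: coordinates `vs`, modified by the chain homotopy with values `h` times the top cell -/
structure Blk (Y : Type*) where
  /-- the coordinates -/
  vs : List (Y → ℤ)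
  /-- the modification -/
  h : List Y → ℤ

/-- the top cube -/
def top (n : ℕ) : List Cell := List.replicate n .e

/-- the chain map of a block, with tail `S` -/
def bp (B : Blk Y) (S : List Cell → List Y → M) (l : List Y) : M :=
  cp B.vs S l - cup B.h (fun l' => cb (fun κ => S κ l') (top B.vs.length)) l -
    cup (dl B.h) (S (top B.vs.length)) l

/-- the product of the chain maps of the blocks -/
def blkProd : List (Blk Y) → (List Cell → M) → List Y → M
  | [], T => unit (T [])
  | B :: Bs, T => bp B fun κ => blkProd Bs fun κ' => T (κ ++ κ')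

/-- well-formed blocks -/
def Blk.Good (B : Blk Y) : Prop := ∀ l, B.h l ≠ 0 → l.length = B.vs.length ∧ 2 ≤ l.length

/-- `κ` may occur in the unmodified chain of `l` -/
def Compat (vs : List (Y → ℤ)) (l : List Y) (κ : List Cell) : Prop :=
  List.Forall₂ (fun v c => (c = Cell.z → ∃ y ∈ l, v y ≠ 1) ∧ (c = Cell.o → ∃ y ∈ l, v y ≠ 0) ∧
    (c = Cell.e → ∃ y ∈ l, ∃ y' ∈ l, v y ≠ v y')) vs κ

/-- `κ` may occur in the chain of `l` for the block `B` -/
def Blk.Allowed (B : Blk Y) (l : List Y) (κ : List Cell) : Prop :=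
  κ.length = B.vs.length ∧ (Compat B.vs l κ ∨ ∃ l', l'.Sublist l ∧ B.h l' ≠ 0) ∧
    ((∀ l', l'.Sublist l → tau B.vs l' = dl B.h l') → κ ≠ top B.vs.length)

/-- `κ` may occur in the chain of `l` for the product of the blocks -/
def AllowedL : List (Blk Y) → List Y → List Cell → Prop
  | [], _, κ => κ = []
  | B :: Bs, l, κ => ∃ κ₁ κ₂, κ = κ₁ ++ κ₂ ∧ B.Allowed l κ₁ ∧ AllowedL Bs l κ₂

/-- evaluation of `F` on the triangulated cube `κ`, whose vertices are lists of booleans -/
def ct : List Cell → (List (List Bool) → M) → M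
  | [], F => F [[]]
  | .z :: κ, F => ct κ fun l => F (l.map (false :: ·))
  | .o :: κ, F => ct κ fun l => F (l.map (true :: ·))
  | .e :: κ, F => ct κ (pr (false :: ·) (true :: ·) F)

/-- `S` is a vertex of the cube `κ` -/
def VertexOf (S : List Bool) (κ : List Cell) : Prop :=
  List.Forall₂ (fun b c => (b = true → c ≠ Cell.z) ∧ (b = false → c ≠ Cell.o)) S κ

end Vale.Agent.P093.Hom
end

section

/-!
Definitions for the group push: nested radii, the cochains `a_k = t + ω_k`.
-/

namespace Vale.Agent.P093.Hom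

variable {Y : Type*}

/-- indicator function of `{f ≥ 0}` -/
noncomputable def Hv (f : Y → ℝ) (y : Y) : ℤ := by
  classical exact if 0 ≤ f y then 1 else 0

theorem Hv_pos {f : Y → ℝ} {y : Y} (h : 0 ≤ f y) : Hv f y = 1 := by
  unfold Hv; rw [if_pos h]

theorem Hv_neg {f : Y → ℝ} {y : Y} (h : f y < 0) : Hv f y = 0 := by
  unfold Hv; rw [if_neg (not_le.2 h)]

/-- `f` varies by at most `η` on each tuple of the class `S` -/
def Vary (S : Set (List Y)) (f : Y → ℝ) (η : ℝ) : Prop :=
  ∀ l ∈ S, ∀ y ∈ l, ∀ y' ∈ l, |f y - f y'| ≤ η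

/-- `ω = (1 - H(A)) ∪ δH(B) ∪ δH(C)` -/
noncomputable def om (A B C : Y → ℝ) : List Y → ℤ :=
  cup (cz (Hv A)) (cup (ce (Hv B)) (ce (Hv C)))

/-- `a = t + ω` -/
noncomputable def aco (t : List Y → ℤ) (A B C : Y → ℝ) (l : List Y) : ℤ := t l + om A B C l

/-- `√(A² + B² + C²)` -/
noncomputable def rad (A B C : Y → ℝ) (y : Y) : ℝ := Real.sqrt (A y ^ 2 + B y ^ 2 + C y ^ 2)

/-- nested radial functions: `F₀ = f₀`, `F_{l+1} = |(F_l, f_{2l+1}, f_{2l+2})| - ρ_l` -/
noncomputable def nF (f : ℕ → Y → ℝ) (ρ : ℕ → ℝ) : ℕ → Y → ℝ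
  | 0 => f 0
  | l + 1 => fun y => rad (nF f ρ l) (f (2 * l + 1)) (f (2 * l + 2)) y - ρ l

/-- the cochain `a_l` -/
noncomputable def aL (t : List Y → ℤ) (f : ℕ → Y → ℝ) (ρ : ℕ → ℝ) (l : ℕ) : List Y → ℤ :=
  aco t (nF f ρ l) (f (2 * l + 1)) (f (2 * l + 2))

/-- `P_l = a_0 ∪ … ∪ a_{l-1}` -/
noncomputable def PL (t : List Y → ℤ) (f : ℕ → Y → ℝ) (ρ : ℕ → ℝ) : ℕ → List Y → ℤ
  | 0 => unit 1
  | l + 1 => cup (PL t f ρ l) (aL t f ρ l)

/-- the coordinates of a group of size `2κ + 1` -/
noncomputable def gvs (f : ℕ → Y → ℝ) (κ : ℕ) : List (Y → ℤ) :=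
  (List.range (2 * κ + 1)).map fun k => Hv (f k)

end Vale.Agent.P093.Hom
end

section

/-!
TASK HOM-B1: one step of the group push, and its iteration.

Proof of `step`. Write `HA = Hv A` etc., `F = rad A B C - ρ`, `a = aco t A B C`,
`c = cup a (cz (Hv F))` (i.e. `a ∪ (1 - HF)`), `τ₃ = ce HA ∪ ce HB ∪ ce HC`.
* `dl (cz v) = - ce v`, `dl (ce v) = 0`, so `dl (om A B C) = - τ₃` everywhere, and
  `dl a = - τ₃` on `S` since `dl t = 0` on `S`.
* `τ₃ ∪ co HF = 0` on `S`: a nonzero term on `l ∈ S` has an edge where `Hv A` changes, so `|A| ≤ η`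
  at an end of this edge, hence `|A| ≤ 2η` at all vertices of `l`, same for `B`, `C`, so
  `rad ≤ √12 η < 4η < ρ` and `HF = 0` at all vertices.
* Leibniz: `dl c = dl a ∪ cz HF + a ∪ dl (cz HF) = - τ₃ ∪ cz HF - a ∪ ce HF
  = - τ₃ - a ∪ ce HF` on `S` (as `τ₃ ∪ cz HF = τ₃ ∪ (unit 1 - co HF) = τ₃`). So
  `τ₃ = - dl c - a ∪ ce HF` on `S`.
* multiply by `R` (`dl R = 0` on `S`): `τ₃ ∪ R = - dl (c ∪ R) - a ∪ ce HF ∪ R`.
* multiply by `P` from the left: `dl (P ∪ (c ∪ R)) = dl P ∪ (c ∪ R) + P ∪ dl (c ∪ R)`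
  (`sg P = P`), and `dl P ∪ (c ∪ R) = 0` on `S`: if a vertex of `l` has `F < 0` then `|A| < ρ`
  there and `|A| ≤ ρ + η ≤ 2ρ` at all vertices of `l`, so `dl P = 0` on all sublists of `l`; if no
  vertex of `l` has `F < 0` then `cz HF = 0` and `c = 0` on all sublists of `l`.
(Everything on `S`: use `dl_congr`, `cup_congr`, `Hered`; for a single `l ∈ S` the class of all
sublists of `l` is also hereditary.)

Proof of `levels`. `nF f ρ l` varies by at most `(2 l + 1) η` on `S` (for `l ≤ κ`). Let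
`R_l = tau` of the list `Hv (f (2l+1)), …, Hv (f (2κ))`, so that
`R_l = cup (ce (Hv (f (2l+1)))) (cup (ce (Hv (f (2l+2)))) R_{l+1})`, `dl R_l = 0`, and
`Q_l = cup (ce (Hv (nF f ρ l))) R_l`. Apply `step` with `A = nF f ρ l`, `B = f (2l+1)`,
`C = f (2l+2)`, `ρ = ρ l`, `P = PL t f ρ l`, `R = R_{l+1}`:
`P_l ∪ Q_l = - dl (P_l ∪ (c_l ∪ R_{l+1})) - P_{l+1} ∪ Q_{l+1}` on `S`.
The hypothesis `hP` of `step`: on a tuple `l' ∈ S` with `|nF l| ≤ 2 ρ_l` at all vertices every
`aL t f ρ i`, `i < l`, is closed (on its sublists): `dl (a_i) = - τ₃(i)` is nonzero only on tuples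
where `|nF i|, |f (2i+1)|, |f (2i+2)| ≤ 2 (2i+2) η` at all vertices, there
`nF (i+1) ≤ 4 (2i+2) η - ρ_i ≤ - ρ_i / 2`, while `|nF (i+1)| ≤ |nF (i+2)| + ρ_{i+1} ≤ … ≤
|nF l| + ρ_{i+1} + … + ρ_{l-1} ≤ 2 ρ_l + ρ_{i+1} + … ≤ ρ_i / 3` (use `ρ_{k+1} ≤ ρ_k / 8`).
(For `i = l - 1`: `|nF l| ≤ 2 ρ_l ≤ ρ_{l-1}/4`.)
Sum up from `l = 0` (`P_0 ∪ Q_0 = tau (gvs f κ)`) to `l = κ` (`R_κ = unit 1`,
`cup f (unit 1) = f` on nonempty lists). `C = ∑ ± P_l ∪ (c_l ∪ R_{l+1})`; at a tuple in `S` where
this term is nonzero some vertex has `nF (l+1) < 0`, so `|nF l|, |f (2l+1)|, |f (2l+2)| ≤ ρ_l` there,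
`|f k| ≤ η` at some vertex for `k ≥ 2l+3`, and going down
`|nF i|, |f (2i+1)|, |f (2i+2)| ≤ |nF (i+1)| + ρ_i` for `i < l`: all `|f k| ≤ 2 ρ_0 ≤ 1/16`
at that vertex, hence `≤ 1/16 + 2η ≤ 1/8` at all vertices. The last claim of `levels` (invariance of
`C` under a map `σ` of `Y` which preserves all the data) is clear from the explicit formula
(`cup_comp`).
-/

namespace Vale.Agent.P093.Hom

variable {Y : Type*}

/-! ### supports -/

theorem gs_dl_len {F : List Y → ℤ} {n : ℕ} (h : ∀ l, F l ≠ 0 → l.length = n) (l : List Y)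
    (h0 : dl F l ≠ 0) : l.length = n + 1 := by
  induction l generalizing F n with
  | nil => exact absurd rfl h0
  | cons y l ih =>
    rw [dl_cons] at h0
    by_cases h1 : F l = 0
    · have h2 : dl (fun l' => F (y :: l')) l ≠ 0 := by
        intro h3
        rw [h1, h3] at h0
        exact h0 (sub_zero 0)
      cases n with
      | zero =>
        have h3 : (fun l' => F (y :: l')) = fun _ => 0 := by
          funext l'
          by_contra h4
          have := h _ h4
          simp at this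
        rw [h3, dl_zero] at h2
        exact absurd rfl h2
      | succ n =>
        have := ih (F := fun l' => F (y :: l')) (n := n)
          (fun l' hl' => by simpa using h _ hl') h2
        simp [this]
    · simp [h l h1]

theorem gs_cup_len {f G : List Y → ℤ} {m n : ℕ} (hf : ∀ l, f l ≠ 0 → l.length = m)
    (hG : ∀ l, G l ≠ 0 → l.length = n) (l : List Y) (h0 : cup f G l ≠ 0) :
    l.length + 1 = m + n := by
  induction l generalizing f m with
  | nil => exact absurd rfl h0
  | cons y l ih =>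
    rw [cup_cons] at h0
    by_cases h1 : cup (fun l' => f (y :: l')) G l = 0
    · rw [h1, add_zero, smul_eq_mul] at h0
      have h2 := hf _ (left_ne_zero_of_mul h0)
      have h3 := hG _ (right_ne_zero_of_mul h0)
      simp only [List.length_cons, List.length_nil] at h2 h3 ⊢
      omega
    · cases m with
      | zero =>
        exfalso
        have h3 : (fun l' => f (y :: l')) = fun _ => 0 := by
          funext l'
          by_contra h4
          have := hf _ h4
          simp at this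
        rw [h3, cup_zero_left] at h1
        exact h1 rfl
      | succ m =>
        have := ih (f := fun l' => f (y :: l')) (m := m)
          (fun l' hl' => by simpa using hf _ hl') h1
        simp only [List.length_cons]
        omega

theorem gs_cup_ne {f G : List Y → ℤ} (l : List Y) (h0 : cup f G l ≠ 0) :
    ∃ l₁ l₂, l₁.Sublist l ∧ l₂.Sublist l ∧ f l₁ ≠ 0 ∧ G l₂ ≠ 0 := by
  induction l generalizing f with
  | nil => exact absurd rfl h0
  | cons y l ih =>
    rw [cup_cons] at h0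
    by_cases h1 : cup (fun l' => f (y :: l')) G l = 0
    · rw [h1, add_zero, smul_eq_mul] at h0
      exact ⟨[y], y :: l, by simp, List.Sublist.refl _, left_ne_zero_of_mul h0,
        right_ne_zero_of_mul h0⟩
    · obtain ⟨l₁, l₂, h2, h3, h4, h5⟩ := ih (f := fun l' => f (y :: l')) h1
      exact ⟨y :: l₁, l₂, h2.cons_cons y, h3.cons y, h4, h5⟩

theorem gs_ce_ne {v : Y → ℤ} {l : List Y} (h : ce v l ≠ 0) :
    ∃ y y', l = [y, y'] ∧ v y ≠ v y' := by
  match l, h with
  | [], h => exact absurd rfl h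
  | [_], h => exact absurd rfl h
  | [y, y'], h =>
    refine ⟨y, y', rfl, fun e => h ?_⟩
    show v y' - v y = 0
    rw [e, sub_self]
  | _ :: _ :: _ :: _, h => exact absurd rfl h

theorem gs_sign {g : Y → ℝ} {y y' : Y} {η : ℝ} (h : Hv g y ≠ Hv g y') (hη : |g y - g y'| ≤ η) :
    |g y| ≤ η ∧ |g y'| ≤ η := by
  have h2 := abs_le.1 hη
  by_cases h3 : 0 ≤ g y <;> by_cases h4 : 0 ≤ g y'
  · rw [Hv_pos h3, Hv_pos h4] at h
    exact absurd rfl h
  · push Not at h4
    constructor <;> rw [abs_le] <;> constructor <;> linarith [h2.1, h2.2]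
  · push Not at h3
    constructor <;> rw [abs_le] <;> constructor <;> linarith [h2.1, h2.2]
  · push Not at h3 h4
    rw [Hv_neg h3, Hv_neg h4] at h
    exact absurd rfl h

/-- a sign change on a tuple -/
theorem gs_edge {S : Set (List Y)} {g : Y → ℝ} {η : ℝ} (hg : Vary S g η) {l l' : List Y}
    (hl : l ∈ S) (hl' : l'.Sublist l) (h : ce (Hv g) l' ≠ 0) : ∃ y ∈ l, |g y| ≤ η := by
  obtain ⟨y, y', rfl, h1⟩ := gs_ce_ne h
  have hy : y ∈ l := hl'.subset (by simp)
  have hy' : y' ∈ l := hl'.subset (by simp)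
  exact ⟨y, hy, (gs_sign h1 (hg l hl y hy y' hy')).1⟩

theorem gs_edge_all {S : Set (List Y)} {g : Y → ℝ} {η : ℝ} (hg : Vary S g η) {l l' : List Y}
    (hl : l ∈ S) (hl' : l'.Sublist l) (h : ce (Hv g) l' ≠ 0) {z : Y} (hz : z ∈ l) :
    |g z| ≤ 2 * η := by
  obtain ⟨y, hy, h1⟩ := gs_edge hg hl hl' h
  have h2 := hg l hl z hz y hy
  have h3 : |g z| ≤ |g z - g y| + |g y| := by
    have := abs_add_le (g z - g y) (g y)
    simpa using this
  linarith

/-! ### the cochains `cz`, `ce`, `om` -/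

theorem gs_dl_cz (v : Y → ℤ) (l : List Y) : dl (cz v) l = - ce v l := by
  match l with
  | [] => rfl
  | [y] => simp [dl_singleton, cz, ce]
  | [y, y'] => simp [dl_pair, cz, ce]
  | y :: y' :: y'' :: l =>
    have h1 : dl (cz v) (y :: y' :: y'' :: l) = 0 := by
      by_contra h
      have := gs_dl_len (n := 1) (F := cz v) (fun l hl => by
        match l, hl with
        | [], hl => exact absurd rfl hl
        | [y], _ => rfl
        | _ :: _ :: _, hl => exact absurd rfl hl) _ h
      simp at this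
    rw [h1]
    rfl

theorem gs_dl_ce (v : Y → ℤ) (l : List Y) : dl (ce v) l = 0 := by
  have h : ce v = fun l => - dl (cz v) l := by
    funext l
    rw [gs_dl_cz, neg_neg]
  rw [h, dl_neg, dl_dl, neg_zero]

theorem gs_dl_om (A B C : Y → ℝ) (l : List Y) :
    dl (om A B C) l = - cup (ce (Hv A)) (cup (ce (Hv B)) (ce (Hv C))) l := by
  have h1 : ∀ l, dl (cup (ce (Hv B)) (ce (Hv C))) l = 0 := by
    intro l
    rw [dl_cup' _ _ rfl rfl]
    have h2 : dl (ce (Hv B)) = fun _ => 0 := by funext l; exact gs_dl_ce _ _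
    have h3 : dl (ce (Hv C)) = fun _ => 0 := by funext l; exact gs_dl_ce _ _
    rw [h2, h3, cup_zero_left, cup_zero_right, add_zero]
  have h2 : dl (cup (ce (Hv B)) (ce (Hv C))) = fun _ => 0 := by funext l; exact h1 l
  have h3 : dl (cz (Hv A)) = fun l => - ce (Hv A) l := by funext l; exact gs_dl_cz _ _
  unfold om
  rw [dl_cup' _ _ rfl rfl, h2, h3, cup_zero_right, cup_neg_left, add_zero]

theorem gs_cz_len (v : Y → ℤ) (l : List Y) (hl : cz v l ≠ 0) : l.length = 1 := by
  match l, hl with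
  | [], hl => exact absurd rfl hl
  | [y], _ => rfl
  | _ :: _ :: _, hl => exact absurd rfl hl

theorem gs_ce_len (v : Y → ℤ) (l : List Y) (hl : ce v l ≠ 0) : l.length = 2 := by
  obtain ⟨y, y', rfl, -⟩ := gs_ce_ne hl
  rfl

theorem gs_om_len (A B C : Y → ℝ) (l : List Y) (hl : om A B C l ≠ 0) : l.length = 3 := by
  have h1 := gs_cup_len (gs_cz_len (Hv A)) (n := 3) (G := cup (ce (Hv B)) (ce (Hv C)))
    (fun l hl => by
      have := gs_cup_len (gs_ce_len (Hv B)) (gs_ce_len (Hv C)) l hl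
      omega) l hl
  omega

theorem gs_unit_len (l : List Y) (hl : unit (1 : ℤ) l ≠ 0) : l.length = 1 := by
  match l, hl with
  | [], hl => exact absurd rfl hl
  | [y], _ => rfl
  | _ :: _ :: _, hl => exact absurd rfl hl

theorem gs_dl_unit (l : List Y) : dl (unit (1 : ℤ)) l = 0 := by
  match l with
  | [] => rfl
  | [y] => simp [dl_singleton, unit]
  | [y, y'] => simp [dl_pair, unit]
  | y :: y' :: y'' :: l =>
    by_contra h
    have := gs_dl_len gs_unit_len _ h
    simp at this

theorem gs_sg_odd {F : List Y → ℤ} {m : ℕ} (h : ∀ l, F l ≠ 0 → l.length = 2 * m + 1)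
    (l : List Y) : sg F l = F l := by
  by_cases h0 : F l = 0
  · simp [sg, h0]
  · have h1 : l.length + 1 = 2 * (m + 1) := by rw [h l h0]; ring
    rw [sg, h1, pow_mul]
    simp

/-! ### the radial functions -/

theorem gs_rad_le {a b c a' b' c' : ℝ} :
    Real.sqrt (a ^ 2 + b ^ 2 + c ^ 2) ≤
      Real.sqrt (a' ^ 2 + b' ^ 2 + c' ^ 2) + (|a - a'| + |b - b'| + |c - c'|) := by
  set r := Real.sqrt (a' ^ 2 + b' ^ 2 + c' ^ 2) with hr
  have hr0 : 0 ≤ r := Real.sqrt_nonneg _
  have hr2 : r ^ 2 = a' ^ 2 + b' ^ 2 + c' ^ 2 := Real.sq_sqrt (by positivity)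
  have ha : |a'| ≤ r := Real.abs_le_sqrt (by nlinarith [sq_nonneg b', sq_nonneg c'])
  have hb : |b'| ≤ r := Real.abs_le_sqrt (by nlinarith [sq_nonneg a', sq_nonneg c'])
  have hc : |c'| ≤ r := Real.abs_le_sqrt (by nlinarith [sq_nonneg b', sq_nonneg a'])
  rw [Real.sqrt_le_left (by positivity)]
  have key : ∀ x x' : ℝ, |x'| ≤ r → x ^ 2 ≤ x' ^ 2 + 2 * r * |x - x'| + |x - x'| ^ 2 := by
    intro x x' hx
    have h1 : x ^ 2 = x' ^ 2 + 2 * x' * (x - x') + (x - x') ^ 2 := by ring
    have h2 : x' * (x - x') ≤ r * |x - x'| := by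
      calc x' * (x - x') ≤ |x' * (x - x')| := le_abs_self _
        _ = |x'| * |x - x'| := abs_mul _ _
        _ ≤ r * |x - x'| := mul_le_mul_of_nonneg_right hx (abs_nonneg _)
    rw [h1, sq_abs]
    linarith
  have h1 := key a a' ha
  have h2 := key b b' hb
  have h3 := key c c' hc
  have p1 := mul_nonneg (abs_nonneg (a - a')) (abs_nonneg (b - b'))
  have p2 := mul_nonneg (abs_nonneg (a - a')) (abs_nonneg (c - c'))
  have p3 := mul_nonneg (abs_nonneg (b - b')) (abs_nonneg (c - c'))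
  nlinarith

theorem gs_le_rad (A B C : Y → ℝ) (y : Y) :
    |A y| ≤ rad A B C y ∧ |B y| ≤ rad A B C y ∧ |C y| ≤ rad A B C y := by
  refine ⟨Real.abs_le_sqrt ?_, Real.abs_le_sqrt ?_, Real.abs_le_sqrt ?_⟩ <;>
    nlinarith [sq_nonneg (A y), sq_nonneg (B y), sq_nonneg (C y)]

theorem gs_rad_sum (A B C : Y → ℝ) (y : Y) : rad A B C y ≤ |A y| + |B y| + |C y| := by
  have h := gs_rad_le (a := A y) (b := B y) (c := C y) (a' := 0) (b' := 0) (c' := 0)
  simpa [rad] using h

theorem gs_vary_rad {S : Set (List Y)} {A B C : Y → ℝ} {α β γ ρ : ℝ} (hA : Vary S A α)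
    (hB : Vary S B β) (hC : Vary S C γ) :
    Vary S (fun y => rad A B C y - ρ) (α + β + γ) := by
  intro l hl y hy y' hy'
  have h1 := hA l hl y hy y' hy'
  have h2 := hB l hl y hy y' hy'
  have h3 := hC l hl y hy y' hy'
  have e1 := gs_rad_le (a := A y) (b := B y) (c := C y) (a' := A y') (b' := B y') (c' := C y')
  have e2 := gs_rad_le (a := A y') (b := B y') (c := C y') (a' := A y) (b' := B y) (c' := C y)
  rw [abs_sub_comm (A y'), abs_sub_comm (B y'), abs_sub_comm (C y')] at e2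
  simp only [rad]
  rw [abs_le]
  constructor <;> linarith

section

variable {f : ℕ → Y → ℝ} {ρ : ℕ → ℝ} {κ : ℕ} {η : ℝ}

theorem gs_nF_vary {S : Set (List Y)} (hf : ∀ k ≤ 2 * κ, Vary S (f k) η) (i : ℕ) (hi : i ≤ κ) :
    Vary S (nF f ρ i) ((2 * i + 1) * η) := by
  induction i with
  | zero => simpa [nF] using hf 0 (by omega)
  | succ i ih =>
    have h := gs_vary_rad (ρ := ρ i) (ih (by omega)) (hf (2 * i + 1) (by omega))
      (hf (2 * i + 2) (by omega))
    have e : (2 * ((i + 1 : ℕ) : ℝ) + 1) * η = (2 * (i : ℝ) + 1) * η + η + η := by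
      push_cast; ring
    rw [e]
    exact h

theorem gs_nF_step (y : Y) (i : ℕ) :
    |nF f ρ i y| ≤ nF f ρ (i + 1) y + ρ i ∧ |f (2 * i + 1) y| ≤ nF f ρ (i + 1) y + ρ i ∧
      |f (2 * i + 2) y| ≤ nF f ρ (i + 1) y + ρ i := by
  have h := gs_le_rad (nF f ρ i) (f (2 * i + 1)) (f (2 * i + 2)) y
  have e : nF f ρ (i + 1) y + ρ i = rad (nF f ρ i) (f (2 * i + 1)) (f (2 * i + 2)) y := by
    simp only [nF]; ring
  rw [e]
  exact h

theorem gs_nF_down (hη : 0 < η) (hρ8 : ∀ l, ρ (l + 1) ≤ ρ l / 8)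
    (hρη : ∀ l < κ, 100 * (κ + 1) * η ≤ ρ l) (y : Y) (m : ℕ) (hm : m ≤ κ) (j : ℕ) (i : ℕ)
    (hij : i + (j + 1) = m) : |nF f ρ i y| ≤ nF f ρ m y + 8 / 7 * ρ i := by
  have hpos : ∀ l < κ, 0 ≤ ρ l := fun l hl => le_trans (by positivity) (hρη l hl)
  induction j generalizing i with
  | zero =>
    have h1 := (gs_nF_step (f := f) (ρ := ρ) y i).1
    have h2 : i + 1 = m := by omega
    rw [h2] at h1
    have h4 := hpos i (by omega)
    linarith
  | succ j ih =>
    have h1 := (gs_nF_step (f := f) (ρ := ρ) y i).1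
    have h2 := ih (i + 1) (by omega)
    have h3 := le_abs_self (nF f ρ (i + 1) y)
    have h4 := hρ8 i
    linarith

theorem gs_rho_mono (hη : 0 < η) (hρ8 : ∀ l, ρ (l + 1) ≤ ρ l / 8)
    (hρη : ∀ l < κ, 100 * (κ + 1) * η ≤ ρ l) (i j : ℕ) (hij : i + j < κ) : ρ (i + j) ≤ ρ i := by
  induction j with
  | zero => exact le_rfl
  | succ j ih =>
    have h1 := ih (by omega)
    have h2 := hρ8 (i + j)
    have h3 : 0 ≤ ρ (i + j) := le_trans (by positivity) (hρη (i + j) (by omega))
    have h4 : i + (j + 1) = i + j + 1 := by omega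
    rw [h4]
    linarith

end

/-- `unit 1` is a right unit -/
theorem gs_cup_unit (F : List Y → ℤ) (l : List Y) (h : l ≠ []) : cup F (unit (1 : ℤ)) l = F l := by
  induction l generalizing F with
  | nil => exact absurd rfl h
  | cons y l ih =>
    rw [cup_cons]
    cases l with
    | nil => simp [unit]
    | cons y' l =>
      rw [ih (fun l' => F (y :: l')) (by simp)]
      simp [unit]

theorem gs_unit_cup (F : List Y → ℤ) (l : List Y) (h : l ≠ []) : cup (unit (1 : ℤ)) F l = F l := by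
  cases l with
  | nil => exact absurd rfl h
  | cons y l =>
    rw [cup_cons]
    cases l with
    | nil => simp [unit]
    | cons y' l =>
      have h2 : ∀ (l₀ : List Y), cup (fun l' => unit (1 : ℤ) (y :: l')) F l₀ = 0 := by
        intro l₀
        have h3 : ∀ (l₀ : List Y) (g : List Y → ℤ), (∀ l', l' ≠ [] → g l' = 0) →
            cup g F l₀ = 0 := by
          intro l₀
          induction l₀ with
          | nil => intro g _; rfl
          | cons z l₀ ih =>
            intro g hg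
            rw [cup_cons, hg [z] (by simp), zero_smul, zero_add]
            exact ih _ fun l' _ => hg _ (by simp)
        refine h3 l₀ _ fun l' hl' => ?_
        cases l' with
        | nil => exact absurd rfl hl'
        | cons _ _ => rfl
      rw [h2, add_zero]
      simp [unit]

theorem step {S : Set (List Y)} (hS : Hered S) {A B C : Y → ℝ} {ρ η : ℝ} (hη : 0 ≤ η)
    (hρ : 4 * η < ρ) (hA : Vary S A η) (hB : Vary S B η) (hC : Vary S C η)
    {t : List Y → ℤ} (ht0 : ∀ l, t l ≠ 0 → l.length = 3) (ht : ∀ l ∈ S, dl t l = 0)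
    {R : List Y → ℤ} (hR0 : R [] = 0) (hR : ∀ l ∈ S, dl R l = 0)
    {P : List Y → ℤ} (hP0 : ∀ l, P l ≠ 0 → Odd l.length)
    (hP : ∀ l ∈ S, (∀ y ∈ l, |A y| ≤ 2 * ρ) → dl P l = 0) :
    ∀ l ∈ S, cup P (cup (ce (Hv A)) (cup (ce (Hv B)) (cup (ce (Hv C)) R))) l =
      - dl (cup P (cup (cup (aco t A B C) (cz (Hv fun y => rad A B C y - ρ))) R)) l -
        cup P (cup (aco t A B C) (cup (ce (Hv fun y => rad A B C y - ρ)) R)) l := by
  intro l hl
  have ha : ∀ l, aco t A B C l ≠ 0 → l.length = 3 := by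
    intro l h
    by_cases h1 : t l = 0
    · refine gs_om_len A B C l (fun h2 => h ?_)
      show t l + om A B C l = 0
      rw [h1, h2, add_zero]
    · exact ht0 l h1
  have ha0 : aco t A B C [] = 0 := by
    by_contra h
    have := ha [] h
    simp at this
  set F : Y → ℝ := fun y => rad A B C y - ρ with hF
  set τ : List Y → ℤ := cup (ce (Hv A)) (cup (ce (Hv B)) (ce (Hv C))) with hτ
  set c : List Y → ℤ := cup (aco t A B C) (cz (Hv F)) with hc
  have hT : Hered {l' : List Y | l'.Sublist l} := fun l₁ h1 l₂ h2 => h2.trans h1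
  have hlT : l ∈ {l' : List Y | l'.Sublist l} := List.Sublist.refl l
  -- `τ₃ ∪ cz HF = τ₃`
  have h1 : ∀ l ∈ S, cup τ (cz (Hv F)) l = τ l := by
    intro l hl
    have hT : Hered {l' : List Y | l'.Sublist l} := fun l₁ h1 l₂ h2 => h2.trans h1
    have hlT : l ∈ {l' : List Y | l'.Sublist l} := List.Sublist.refl l
    by_cases h2 : ∃ l', l'.Sublist l ∧ τ l' ≠ 0
    · obtain ⟨l', h2, h3⟩ := h2
      obtain ⟨l₁, l₂, h4, h5, h6, h7⟩ := gs_cup_ne l' h3
      obtain ⟨l₃, l₄, h8, h9, h10, h11⟩ := gs_cup_ne l₂ h7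
      have hz : ∀ z ∈ l, Hv F z = 0 := by
        intro z hz
        have k1 := gs_edge_all hA hl (h4.trans h2) h6 hz
        have k2 := gs_edge_all hB hl (h8.trans (h5.trans h2)) h10 hz
        have k3 := gs_edge_all hC hl (h9.trans (h5.trans h2)) h11 hz
        apply Hv_neg
        have k4 : rad A B C z < ρ := by
          refine lt_of_le_of_lt ?_ hρ
          unfold rad
          rw [Real.sqrt_le_left (by positivity)]
          have k5 := abs_le.1 k1
          have k6 := abs_le.1 k2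
          have k7 := abs_le.1 k3
          have k8 : (A z) ^ 2 ≤ (2 * η) ^ 2 := sq_le_sq' k5.1 k5.2
          have k9 : (B z) ^ 2 ≤ (2 * η) ^ 2 := sq_le_sq' k6.1 k6.2
          have k10 : (C z) ^ 2 ≤ (2 * η) ^ 2 := sq_le_sq' k7.1 k7.2
          nlinarith [sq_nonneg η]
        show rad A B C z - ρ < 0
        linarith
      have hl0 : l ≠ [] := by
        rintro rfl
        rw [List.sublist_nil] at h2
        subst h2
        exact h3 rfl
      rw [cup_congr hT (f := τ) (g := τ) (F := cz (Hv F)) (G := unit 1) (fun _ _ => rfl) ?_ hlT]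
      · exact gs_cup_unit τ l hl0
      · intro l'' hl''
        match l'', hl'' with
        | [], _ => rfl
        | [y], hl'' =>
          show 1 - Hv F y = 1
          rw [hz y (List.Sublist.subset hl'' (by simp)), sub_zero]
        | _ :: _ :: _, _ => rfl
    · push Not at h2
      rw [h2 l (List.Sublist.refl l), cup_congr hT (f := τ) (g := fun _ => 0) (F := cz (Hv F))
        (G := cz (Hv F)) h2 (fun _ _ => rfl) hlT, cup_zero_left]
  -- `dl c`
  have h2 : ∀ l ∈ S, dl c l = - τ l - cup (aco t A B C) (ce (Hv F)) l := by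
    intro l hl
    have e1 : ∀ l ∈ S, dl (aco t A B C) l = - τ l := by
      intro l hl
      have e0 : aco t A B C = fun l => t l + om A B C l := rfl
      rw [e0, dl_add, ht l hl, gs_dl_om, zero_add]
    have e2 : sg (aco t A B C) = aco t A B C := by
      funext l
      exact gs_sg_odd (m := 1) ha l
    have e3 : dl (cz (Hv F)) = fun l => - ce (Hv F) l := by
      funext l
      exact gs_dl_cz _ _
    rw [hc, dl_cup' _ _ ha0 rfl, e2, e3, cup_neg_right,
      cup_congr hS (f := dl (aco t A B C)) (g := fun l => - τ l) (F := cz (Hv F))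
      (G := cz (Hv F)) e1 (fun _ _ => rfl) hl, cup_neg_left, h1 l hl]
    ring
  -- `dl (c ∪ R)`
  have h3 : ∀ l ∈ S, dl (cup c R) l = - cup τ R l - cup (aco t A B C) (cup (ce (Hv F)) R) l := by
    intro l hl
    rw [dl_cup' c R rfl hR0,
      cup_congr hS (f := dl c) (g := fun l => - τ l - cup (aco t A B C) (ce (Hv F)) l) (F := R)
      (G := R) h2 (fun _ _ => rfl) hl,
      cup_congr hS (f := sg c) (g := sg c) (F := dl R) (G := fun _ => 0) (fun _ _ => rfl) hR hl,
      cup_zero_right, cup_sub_left (fun l => - τ l), cup_neg_left,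
      cup_assoc (aco t A B C) (ce (Hv F)) R, add_zero]
  -- `dl P ∪ (c ∪ R) = 0`
  have h4 : cup (dl P) (cup c R) l = 0 := by
    by_cases h5 : ∃ z ∈ l, F z < 0
    · obtain ⟨z, hz, h6⟩ := h5
      have h7 : ∀ y ∈ l, |A y| ≤ 2 * ρ := by
        intro y hy
        have k1 := hA l hl y hy z hz
        have k2 := (gs_le_rad A B C z).1
        have k3 : |A y| ≤ |A y - A z| + |A z| := by
          have := abs_add_le (A y - A z) (A z)
          simpa using this
        have k4 : rad A B C z - ρ < 0 := h6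
        linarith
      rw [cup_congr hT (f := dl P) (g := fun _ => 0) (F := cup c R) (G := cup c R) ?_
        (fun _ _ => rfl) hlT, cup_zero_left]
      intro l' hl'
      exact hP l' (hS l hl l' hl') fun y hy => h7 y (List.Sublist.subset hl' hy)
    · push Not at h5
      have h6 : ∀ l' ∈ {l' : List Y | l'.Sublist l}, cz (Hv F) l' = 0 := by
        intro l' hl'
        match l', hl' with
        | [], _ => rfl
        | [y], hl' =>
          show 1 - Hv F y = 0
          rw [Hv_pos (h5 y (List.Sublist.subset hl' (by simp))), sub_self]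
        | _ :: _ :: _, _ => rfl
      have h7 : ∀ l' ∈ {l' : List Y | l'.Sublist l}, c l' = 0 := by
        intro l' hl'
        rw [hc, cup_congr hT (f := aco t A B C) (g := aco t A B C) (F := cz (Hv F))
          (G := fun _ => 0) (fun _ _ => rfl) h6 hl', cup_zero_right]
      have h8 : ∀ l' ∈ {l' : List Y | l'.Sublist l}, cup c R l' = 0 := by
        intro l' hl'
        rw [cup_congr hT (f := c) (g := fun _ => 0) (F := R) (G := R) h7 (fun _ _ => rfl) hl',
          cup_zero_left]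
      rw [cup_congr hT (f := dl P) (g := dl P) (F := cup c R) (G := fun _ => 0)
        (fun _ _ => rfl) h8 hlT, cup_zero_right]
  have hPn : P [] = 0 := by
    by_contra h
    have := hP0 [] h
    simp at this
  have hsP : sg P = P := by
    funext l
    by_cases h0 : P l = 0
    · simp [sg, h0]
    · have h1 : Even (l.length + 1) := (hP0 l h0).add_one
      rw [sg, h1.neg_one_pow, one_smul]
  have h5 : dl (cup P (cup c R)) l =
      - cup P (cup τ R) l - cup P (cup (aco t A B C) (cup (ce (Hv F)) R)) l := by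
    rw [dl_cup' P _ hPn rfl, h4, zero_add, hsP,
      cup_congr hS (f := P) (g := P) (F := dl (cup c R))
      (G := fun l => - cup τ R l - cup (aco t A B C) (cup (ce (Hv F)) R) l)
      (fun _ _ => rfl) h3 hl, cup_sub_right P (fun l => - cup τ R l), cup_neg_right]
  have h6 : cup τ R = cup (ce (Hv A)) (cup (ce (Hv B)) (cup (ce (Hv C)) R)) := by
    funext l
    have e1 : cup (cup (ce (Hv B)) (ce (Hv C))) R = cup (ce (Hv B)) (cup (ce (Hv C)) R) := by
      funext l
      exact cup_assoc _ _ _ _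
    rw [hτ, cup_assoc, e1]
  rw [h5, ← h6]
  ring

/-- `δH(f_{2l+1}) ∪ … ∪ δH(f_{2l+2m})` -/
noncomputable def gsR (f : ℕ → Y → ℝ) : ℕ → ℕ → List Y → ℤ
  | _, 0 => unit 1
  | l, m + 1 => cup (ce (Hv (f (2 * l + 1)))) (cup (ce (Hv (f (2 * l + 2)))) (gsR f (l + 1) m))

theorem gsR_eq (f : ℕ → Y → ℝ) (m : ℕ) (l : ℕ) :
    gsR f l m = tau ((List.range' (2 * l + 1) (2 * m)).map fun k => Hv (f k)) := by
  induction m generalizing l with
  | zero => rfl
  | succ m ih =>
    have h : List.range' (2 * l + 1) (2 * (m + 1)) =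
        (2 * l + 1) :: (2 * l + 2) :: List.range' (2 * (l + 1) + 1) (2 * m) := by
      rw [show 2 * (m + 1) = 2 * m + 1 + 1 by ring, List.range'_succ, List.range'_succ]
      rfl
    rw [h]
    simp only [List.map_cons, tau, gsR, ih]

theorem gsR_nil (f : ℕ → Y → ℝ) (m : ℕ) (l : ℕ) : gsR f l m [] = 0 := by
  cases m with
  | zero => rfl
  | succ m => rfl

theorem gsR_len (f : ℕ → Y → ℝ) (m : ℕ) (l : ℕ) (L : List Y) (h : gsR f l m L ≠ 0) :
    L.length = 2 * m + 1 := by
  induction m generalizing l L with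
  | zero => simpa using gs_unit_len L h
  | succ m ih =>
    have h1 := gs_cup_len (gs_ce_len (Hv (f (2 * l + 1)))) (n := 2 * m + 2)
      (G := cup (ce (Hv (f (2 * l + 2)))) (gsR f (l + 1) m)) (fun L hL => by
        have := gs_cup_len (gs_ce_len (Hv (f (2 * l + 2)))) (ih (l + 1)) L hL
        omega) L h
    omega

theorem gsR_dl (f : ℕ → Y → ℝ) (m : ℕ) (l : ℕ) (L : List Y) : dl (gsR f l m) L = 0 := by
  induction m generalizing l L with
  | zero => exact gs_dl_unit L
  | succ m ih =>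
    have h0 : dl (gsR f (l + 1) m) = fun _ => 0 := by
      funext L
      exact ih _ _
    have hce : ∀ v : Y → ℤ, dl (ce v) = fun _ => 0 := by
      intro v
      funext L
      exact gs_dl_ce v L
    have h1 : dl (cup (ce (Hv (f (2 * l + 2)))) (gsR f (l + 1) m)) = fun _ => 0 := by
      funext L
      rw [dl_cup' _ _ rfl (gsR_nil _ _ _), h0, cup_zero_right, hce, cup_zero_left, add_zero]
    show dl (cup (ce (Hv (f (2 * l + 1)))) (cup (ce (Hv (f (2 * l + 2)))) (gsR f (l + 1) m))) L = 0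
    rw [dl_cup' _ _ rfl rfl, h1, cup_zero_right, hce, cup_zero_left, add_zero]

/-- on the support of `gsR` all the functions are small -/
theorem gsR_supp {S : Set (List Y)} {f : ℕ → Y → ℝ} {κ : ℕ} {η : ℝ}
    (hf : ∀ k ≤ 2 * κ, Vary S (f k) η) {L : List Y} (hL : L ∈ S) (m : ℕ) (l : ℕ)
    (hlm : l + m = κ) {L' : List Y} (hL' : L'.Sublist L) (h : gsR f l m L' ≠ 0) {z : Y}
    (hz : z ∈ L) (k : ℕ) (hk : 2 * l + 1 ≤ k) (hk2 : k ≤ 2 * κ) : |f k z| ≤ 2 * η := by
  induction m generalizing l L' with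
  | zero => omega
  | succ m ih =>
    obtain ⟨l₁, l₂, h1, h2, h3, h4⟩ := gs_cup_ne L' h
    obtain ⟨l₃, l₄, h5, h6, h7, h8⟩ := gs_cup_ne l₂ h4
    rcases Nat.lt_or_ge k (2 * (l + 1) + 1) with h9 | h9
    · have h10 : k = 2 * l + 1 ∨ k = 2 * l + 2 := by omega
      rcases h10 with rfl | rfl
      · exact gs_edge_all (hf _ (by omega)) hL (h1.trans hL') h3 hz
      · exact gs_edge_all (hf _ (by omega)) hL (h5.trans (h2.trans hL')) h7 hz
    · exact ih (l + 1) (by omega) (h6.trans (h2.trans hL')) h8 h9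

theorem gs_aL_len {f : ℕ → Y → ℝ} {ρ : ℕ → ℝ} {t : List Y → ℤ}
    (ht0 : ∀ l, t l ≠ 0 → l.length = 3) (k : ℕ) (l : List Y) (h : aL t f ρ k l ≠ 0) :
    l.length = 3 := by
  by_cases h1 : t l = 0
  · refine gs_om_len (nF f ρ k) (f (2 * k + 1)) (f (2 * k + 2)) l (fun h2 => h ?_)
    show t l + om (nF f ρ k) (f (2 * k + 1)) (f (2 * k + 2)) l = 0
    rw [h1, h2, add_zero]
  · exact ht0 l h1

theorem gs_PL_len {f : ℕ → Y → ℝ} {ρ : ℕ → ℝ} {t : List Y → ℤ}
    (ht0 : ∀ l, t l ≠ 0 → l.length = 3) (m : ℕ) (l : List Y) (h : PL t f ρ m l ≠ 0) :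
    l.length = 2 * m + 1 := by
  induction m generalizing l with
  | zero => simpa using gs_unit_len l h
  | succ m ih =>
    have := gs_cup_len ih (gs_aL_len ht0 m) l h
    omega

theorem gs_PL_nil {f : ℕ → Y → ℝ} {ρ : ℕ → ℝ} {t : List Y → ℤ} (m : ℕ) :
    PL t f ρ m [] = 0 := by
  cases m with
  | zero => rfl
  | succ m => rfl

/-- `P_m` is closed on a hereditary class where `a_k` is closed for `k < m` -/
theorem gs_PL_closed {f : ℕ → Y → ℝ} {ρ : ℕ → ℝ} {t : List Y → ℤ}
    (ht0 : ∀ l, t l ≠ 0 → l.length = 3) {T : Set (List Y)} (hT : Hered T) (m : ℕ)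
    (hcl : ∀ k < m, ∀ l ∈ T, dl (aL t f ρ k) l = 0) (l : List Y) (hl : l ∈ T) :
    dl (PL t f ρ m) l = 0 := by
  induction m generalizing l with
  | zero => exact gs_dl_unit l
  | succ m ih =>
    have ham : aL t f ρ m [] = 0 := by
      by_contra h
      have := gs_aL_len ht0 m [] h
      simp at this
    show dl (cup (PL t f ρ m) (aL t f ρ m)) l = 0
    rw [dl_cup' _ _ (gs_PL_nil m) ham]
    rw [cup_congr hT (f := dl (PL t f ρ m)) (g := fun _ => 0) (F := aL t f ρ m)
      (G := aL t f ρ m) (fun l hl => ih (fun k hk => hcl k (by omega)) l hl) (fun _ _ => rfl) hl,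
      cup_zero_left,
      cup_congr hT (f := sg (PL t f ρ m)) (g := sg (PL t f ρ m)) (F := dl (aL t f ρ m))
      (G := fun _ => 0) (fun _ _ => rfl) (hcl m (by omega)) hl, cup_zero_right, add_zero]

/-- the cochains `a_k`, `k < m`, are closed where `|nF m| ≤ 2 ρ m` -/
theorem gs_closed {f : ℕ → Y → ℝ} {ρ : ℕ → ℝ} {κ : ℕ} {η : ℝ} {S : Set (List Y)} (hη : 0 < η)
    (hρ8 : ∀ l, ρ (l + 1) ≤ ρ l / 8) (hρη : ∀ l < κ, 100 * (κ + 1) * η ≤ ρ l)
    (hf : ∀ k ≤ 2 * κ, Vary S (f k) η) {t : List Y → ℤ} (ht : ∀ l ∈ S, dl t l = 0)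
    {m : ℕ} (hm : m < κ) {l : List Y} (hl : l ∈ S) (hy : ∀ y ∈ l, |nF f ρ m y| ≤ 2 * ρ m) {k : ℕ}
    (hk : k < m) : dl (aL t f ρ k) l = 0 := by
  have e0 : aL t f ρ k = fun l => t l + om (nF f ρ k) (f (2 * k + 1)) (f (2 * k + 2)) l := rfl
  rw [e0, dl_add, ht l hl, gs_dl_om, zero_add, neg_eq_zero]
  by_contra h
  obtain ⟨l₁, l₂, h1, h2, h3, h4⟩ := gs_cup_ne l h
  obtain ⟨l₃, l₄, h5, h6, h7, h8⟩ := gs_cup_ne l₂ h4
  obtain ⟨y, hyl, h9⟩ := gs_edge (gs_nF_vary hf k (by omega)) hl h1 h3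
  have h10 := gs_edge_all (hf (2 * k + 1) (by omega)) hl (h5.trans h2) h7 hyl
  have h11 := gs_edge_all (hf (2 * k + 2) (by omega)) hl (h6.trans h2) h8 hyl
  have h12 := gs_rad_sum (nF f ρ k) (f (2 * k + 1)) (f (2 * k + 2)) y
  have h14 := hy y hyl
  have h15 := hρη k (by omega)
  have h16 : nF f ρ (k + 1) y = rad (nF f ρ k) (f (2 * k + 1)) (f (2 * k + 2)) y - ρ k := rfl
  have h17 := neg_abs_le (nF f ρ (k + 1) y)
  have h18 : (k : ℝ) + 1 ≤ κ := by exact_mod_cast (by omega : k + 1 ≤ κ)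
  have h20 : 0 ≤ (κ : ℝ) := Nat.cast_nonneg κ
  have h21 : 0 ≤ (k : ℝ) := Nat.cast_nonneg k
  have h22 : 0 < ρ k := lt_of_lt_of_le (by positivity) h15
  have h23 := hρ8 k
  have h24 : |nF f ρ (k + 1) y| ≤ ρ k / 2 := by
    rcases Nat.lt_or_ge (k + 1) m with h | h
    · have g1 := gs_nF_down (f := f) hη hρ8 hρη y m hm.le (m - k - 2) (k + 1) (by omega)
      have g2 := le_abs_self (nF f ρ m y)
      have g3 := gs_rho_mono hη hρ8 hρη (k + 1) (m - k - 1) (by omega)
      have g4 : k + 1 + (m - k - 1) = m := by omega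
      rw [g4] at g3
      linarith
    · have : k + 1 = m := by omega
      rw [← this] at h14
      linarith
  have h25 : ((2 * (k : ℝ) + 1) * η) + 2 * η + 2 * η ≤ ρ k / 20 := by
    nlinarith
  linarith

theorem gs_levels_aux {S : Set (List Y)} (hS : Hered S) {κ : ℕ} {f : ℕ → Y → ℝ} {ρ : ℕ → ℝ}
    {η : ℝ} (hη : 0 < η) (hρ0 : ρ 0 ≤ 1 / 32) (hρ8 : ∀ l, ρ (l + 1) ≤ ρ l / 8)
    (hρη : ∀ l < κ, 100 * (κ + 1) * η ≤ ρ l) (hf : ∀ k ≤ 2 * κ, Vary S (f k) η)
    {t : List Y → ℤ} (ht0 : ∀ l, t l ≠ 0 → l.length = 3) (ht : ∀ l ∈ S, dl t l = 0)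
    (m : ℕ) (hm : m ≤ κ) :
    ∃ C : List Y → ℤ, (∀ l, C l ≠ 0 → l.length = 2 * κ + 1) ∧
      (∀ l ∈ S, C l ≠ 0 → ∀ y ∈ l, ∀ k ≤ 2 * κ, |f k y| ≤ 1 / 8) ∧
      (∀ l ∈ S, tau (gvs f κ) l =
        (-1) ^ m * cup (PL t f ρ m) (cup (ce (Hv (nF f ρ m))) (gsR f m (κ - m))) l + dl C l) ∧
      ∀ σ : Y → Y, (∀ k ≤ 2 * κ, ∀ y, f k (σ y) = f k y) → (∀ l, t (l.map σ) = t l) →
        ∀ l, C (l.map σ) = C l := by
  induction m with
  | zero =>
    refine ⟨fun _ => 0, fun l h => absurd rfl h, fun l _ h => absurd rfl h, fun l hl => ?_,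
      fun _ _ _ _ => rfl⟩
    have h1 : gvs f κ = Hv (f 0) :: (List.range' (2 * 0 + 1) (2 * κ)).map fun k => Hv (f k) := by
      unfold gvs
      rw [List.range_eq_range', List.range'_succ]
      rfl
    have h2 : tau (gvs f κ) = cup (ce (Hv (f 0))) (gsR f 0 κ) := by
      rw [h1, gsR_eq]
      rfl
    rw [h2, dl_zero, add_zero, pow_zero, one_mul, Nat.sub_zero]
    show _ = cup (unit 1) (cup (ce (Hv (f 0))) (gsR f 0 κ)) l
    cases l with
    | nil => rfl
    | cons y l => rw [gs_unit_cup _ _ (by simp)]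
  | succ m ih =>
    obtain ⟨C, hC1, hC2, hC3, hC4⟩ := ih (by omega)
    have hmκ : m < κ := by omega
    obtain ⟨n, hn⟩ : ∃ n, κ - m = n + 1 := ⟨κ - m - 1, by omega⟩
    have hn' : κ - (m + 1) = n := by omega
    set c : List Y → ℤ := cup (aL t f ρ m) (cz (Hv (nF f ρ (m + 1)))) with hc
    set R : List Y → ℤ := gsR f (m + 1) n with hR
    set X : List Y → ℤ := cup (PL t f ρ m) (cup c R) with hX
    have h0κ : 0 ≤ (κ : ℝ) := Nat.cast_nonneg κ
    have h0m : 0 ≤ (m : ℝ) := Nat.cast_nonneg m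
    have hmκ' : (m : ℝ) + 1 ≤ κ := by exact_mod_cast (by omega : m + 1 ≤ κ)
    have hρm := hρη m hmκ
    have hstep : ∀ l ∈ S,
        cup (PL t f ρ m) (cup (ce (Hv (nF f ρ m))) (gsR f m (κ - m))) l =
        - dl X l - cup (PL t f ρ (m + 1)) (cup (ce (Hv (nF f ρ (m + 1)))) R) l := by
      have hV1 := gs_nF_vary (ρ := ρ) hf m (by omega)
      have hη1 : η ≤ (2 * (m : ℝ) + 1) * η := by nlinarith
      have h := step hS (A := nF f ρ m) (B := f (2 * m + 1)) (C := f (2 * m + 2)) (ρ := ρ m)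
        (η := (2 * (m : ℝ) + 1) * η) (by positivity) (by nlinarith) hV1
        (fun l hl y hy y' hy' => (hf _ (by omega) l hl y hy y' hy').trans hη1)
        (fun l hl y hy y' hy' => (hf _ (by omega) l hl y hy y' hy').trans hη1)
        ht0 ht (R := R) (gsR_nil _ _ _) (fun l _ => gsR_dl _ _ _ _) (P := PL t f ρ m)
        (fun l hl => by rw [gs_PL_len ht0 m l hl]; exact ⟨m, rfl⟩)
        (fun l hl hy => by
          have hT : Hered {l' : List Y | l'.Sublist l} := fun l₁ h1 l₂ h2 => h2.trans h1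
          refine gs_PL_closed ht0 hT m (fun k hk l' hl' => ?_) l (List.Sublist.refl l)
          exact gs_closed hη hρ8 hρη hf ht hmκ (hS l hl l' hl')
            (fun y hy' => hy y (List.Sublist.subset hl' hy')) hk)
      intro l hl
      have h1 := h l hl
      have e1 : gsR f m (κ - m) =
          cup (ce (Hv (f (2 * m + 1)))) (cup (ce (Hv (f (2 * m + 2)))) R) := by
        rw [hn]
        rfl
      rw [e1, h1]
      have e2 : cup (PL t f ρ (m + 1)) (cup (ce (Hv (nF f ρ (m + 1)))) R) l =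
          cup (PL t f ρ m) (cup (aL t f ρ m) (cup (ce (Hv (nF f ρ (m + 1)))) R)) l :=
        cup_assoc _ _ _ _
      rw [e2]
      rfl
    have hXlen : ∀ l, X l ≠ 0 → l.length = 2 * κ + 1 := by
      intro l hl
      have h1 : ∀ l, c l ≠ 0 → l.length = 3 := by
        intro l hl
        have := gs_cup_len (gs_aL_len ht0 m) (gs_cz_len _) l hl
        omega
      have h2 : ∀ l, cup c R l ≠ 0 → l.length = 2 * n + 3 := by
        intro l hl
        have := gs_cup_len h1 (gsR_len f n (m + 1)) l hl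
        omega
      have := gs_cup_len (gs_PL_len ht0 m) h2 l hl
      omega
    have hXsupp : ∀ l ∈ S, X l ≠ 0 → ∀ y ∈ l, ∀ k ≤ 2 * κ, |f k y| ≤ 1 / 8 := by
      intro l hl h y hy k hk
      obtain ⟨l₁, l₂, h1, h2, h3, h4⟩ := gs_cup_ne l h
      obtain ⟨l₃, l₄, h5, h6, h7, h8⟩ := gs_cup_ne l₂ h4
      obtain ⟨l₅, l₆, h9, h10, h11, h12⟩ := gs_cup_ne l₃ h7
      have hz : ∃ z ∈ l, nF f ρ (m + 1) z < 0 := by
        match l₆, h10, h12 with
        | [], _, h12 => exact absurd rfl h12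
        | [z], h10, h12 =>
          refine ⟨z, List.Sublist.subset (h10.trans (h5.trans h2)) (by simp), ?_⟩
          by_contra h13
          push Not at h13
          apply h12
          show 1 - Hv (nF f ρ (m + 1)) z = 0
          rw [Hv_pos h13, sub_self]
        | _ :: _ :: _, _, h12 => exact absurd rfl h12
      obtain ⟨z, hz, h13⟩ := hz
      have hρpos : ∀ i < κ, 0 < ρ i := fun i hi => lt_of_lt_of_le (by positivity) (hρη i hi)
      have h00 := hρη 0 (by omega)
      have hη2 : η ≤ ρ 0 / 100 := by nlinarith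
      have hρm0 : ∀ i < κ, ρ i ≤ ρ 0 := by
        intro i hi
        have := gs_rho_mono hη hρ8 hρη 0 i (by omega)
        simpa using this
      rcases Nat.lt_or_ge k (2 * (m + 1) + 1) with h14 | h14
      · have hzk : |f k z| ≤ 8 / 7 * ρ 0 + ρ 0 := by
          have hcase : k = 0 ∨ ∃ i ≤ m, k = 2 * i + 1 ∨ k = 2 * i + 2 := by
            rcases Nat.eq_zero_or_pos k with h | h
            · exact Or.inl h
            · exact Or.inr ⟨(k - 1) / 2, by omega, by omega⟩
          rcases hcase with rfl | ⟨i, hi, hki⟩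
          · have g1 := gs_nF_down (f := f) hη hρ8 hρη z (m + 1) hm m 0 (by omega)
            have g2 : nF f ρ 0 z = f 0 z := rfl
            rw [g2] at g1
            have := hρpos 0 (by omega)
            linarith
          · have g1 := gs_nF_step (f := f) (ρ := ρ) z i
            have g4 := hρm0 i (by omega)
            have g5 : nF f ρ (i + 1) z ≤ 8 / 7 * ρ 0 := by
              rcases Nat.lt_or_ge i m with h | h
              · have g2 := gs_nF_down (f := f) hη hρ8 hρη z (m + 1) hm (m - i - 1) (i + 1)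
                  (by omega)
                have g3 := le_abs_self (nF f ρ (i + 1) z)
                have g6 := hρm0 (i + 1) (by omega)
                linarith
              · have : i = m := by omega
                rw [this]
                have := hρpos 0 (by omega)
                linarith
            rcases hki with rfl | rfl
            · linarith [g1.2.1]
            · linarith [g1.2.2]
        have h7 := hf k hk l hl y hy z hz
        have h8 : |f k y| ≤ |f k y - f k z| + |f k z| := by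
          have := abs_add_le (f k y - f k z) (f k z)
          simpa using this
        linarith
      · have := gsR_supp hf hl n (m + 1) (by omega) (h6.trans h2) h8 hy k h14 hk
        linarith
    refine ⟨fun l => C l + (-1) ^ (m + 1) * X l, ?_, ?_, ?_, ?_⟩
    · intro l h
      by_cases h1 : C l = 0
      · refine hXlen l (fun h2 => h ?_)
        show C l + (-1) ^ (m + 1) * X l = 0
        rw [h1, h2]
        ring
      · exact hC1 l h1
    · intro l hl h
      by_cases h1 : C l = 0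
      · refine hXsupp l hl (fun h2 => h ?_)
        show C l + (-1) ^ (m + 1) * X l = 0
        rw [h1, h2]
        ring
      · exact hC2 l hl h1
    · intro l hl
      have e1 : dl (fun l => C l + (-1) ^ (m + 1) * X l) l = dl C l + (-1) ^ (m + 1) * dl X l := by
        rw [dl_add]
        congr 1
        have := dl_zsmul ((-1) ^ (m + 1)) X l
        simpa using this
      rw [e1, hC3 l hl, hstep l hl, hn']
      ring
    · intro σ hσ1 hσ2 l
      have h1 := hC4 σ hσ1 hσ2 l
      have hnF : ∀ i ≤ κ, ∀ y, nF f ρ i (σ y) = nF f ρ i y := by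
        intro i hi
        induction i with
        | zero => exact fun y => hσ1 0 (by omega) y
        | succ i ih =>
          intro y
          simp only [nF, rad]
          rw [ih (by omega) y, hσ1 (2 * i + 1) (by omega), hσ1 (2 * i + 2) (by omega)]
      have hHv : ∀ g : Y → ℝ, (∀ y, g (σ y) = g y) → ∀ y, Hv g (σ y) = Hv g y := by
        intro g hg y
        simp only [Hv, hg y]
      have hce : ∀ g : Y → ℝ, (∀ y, g (σ y) = g y) →
          (fun l : List Y => ce (Hv g) (l.map σ)) = ce (Hv g) := by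
        intro g hg
        funext l
        match l with
        | [] => rfl
        | [_] => rfl
        | [y, y'] =>
          show Hv g (σ y') - Hv g (σ y) = Hv g y' - Hv g y
          rw [hHv g hg, hHv g hg]
        | _ :: _ :: _ :: _ => rfl
      have hcz : ∀ g : Y → ℝ, (∀ y, g (σ y) = g y) →
          (fun l : List Y => cz (Hv g) (l.map σ)) = cz (Hv g) := by
        intro g hg
        funext l
        match l with
        | [] => rfl
        | [y] =>
          show 1 - Hv g (σ y) = 1 - Hv g y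
          rw [hHv g hg]
        | _ :: _ :: _ => rfl
      have hunit : (fun l : List Y => unit (1 : ℤ) (l.map σ)) = unit 1 := by
        funext l
        match l with
        | [] => rfl
        | [_] => rfl
        | _ :: _ :: _ => rfl
      have hcup : ∀ F G : List Y → ℤ, (fun l : List Y => F (l.map σ)) = F →
          (fun l : List Y => G (l.map σ)) = G →
          (fun l : List Y => cup F G (l.map σ)) = cup F G := by
        intro F G hF hG
        funext l
        rw [← cup_comp σ F G l, hF, hG]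
      have hak : ∀ k < κ, (fun l : List Y => aL t f ρ k (l.map σ)) = aL t f ρ k := by
        intro k hk
        have h2 : (fun l : List Y => om (nF f ρ k) (f (2 * k + 1)) (f (2 * k + 2)) (l.map σ)) =
            om (nF f ρ k) (f (2 * k + 1)) (f (2 * k + 2)) :=
          hcup _ _ (hcz _ (hnF k (by omega))) (hcup _ _ (hce _ (hσ1 _ (by omega)))
            (hce _ (hσ1 _ (by omega))))
        funext l
        have h3 := congrFun h2 l
        show t (l.map σ) + om (nF f ρ k) (f (2 * k + 1)) (f (2 * k + 2)) (l.map σ) =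
          t l + om (nF f ρ k) (f (2 * k + 1)) (f (2 * k + 2)) l
        rw [hσ2 l]
        rw [h3]
      have hPk : ∀ k ≤ κ, (fun l : List Y => PL t f ρ k (l.map σ)) = PL t f ρ k := by
        intro k hk
        induction k with
        | zero => exact hunit
        | succ k ih => exact hcup _ _ (ih (by omega)) (hak k (by omega))
      have hRk : ∀ n' l', l' + n' = κ → (fun l : List Y => gsR f l' n' (l.map σ)) = gsR f l' n' := by
        intro n'
        induction n' with
        | zero => intro _ _; exact hunit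
        | succ n' ih =>
          intro l' hl'
          exact hcup _ _ (hce _ (hσ1 _ (by omega))) (hcup _ _ (hce _ (hσ1 _ (by omega)))
            (ih (l' + 1) (by omega)))
      have hX2 : (fun l : List Y => X (l.map σ)) = X :=
        hcup _ _ (hPk m (by omega)) (hcup _ _ (hcup _ _ (hak m hmκ) (hcz _ (hnF (m + 1) hm)))
          (hRk n (m + 1) (by omega)))
      have h5 := congrFun hX2 l
      show C (l.map σ) + (-1) ^ (m + 1) * X (l.map σ) = C l + (-1) ^ (m + 1) * X l
      rw [h1]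
      rw [show X (l.map σ) = X l from h5]

theorem levels {S : Set (List Y)} (hS : Hered S) {κ : ℕ} {f : ℕ → Y → ℝ} {ρ : ℕ → ℝ} {η : ℝ}
    (hη : 0 < η) (hρ0 : ρ 0 ≤ 1 / 32) (hρ8 : ∀ l, ρ (l + 1) ≤ ρ l / 8)
    (hρη : ∀ l < κ, 100 * (κ + 1) * η ≤ ρ l) (hf : ∀ k ≤ 2 * κ, Vary S (f k) η)
    {t : List Y → ℤ} (ht0 : ∀ l, t l ≠ 0 → l.length = 3) (ht : ∀ l ∈ S, dl t l = 0) :
    ∃ C : List Y → ℤ, (∀ l, C l ≠ 0 → l.length = 2 * κ + 1) ∧
      (∀ l ∈ S, C l ≠ 0 → ∀ y ∈ l, ∀ k ≤ 2 * κ, |f k y| ≤ 1 / 8) ∧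
      (∀ l ∈ S, tau (gvs f κ) l =
        (-1) ^ κ * cup (PL t f ρ κ) (ce (Hv (nF f ρ κ))) l + dl C l) ∧
      ∀ σ : Y → Y, (∀ k ≤ 2 * κ, ∀ y, f k (σ y) = f k y) → (∀ l, t (l.map σ) = t l) →
        ∀ l, C (l.map σ) = C l := by
  obtain ⟨C, h1, h2, h3, h4⟩ := gs_levels_aux hS hη hρ0 hρ8 hρη hf ht0 ht κ le_rfl
  refine ⟨C, h1, h2, fun l hl => ?_, h4⟩
  rw [h3 l hl, Nat.sub_self]
  have h5 : cup (ce (Hv (nF f ρ κ))) (gsR f κ 0) = ce (Hv (nF f ρ κ)) := by
    funext l
    cases l with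
    | nil => rfl
    | cons y l => exact gs_cup_unit _ _ (by simp)
  rw [h5]

end Vale.Agent.P093.Hom
end

section

/-!
TASK HOM-B2: the group push.

Proof of `push`. Let `C` be from `levels`. Put `b_k = a_k - dl (n k)` (`a_k = aL t f ρ k`) and
`ξ = ∑_{k<κ} b_0 ∪ … ∪ b_{k-1} ∪ n_k ∪ a_{k+1} ∪ … ∪ a_{κ-1}` (degree `2κ - 1`, nonzero only on lists
of length `2κ`), `μ = C + (-1)^κ ξ ∪ ce (Hv (nF f ρ κ))`.
Let `l ∈ S` with all vertices in `E`; show `dl μ l = tau (gvs f κ) l`, i.e.
`dl (ξ ∪ ce (Hv (nF κ))) l = (P_κ ∪ ce (Hv (nF κ))) l`. `nF κ` varies by at most `(2κ+1) η` on `l`.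
Case 1: some vertex of `l` has `|nF κ| > (2κ+1) η`: then `nF κ` has constant sign on `l`,
`ce (Hv (nF κ)) = 0` on all sublists of `l`, both sides vanish.
Case 2: all vertices have `|nF κ| ≤ (2κ+1) η`. Then by `hE` there is `k₀ < κ` with `b_{k₀} = 0` on
all sublists of `l`. All `a_k` are closed on sublists of `l`: `dl a_k = - ce HA ∪ ce HB ∪ ce HC`
(`A = nF k` etc.), nonzero only if `|nF k|, |f (2k+1)|, |f (2k+2)| ≤ 2 (2k+2) η` at all vertices of a
sublist, so `nF (k+1) ≤ - ρ_k / 2` there, contradicting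
`|nF (k+1)| ≤ |nF κ| + ρ_{k+1} + … + ρ_{κ-1} ≤ ρ_k / 3` (note `|nF i| ≤ |nF (i+1)| + ρ_i`).
Hence also `dl b_k = 0` on sublists of `l`, and by Leibniz (all `a`, `b` have even degree)
`dl ξ = ∑_k b_0…b_{k-1} ∪ dl n_k ∪ a_{k+1}… = ∑_k b_0…b_{k-1} ∪ (a_k - b_k) ∪ a_{k+1}…
= a_0…a_{κ-1} - b_0…b_{κ-1} = P_κ - 0` on sublists of `l`. So
`dl (ξ ∪ ce (Hv (nF κ))) = dl ξ ∪ ce (Hv (nF κ)) = P_κ ∪ ce (Hv (nF κ))` at `l`
(`dl (ce v) = 0`).
Support of `ξ ∪ ce (Hv (nF κ))`: if nonzero at `l ∈ S` some edge has a sign change of `nF κ`, so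
`|nF κ| ≤ (2κ+1) η` at a vertex, and `|nF i|, |f (2i+1)|, |f (2i+2)| ≤ |nF (i+1)| + ρ_i` going down
gives `|f k| ≤ 2 ρ_0 + (2κ+1)η ≤ 3/32` there, so `≤ 1/8` at all vertices.
The invariance of `μ` under `σ` is clear from the explicit formula (`cup_comp`, `dl_comp`).
-/

namespace Vale.Agent.P093.Hom

variable {Y : Type*}

/-! ### supports -/

theorem push_dl_len {F : List Y → ℤ} {n : ℕ} (h : ∀ l, F l ≠ 0 → l.length = n) (l : List Y)
    (h0 : dl F l ≠ 0) : l.length = n + 1 := by
  induction l generalizing F n with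
  | nil => exact absurd rfl h0
  | cons y l ih =>
    rw [dl_cons] at h0
    by_cases h1 : F l = 0
    · have h2 : dl (fun l' => F (y :: l')) l ≠ 0 := by
        intro h3
        rw [h1, h3] at h0
        exact h0 (sub_zero 0)
      cases n with
      | zero =>
        have h3 : (fun l' => F (y :: l')) = fun _ => 0 := by
          funext l'
          by_contra h4
          have := h _ h4
          simp at this
        rw [h3, dl_zero] at h2
        exact absurd rfl h2
      | succ n =>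
        have := ih (F := fun l' => F (y :: l')) (n := n)
          (fun l' hl' => by simpa using h _ hl') h2
        simp [this]
    · simp [h l h1]

theorem push_cup_len {f G : List Y → ℤ} {m n : ℕ} (hf : ∀ l, f l ≠ 0 → l.length = m)
    (hG : ∀ l, G l ≠ 0 → l.length = n) (l : List Y) (h0 : cup f G l ≠ 0) :
    l.length + 1 = m + n := by
  induction l generalizing f m with
  | nil => exact absurd rfl h0
  | cons y l ih =>
    rw [cup_cons] at h0
    by_cases h1 : cup (fun l' => f (y :: l')) G l = 0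
    · rw [h1, add_zero, smul_eq_mul] at h0
      have h2 := hf _ (left_ne_zero_of_mul h0)
      have h3 := hG _ (right_ne_zero_of_mul h0)
      simp only [List.length_cons, List.length_nil] at h2 h3 ⊢
      omega
    · cases m with
      | zero =>
        exfalso
        have h3 : (fun l' => f (y :: l')) = fun _ => 0 := by
          funext l'
          by_contra h4
          have := hf _ h4
          simp at this
        rw [h3, cup_zero_left] at h1
        exact h1 rfl
      | succ m =>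
        have := ih (f := fun l' => f (y :: l')) (m := m)
          (fun l' hl' => by simpa using hf _ hl') h1
        simp only [List.length_cons]
        omega

theorem push_cup_ne {f G : List Y → ℤ} (l : List Y) (h0 : cup f G l ≠ 0) :
    ∃ l₁ l₂, l₁.Sublist l ∧ l₂.Sublist l ∧ f l₁ ≠ 0 ∧ G l₂ ≠ 0 := by
  induction l generalizing f with
  | nil => exact absurd rfl h0
  | cons y l ih =>
    rw [cup_cons] at h0
    by_cases h1 : cup (fun l' => f (y :: l')) G l = 0
    · rw [h1, add_zero, smul_eq_mul] at h0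
      exact ⟨[y], y :: l, by simp, List.Sublist.refl _, left_ne_zero_of_mul h0,
        right_ne_zero_of_mul h0⟩
    · obtain ⟨l₁, l₂, h2, h3, h4, h5⟩ := ih (f := fun l' => f (y :: l')) h1
      exact ⟨y :: l₁, l₂, h2.cons_cons y, h3.cons y, h4, h5⟩

theorem push_ce_ne {v : Y → ℤ} {l : List Y} (h : ce v l ≠ 0) :
    ∃ y y', l = [y, y'] ∧ v y ≠ v y' := by
  match l, h with
  | [], h => exact absurd rfl h
  | [_], h => exact absurd rfl h
  | [y, y'], h =>
    refine ⟨y, y', rfl, fun e => h ?_⟩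
    show v y' - v y = 0
    rw [e, sub_self]
  | _ :: _ :: _ :: _, h => exact absurd rfl h

theorem push_sign {g : Y → ℝ} {y y' : Y} {η : ℝ} (h : Hv g y ≠ Hv g y') (hη : |g y - g y'| ≤ η) :
    |g y| ≤ η ∧ |g y'| ≤ η := by
  have h2 := abs_le.1 hη
  by_cases h3 : 0 ≤ g y <;> by_cases h4 : 0 ≤ g y'
  · rw [Hv_pos h3, Hv_pos h4] at h
    exact absurd rfl h
  · push Not at h4
    constructor <;> rw [abs_le] <;> constructor <;> linarith [h2.1, h2.2]
  · push Not at h3
    constructor <;> rw [abs_le] <;> constructor <;> linarith [h2.1, h2.2]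
  · push Not at h3 h4
    rw [Hv_neg h3, Hv_neg h4] at h
    exact absurd rfl h

/-- a sign change on a tuple -/
theorem push_edge {S : Set (List Y)} {g : Y → ℝ} {η : ℝ} (hg : Vary S g η) {l l' : List Y}
    (hl : l ∈ S) (hl' : l'.Sublist l) (h : ce (Hv g) l' ≠ 0) : ∃ y ∈ l, |g y| ≤ η := by
  obtain ⟨y, y', rfl, h1⟩ := push_ce_ne h
  have hy : y ∈ l := hl'.subset (by simp)
  have hy' : y' ∈ l := hl'.subset (by simp)
  exact ⟨y, hy, (push_sign h1 (hg l hl y hy y' hy')).1⟩

theorem push_edge_all {S : Set (List Y)} {g : Y → ℝ} {η : ℝ} (hg : Vary S g η) {l l' : List Y}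
    (hl : l ∈ S) (hl' : l'.Sublist l) (h : ce (Hv g) l' ≠ 0) {z : Y} (hz : z ∈ l) :
    |g z| ≤ 2 * η := by
  obtain ⟨y, hy, h1⟩ := push_edge hg hl hl' h
  have h2 := hg l hl z hz y hy
  have h3 : |g z| ≤ |g z - g y| + |g y| := by
    have := abs_add_le (g z - g y) (g y)
    simpa using this
  linarith

/-! ### the cochains `cz`, `ce`, `om` -/

theorem push_dl_cz (v : Y → ℤ) (l : List Y) : dl (cz v) l = - ce v l := by
  match l with
  | [] => rfl
  | [y] => simp [dl_singleton, cz, ce]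
  | [y, y'] => simp [dl_pair, cz, ce]
  | y :: y' :: y'' :: l =>
    have h1 : dl (cz v) (y :: y' :: y'' :: l) = 0 := by
      by_contra h
      have := push_dl_len (n := 1) (F := cz v) (fun l hl => by
        match l, hl with
        | [], hl => exact absurd rfl hl
        | [y], _ => rfl
        | _ :: _ :: _, hl => exact absurd rfl hl) _ h
      simp at this
    rw [h1]
    rfl

theorem push_dl_ce (v : Y → ℤ) (l : List Y) : dl (ce v) l = 0 := by
  have h : ce v = fun l => - dl (cz v) l := by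
    funext l
    rw [push_dl_cz, neg_neg]
  rw [h, dl_neg, dl_dl, neg_zero]

theorem push_dl_om (A B C : Y → ℝ) (l : List Y) :
    dl (om A B C) l = - cup (ce (Hv A)) (cup (ce (Hv B)) (ce (Hv C))) l := by
  have h1 : ∀ l, dl (cup (ce (Hv B)) (ce (Hv C))) l = 0 := by
    intro l
    rw [dl_cup' _ _ rfl rfl]
    have h2 : dl (ce (Hv B)) = fun _ => 0 := by funext l; exact push_dl_ce _ _
    have h3 : dl (ce (Hv C)) = fun _ => 0 := by funext l; exact push_dl_ce _ _
    rw [h2, h3, cup_zero_left, cup_zero_right, add_zero]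
  have h2 : dl (cup (ce (Hv B)) (ce (Hv C))) = fun _ => 0 := by funext l; exact h1 l
  have h3 : dl (cz (Hv A)) = fun l => - ce (Hv A) l := by funext l; exact push_dl_cz _ _
  unfold om
  rw [dl_cup' _ _ rfl rfl, h2, h3, cup_zero_right, cup_neg_left, add_zero]

theorem push_cz_len (v : Y → ℤ) (l : List Y) (hl : cz v l ≠ 0) : l.length = 1 := by
  match l, hl with
  | [], hl => exact absurd rfl hl
  | [y], _ => rfl
  | _ :: _ :: _, hl => exact absurd rfl hl

theorem push_ce_len (v : Y → ℤ) (l : List Y) (hl : ce v l ≠ 0) : l.length = 2 := by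
  obtain ⟨y, y', rfl, -⟩ := push_ce_ne hl
  rfl

theorem push_om_len (A B C : Y → ℝ) (l : List Y) (hl : om A B C l ≠ 0) : l.length = 3 := by
  have h1 := push_cup_len (push_cz_len (Hv A)) (n := 3) (G := cup (ce (Hv B)) (ce (Hv C)))
    (fun l hl => by
      have := push_cup_len (push_ce_len (Hv B)) (push_ce_len (Hv C)) l hl
      omega) l hl
  omega

theorem push_unit_len (l : List Y) (hl : unit (1 : ℤ) l ≠ 0) : l.length = 1 := by
  match l, hl with
  | [], hl => exact absurd rfl hl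
  | [y], _ => rfl
  | _ :: _ :: _, hl => exact absurd rfl hl

theorem push_dl_unit (l : List Y) : dl (unit (1 : ℤ)) l = 0 := by
  match l with
  | [] => rfl
  | [y] => simp [dl_singleton, unit]
  | [y, y'] => simp [dl_pair, unit]
  | y :: y' :: y'' :: l =>
    by_contra h
    have := push_dl_len push_unit_len _ h
    simp at this

theorem push_sg_odd {F : List Y → ℤ} {m : ℕ} (h : ∀ l, F l ≠ 0 → l.length = 2 * m + 1)
    (l : List Y) : sg F l = F l := by
  by_cases h0 : F l = 0
  · simp [sg, h0]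
  · have h1 : l.length + 1 = 2 * (m + 1) := by rw [h l h0]; ring
    rw [sg, h1, pow_mul]
    simp

/-! ### the telescoping -/

/-- `b_k` -/
def pushb (a n : ℕ → List Y → ℤ) (k : ℕ) (l : List Y) : ℤ := a k l - dl (n k) l

/-- `b_0 ∪ … ∪ b_{k-1}` -/
def pushB (a n : ℕ → List Y → ℤ) : ℕ → List Y → ℤ
  | 0 => unit 1
  | m + 1 => cup (pushB a n m) (pushb a n m)

/-- `∑ b_0 ∪ … ∪ b_{k-1} ∪ n_k ∪ a_{k+1} ∪ … ∪ a_{m-1}` -/
def pushX (a n : ℕ → List Y → ℤ) : ℕ → List Y → ℤ
  | 0 => fun _ => 0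
  | m + 1 => fun l => cup (pushX a n m) (a m) l + cup (pushB a n m) (n m) l

section

variable {a n : ℕ → List Y → ℤ} (ha : ∀ k l, a k l ≠ 0 → l.length = 3)
  (hn : ∀ k l, n k l ≠ 0 → l.length = 2)

include ha hn

theorem pushb_len (k : ℕ) (l : List Y) (h : pushb a n k l ≠ 0) : l.length = 3 := by
  by_cases h1 : a k l = 0
  · refine push_dl_len (hn k) l (fun h2 => h ?_)
    rw [pushb, h1, h2, sub_zero]
  · exact ha k l h1

theorem pushB_len (m : ℕ) (l : List Y) (h : pushB a n m l ≠ 0) : l.length = 2 * m + 1 := by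
  induction m generalizing l with
  | zero => simpa using push_unit_len l h
  | succ m ih =>
    have := push_cup_len ih (pushb_len ha hn m) l h
    omega

theorem pushX_len (m : ℕ) (l : List Y) (h : pushX a n m l ≠ 0) : l.length = 2 * m := by
  induction m generalizing l with
  | zero => exact absurd rfl h
  | succ m ih =>
    by_cases h1 : cup (pushX a n m) (a m) l = 0
    · have h2 : cup (pushB a n m) (n m) l ≠ 0 := by
        intro h2
        apply h
        show cup (pushX a n m) (a m) l + cup (pushB a n m) (n m) l = 0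
        rw [h1, h2, add_zero]
      have := push_cup_len (pushB_len ha hn m) (hn m) l h2
      omega
    · have := push_cup_len ih (ha m) l h1
      omega

theorem pushb_nil (k : ℕ) : pushb a n k [] = 0 := by
  by_contra h
  have := pushb_len ha hn k [] h
  simp at this

theorem pushB_nil (m : ℕ) : pushB a n m [] = 0 := by
  by_contra h
  have := pushB_len ha hn m [] h
  simp at this

omit ha hn in
theorem pushX_nil (m : ℕ) : pushX a n m [] = 0 := by
  cases m with
  | zero => rfl
  | succ m =>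
    show cup (pushX a n m) (a m) [] + cup (pushB a n m) (n m) [] = 0
    simp

variable {T : Set (List Y)} (hT : Hered T) {κ : ℕ} (hcl : ∀ k < κ, ∀ l ∈ T, dl (a k) l = 0)

include hT hcl

theorem pushB_closed (m : ℕ) (hm : m ≤ κ) (l : List Y) (hl : l ∈ T) :
    dl (pushB a n m) l = 0 := by
  induction m generalizing l with
  | zero => exact push_dl_unit l
  | succ m ih =>
    have hb : ∀ l ∈ T, dl (pushb a n m) l = 0 := by
      intro l hl
      have : pushb a n m = fun l => a m l - dl (n m) l := rfl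
      rw [this, dl_sub, dl_dl, hcl m (by omega) l hl, sub_zero]
    show dl (cup (pushB a n m) (pushb a n m)) l = 0
    rw [dl_cup' _ _ (pushB_nil ha hn m) (pushb_nil ha hn m)]
    rw [cup_congr hT (f := dl (pushB a n m)) (g := fun _ => 0) (F := pushb a n m)
      (G := pushb a n m) (fun l hl => ih (by omega) l hl) (fun _ _ => rfl) hl, cup_zero_left,
      cup_congr hT (f := sg (pushB a n m)) (g := sg (pushB a n m)) (F := dl (pushb a n m))
      (G := fun _ => 0) (fun _ _ => rfl) hb hl, cup_zero_right, add_zero]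

theorem pushX_dl {P : ℕ → List Y → ℤ} (hP0 : P 0 = unit 1)
    (hP : ∀ m, P (m + 1) = cup (P m) (a m)) (m : ℕ) (hm : m ≤ κ) (l : List Y) (hl : l ∈ T) :
    dl (pushX a n m) l = P m l - pushB a n m l := by
  induction m generalizing l with
  | zero =>
    show dl (fun _ => (0 : ℤ)) l = P 0 l - unit 1 l
    rw [dl_zero, hP0, sub_self]
  | succ m ih =>
    have ham : a m [] = 0 := by
      by_contra h
      have := ha m [] h
      simp at this
    have hnm : n m [] = 0 := by
      by_contra h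
      have := hn m [] h
      simp at this
    have e1 : dl (pushX a n (m + 1)) l =
        dl (fun l => cup (pushX a n m) (a m) l + cup (pushB a n m) (n m) l) l := rfl
    have hsg : sg (pushB a n m) = pushB a n m := by
      funext l
      exact push_sg_odd (pushB_len ha hn m) l
    have e2 : pushB a n (m + 1) l = cup (pushB a n m) (a m) l - cup (pushB a n m) (dl (n m)) l := by
      show cup (pushB a n m) (fun l => a m l - dl (n m) l) l = _
      rw [cup_sub_right]
    rw [e1, dl_add, dl_cup' _ _ (pushX_nil m) ham, dl_cup' _ _ (pushB_nil ha hn m) hnm,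
      hsg, e2, hP m]
    rw [cup_congr hT (f := dl (pushX a n m)) (g := fun l => P m l - pushB a n m l) (F := a m)
      (G := a m) (fun l hl => ih (by omega) l hl) (fun _ _ => rfl) hl, cup_sub_left]
    rw [cup_congr hT (f := sg (pushX a n m)) (g := sg (pushX a n m)) (F := dl (a m))
      (G := fun _ => 0) (fun _ _ => rfl) (hcl m (by omega)) hl, cup_zero_right]
    rw [cup_congr hT (f := dl (pushB a n m)) (g := fun _ => 0) (F := n m)
      (G := n m) (fun l hl => pushB_closed ha hn hT hcl m (by omega) l hl) (fun _ _ => rfl) hl,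
      cup_zero_left]
    ring

omit ha hn hcl in
theorem pushB_zero {k₀ : ℕ} (h0 : ∀ l ∈ T, dl (n k₀) l = a k₀ l) (m : ℕ) (hm : k₀ < m)
    (l : List Y) (hl : l ∈ T) : pushB a n m l = 0 := by
  induction m generalizing l with
  | zero => omega
  | succ m ih =>
    show cup (pushB a n m) (pushb a n m) l = 0
    rcases Nat.lt_succ_iff_lt_or_eq.1 hm with h1 | h1
    · rw [cup_congr hT (f := pushB a n m) (g := fun _ => 0) (F := pushb a n m)
        (G := pushb a n m) (fun l hl => ih h1 l hl) (fun _ _ => rfl) hl, cup_zero_left]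
    · subst h1
      rw [cup_congr hT (f := pushB a n k₀) (g := pushB a n k₀) (F := pushb a n k₀)
        (G := fun _ => 0) (fun _ _ => rfl) (fun l hl => by rw [pushb, h0 l hl, sub_self]) hl,
        cup_zero_right]

end

/-! ### the radial functions -/

theorem push_rad_le {a b c a' b' c' : ℝ} :
    Real.sqrt (a ^ 2 + b ^ 2 + c ^ 2) ≤
      Real.sqrt (a' ^ 2 + b' ^ 2 + c' ^ 2) + (|a - a'| + |b - b'| + |c - c'|) := by
  set r := Real.sqrt (a' ^ 2 + b' ^ 2 + c' ^ 2) with hr
  have hr0 : 0 ≤ r := Real.sqrt_nonneg _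
  have hr2 : r ^ 2 = a' ^ 2 + b' ^ 2 + c' ^ 2 := Real.sq_sqrt (by positivity)
  have ha : |a'| ≤ r := Real.abs_le_sqrt (by nlinarith [sq_nonneg b', sq_nonneg c'])
  have hb : |b'| ≤ r := Real.abs_le_sqrt (by nlinarith [sq_nonneg a', sq_nonneg c'])
  have hc : |c'| ≤ r := Real.abs_le_sqrt (by nlinarith [sq_nonneg b', sq_nonneg a'])
  rw [Real.sqrt_le_left (by positivity)]
  have key : ∀ x x' : ℝ, |x'| ≤ r → x ^ 2 ≤ x' ^ 2 + 2 * r * |x - x'| + |x - x'| ^ 2 := by
    intro x x' hx
    have h1 : x ^ 2 = x' ^ 2 + 2 * x' * (x - x') + (x - x') ^ 2 := by ring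
    have h2 : x' * (x - x') ≤ r * |x - x'| := by
      calc x' * (x - x') ≤ |x' * (x - x')| := le_abs_self _
        _ = |x'| * |x - x'| := abs_mul _ _
        _ ≤ r * |x - x'| := mul_le_mul_of_nonneg_right hx (abs_nonneg _)
    rw [h1, sq_abs]
    linarith
  have h1 := key a a' ha
  have h2 := key b b' hb
  have h3 := key c c' hc
  have p1 := mul_nonneg (abs_nonneg (a - a')) (abs_nonneg (b - b'))
  have p2 := mul_nonneg (abs_nonneg (a - a')) (abs_nonneg (c - c'))
  have p3 := mul_nonneg (abs_nonneg (b - b')) (abs_nonneg (c - c'))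
  nlinarith

theorem push_le_rad (A B C : Y → ℝ) (y : Y) :
    |A y| ≤ rad A B C y ∧ |B y| ≤ rad A B C y ∧ |C y| ≤ rad A B C y := by
  refine ⟨Real.abs_le_sqrt ?_, Real.abs_le_sqrt ?_, Real.abs_le_sqrt ?_⟩ <;>
    nlinarith [sq_nonneg (A y), sq_nonneg (B y), sq_nonneg (C y)]

theorem push_rad_sum (A B C : Y → ℝ) (y : Y) : rad A B C y ≤ |A y| + |B y| + |C y| := by
  have h := push_rad_le (a := A y) (b := B y) (c := C y) (a' := 0) (b' := 0) (c' := 0)
  simpa [rad] using h

theorem push_vary_rad {S : Set (List Y)} {A B C : Y → ℝ} {α β γ ρ : ℝ} (hA : Vary S A α)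
    (hB : Vary S B β) (hC : Vary S C γ) :
    Vary S (fun y => rad A B C y - ρ) (α + β + γ) := by
  intro l hl y hy y' hy'
  have h1 := hA l hl y hy y' hy'
  have h2 := hB l hl y hy y' hy'
  have h3 := hC l hl y hy y' hy'
  have e1 := push_rad_le (a := A y) (b := B y) (c := C y) (a' := A y') (b' := B y') (c' := C y')
  have e2 := push_rad_le (a := A y') (b := B y') (c := C y') (a' := A y) (b' := B y) (c' := C y)
  rw [abs_sub_comm (A y'), abs_sub_comm (B y'), abs_sub_comm (C y')] at e2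
  simp only [rad]
  rw [abs_le]
  constructor <;> linarith

section

variable {f : ℕ → Y → ℝ} {ρ : ℕ → ℝ} {κ : ℕ} {η : ℝ}

theorem push_nF_vary {S : Set (List Y)} (hf : ∀ k ≤ 2 * κ, Vary S (f k) η) (i : ℕ) (hi : i ≤ κ) :
    Vary S (nF f ρ i) ((2 * i + 1) * η) := by
  induction i with
  | zero => simpa [nF] using hf 0 (by omega)
  | succ i ih =>
    have h := push_vary_rad (ρ := ρ i) (ih (by omega)) (hf (2 * i + 1) (by omega))
      (hf (2 * i + 2) (by omega))
    have e : (2 * ((i + 1 : ℕ) : ℝ) + 1) * η = (2 * (i : ℝ) + 1) * η + η + η := by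
      push_cast; ring
    rw [e]
    exact h

theorem push_nF_step (y : Y) (i : ℕ) :
    |nF f ρ i y| ≤ nF f ρ (i + 1) y + ρ i ∧ |f (2 * i + 1) y| ≤ nF f ρ (i + 1) y + ρ i ∧
      |f (2 * i + 2) y| ≤ nF f ρ (i + 1) y + ρ i := by
  have h := push_le_rad (nF f ρ i) (f (2 * i + 1)) (f (2 * i + 2)) y
  have e : nF f ρ (i + 1) y + ρ i = rad (nF f ρ i) (f (2 * i + 1)) (f (2 * i + 2)) y := by
    simp only [nF]; ring
  rw [e]
  exact h

theorem push_nF_down (hη : 0 < η) (hρ8 : ∀ l, ρ (l + 1) ≤ ρ l / 8)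
    (hρη : ∀ l < κ, 100 * (κ + 1) * η ≤ ρ l) (y : Y) (j : ℕ) (i : ℕ) (hij : i + (j + 1) = κ) :
    |nF f ρ i y| ≤ |nF f ρ κ y| + 8 / 7 * ρ i := by
  have hpos : ∀ l < κ, 0 ≤ ρ l := fun l hl => le_trans (by positivity) (hρη l hl)
  induction j generalizing i with
  | zero =>
    have h1 := (push_nF_step (f := f) (ρ := ρ) y i).1
    have h2 : i + 1 = κ := by omega
    rw [h2] at h1
    have h3 := le_abs_self (nF f ρ κ y)
    have h4 := hpos i (by omega)
    linarith
  | succ j ih =>
    have h1 := (push_nF_step (f := f) (ρ := ρ) y i).1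
    have h2 := ih (i + 1) (by omega)
    have h3 := le_abs_self (nF f ρ (i + 1) y)
    have h4 := hρ8 i
    linarith

theorem push_nF_next (hη : 0 < η) (hρ8 : ∀ l, ρ (l + 1) ≤ ρ l / 8)
    (hρη : ∀ l < κ, 100 * (κ + 1) * η ≤ ρ l) (y : Y) (i : ℕ) (hi : i < κ) :
    |nF f ρ (i + 1) y| ≤ |nF f ρ κ y| + ρ i / 7 := by
  have h0 : 0 ≤ ρ i := le_trans (by positivity) (hρη i hi)
  rcases Nat.lt_or_ge (i + 1) κ with h | h
  · have h1 := push_nF_down (f := f) hη hρ8 hρη y (κ - i - 2) (i + 1) (by omega)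
    have h2 := hρ8 i
    linarith
  · have : i + 1 = κ := by omega
    rw [this]
    linarith

/-- the cochains `a_k` are closed where `nF κ` is small -/
theorem push_closed {S : Set (List Y)} (hη : 0 < η)
    (hρ8 : ∀ l, ρ (l + 1) ≤ ρ l / 8) (hρη : ∀ l < κ, 100 * (κ + 1) * η ≤ ρ l)
    (hf : ∀ k ≤ 2 * κ, Vary S (f k) η) {t : List Y → ℤ} (ht : ∀ l ∈ S, dl t l = 0)
    {l : List Y} (hl : l ∈ S) (hy : ∀ y ∈ l, |nF f ρ κ y| ≤ (2 * κ + 1) * η) {k : ℕ}
    (hk : k < κ) : dl (aL t f ρ k) l = 0 := by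
  have e0 : aL t f ρ k = fun l => t l + om (nF f ρ k) (f (2 * k + 1)) (f (2 * k + 2)) l := rfl
  rw [e0, dl_add, ht l hl, push_dl_om, zero_add, neg_eq_zero]
  by_contra h
  obtain ⟨l₁, l₂, h1, h2, h3, h4⟩ := push_cup_ne l h
  obtain ⟨l₃, l₄, h5, h6, h7, h8⟩ := push_cup_ne l₂ h4
  obtain ⟨y, hyl, h9⟩ := push_edge (push_nF_vary hf k (by omega)) hl h1 h3
  have h10 := push_edge_all (hf (2 * k + 1) (by omega)) hl (h5.trans h2) h7 hyl
  have h11 := push_edge_all (hf (2 * k + 2) (by omega)) hl (h6.trans h2) h8 hyl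
  have h12 := push_rad_sum (nF f ρ k) (f (2 * k + 1)) (f (2 * k + 2)) y
  have h13 := push_nF_next (f := f) hη hρ8 hρη y k hk
  have h14 := hy y hyl
  have h15 := hρη k hk
  have h16 : nF f ρ (k + 1) y = rad (nF f ρ k) (f (2 * k + 1)) (f (2 * k + 2)) y - ρ k := rfl
  have h17 := neg_abs_le (nF f ρ (k + 1) y)
  have h18 : (k : ℝ) + 1 ≤ κ := by exact_mod_cast hk
  have h19 : (2 * (k : ℝ) + 1) * η ≤ (2 * (κ : ℝ) + 1) * η := by
    apply mul_le_mul_of_nonneg_right _ hη.le
    linarith
  have h20 : 0 ≤ (κ : ℝ) := Nat.cast_nonneg κ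
  nlinarith

end

/-! ### the theorem -/

/-- **Group push.** On tuples inside `E` the top cochain of a group of `2κ + 1` coordinates is a
coboundary of a cochain supported near `f = 0`. -/
theorem push {S : Set (List Y)} (hS : Hered S) {κ : ℕ} (hκ : 1 ≤ κ) {f : ℕ → Y → ℝ} {ρ : ℕ → ℝ}
    {η : ℝ} (hη : 0 < η) (hρ0 : ρ 0 ≤ 1 / 32) (hρ8 : ∀ l, ρ (l + 1) ≤ ρ l / 8)
    (hρη : ∀ l < κ, 100 * (κ + 1) * η ≤ ρ l) (hf : ∀ k ≤ 2 * κ, Vary S (f k) η)
    {t : List Y → ℤ} (ht0 : ∀ l, t l ≠ 0 → l.length = 3) (ht : ∀ l ∈ S, dl t l = 0)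
    (E : Set Y) (n : ℕ → List Y → ℤ) (hn : ∀ k l, n k l ≠ 0 → l.length = 2)
    (hE : ∀ l ∈ S, (∀ y ∈ l, y ∈ E ∧ |nF f ρ κ y| ≤ (2 * κ + 1) * η) →
      ∃ k < κ, ∀ l', l'.Sublist l → dl (n k) l' = aL t f ρ k l') :
    ∃ μ : List Y → ℤ, (∀ l, μ l ≠ 0 → l.length = 2 * κ + 1) ∧
      (∀ l ∈ S, μ l ≠ 0 → ∀ y ∈ l, ∀ k ≤ 2 * κ, |f k y| ≤ 1 / 8) ∧
      (∀ l ∈ S, (∀ y ∈ l, y ∈ E) → dl μ l = tau (gvs f κ) l) ∧
      ∀ σ : Y → Y, (∀ k ≤ 2 * κ, ∀ y, f k (σ y) = f k y) → (∀ l, t (l.map σ) = t l) →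
        (∀ k l, n k (l.map σ) = n k l) → ∀ l, μ (l.map σ) = μ l := by
  obtain ⟨C, hC1, hC2, hC3, hC4⟩ := levels hS hη hρ0 hρ8 hρη hf ht0 ht
  have ha : ∀ k l, aL t f ρ k l ≠ 0 → l.length = 3 := by
    intro k l h
    by_cases h1 : t l = 0
    · refine push_om_len (nF f ρ k) (f (2 * k + 1)) (f (2 * k + 2)) l (fun h2 => h ?_)
      show t l + om (nF f ρ k) (f (2 * k + 1)) (f (2 * k + 2)) l = 0
      rw [h1, h2, add_zero]
    · exact ht0 l h1
  set X : List Y → ℤ := pushX (aL t f ρ) n κ with hX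
  set D : List Y → ℤ := cup X (ce (Hv (nF f ρ κ))) with hD
  have hD1 : ∀ l, D l ≠ 0 → l.length = 2 * κ + 1 := by
    intro l h
    have := push_cup_len (pushX_len ha hn κ) (push_ce_len _) l h
    omega
  have hsplit : ∀ l, C l + (-1) ^ κ * D l ≠ 0 → C l ≠ 0 ∨ D l ≠ 0 := by
    intro l h
    by_contra h2
    push Not at h2
    exact h (by rw [h2.1, h2.2]; ring)
  refine ⟨fun l => C l + (-1) ^ κ * D l, ?_, ?_, ?_, ?_⟩
  · intro l h
    rcases hsplit l h with h1 | h1
    · exact hC1 l h1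
    · exact hD1 l h1
  · intro l hl h
    rcases hsplit l h with h1 | h1
    · exact hC2 l hl h1
    · obtain ⟨l₁, l₂, h2, h3, h4, h5⟩ := push_cup_ne l h1
      obtain ⟨z, hz, h6⟩ := push_edge (push_nF_vary hf κ le_rfl) hl h3 h5
      intro y hy k hk
      have h00 := hρη 0 (by omega)
      have h20 : 0 ≤ (κ : ℝ) := Nat.cast_nonneg κ
      have hsmall : (2 * (κ : ℝ) + 1) * η ≤ ρ 0 / 50 := by nlinarith
      have hη2 : η ≤ ρ 0 / 100 := by nlinarith
      have hmono : ∀ i < κ, ρ i ≤ ρ 0 := by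
        intro i hi
        induction i with
        | zero => exact le_rfl
        | succ i ih =>
          have g1 := ih (by omega)
          have g2 := hρ8 i
          have g3 : 0 ≤ ρ i := le_trans (by positivity) (hρη i (by omega))
          linarith
      have hz2 : |f k z| ≤ 1 / 16 := by
        have hcase : k = 0 ∨ ∃ i < κ, k = 2 * i + 1 ∨ k = 2 * i + 2 := by
          rcases Nat.eq_zero_or_pos k with h | h
          · exact Or.inl h
          · refine Or.inr ⟨(k - 1) / 2, by omega, by omega⟩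
        rcases hcase with rfl | ⟨i, hi, hki⟩
        · have g1 := push_nF_down (f := f) hη hρ8 hρη z (κ - 1) 0 (by omega)
          have g2 : nF f ρ 0 z = f 0 z := rfl
          rw [g2] at g1
          linarith
        · have g1 := push_nF_step (f := f) (ρ := ρ) z i
          have g2 := push_nF_next (f := f) hη hρ8 hρη z i hi
          have g3 := le_abs_self (nF f ρ (i + 1) z)
          have g4 := hmono i hi
          rcases hki with rfl | rfl
          · linarith [g1.2.1]
          · linarith [g1.2.2]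
      have h7 := hf k hk l hl y hy z hz
      have h8 : |f k y| ≤ |f k y - f k z| + |f k z| := by
        have := abs_add_le (f k y - f k z) (f k z)
        simpa using this
      linarith
  · intro l hl hlE
    have hT : Hered {l' : List Y | l'.Sublist l} := fun l₁ h1 l₂ h2 => h2.trans h1
    have hlT : l ∈ {l' : List Y | l'.Sublist l} := List.Sublist.refl l
    have hX0 : X [] = 0 := pushX_nil κ
    have hmain : cup (dl X) (ce (Hv (nF f ρ κ))) l = cup (PL t f ρ κ) (ce (Hv (nF f ρ κ))) l := by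
      by_cases hc : ∀ y ∈ l, |nF f ρ κ y| ≤ (2 * κ + 1) * η
      · obtain ⟨k₀, hk₀, h1⟩ := hE l hl fun y hy => ⟨hlE y hy, hc y hy⟩
        have hcl : ∀ k < κ, ∀ l' ∈ {l' : List Y | l'.Sublist l}, dl (aL t f ρ k) l' = 0 := by
          intro k hk l' hl'
          exact push_closed hη hρ8 hρη hf ht (hS l hl l' hl')
            (fun y hy => hc y (List.Sublist.subset hl' hy)) hk
        refine cup_congr hT (fun l' hl' => ?_) (fun _ _ => rfl) hlT
        rw [hX, pushX_dl ha hn hT hcl (P := PL t f ρ) rfl (fun m => rfl) κ le_rfl l' hl',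
          pushB_zero hT h1 κ hk₀ l' hl', sub_zero]
      · push Not at hc
        obtain ⟨z, hz, h1⟩ := hc
        have h2 : ∀ l' ∈ {l' : List Y | l'.Sublist l}, ce (Hv (nF f ρ κ)) l' = 0 := by
          intro l' hl'
          by_contra h3
          obtain ⟨y, y', rfl, h4⟩ := push_ce_ne h3
          have hV := push_nF_vary (ρ := ρ) hf κ le_rfl l hl
          have hy : y ∈ l := List.Sublist.subset hl' (by simp)
          have hy' : y' ∈ l := List.Sublist.subset hl' (by simp)
          have g1 := abs_le.1 (hV z hz y hy)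
          have g2 := abs_le.1 (hV z hz y' hy')
          apply h4
          rcases lt_abs.1 h1 with h5 | h5
          · rw [Hv_pos (by linarith [g1.2]), Hv_pos (by linarith [g2.2])]
          · rw [Hv_neg (by linarith [g1.1]), Hv_neg (by linarith [g2.1])]
        rw [cup_congr hT (f := dl X) (g := dl X) (F := ce (Hv (nF f ρ κ))) (G := fun _ => 0)
          (fun _ _ => rfl) h2 hlT, cup_zero_right,
          cup_congr hT (f := PL t f ρ κ) (g := PL t f ρ κ) (F := ce (Hv (nF f ρ κ)))
          (G := fun _ => 0) (fun _ _ => rfl) h2 hlT, cup_zero_right]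
    have hce : dl (ce (Hv (nF f ρ κ))) = fun _ => 0 := by
      funext l
      exact push_dl_ce _ _
    have hDl : dl D l = cup (PL t f ρ κ) (ce (Hv (nF f ρ κ))) l := by
      rw [hD, dl_cup' _ _ hX0 rfl, hce, cup_zero_right, add_zero, hmain]
    have e1 : dl (fun l => C l + (-1) ^ κ * D l) l = dl C l + (-1) ^ κ * dl D l := by
      rw [dl_add]
      congr 1
      have := dl_zsmul ((-1) ^ κ) D l
      simpa using this
    rw [e1, hDl, hC3 l hl]
    ring
  · intro σ hσ1 hσ2 hσ3 l
    have h1 := hC4 σ hσ1 hσ2 l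
    have hnF : ∀ i ≤ κ, ∀ y, nF f ρ i (σ y) = nF f ρ i y := by
      intro i hi
      induction i with
      | zero => exact fun y => hσ1 0 (by omega) y
      | succ i ih =>
        intro y
        simp only [nF, rad]
        rw [ih (by omega) y, hσ1 (2 * i + 1) (by omega), hσ1 (2 * i + 2) (by omega)]
    have hHv : ∀ g : Y → ℝ, (∀ y, g (σ y) = g y) → ∀ y, Hv g (σ y) = Hv g y := by
      intro g hg y
      simp only [Hv, hg y]
    have hce : ∀ g : Y → ℝ, (∀ y, g (σ y) = g y) →
        (fun l : List Y => ce (Hv g) (l.map σ)) = ce (Hv g) := by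
      intro g hg
      funext l
      match l with
      | [] => rfl
      | [_] => rfl
      | [y, y'] =>
        show Hv g (σ y') - Hv g (σ y) = Hv g y' - Hv g y
        rw [hHv g hg, hHv g hg]
      | _ :: _ :: _ :: _ => rfl
    have hcz : ∀ g : Y → ℝ, (∀ y, g (σ y) = g y) →
        (fun l : List Y => cz (Hv g) (l.map σ)) = cz (Hv g) := by
      intro g hg
      funext l
      match l with
      | [] => rfl
      | [y] =>
        show 1 - Hv g (σ y) = 1 - Hv g y
        rw [hHv g hg]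
      | _ :: _ :: _ => rfl
    have hcup : ∀ F G : List Y → ℤ, (fun l : List Y => F (l.map σ)) = F →
        (fun l : List Y => G (l.map σ)) = G → (fun l : List Y => cup F G (l.map σ)) = cup F G := by
      intro F G hF hG
      funext l
      rw [← cup_comp σ F G l, hF, hG]
    have hak : ∀ k < κ, (fun l : List Y => aL t f ρ k (l.map σ)) = aL t f ρ k := by
      intro k hk
      have h2 : (fun l : List Y => om (nF f ρ k) (f (2 * k + 1)) (f (2 * k + 2)) (l.map σ)) =
          om (nF f ρ k) (f (2 * k + 1)) (f (2 * k + 2)) :=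
        hcup _ _ (hcz _ (hnF k (by omega))) (hcup _ _ (hce _ (hσ1 _ (by omega)))
          (hce _ (hσ1 _ (by omega))))
      funext l
      have h3 := congrFun h2 l
      show t (l.map σ) + om (nF f ρ k) (f (2 * k + 1)) (f (2 * k + 2)) (l.map σ) =
        t l + om (nF f ρ k) (f (2 * k + 1)) (f (2 * k + 2)) l
      rw [hσ2 l]
      rw [h3]
    have hnk : ∀ k, (fun l : List Y => n k (l.map σ)) = n k := fun k => funext (hσ3 k)
    have hbk : ∀ k < κ, (fun l : List Y => pushb (aL t f ρ) n k (l.map σ)) =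
        pushb (aL t f ρ) n k := by
      intro k hk
      funext l
      have h2 := congrFun (hak k hk) l
      show aL t f ρ k (l.map σ) - dl (n k) (l.map σ) = aL t f ρ k l - dl (n k) l
      rw [h2, ← dl_comp σ (n k) l, hnk k]
    have hBk : ∀ m ≤ κ, (fun l : List Y => pushB (aL t f ρ) n m (l.map σ)) =
        pushB (aL t f ρ) n m := by
      intro m hm
      induction m with
      | zero =>
        funext l
        match l with
        | [] => rfl
        | [_] => rfl
        | _ :: _ :: _ => rfl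
      | succ m ih => exact hcup _ _ (ih (by omega)) (hbk m (by omega))
    have hXk : ∀ m ≤ κ, (fun l : List Y => pushX (aL t f ρ) n m (l.map σ)) =
        pushX (aL t f ρ) n m := by
      intro m hm
      induction m with
      | zero => rfl
      | succ m ih =>
        funext l
        have g1 := congrFun (hcup _ _ (ih (by omega)) (hak m (by omega))) l
        have g2 := congrFun (hcup _ _ (hBk m (by omega)) (hnk m)) l
        show cup (pushX (aL t f ρ) n m) (aL t f ρ m) (l.map σ) +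
          cup (pushB (aL t f ρ) n m) (n m) (l.map σ) =
          cup (pushX (aL t f ρ) n m) (aL t f ρ m) l + cup (pushB (aL t f ρ) n m) (n m) l
        rw [g1, g2]
    have hDk := congrFun (hcup _ _ (hXk κ le_rfl) (hce _ (hnF κ le_rfl))) l
    show C (l.map σ) + (-1) ^ κ * D (l.map σ) = C l + (-1) ^ κ * D l
    rw [h1, hD, hX, hDk]

end Vale.Agent.P093.Hom
end

section

/-!
TASK HOM-C: rounding phases to integral cochains.

Proofs.
* `round_cochain`: on `[y₀,y₁,y₂] ∈ S` with vertices in `E`, `|n - δα - th| ≤ 1/16` on the three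
  edges (`n` = rounded values), `δδα = 0`, `|δth - T| ≤ 1/16`, so the integers `δn`, `T` differ by at
  most `4/16 < 1`. For tuples of other lengths both sides vanish.
* `arg_close`: `ph θ = exp(2πiθ)`. With `x = (arg z₁ - arg z₀)/(2π) + θ`: `ph x = (1+w)/|1+w|` with
  `|w| ≤ 1/100`, so `|ph x - 1| ≤ 1/40`; and `|ph x - 1| = 2 |sin (π x)| ≥ 4 |x - round x|`
  (`Real.mul_le_sin` or similar).
* `arg_jump`: put `x = (arg z' - arg z)/(2π) ∈ (-1, 1)`; as in `arg_close` it is within `1/32` of an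
  integer, i.e. of `-1, 0, 1`. If `0 ≤ A`: `arg z ∈ [-π/2, π/2]`, so `|arg z' - arg z| ≤ 3π/2` and the
  integer is `0`. If `A < 0` and `B, B'` have the same `H`: both arguments in `[0,π]` or both in
  `(-π,0)`, integer `0`. If `A < 0 ≤ B`, `B' < 0`: `arg z ∈ (π/2, π]`, `arg z' < 0`, so
  `x < -1/4`, integer `-1`. If `A < 0`, `B < 0 ≤ B'`: integer `1`.
* `hopf_round`: write `az = arg (A + iB)`, `α = alH C v0 v1`, `th' = thH A B C th`; apply
  `round_cochain` with `T = aco t A B C`. On `E`: `|v1|² (rad + C) = |v0|² (rad - C)` (from (h1) or (h2)), so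
  `|v0|² ≥ ε²/2` if `0 ≤ C`, `|v1|² ≥ ε²/2` if `C ≤ 0`.
  Edges: same sign of `C` at both ends: `arg_close` for `v0` (resp. `v1`).
  `C y₀ ≥ 0 > C y₁`: `0 ≤ C y₀ ≤ η`, `v1 y₀ = v0 y₀ (A + iB)/(rad + C)` at `y₀`, hence
  `arg v0 y₀ + az y₀ ≡ arg v1 y₀` mod `2π`, and `|v1 y₀| ≥ ε/2`; `arg_close` for `v1`.
  `C y₀ < 0 ≤ C y₁`: `v0 y₀ = v1 y₀ (A - iB)/(rad - C)`, `arg v1 y₀ - az y₀ ≡ arg v0 y₀`; for `v0`.
  Triples: `δth' - δth = (az y₁ - az y₀)/(2π) * (Hv C y₂ - Hv C y₁)`; if `Hv C y₂ ≠ Hv C y₁` then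
  `|C| ≤ 2η` at all three vertices, `|A + iB| ≥ rad - 2η ≥ r₀/2`, the change of `A + iB` is
  at most `2η ≤ r₀/200`, so `arg_jump` gives
  `(az y₁ - az y₀)/(2π) ≈ (1 - Hv A y₀) (Hv B y₁ - Hv B y₀)` up to `1/32`.
-/

namespace Vale.Agent.P093.Hom

variable {Y : Type*}

/-- `exp(2πiθ)` -/
noncomputable def ph (θ : ℝ) : ℂ := Complex.exp (2 * Real.pi * θ * Complex.I)

open scoped Classical in
/-- rounded differences -/
noncomputable def rn (E : Set Y) (α : Y → ℝ) (th : Y → Y → ℝ) : List Y → ℤ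
  | [y₀, y₁] => if y₀ ∈ E ∧ y₁ ∈ E then round (α y₁ - α y₀ + th y₀ y₁) else 0
  | _ => 0

theorem ra_dl_len (F : List Y → ℤ) (k : ℕ) (hF : ∀ l, l.length ≠ k → F l = 0) (l : List Y)
    (hl : l.length ≠ k + 1) : dl F l = 0 := by
  induction l generalizing F k with
  | nil => rfl
  | cons y l ih =>
    rw [List.length_cons] at hl
    rw [dl_cons, hF l (by omega)]
    cases k with
    | zero =>
      have h1 : (fun l' => F (y :: l')) = fun _ => 0 := by
        funext l'
        exact hF _ (by rw [List.length_cons]; omega)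
      rw [h1, dl_zero, sub_zero]
    | succ k =>
      rw [ih (fun l' => F (y :: l')) k (fun l' hl' => hF _ (by rw [List.length_cons]; omega))
        (by omega), sub_zero]

theorem ra_rn_len (E : Set Y) (α : Y → ℝ) (th : Y → Y → ℝ) (l : List Y) (hl : l.length ≠ 2) :
    rn E α th l = 0 := by
  match l with
  | [] => rfl
  | [_] => rfl
  | [_, _] => exact absurd rfl hl
  | _ :: _ :: _ :: _ => rfl

theorem round_cochain {S : Set (List Y)} (hS : Hered S) (E : Set Y) (α : Y → ℝ)
    (th : Y → Y → ℝ) (T : List Y → ℤ) (hT : ∀ l, T l ≠ 0 → l.length = 3)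
    (h1 : ∀ y₀ y₁, [y₀, y₁] ∈ S → y₀ ∈ E → y₁ ∈ E →
      |α y₁ - α y₀ + th y₀ y₁ - round (α y₁ - α y₀ + th y₀ y₁)| ≤ 1 / 16)
    (h2 : ∀ y₀ y₁ y₂, [y₀, y₁, y₂] ∈ S → y₀ ∈ E → y₁ ∈ E → y₂ ∈ E →
      |th y₁ y₂ - th y₀ y₂ + th y₀ y₁ - T [y₀, y₁, y₂]| ≤ 1 / 16) :
    ∀ l ∈ S, (∀ y ∈ l, y ∈ E) → dl (rn E α th) l = T l := by
  intro l hl hE
  by_cases h3 : l.length = 3
  · obtain ⟨y₀, y₁, y₂, rfl⟩ := List.length_eq_three.1 h3
    have e0 : y₀ ∈ E := hE _ (by simp)
    have e1 : y₁ ∈ E := hE _ (by simp)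
    have e2 : y₂ ∈ E := hE _ (by simp)
    have s12 : [y₁, y₂] ∈ S := hS _ hl _ (List.sublist_cons_self _ _)
    have s02 : [y₀, y₂] ∈ S := hS _ hl _ ((List.sublist_cons_self _ _).cons_cons _)
    have s01 : [y₀, y₁] ∈ S :=
      hS _ hl _ (((List.sublist_cons_self _ _).cons_cons _).cons_cons _)
    have a12 := h1 _ _ s12 e1 e2
    have a02 := h1 _ _ s02 e0 e2
    have a01 := h1 _ _ s01 e0 e1
    have a := h2 _ _ _ hl e0 e1 e2
    rw [dl_triple]
    have r12 : rn E α th [y₁, y₂] = round (α y₂ - α y₁ + th y₁ y₂) := if_pos ⟨e1, e2⟩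
    have r02 : rn E α th [y₀, y₂] = round (α y₂ - α y₀ + th y₀ y₂) := if_pos ⟨e0, e2⟩
    have r01 : rn E α th [y₀, y₁] = round (α y₁ - α y₀ + th y₀ y₁) := if_pos ⟨e0, e1⟩
    rw [r12, r02, r01]
    generalize round (α y₂ - α y₁ + th y₁ y₂) = n12 at a12 ⊢
    generalize round (α y₂ - α y₀ + th y₀ y₂) = n02 at a02 ⊢
    generalize round (α y₁ - α y₀ + th y₀ y₁) = n01 at a01 ⊢
    generalize T [y₀, y₁, y₂] = N at a ⊢
    rw [abs_le] at a12 a02 a01 a
    have u1 : ((n12 - n02 + n01 : ℤ) : ℝ) < ((N + 1 : ℤ) : ℝ) := by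
      push_cast
      linarith [a12.1, a12.2, a02.1, a02.2, a01.1, a01.2, a.1, a.2]
    have u2 : ((N : ℤ) : ℝ) < ((n12 - n02 + n01 + 1 : ℤ) : ℝ) := by
      push_cast
      linarith [a12.1, a12.2, a02.1, a02.2, a01.1, a01.2, a.1, a.2]
    have u3 := Int.cast_lt.1 u1
    have u4 := Int.cast_lt.1 u2
    omega
  · rw [ra_dl_len (rn E α th) 2 (ra_rn_len E α th) l h3]
    by_contra h4
    exact h3 (hT l fun h => h4 h.symm)

theorem ra_aux {r0 r1 t : ℝ} (h0 : 0 < r0) (h1 : 0 ≤ r1)
    (hc : r0 * (99 / 100) ≤ r1 * Real.cos t) (hs : |r1 * Real.sin t| ≤ r0 / 100) :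
    |t / (2 * Real.pi) - round (t / (2 * Real.pi))| ≤ 1 / 32 := by
  have hpi := Real.pi_pos
  obtain ⟨n, hn⟩ : ∃ n, n = round (t / (2 * Real.pi)) := ⟨_, rfl⟩
  obtain ⟨y, hy⟩ : ∃ y, y = t / (2 * Real.pi) - n := ⟨_, rfl⟩
  have hy2 : |y| ≤ 1 / 2 := by
    rw [hy, hn]
    exact abs_sub_round _
  rw [← hn, ← hy]
  have ht : 2 * Real.pi * y = t - n * (2 * Real.pi) := by
    rw [hy]
    field_simp
  have hcos : Real.cos (2 * Real.pi * y) = Real.cos t := by
    rw [ht, Real.cos_sub_int_mul_two_pi]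
  have hsin : Real.sin (2 * Real.pi * y) = Real.sin t := by
    rw [ht, Real.sin_sub_int_mul_two_pi]
  have hc0 : 0 < Real.cos t := by
    by_contra hneg
    have : r1 * Real.cos t ≤ 0 := mul_nonpos_of_nonneg_of_nonpos h1 (not_lt.1 hneg)
    linarith
  have hr : r0 * (99 / 100) ≤ r1 := by
    have : r1 * Real.cos t ≤ r1 * 1 := mul_le_mul_of_nonneg_left (Real.cos_le_one t) h1
    linarith
  have hs1 : |Real.sin t| ≤ 1 / 99 := by
    rw [abs_mul, abs_of_nonneg h1] at hs
    by_contra hneg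
    have h5 := not_le.1 hneg
    have h6 : r0 * (99 / 100) * |Real.sin t| ≤ r1 * |Real.sin t| :=
      mul_le_mul_of_nonneg_right hr (abs_nonneg _)
    have h7 : r0 * (99 / 100) * (1 / 99) < r0 * (99 / 100) * |Real.sin t| :=
      mul_lt_mul_of_pos_left h5 (by positivity)
    linarith
  have hcos' : Real.cos (2 * Real.pi * |y|) = Real.cos t := by
    have h6 : |2 * Real.pi * y| = 2 * Real.pi * |y| := by
      rw [abs_mul, abs_of_pos (show (0 : ℝ) < 2 * Real.pi by positivity)]
    rw [← h6, Real.cos_abs, hcos]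
  have hsin' : Real.sin (2 * Real.pi * |y|) ≤ |Real.sin t| := by
    rw [← hsin]
    rcases abs_cases y with h | h
    · rw [h.1]
      exact le_abs_self _
    · rw [h.1, mul_neg, Real.sin_neg]
      exact neg_le_abs _
  have hy0 := abs_nonneg y
  have hy4 : |y| ≤ 1 / 4 := by
    by_contra hneg
    have h5 := not_le.1 hneg
    have h6 := Real.cos_nonpos_of_pi_div_two_le_of_le (x := 2 * Real.pi * |y|) (by nlinarith)
      (by nlinarith)
    linarith
  have h7 := Real.mul_le_sin (x := 2 * Real.pi * |y|) (by positivity) (by nlinarith)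
  have h8 : 2 / Real.pi * (2 * Real.pi * |y|) = 4 * |y| := by
    field_simp
    ring
  rw [h8] at h7
  linarith

theorem arg_close {z₀ z₁ : ℂ} {θ : ℝ} (h0 : z₀ ≠ 0) (h : ‖z₁ * ph θ - z₀‖ ≤ ‖z₀‖ / 100) :
    |(z₁.arg - z₀.arg) / (2 * Real.pi) + θ -
      round ((z₁.arg - z₀.arg) / (2 * Real.pi) + θ)| ≤ 1 / 32 := by
  have hpi := Real.pi_pos
  obtain ⟨t, ht⟩ : ∃ t, t = z₁.arg - z₀.arg + 2 * Real.pi * θ := ⟨_, rfl⟩
  have e1 : (z₁.arg - z₀.arg) / (2 * Real.pi) + θ = t / (2 * Real.pi) := by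
    rw [ht]
    field_simp
  rw [e1]
  have e2 : (z₁ * ph θ - z₀) * Complex.exp (-(z₀.arg * Complex.I)) =
      (‖z₁‖ : ℂ) * Complex.exp (t * Complex.I) - ‖z₀‖ := by
    rw [sub_mul]
    congr 1
    · nth_rewrite 1 [← Complex.norm_mul_exp_arg_mul_I z₁]
      rw [ph, mul_assoc, mul_assoc, ← Complex.exp_add, ← Complex.exp_add, ht]
      congr 2
      push_cast
      ring
    · nth_rewrite 1 [← Complex.norm_mul_exp_arg_mul_I z₀]
      rw [mul_assoc, ← Complex.exp_add, add_neg_cancel, Complex.exp_zero, mul_one]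
  have e3 : ‖Complex.exp (-(z₀.arg * Complex.I))‖ = 1 := by
    have : -((z₀.arg : ℂ) * Complex.I) = ((-z₀.arg : ℝ) : ℂ) * Complex.I := by
      push_cast
      ring
    rw [this, Complex.norm_exp_ofReal_mul_I]
  have e4 : ‖(‖z₁‖ : ℂ) * Complex.exp (t * Complex.I) - ‖z₀‖‖ ≤ ‖z₀‖ / 100 := by
    rw [← e2, norm_mul, e3, mul_one]
    exact h
  have e5 : ((‖z₁‖ : ℂ) * Complex.exp (t * Complex.I) - ‖z₀‖).re =
      ‖z₁‖ * Real.cos t - ‖z₀‖ := by
    rw [Complex.sub_re, Complex.re_ofReal_mul, Complex.exp_ofReal_mul_I_re, Complex.ofReal_re]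
  have e6 : ((‖z₁‖ : ℂ) * Complex.exp (t * Complex.I) - ‖z₀‖).im = ‖z₁‖ * Real.sin t := by
    rw [Complex.sub_im, Complex.im_ofReal_mul, Complex.exp_ofReal_mul_I_im, Complex.ofReal_im,
      sub_zero]
  have e7 := (Complex.abs_re_le_norm _).trans e4
  have e8 := (Complex.abs_im_le_norm _).trans e4
  rw [e5] at e7
  rw [e6] at e8
  refine ra_aux (norm_pos_iff.2 h0) (norm_nonneg z₁) ?_ e8
  have := (abs_le.1 e7).1
  linarith

theorem ra_ph_zero : ph 0 = 1 := by
  rw [ph, Complex.ofReal_zero, mul_zero, zero_mul, Complex.exp_zero]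

theorem ra_round {x : ℝ} (N : ℤ) (h : |x - round x| ≤ 1 / 32) (h' : |x - N| ≤ 3 / 4) :
    |x - N| ≤ 1 / 32 := by
  have h1 : round x = N := by
    generalize round x = n at h ⊢
    rw [abs_le] at h h'
    have u1 : ((n : ℤ) : ℝ) < ((N + 1 : ℤ) : ℝ) := by
      push_cast
      linarith
    have u2 : ((N : ℤ) : ℝ) < ((n + 1 : ℤ) : ℝ) := by
      push_cast
      linarith
    have u3 := Int.cast_lt.1 u1
    have u4 := Int.cast_lt.1 u2
    omega
  rw [h1] at h
  exact h

theorem ra_div {a c d : ℝ} (N : ℝ) (h1 : c ≤ a) (h2 : a ≤ d)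
    (h3 : (N - 3 / 4) * (2 * Real.pi) ≤ c) (h4 : d ≤ (N + 3 / 4) * (2 * Real.pi)) :
    |a / (2 * Real.pi) - N| ≤ 3 / 4 := by
  have hpi : 0 < 2 * Real.pi := by positivity
  rw [abs_le]
  constructor
  · have : N - 3 / 4 ≤ a / (2 * Real.pi) := by
      rw [le_div_iff₀ hpi]
      linarith
    linarith
  · have : a / (2 * Real.pi) ≤ N + 3 / 4 := by
      rw [div_le_iff₀ hpi]
      linarith
    linarith

theorem arg_jump {A B A' B' : ℝ} (h0 : (⟨A, B⟩ : ℂ) ≠ 0)
    (h : ‖(⟨A', B'⟩ : ℂ) - ⟨A, B⟩‖ ≤ ‖(⟨A, B⟩ : ℂ)‖ / 100) :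
    |((⟨A', B'⟩ : ℂ).arg - (⟨A, B⟩ : ℂ).arg) / (2 * Real.pi) -
      (1 - (if 0 ≤ A then 1 else 0)) * ((if 0 ≤ B' then 1 else 0) - (if 0 ≤ B then 1 else 0))|
      ≤ 1 / 32 := by
  have hpi := Real.pi_pos
  have h1 := arg_close (z₀ := ⟨A, B⟩) (z₁ := ⟨A', B'⟩) (θ := 0) h0 (by
    rw [ra_ph_zero, mul_one]
    exact h)
  rw [add_zero] at h1
  have hr : ∀ (a b : ℝ), (⟨a, b⟩ : ℂ).re = a := fun _ _ => rfl
  have hi : ∀ (a b : ℝ), (⟨a, b⟩ : ℂ).im = b := fun _ _ => rfl
  obtain ⟨s, hs⟩ : ∃ s, s = (⟨A, B⟩ : ℂ).arg := ⟨_, rfl⟩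
  obtain ⟨s', hs'⟩ : ∃ s', s' = (⟨A', B'⟩ : ℂ).arg := ⟨_, rfl⟩
  have b1 : -Real.pi < s := hs ▸ Complex.neg_pi_lt_arg _
  have b2 : s ≤ Real.pi := hs ▸ Complex.arg_le_pi _
  have b1' : -Real.pi < s' := hs' ▸ Complex.neg_pi_lt_arg _
  have b2' : s' ≤ Real.pi := hs' ▸ Complex.arg_le_pi _
  have c1 : |s| ≤ Real.pi / 2 ↔ 0 ≤ A := by
    rw [hs]
    exact Complex.abs_arg_le_pi_div_two_iff
  have c2 : 0 ≤ s ↔ 0 ≤ B := by
    rw [hs]
    exact Complex.arg_nonneg_iff
  have c2' : 0 ≤ s' ↔ 0 ≤ B' := by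
    rw [hs']
    exact Complex.arg_nonneg_iff
  rw [← hs, ← hs'] at h1 ⊢
  by_cases hA : 0 ≤ A
  · rw [if_pos hA, sub_self, zero_mul]
    have h2 := abs_le.1 (c1.2 hA)
    have h3 := ra_round (x := (s' - s) / (2 * Real.pi)) 0 h1 (by
      rw [Int.cast_zero]
      exact ra_div (c := -Real.pi - Real.pi / 2) (d := Real.pi + Real.pi / 2) 0
        (by linarith) (by linarith) (by linarith) (by linarith))
    rwa [Int.cast_zero] at h3
  · rw [if_neg hA, sub_zero, one_mul]
    have h2 : ¬ |s| ≤ Real.pi / 2 := fun h' => hA (c1.1 h')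
    by_cases hB : 0 ≤ B
    · have h4 : 0 ≤ s := c2.2 hB
      rw [abs_of_nonneg h4] at h2
      rw [if_pos hB]
      by_cases hB' : 0 ≤ B'
      · have h5 := c2'.2 hB'
        rw [if_pos hB', sub_self]
        have h3 := ra_round (x := (s' - s) / (2 * Real.pi)) 0 h1 (by
          rw [Int.cast_zero]
          exact ra_div (c := -Real.pi) (d := Real.pi) 0
            (by linarith) (by linarith) (by linarith) (by linarith))
        rwa [Int.cast_zero] at h3
      · have h5 : s' < 0 := not_le.1 fun h' => hB' (c2'.1 h')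
        rw [if_neg hB', zero_sub]
        have h3 := ra_round (x := (s' - s) / (2 * Real.pi)) (-1) h1 (by
          rw [Int.cast_neg, Int.cast_one]
          exact ra_div (c := -2 * Real.pi) (d := -(Real.pi / 2)) (-1)
            (by linarith) (by linarith [not_le.1 h2]) (by linarith) (by linarith))
        rwa [Int.cast_neg, Int.cast_one] at h3
    · have h4 : s < 0 := not_le.1 fun h' => hB (c2.1 h')
      rw [abs_of_neg h4] at h2
      rw [if_neg hB, sub_zero]
      by_cases hB' : 0 ≤ B'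
      · have h5 := c2'.2 hB'
        rw [if_pos hB']
        have h3 := ra_round (x := (s' - s) / (2 * Real.pi)) 1 h1 (by
          rw [Int.cast_one]
          exact ra_div (c := Real.pi / 2) (d := 2 * Real.pi) 1
            (by linarith [not_le.1 h2]) (by linarith) (by linarith) (by linarith))
        rwa [Int.cast_one] at h3
      · have h5 : s' < 0 := not_le.1 fun h' => hB' (c2'.1 h')
        rw [if_neg hB']
        have h3 := ra_round (x := (s' - s) / (2 * Real.pi)) 0 h1 (by
          rw [Int.cast_zero]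
          exact ra_div (c := -Real.pi) (d := Real.pi) 0
            (by linarith) (by linarith) (by linarith) (by linarith))
        rwa [Int.cast_zero] at h3

/-- the phase of a section of the Hopf line bundle -/
noncomputable def alH (C : Y → ℝ) (v0 v1 : Y → ℂ) (y : Y) : ℝ := by
  classical exact if 0 ≤ C y then (v0 y).arg / (2 * Real.pi) else (v1 y).arg / (2 * Real.pi)

/-- the corrected phase cochain -/
noncomputable def thH (A B C : Y → ℝ) (th : Y → Y → ℝ) (y₀ y₁ : Y) : ℝ :=
  th y₀ y₁ + (⟨A y₀, B y₀⟩ : ℂ).arg / (2 * Real.pi) * (Hv C y₁ - Hv C y₀ : ℤ)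

/-! ### the cochain `ω` on triples -/

theorem cup_cz_cons (v : Y → ℤ) (G : List Y → ℤ) (y : Y) (l : List Y) :
    cup (cz v) G (y :: l) = (1 - v y) * G (y :: l) := by
  have key : ∀ (l : List Y) (f : List Y → ℤ), (∀ l', l' ≠ [] → f l' = 0) → cup f G l = 0 := by
    intro l
    induction l with
    | nil => intro f _; rfl
    | cons y l ih =>
      intro f hf
      rw [cup_cons, hf [y] (by simp), ih _ fun l' _ => hf _ (by simp)]
      simp
  rw [cup_cons, key l (fun l' => cz v (y :: l'))]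
  · simp [cz]
  · intro l' hl'
    cases l' with
    | nil => exact absurd rfl hl'
    | cons y' l' => rfl

theorem cup_ce_nil' (v : Y → ℤ) (G : List Y → ℤ) (y : Y) : cup (ce v) G [y] = 0 := by
  simp [cup_cons, ce]

theorem cup_ce_cons (v : Y → ℤ) (G : List Y → ℤ) (y y' : Y) (l : List Y) :
    cup (ce v) G (y :: y' :: l) = (v y' - v y) * G (y' :: l) := by
  have key : ∀ (l : List Y) (f : List Y → ℤ), (∀ l', l' ≠ [] → f l' = 0) → cup f G l = 0 := by
    intro l
    induction l with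
    | nil => intro f _; rfl
    | cons y l ih =>
      intro f hf
      rw [cup_cons, hf [y] (by simp), ih _ fun l' _ => hf _ (by simp)]
      simp
  rw [cup_cons, cup_cons, key l (fun l' => ce v (y :: y' :: l'))]
  · simp [ce]
  · intro l' hl'
    cases l' with
    | nil => exact absurd rfl hl'
    | cons y' l' => rfl

theorem om_triple (A B C : Y → ℝ) (y₀ y₁ y₂ : Y) :
    om A B C [y₀, y₁, y₂] =
      (1 - Hv A y₀) * ((Hv B y₁ - Hv B y₀) * (Hv C y₂ - Hv C y₁)) := by
  rw [om, cup_cz_cons, cup_ce_cons]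
  rfl

theorem om_support (A B C : Y → ℝ) (l : List Y) (h : om A B C l ≠ 0) : l.length = 3 := by
  rcases l with _ | ⟨y₀, _ | ⟨y₁, _ | ⟨y₂, _ | ⟨y₃, l⟩⟩⟩⟩
  · exact absurd rfl h
  · rw [om, cup_cz_cons, cup_ce_nil'] at h; simp at h
  · rw [om, cup_cz_cons, cup_ce_cons] at h
    simp [ce] at h
  · rfl
  · rw [om, cup_cz_cons, cup_ce_cons] at h
    simp [ce] at h

/-! ### phases -/

theorem frac_shift (x : ℝ) (k : ℤ) : |x + k - round (x + k)| = |x - round x| := by
  rw [round_add_intCast]; push_cast; congr 1; ring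

theorem arg_rel {r : ℝ} (hr : 0 < r) {u z v : ℂ} (hz : z ≠ 0) (hv : v ≠ 0)
    (h : (r : ℂ) * u = z * v) : ∃ k : ℤ, z.arg + v.arg = u.arg + 2 * Real.pi * k := by
  have h1 : u.arg = (z * v).arg := by rw [← h, Complex.arg_real_mul u hr]
  have h2 := Complex.arg_mul_coe_angle hz hv
  rw [← h1, ← Real.Angle.coe_add] at h2
  obtain ⟨k, hk⟩ := Real.Angle.angle_eq_iff_two_pi_dvd_sub.1 h2.symm
  exact ⟨k, by linarith⟩

theorem rad_sq (A B C : Y → ℝ) (y : Y) :
    ‖(⟨A y, B y⟩ : ℂ)‖ ^ 2 + C y ^ 2 = rad A B C y ^ 2 := by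
  rw [rad, Real.sq_sqrt (by positivity), Complex.sq_norm, Complex.normSq_mk]; ring

theorem norm_le_rad (A B C : Y → ℝ) (y : Y) : ‖(⟨A y, B y⟩ : ℂ)‖ ≤ rad A B C y := by
  have h := rad_sq A B C y
  have h0 : 0 ≤ rad A B C y := Real.sqrt_nonneg _
  by_contra hc
  push Not at hc
  nlinarith [sq_nonneg (C y)]

theorem rad_sub_le (A B C : Y → ℝ) (y : Y) : rad A B C y - |C y| ≤ ‖(⟨A y, B y⟩ : ℂ)‖ := by
  have h := rad_sq A B C y
  have h0 : 0 ≤ rad A B C y := Real.sqrt_nonneg _
  have h1 := norm_nonneg (⟨A y, B y⟩ : ℂ)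
  have h2 : |C y| ^ 2 = C y ^ 2 := sq_abs _
  have h3 : 0 ≤ |C y| := abs_nonneg _
  by_contra hc
  push Not at hc
  nlinarith

theorem norm_conj_mk (a b : ℝ) : ‖(⟨a, -b⟩ : ℂ)‖ = ‖(⟨a, b⟩ : ℂ)‖ := by
  have : (⟨a, -b⟩ : ℂ) = (starRingEnd ℂ) ⟨a, b⟩ := rfl
  rw [this, RCLike.norm_conj]

/-- the size of `v0` (and of `v1` near the equator) in the upper hemisphere -/
theorem upper_bounds {r c ε : ℝ} {u0 u1 z : ℂ} (hr : 0 < r) (hε : 0 < ε) (hc : 0 ≤ c)
    (hz : ‖z‖ ≤ r) (hv : ε ^ 2 ≤ ‖u0‖ ^ 2 + ‖u1‖ ^ 2) (h : ((r + c : ℝ) : ℂ) * u1 = z * u0) :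
    ε / 2 ≤ ‖u0‖ ∧ (c ≤ r / 1000 → r - c ≤ ‖z‖ → ε / 2 ≤ ‖u1‖ ∧ z ≠ 0) := by
  have hn : (r + c) * ‖u1‖ = ‖z‖ * ‖u0‖ := by
    have := congrArg norm h
    rwa [norm_mul, norm_mul, Complex.norm_real, Real.norm_of_nonneg (by linarith)] at this
  have h0 := norm_nonneg u0
  have h1 := norm_nonneg u1
  have h2 : ‖u1‖ ≤ ‖u0‖ := by
    have h3 : (r + c) * ‖u1‖ ≤ (r + c) * ‖u0‖ := by
      rw [hn]
      exact mul_le_mul_of_nonneg_right (by linarith) h0
    exact le_of_mul_le_mul_left h3 (by linarith)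
  have h4 : ε ^ 2 ≤ 2 * ‖u0‖ ^ 2 := by nlinarith
  have h5 : 7 / 10 * ε ≤ ‖u0‖ := by
    by_contra hcon
    push Not at hcon
    nlinarith
  refine ⟨by linarith, fun hc1 hz1 => ?_⟩
  have hz0 : 999 / 1000 * r ≤ ‖z‖ := by linarith
  constructor
  · by_contra hcon
    push Not at hcon
    have h6 : (r + c) * ‖u1‖ ≤ (1001 / 1000 * r) * (ε / 2) := by
      apply mul_le_mul (by linarith) hcon.le h1 (by linarith)
    have h7 : (999 / 1000 * r) * (7 / 10 * ε) ≤ ‖z‖ * ‖u0‖ :=
      mul_le_mul hz0 h5 (by linarith) (norm_nonneg _)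
    have h8 : 0 < r * ε := mul_pos hr hε
    nlinarith
  · rintro rfl
    rw [norm_zero] at hz0
    linarith

theorem close_of {u u' w : ℂ} {ε η : ℝ} (hε : 0 < ε) (hη2 : η ≤ ε / 1000) (h : ε / 2 ≤ ‖u‖)
    (hq : ‖u' * w - u‖ ≤ η) : u ≠ 0 ∧ ‖u' * w - u‖ ≤ ‖u‖ / 100 := by
  refine ⟨?_, by linarith⟩
  rintro rfl
  rw [norm_zero] at h
  linarith

theorem Hv_cases (f : Y → ℝ) (y : Y) : (0 ≤ f y ∧ Hv f y = 1) ∨ (f y < 0 ∧ Hv f y = 0) := by
  rcases le_or_gt 0 (f y) with h | h
  · exact Or.inl ⟨h, Hv_pos h⟩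
  · exact Or.inr ⟨h, Hv_neg h⟩

theorem Hv_cast (f : Y → ℝ) (y : Y) : ((Hv f y : ℤ) : ℝ) = if 0 ≤ f y then 1 else 0 := by
  rcases Hv_cases f y with ⟨h, h'⟩ | ⟨h, h'⟩
  · rw [h', if_pos h]; norm_num
  · rw [h', if_neg (not_le.2 h)]; norm_num

theorem alH_pos {C : Y → ℝ} {v0 v1 : Y → ℂ} {y : Y} (h : 0 ≤ C y) :
    alH C v0 v1 y = (v0 y).arg / (2 * Real.pi) := by
  unfold alH; rw [if_pos h]

theorem alH_neg {C : Y → ℝ} {v0 v1 : Y → ℂ} {y : Y} (h : C y < 0) :
    alH C v0 v1 y = (v1 y).arg / (2 * Real.pi) := by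
  unfold alH; rw [if_neg (not_le.2 h)]

theorem hopf_round {S : Set (List Y)} (hS : Hered S) {A B C : Y → ℝ} {v0 v1 : Y → ℂ}
    {th : Y → Y → ℝ} {t : List Y → ℤ} {E : Set Y} {r₀ ε η : ℝ} (hr₀ : 0 < r₀) (hε : 0 < ε)
    (hη : 0 ≤ η) (hη1 : η ≤ r₀ / 1000) (hη2 : η ≤ ε / 1000)
    (hA : Vary S A η) (hB : Vary S B η) (hC : Vary S C η)
    (hr : ∀ y ∈ E, r₀ ≤ rad A B C y) (hv : ∀ y ∈ E, ε ^ 2 ≤ ‖v0 y‖ ^ 2 + ‖v1 y‖ ^ 2)
    (h1 : ∀ y ∈ E, ((rad A B C y + C y : ℝ) : ℂ) * v1 y = ⟨A y, B y⟩ * v0 y)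
    (h2 : ∀ y ∈ E, ((rad A B C y - C y : ℝ) : ℂ) * v0 y = ⟨A y, - B y⟩ * v1 y)
    (hq0 : ∀ y₀ y₁, [y₀, y₁] ∈ S → ‖v0 y₁ * ph (th y₀ y₁) - v0 y₀‖ ≤ η)
    (hq1 : ∀ y₀ y₁, [y₀, y₁] ∈ S → ‖v1 y₁ * ph (th y₀ y₁) - v1 y₀‖ ≤ η)
    (ht0 : ∀ l, t l ≠ 0 → l.length = 3)
    (ht : ∀ y₀ y₁ y₂, [y₀, y₁, y₂] ∈ S →
      |th y₁ y₂ - th y₀ y₂ + th y₀ y₁ - t [y₀, y₁, y₂]| ≤ 1 / 32) :
    ∀ l ∈ S, (∀ y ∈ l, y ∈ E) →
      dl (rn E (alH C v0 v1) (thH A B C th)) l = aco t A B C l := by
  have hpi : 0 < 2 * Real.pi := by positivity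
  have up : ∀ y ∈ E, 0 ≤ C y →
      ε / 2 ≤ ‖v0 y‖ ∧ (C y ≤ η → ε / 2 ≤ ‖v1 y‖ ∧ (⟨A y, B y⟩ : ℂ) ≠ 0) := by
    intro y hy hc
    have h := upper_bounds (r := rad A B C y) (c := C y) (lt_of_lt_of_le hr₀ (hr y hy)) hε hc
      (norm_le_rad A B C y) (hv y hy) (h1 y hy)
    refine ⟨h.1, fun hcη => h.2 ?_ ?_⟩
    · linarith [hr y hy]
    · have := rad_sub_le A B C y
      rwa [abs_of_nonneg hc] at this
  have down : ∀ y ∈ E, C y ≤ 0 →
      ε / 2 ≤ ‖v1 y‖ ∧ (-η ≤ C y → ε / 2 ≤ ‖v0 y‖ ∧ (⟨A y, B y⟩ : ℂ) ≠ 0) := by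
    intro y hy hc
    have h := upper_bounds (r := rad A B C y) (c := - C y) (u0 := v1 y) (u1 := v0 y)
      (z := ⟨A y, - B y⟩) (lt_of_lt_of_le hr₀ (hr y hy)) hε (by linarith)
      (by rw [norm_conj_mk]; exact norm_le_rad A B C y) (by linarith [hv y hy])
      (by rw [← sub_eq_add_neg]; exact h2 y hy)
    refine ⟨h.1, fun hcη => ?_⟩
    have h' := h.2 (by linarith [hr y hy]) (by
      have := rad_sub_le A B C y
      rw [abs_of_nonpos hc] at this
      rwa [norm_conj_mk])
    refine ⟨h'.1, fun h0 => h'.2 ?_⟩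
    rw [← norm_eq_zero, norm_conj_mk, h0, norm_zero]
  have hedge : ∀ y₀ y₁, [y₀, y₁] ∈ S → y₀ ∈ E → y₁ ∈ E →
      |alH C v0 v1 y₁ - alH C v0 v1 y₀ + thH A B C th y₀ y₁ -
        round (alH C v0 v1 y₁ - alH C v0 v1 y₀ + thH A B C th y₀ y₁)| ≤ 1 / 16 := by
    intro y₀ y₁ hS01 he0 he1
    have hCC := hC _ hS01 y₀ (by simp) y₁ (by simp)
    rw [abs_le] at hCC
    refine le_trans ?_ (by norm_num : (1 : ℝ) / 32 ≤ 1 / 16)
    rcases Hv_cases C y₀ with ⟨c0, hc0⟩ | ⟨c0, hc0⟩ <;>
      rcases Hv_cases C y₁ with ⟨c1, hc1⟩ | ⟨c1, hc1⟩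
    · obtain ⟨hne, hcl⟩ := close_of hε hη2 (up y₀ he0 c0).1 (hq0 y₀ y₁ hS01)
      have hx : alH C v0 v1 y₁ - alH C v0 v1 y₀ + thH A B C th y₀ y₁ =
          ((v0 y₁).arg - (v0 y₀).arg) / (2 * Real.pi) + th y₀ y₁ := by
        rw [alH_pos c0, alH_pos c1, thH, hc0, hc1]; push_cast; ring
      rw [hx]
      exact arg_close hne hcl
    · have hup := up y₀ he0 c0
      obtain ⟨hv1, hz⟩ := hup.2 (by linarith)
      obtain ⟨hne, hcl⟩ := close_of hε hη2 hv1 (hq1 y₀ y₁ hS01)
      have hv0 : v0 y₀ ≠ 0 := by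
        intro h; rw [h, norm_zero] at hup; linarith [hup.1]
      obtain ⟨k, hk⟩ := arg_rel (by linarith [hr y₀ he0] : 0 < rad A B C y₀ + C y₀) hz hv0
        (h1 y₀ he0)
      have hx : alH C v0 v1 y₁ - alH C v0 v1 y₀ + thH A B C th y₀ y₁ =
          ((v1 y₁).arg - (v1 y₀).arg) / (2 * Real.pi) + th y₀ y₁ + ((-k : ℤ) : ℝ) := by
        rw [alH_pos c0, alH_neg c1, thH, hc0, hc1]
        have : (v0 y₀).arg = (v1 y₀).arg + 2 * Real.pi * k - (⟨A y₀, B y₀⟩ : ℂ).arg := by
          linarith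
        rw [this]; push_cast; field_simp; ring
      rw [hx, frac_shift]
      exact arg_close hne hcl
    · have hdn := down y₀ he0 c0.le
      obtain ⟨hv0, hz⟩ := hdn.2 (by linarith)
      obtain ⟨hne, hcl⟩ := close_of hε hη2 hv0 (hq0 y₀ y₁ hS01)
      obtain ⟨k, hk⟩ := arg_rel (by linarith [hr y₀ he0] : 0 < rad A B C y₀ + C y₀) hz hne
        (h1 y₀ he0)
      have hx : alH C v0 v1 y₁ - alH C v0 v1 y₀ + thH A B C th y₀ y₁ =
          ((v0 y₁).arg - (v0 y₀).arg) / (2 * Real.pi) + th y₀ y₁ + ((k : ℤ) : ℝ) := by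
        rw [alH_neg c0, alH_pos c1, thH, hc0, hc1]
        have : (v1 y₀).arg = (⟨A y₀, B y₀⟩ : ℂ).arg + (v0 y₀).arg - 2 * Real.pi * k := by
          linarith
        rw [this]; push_cast; field_simp; ring
      rw [hx, frac_shift]
      exact arg_close hne hcl
    · obtain ⟨hne, hcl⟩ := close_of hε hη2 (down y₀ he0 c0.le).1 (hq1 y₀ y₁ hS01)
      have hx : alH C v0 v1 y₁ - alH C v0 v1 y₀ + thH A B C th y₀ y₁ =
          ((v1 y₁).arg - (v1 y₀).arg) / (2 * Real.pi) + th y₀ y₁ := by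
        rw [alH_neg c0, alH_neg c1, thH, hc0, hc1]; push_cast; ring
      rw [hx]
      exact arg_close hne hcl
  refine round_cochain hS E _ _ (aco t A B C) ?_ hedge ?_
  · intro l hl
    by_cases h : t l = 0
    · exact om_support A B C l fun h0 => hl (by rw [aco, h, h0, add_zero])
    · exact ht0 l h
  · intro y₀ y₁ y₂ hl he0 he1 he2
    have htt := ht y₀ y₁ y₂ hl
    set a₀ := (⟨A y₀, B y₀⟩ : ℂ).arg / (2 * Real.pi) with ha₀
    set a₁ := (⟨A y₁, B y₁⟩ : ℂ).arg / (2 * Real.pi) with ha₁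
    have hX : |((a₁ - a₀) - (1 - (Hv A y₀ : ℝ)) * ((Hv B y₁ : ℝ) - Hv B y₀)) *
        ((Hv C y₂ : ℝ) - Hv C y₁)| ≤ 1 / 32 := by
      have hjump : |C y₀| ≤ 2 * η →
          |(a₁ - a₀) - (1 - (Hv A y₀ : ℝ)) * ((Hv B y₁ : ℝ) - Hv B y₀)| ≤ 1 / 32 := by
        intro hc
        have hz : r₀ - 2 * η ≤ ‖(⟨A y₀, B y₀⟩ : ℂ)‖ := by
          linarith [rad_sub_le A B C y₀, hr y₀ he0]
        have hz0 : (⟨A y₀, B y₀⟩ : ℂ) ≠ 0 := by
          intro h; rw [h, norm_zero] at hz; linarith
        have hd : ‖(⟨A y₁, B y₁⟩ : ℂ) - ⟨A y₀, B y₀⟩‖ ≤ 2 * η := by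
          refine (Complex.norm_le_abs_re_add_abs_im _).trans ?_
          have e1 := hA _ hl y₁ (by simp) y₀ (by simp)
          have e2 := hB _ hl y₁ (by simp) y₀ (by simp)
          simp only [Complex.sub_re, Complex.sub_im]
          linarith
        have := arg_jump hz0 (hd.trans (by linarith))
        rw [Hv_cast, Hv_cast, Hv_cast, ha₀, ha₁, ← sub_div]
        exact this
      have e0 := hC _ hl y₀ (by simp) y₁ (by simp)
      have e1 := hC _ hl y₁ (by simp) y₂ (by simp)
      rw [abs_le] at e0 e1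
      rcases Hv_cases C y₁ with ⟨c1, hc1⟩ | ⟨c1, hc1⟩ <;>
        rcases Hv_cases C y₂ with ⟨c2, hc2⟩ | ⟨c2, hc2⟩
      · rw [hc1, hc2]; norm_num
      · rw [abs_mul, hc1, hc2]
        have := hjump (by rw [abs_le]; constructor <;> linarith)
        norm_num at this ⊢
        exact this
      · rw [abs_mul, hc1, hc2]
        have := hjump (by rw [abs_le]; constructor <;> linarith)
        norm_num at this ⊢
        exact this
      · rw [hc1, hc2]; norm_num
    have heq : thH A B C th y₁ y₂ - thH A B C th y₀ y₂ + thH A B C th y₀ y₁ -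
        ((aco t A B C [y₀, y₁, y₂] : ℤ) : ℝ) =
        (th y₁ y₂ - th y₀ y₂ + th y₀ y₁ - t [y₀, y₁, y₂]) +
        ((a₁ - a₀) - (1 - (Hv A y₀ : ℝ)) * ((Hv B y₁ : ℝ) - Hv B y₀)) *
        ((Hv C y₂ : ℝ) - Hv C y₁) := by
      rw [aco, om_triple, thH, thH, thH, ← ha₀, ← ha₁]
      push_cast
      ring
    rw [heq]
    calc _ ≤ _ := abs_add_le _ _
      _ ≤ 1 / 32 + 1 / 32 := add_le_add htt hX
      _ = 1 / 16 := by norm_num

end Vale.Agent.P093.Hom
end

section

/-!
The parameter grid torus: definitions.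
-/

namespace Vale.Agent.P093.Hom

/-- a class of tuples which only depends on the set of vertices -/
def Full {Y : Type*} (S : Set (List Y)) : Prop := ∀ l ∈ S, ∀ l' : List Y, (∀ y ∈ l', y ∈ l) → l' ∈ S

theorem Full.hered {Y : Type*} {S : Set (List Y)} (h : Full S) : Hered S :=
  fun l hl _ hl' => h l hl _ fun _ hy => hl'.subset hy

/-- coordinates of the parameter torus; `(j, true)` is the variable `x_j`, `(j, false)` the variable
`y_j` -/
abbrev Crd (p : ℕ) := Fin p × Bool

/-- points of the grid torus -/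
abbrev Gr (p ℓ : ℕ) := Crd p → ZMod ℓ

/-- the product of `X` with the grid torus -/
abbrev YY (X : Type*) (p ℓ : ℕ) := X × Gr p ℓ

variable {X : Type*} {p ℓ : ℕ} {M : Type*} [AddCommGroup M]

/-- wrap number of the step from `a` to `b` in the cyclic grid -/
def wrap (a b : ZMod ℓ) : ℤ := if a = -1 ∧ b = 0 then 1 else if a = 0 ∧ b = -1 then -1 else 0

/-- the integral `1`-cocycle of the coordinate `c` -/
def Zc (c : Crd p) : List (YY X p ℓ) → ℤ
  | [y₀, y₁] => wrap (y₀.2 c) (y₁.2 c)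
  | _ => 0

/-- the integral `2`-cocycle `t = ∑_j Y_j ∪ X_j` -/
def tc (l : List (YY X p ℓ)) : ℤ := ∑ j : Fin p, cup (Zc (j, false)) (Zc (j, true)) l

/-- all vertices lie in one cube of the grid -/
def GridSmall (l : List (YY X p ℓ)) : Prop :=
  ∃ g : Gr p ℓ, ∀ y ∈ l, ∀ c, y.2 c = g c ∨ y.2 c = g c + 1

/-- small tuples in the product -/
def SY (SX : Set (List X)) : Set (List (YY X p ℓ)) := {l | l.map Prod.fst ∈ SX ∧ GridSmall l}

/-- set the coordinate `c` to `g` -/
def upd (c : Crd p) (g : ZMod ℓ) (y : YY X p ℓ) : YY X p ℓ := (y.1, Function.update y.2 c g)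

/-- integration over the grid circle in the coordinate `c` -/
def intc [NeZero ℓ] (c : Crd p) (F : List (YY X p ℓ) → M) (l : List (YY X p ℓ)) : M :=
  ∑ g : ZMod ℓ, pr (upd c g) (upd c (g + 1)) F l

/-- iterated integration -/
def iint [NeZero ℓ] : List (Crd p) → (List (YY X p ℓ) → M) → List (YY X p ℓ) → M
  | [], F => F
  | c :: cs, F => iint cs (intc c F)

/-- all coordinates in the order `y₀, x₀, y₁, x₁, …` -/
def allc (p : ℕ) : List (Crd p) := (List.finRange p).flatMap fun j => [(j, false), (j, true)]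

/-- powers for the cup product -/
def cpow {Y : Type*} (t : List Y → ℤ) : ℕ → List Y → ℤ
  | 0 => unit 1
  | m + 1 => cup t (cpow t m)

/-- the action of the symmetric group permuting the `p` factors of the torus -/
def act (σ : Equiv.Perm (Fin p)) (y : YY X p ℓ) : YY X p ℓ := (y.1, fun c => y.2 (σ c.1, c.2))

/-- real coordinates -/
noncomputable def xc (y : YY X p ℓ) (c : Crd p) : ℝ := (y.2 c).val / (ℓ : ℝ)

/-- the phase cochain `ϑ` -/
noncomputable def thc (y₀ y₁ : YY X p ℓ) : ℝ :=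
  ∑ j : Fin p, xc y₁ (j, true) * wrap (y₀.2 (j, false)) (y₁.2 (j, false))

/-- the map `[0,1]² → ℂ² ∖ 0` which descends to a degree one map of the torus to `ℂP¹` -/
noncomputable def ktf (a b : ℝ) : Fin 2 → ℂ := ![(1 - b : ℝ) + b * ph a, ((b * (1 - b) : ℝ) : ℂ)]

/-- the parameters `q_j ∈ ℂ² ∖ 0` -/
noncomputable def qq (y : YY X p ℓ) (j : Fin p) : Fin 2 → ℂ := ktf (xc y (j, true)) (xc y (j, false))

/-- multihomogeneity -/
def MultiHom (F : (Fin p → Fin 2 → ℂ) → ℂ) : Prop :=
  ∀ (q : Fin p → Fin 2 → ℂ) (c : Fin p → ℂ), F (fun j e => c j * q j e) = (∏ j, c j) * F q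

end Vale.Agent.P093.Hom
end

section

/-!
The fundamental class of the grid torus evaluates to `p !` on `t ^ p` (task HOM-D1b, `iint_tc`).
-/

namespace Vale.Agent.P093.Hom

section fund

variable {X : Type*} {p ℓ : ℕ}

/-- partial sums of the cocycle `tc` -/
def gfT (T : Finset (Fin p)) (l : List (YY X p ℓ)) : ℤ :=
  ∑ j ∈ T, cup (Zc (j, false)) (Zc (j, true)) l

theorem gf_unit_map {Y Z : Type*} (a : Y → Z) (l : List Y) :
    unit (1 : ℤ) (l.map a) = unit (1 : ℤ) l := by
  rcases l with _ | ⟨y, _ | ⟨y', l⟩⟩ <;> rfl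

theorem gf_cup_unit {Y : Type*} (G : List Y → ℤ) (hG : G [] = 0) (l : List Y) :
    cup (unit (1 : ℤ)) G l = G l := by
  rcases l with _ | ⟨y, l⟩
  · simp [hG]
  · rw [cup_cons]
    have h : (fun l' => unit (1 : ℤ) (y :: l')) =
        fun l' => (fun l' : List Y => if l' = [] then (1 : ℤ) else 0) l' := by
      funext l'
      rcases l' with _ | ⟨y', l'⟩ <;> simp [unit]
    have key : ∀ l : List Y, cup (fun l' : List Y => if l' = [] then (1 : ℤ) else 0) G l = 0 := by
      intro l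
      induction l with
      | nil => rfl
      | cons z l ih =>
        rw [cup_cons]
        have h2 : (fun l' => (fun l' : List Y => if l' = [] then (1 : ℤ) else 0) (z :: l')) =
            fun _ => (0 : ℤ) := by
          funext l'; simp
        rw [h2, cup_zero_left]
        simp
    rw [h, key]
    simp [unit]

theorem gf_cpow_nil {Y : Type*} (t : List Y → ℤ) (m : ℕ) : cpow t m [] = 0 := by
  cases m with
  | zero => rfl
  | succ m => rfl

theorem gf_cpow_map {Y Z : Type*} (a : Y → Z) (t : List Z → ℤ) (m : ℕ) (l : List Y) :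
    cpow t m (l.map a) = cpow (fun l => t (l.map a)) m l := by
  induction m generalizing l with
  | zero => exact gf_unit_map a l
  | succ m ih =>
    change cup t (cpow t m) (l.map a) = cup (fun l => t (l.map a)) (cpow (fun l => t (l.map a)) m) l
    rw [← cup_comp]
    congr 1
    funext l'
    exact ih l'

/-- degree count for the prism -/
theorem gf_pr_len {Y Z : Type*} (a b : Y → Z) (l : List Y) (e : ℕ) (F : List Z → ℤ)
    (hF : ∀ l', l'.length ≠ e → F l' = 0) (hl : l.length + 1 ≠ e) : pr a b F l = 0 := by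
  induction l generalizing e F with
  | nil => rfl
  | cons y l ih =>
    have h1 : F (a y :: b y :: l.map b) = 0 := hF _ (by simpa using hl)
    rcases e with _ | e
    · rw [pr_cons, h1, ih (l.length + 5) _ (fun l' _ => hF _ (by simp)) (by omega)]
      simp
    · rw [pr_cons, h1, ih e _ (fun l' hl' => hF _ (by simpa using hl'))
        (by simp only [List.length_cons] at hl; omega)]
      simp

theorem gf_pr_unit {Y Z : Type*} (a b : Y → Z) (l : List Y) : pr a b (unit (1 : ℤ)) l = 0 := by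
  rcases l with _ | ⟨y, l⟩
  · rfl
  · refine gf_pr_len a b _ 1 _ (fun l' hl' => ?_) (by simp)
    rcases l' with _ | ⟨y, _ | ⟨y', l'⟩⟩
    · rfl
    · simp at hl'
    · rfl

theorem gf_Zc_len (c : Crd p) (l : List (YY X p ℓ)) (hl : l.length ≠ 2) : Zc c l = 0 := by
  rcases l with _ | ⟨y, _ | ⟨y', _ | ⟨y'', l⟩⟩⟩
  · rfl
  · rfl
  · simp at hl
  · rfl

theorem gf_wrap_self (hℓ : 3 ≤ ℓ) (g : ZMod ℓ) : wrap g g = 0 := by
  have : Fact (1 < ℓ) := ⟨by omega⟩
  unfold wrap
  have h : ¬ (g = -1 ∧ g = 0) := by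
    rintro ⟨h1, h2⟩
    rw [h1] at h2
    exact one_ne_zero (neg_eq_zero.mp h2)
  have h' : ¬ (g = 0 ∧ g = -1) := fun h2 => h ⟨h2.2, h2.1⟩
  rw [if_neg h, if_neg h']

theorem gf_wrap_succ (hℓ : 3 ≤ ℓ) (g : ZMod ℓ) :
    wrap g (g + 1) = if g = -1 then 1 else 0 := by
  have : Fact (1 < ℓ) := ⟨by omega⟩
  unfold wrap
  by_cases h : g = -1
  · rw [if_pos ⟨h, by rw [h]; ring⟩, if_pos h]
  · have h' : ¬ (g = 0 ∧ g + 1 = -1) := by
      rintro ⟨h1, h2⟩
      rw [h1, zero_add] at h2
      have h3 : ((2 : ℕ) : ZMod ℓ) = 0 := by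
        have : (1 : ZMod ℓ) + 1 = 0 := by
          nth_rewrite 2 [h2]
          ring
        push_cast
        linear_combination this
      rw [ZMod.natCast_eq_zero_iff] at h3
      have := Nat.le_of_dvd (by norm_num) h3
      omega
    rw [if_neg (fun h2 => h h2.1), if_neg h', if_neg h]

/-- the prism of a coordinate cocycle -/
theorem gf_pr_Zc (hℓ : 3 ≤ ℓ) (c c' : Crd p) (g : ZMod ℓ) (l : List (YY X p ℓ)) :
    pr (upd c g) (upd c (g + 1)) (Zc c') l = if c' = c ∧ g = -1 then unit 1 l else 0 := by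
  by_cases hl : l.length + 1 = 2
  · rcases l with _ | ⟨y, _ | ⟨y', l⟩⟩
    · simp at hl
    · rw [pr_cons, pr_nil, sub_zero]
      change wrap ((upd c g y).2 c') ((upd c (g + 1) y).2 c') = _
      by_cases hc : c' = c
      · subst hc
        simp only [upd, Function.update_self, gf_wrap_succ hℓ, true_and]
        rfl
      · simp only [upd, Function.update_of_ne hc, gf_wrap_self hℓ, hc, false_and, if_false]
    · simp at hl
  · rw [gf_pr_len _ _ _ 2 _ (fun l' hl' => gf_Zc_len c' l' hl') hl]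
    rcases l with _ | ⟨y, _ | ⟨y', l⟩⟩
    · simp [unit]
    · simp at hl
    · simp [unit]

theorem gf_Zc_upd (hℓ : 3 ≤ ℓ) (c c' : Crd p) (g : ZMod ℓ) (l : List (YY X p ℓ)) :
    Zc c' (l.map (upd c g)) = if c' = c then 0 else Zc c' l := by
  by_cases hl : l.length = 2
  · rcases l with _ | ⟨y, _ | ⟨y', _ | ⟨y'', l⟩⟩⟩
    · simp at hl
    · simp at hl
    · change wrap ((upd c g y).2 c') ((upd c g y').2 c') = _
      by_cases hc : c' = c
      · subst hc
        simp only [upd, Function.update_self, gf_wrap_self hℓ, if_true]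
      · simp only [upd, Function.update_of_ne hc, hc, if_false]
        rfl
    · simp at hl
  · rw [gf_Zc_len c' _ (by simpa using hl), gf_Zc_len c' l hl]
    simp

theorem gf_cup_upd (hℓ : 3 ≤ ℓ) (k j : Fin p) (e : Bool) (g : ZMod ℓ) (l : List (YY X p ℓ)) :
    cup (Zc (j, false)) (Zc (j, true)) (l.map (upd (k, e) g)) =
      if j = k then 0 else cup (Zc (j, false)) (Zc (j, true)) l := by
  rw [← cup_comp]
  have h : ∀ e' : Bool, (fun l : List (YY X p ℓ) => Zc (j, e') (l.map (upd (k, e) g))) =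
      fun l => if (j, e') = (k, e) then 0 else Zc (j, e') l := by
    intro e'
    funext l'
    exact gf_Zc_upd hℓ _ _ _ _
  rw [h, h]
  by_cases hj : j = k
  · subst hj
    cases e
    · simp [cup_zero_left]
    · simp [cup_zero_right]
  · simp [hj]

theorem gfT_upd (hℓ : 3 ≤ ℓ) (k : Fin p) (e : Bool) (g : ZMod ℓ) (T : Finset (Fin p)) :
    (fun l : List (YY X p ℓ) => gfT T (l.map (upd (k, e) g))) = gfT (T.erase k) := by
  funext l
  unfold gfT
  simp only [gf_cup_upd hℓ]
  rw [Finset.sum_ite, Finset.sum_const_zero, zero_add]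
  refine Finset.sum_congr ?_ fun _ _ => rfl
  ext j
  simp [and_comm]

theorem gf_cup_len {Y : Type*} (f G : List Y → ℤ) (a b : ℕ) (hf : ∀ l, l.length ≠ a + 1 → f l = 0)
    (hG : ∀ l, l.length ≠ b + 1 → G l = 0) (l : List Y) (hl : l.length ≠ a + b + 1) :
    cup f G l = 0 := by
  induction l generalizing f a with
  | nil => rfl
  | cons y l ih =>
    rw [cup_cons]
    rcases a with _ | a
    · have h1 : G (y :: l) = 0 := hG _ (by simpa using hl)
      have h2 : ∀ l' : List Y, f (y :: l') = if l' = [] then f [y] else 0 := by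
        intro l'
        rcases l' with _ | ⟨z, l'⟩
        · simp
        · simpa using hf _ (by simp)
      rw [h1]
      rcases l with _ | ⟨z, l⟩
      · simp
      · have h3 : cup (fun l' => f (y :: l')) G (z :: l) = 0 := by
          rw [cup_cons]
          have h4 : (fun l' => (fun l' => f (y :: l')) (z :: l')) = fun _ => (0 : ℤ) := by
            funext l'
            exact hf _ (by simp)
          rw [h4, cup_zero_left, hf [y, z] (by simp)]
          simp
        rw [h3]; simp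
    · rw [hf [y] (by simp), ih (fun l' => f (y :: l')) a (fun l' hl' => hf _ (by simpa using hl'))
        (by simp only [List.length_cons] at hl; omega)]
      simp

theorem gfT_len (T : Finset (Fin p)) (l : List (YY X p ℓ)) (hl : l.length ≠ 3) : gfT T l = 0 := by
  unfold gfT
  refine Finset.sum_eq_zero fun j _ => ?_
  exact gf_cup_len _ _ 1 1 (fun l hl => gf_Zc_len _ l hl) (fun l hl => gf_Zc_len _ l hl) l hl

theorem gfT_sg (T : Finset (Fin p)) : sg (gfT (X := X) (ℓ := ℓ) T) = gfT T := by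
  funext l
  unfold sg
  by_cases hl : l.length = 3
  · rw [hl]; simp
  · rw [gfT_len T l hl]; simp

/-- prism of `gfT` in the coordinate `(k, false)` -/
theorem gf_pr_false (hℓ : 3 ≤ ℓ) (k : Fin p) (T : Finset (Fin p)) (hk : k ∈ T) (g : ZMod ℓ)
    (l : List (YY X p ℓ)) : pr (upd (k, false) g) (upd (k, false) (g + 1)) (gfT T) l =
      if g = -1 then Zc (k, true) l else 0 := by
  unfold gfT
  rw [pr_sum]
  have h1 : ∀ j : Fin p, pr (upd (k, false) g) (upd (k, false) (g + 1))
      (fun l : List (YY X p ℓ) => cup (Zc (j, false)) (Zc (j, true)) l) l =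
      if j = k then (if g = -1 then Zc (k, true) l else 0) else 0 := by
    intro j
    change pr _ _ (cup (Zc (j, false)) (Zc (j, true))) l = _
    rw [pr_cup]
    have h2 : pr (upd (X := X) (k, false) g) (upd (k, false) (g + 1)) (Zc (j, true)) =
        fun _ => (0 : ℤ) := by
      funext l'
      rw [gf_pr_Zc hℓ]
      simp
    have h3 : pr (upd (X := X) (k, false) g) (upd (k, false) (g + 1)) (Zc (j, false)) =
        fun l' => if j = k ∧ g = -1 then unit (1 : ℤ) l' else 0 := by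
      funext l'
      rw [gf_pr_Zc hℓ]
      simp
    have h4 : (fun l' : List (YY X p ℓ) => Zc (j, true) (l'.map (upd (k, false) (g + 1)))) =
        Zc (j, true) := by
      funext l'
      rw [gf_Zc_upd hℓ]
      simp
    rw [h2, h3, h4, cup_zero_right, add_zero]
    by_cases hj : j = k
    · subst hj
      by_cases hg : g = -1
      · simp only [hg, and_self, if_true]
        exact gf_cup_unit _ rfl l
      · simp only [hg, and_false, if_false, if_true]
        exact cup_zero_left _ _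
    · simp only [hj, false_and, if_false]
      exact cup_zero_left _ _
  rw [Finset.sum_congr rfl fun j _ => h1 j, Finset.sum_ite_eq' T k, if_pos hk]

/-- prism of `gfT` in the coordinate `(k, true)` for `k ∉ T` -/
theorem gf_pr_true (hℓ : 3 ≤ ℓ) (k : Fin p) (T : Finset (Fin p)) (hk : k ∉ T) (g : ZMod ℓ) :
    pr (upd (X := X) (k, true) g) (upd (k, true) (g + 1)) (gfT T) = fun _ => (0 : ℤ) := by
  funext l
  unfold gfT
  rw [pr_sum]
  refine Finset.sum_eq_zero fun j hj => ?_
  have hjk : j ≠ k := fun h => hk (h ▸ hj)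
  change pr _ _ (cup (Zc (j, false)) (Zc (j, true))) l = _
  rw [pr_cup]
  have h2 : ∀ e : Bool, pr (upd (X := X) (k, true) g) (upd (k, true) (g + 1)) (Zc (j, e)) =
      fun _ => (0 : ℤ) := by
    intro e
    funext l'
    rw [gf_pr_Zc hℓ]
    simp [hjk]
  rw [h2, h2, cup_zero_left, cup_zero_right, add_zero]

theorem gf_intc_add [NeZero ℓ] (c : Crd p) (F G : List (YY X p ℓ) → ℤ) (l : List (YY X p ℓ)) :
    intc c (fun l => F l + G l) l = intc c F l + intc c G l := by
  unfold intc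
  rw [← Finset.sum_add_distrib]
  exact Finset.sum_congr rfl fun g _ => pr_add _ _ _ _ _

theorem gf_intc_mul [NeZero ℓ] (c : Crd p) (n : ℤ) (F : List (YY X p ℓ) → ℤ)
    (l : List (YY X p ℓ)) : intc c (fun l => n * F l) l = n * intc c F l := by
  unfold intc
  rw [Finset.mul_sum]
  exact Finset.sum_congr rfl fun g _ => pr_zsmul _ _ n F _

theorem gf_intc_unit [NeZero ℓ] (c : Crd p) :
    intc (X := X) (ℓ := ℓ) c (unit (1 : ℤ)) = fun _ => 0 := by
  funext l
  unfold intc
  exact Finset.sum_eq_zero fun g _ => gf_pr_unit _ _ _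

theorem gf_intc_zero [NeZero ℓ] (c : Crd p) :
    intc (X := X) (ℓ := ℓ) c (fun _ => (0 : ℤ)) = fun _ => 0 := by
  funext l
  unfold intc
  exact Finset.sum_eq_zero fun g _ => pr_zero _ _ _

/-- first integration -/
theorem gf_intc_false [NeZero ℓ] (hℓ : 3 ≤ ℓ) (k : Fin p) (T : Finset (Fin p)) (hk : k ∈ T)
    (m : ℕ) (l : List (YY X p ℓ)) : intc (k, false) (cpow (gfT T) (m + 1)) l =
      cup (Zc (k, true)) (cpow (gfT (T.erase k)) m) l +
        cup (gfT (T.erase k)) (intc (k, false) (cpow (gfT T) m)) l := by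
  have h : ∀ g : ZMod ℓ, pr (upd (k, false) g) (upd (k, false) (g + 1)) (cpow (gfT T) (m + 1)) l =
      (if g = -1 then cup (Zc (k, true)) (cpow (gfT (T.erase k)) m) l else 0) +
      cup (gfT (T.erase k)) (pr (upd (k, false) g) (upd (k, false) (g + 1)) (cpow (gfT T) m)) l := by
    intro g
    change pr _ _ (cup (gfT T) (cpow (gfT T) m)) l = _
    rw [pr_cup]
    have h1 : (fun l' : List (YY X p ℓ) => cpow (gfT T) m (l'.map (upd (k, false) (g + 1)))) =
        cpow (gfT (T.erase k)) m := by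
      funext l'
      rw [gf_cpow_map, gfT_upd hℓ]
    have h2 : (pr (upd (k, false) g) (upd (k, false) (g + 1)) (gfT T)) =
        fun l : List (YY X p ℓ) => if g = -1 then Zc (k, true) l else 0 := by
      funext l'
      exact gf_pr_false hℓ k T hk g l'
    rw [h1, h2, gfT_upd hℓ, gfT_sg]
    by_cases hg : g = -1
    · simp only [hg, if_true]
    · simp only [hg, if_false]
      rw [cup_zero_left]
  unfold intc
  rw [Finset.sum_congr rfl fun g _ => h g, Finset.sum_add_distrib,
    Finset.sum_ite_eq' Finset.univ (-1 : ZMod ℓ), if_pos (Finset.mem_univ _)]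
  congr 1
  rw [← cup_sum_right]

/-- second integration -/
theorem gf_intc_true [NeZero ℓ] (hℓ : 3 ≤ ℓ) (k : Fin p) (T : Finset (Fin p)) (hk : k ∉ T)
    (m : ℕ) (l : List (YY X p ℓ)) :
    intc (k, true) (cup (Zc (k, true)) (cpow (gfT T) m)) l = cpow (gfT T) m l := by
  have h : ∀ g : ZMod ℓ, pr (upd (k, true) g) (upd (k, true) (g + 1))
      (cup (Zc (k, true)) (cpow (gfT T) m)) l = if g = -1 then cpow (gfT T) m l else 0 := by
    intro g
    rw [pr_cup]
    have h1 : (fun l' : List (YY X p ℓ) => cpow (gfT T) m (l'.map (upd (k, true) (g + 1)))) =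
        cpow (gfT T) m := by
      funext l'
      rw [gf_cpow_map, gfT_upd hℓ, Finset.erase_eq_of_notMem hk]
    have h2 : (pr (upd (k, true) g) (upd (k, true) (g + 1)) (Zc (k, true))) =
        fun l : List (YY X p ℓ) => if g = -1 then unit (1 : ℤ) l else 0 := by
      funext l'
      rw [gf_pr_Zc hℓ]
      simp
    have h3 : (fun l' : List (YY X p ℓ) => Zc (k, true) (l'.map (upd (k, true) g))) =
        fun _ => (0 : ℤ) := by
      funext l'
      rw [gf_Zc_upd hℓ]
      simp
    have h4 : sg (fun _ : List (YY X p ℓ) => (0 : ℤ)) = fun _ => 0 := by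
      funext l'
      simp [sg]
    rw [h1, h2, h3, h4, cup_zero_left, add_zero]
    by_cases hg : g = -1
    · simp only [hg, if_true]
      exact gf_cup_unit _ (gf_cpow_nil _ _) l
    · simp only [hg, if_false]
      rw [cup_zero_left]
  unfold intc
  rw [Finset.sum_congr rfl fun g _ => h g, Finset.sum_ite_eq' Finset.univ (-1 : ZMod ℓ),
    if_pos (Finset.mem_univ _)]

theorem gf_intc_true' [NeZero ℓ] (hℓ : 3 ≤ ℓ) (k : Fin p) (T : Finset (Fin p)) (hk : k ∉ T)
    (G : List (YY X p ℓ) → ℤ) (l : List (YY X p ℓ)) :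
    intc (k, true) (cup (gfT T) G) l = cup (gfT T) (intc (k, true) G) l := by
  have h : ∀ g : ZMod ℓ, pr (upd (k, true) g) (upd (k, true) (g + 1)) (cup (gfT T) G) l =
      cup (gfT T) (pr (upd (k, true) g) (upd (k, true) (g + 1)) G) l := by
    intro g
    rw [pr_cup, gf_pr_true hℓ k T hk, cup_zero_left, zero_add, gfT_upd hℓ,
      Finset.erase_eq_of_notMem hk, gfT_sg]
  unfold intc
  rw [Finset.sum_congr rfl fun g _ => h g, ← cup_sum_right]

/-- both integrations for the index `k` -/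
theorem gf_intc_intc [NeZero ℓ] (hℓ : 3 ≤ ℓ) (k : Fin p) (T : Finset (Fin p)) (hk : k ∈ T)
    (m : ℕ) : intc (X := X) (k, true) (intc (k, false) (cpow (gfT T) m)) =
      fun l : List (YY X p ℓ) => (m : ℤ) * cpow (gfT (T.erase k)) (m - 1) l := by
  have hk' : k ∉ T.erase k := Finset.notMem_erase k T
  induction m with
  | zero =>
    change intc (k, true) (intc (k, false) (unit (1 : ℤ))) = _
    rw [gf_intc_unit, gf_intc_zero]
    funext l
    simp
  | succ m ih =>
    funext l
    have h1 : intc (k, false) (cpow (gfT T) (m + 1)) = fun l : List (YY X p ℓ) =>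
        cup (Zc (k, true)) (cpow (gfT (T.erase k)) m) l +
        cup (gfT (T.erase k)) (intc (k, false) (cpow (gfT T) m)) l := by
      funext l'
      exact gf_intc_false hℓ k T hk m l'
    rw [h1, gf_intc_add]
    have h2 := gf_intc_true (X := X) hℓ k (T.erase k) hk' m l
    have h3 := gf_intc_true' (X := X) hℓ k (T.erase k) hk' (intc (k, false) (cpow (gfT T) m)) l
    rw [ih] at h3
    change intc (k, true) (cup (Zc (k, true)) (cpow (gfT (T.erase k)) m)) l +
      intc (k, true) (cup (gfT (T.erase k)) (intc (k, false) (cpow (gfT T) m))) l = _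
    rw [h2, h3]
    have h4 := cup_zsmul_right (m : ℤ) (gfT (T.erase k)) (cpow (gfT (T.erase k)) (m - 1)) l
    simp only [smul_eq_mul] at h4
    rw [h4]
    rcases m with _ | m
    · simp
    · simp only [Nat.add_sub_cancel]
      have h5 : cup (gfT (T.erase k)) (cpow (gfT (T.erase k)) m) l =
        cpow (gfT (T.erase k)) (m + 1) l := rfl
      rw [h5]
      push_cast
      ring

theorem gf_iint_mul [NeZero ℓ] (cs : List (Crd p)) (n : ℤ) (F : List (YY X p ℓ) → ℤ)
    (l : List (YY X p ℓ)) : iint cs (fun l => n * F l) l = n * iint cs F l := by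
  induction cs generalizing F with
  | nil => rfl
  | cons c cs ih =>
    change iint cs (intc c fun l => n * F l) l = n * iint cs (intc c F) l
    rw [← ih]
    congr 1
    funext l'
    exact gf_intc_mul c n F l'

/-- iterated integration over the coordinates of the indices in `ks` -/
theorem gf_iint [NeZero ℓ] (hℓ : 3 ≤ ℓ) (ks : List (Fin p)) (hks : ks.Nodup)
    (T : Finset (Fin p)) (hT : ∀ k ∈ ks, k ∈ T) (m : ℕ) (l : List (YY X p ℓ)) :
    iint (ks.flatMap fun j => [(j, false), (j, true)]) (cpow (gfT T) m) l =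
      (m.descFactorial ks.length : ℤ) * cpow (gfT (T \ ks.toFinset)) (m - ks.length) l := by
  induction ks generalizing T m with
  | nil => simp [iint]
  | cons k ks ih =>
    rw [List.nodup_cons] at hks
    have h1 : ((k :: ks).flatMap fun j => [(j, false), (j, true)]) =
        (k, false) :: (k, true) :: (ks.flatMap fun j => [(j, false), (j, true)]) := rfl
    rw [h1]
    change iint (ks.flatMap fun j => [(j, false), (j, true)])
      (intc (k, true) (intc (k, false) (cpow (gfT T) m))) l = _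
    rw [gf_intc_intc hℓ k T (hT k (by simp)) m, gf_iint_mul,
      ih hks.2 (T.erase k) (fun j hj => Finset.mem_erase.mpr
        ⟨fun h => hks.1 (h ▸ hj), hT j (List.mem_cons_of_mem _ hj)⟩)]
    have h2 : T.erase k \ ks.toFinset = T \ (k :: ks).toFinset := by
      ext j
      simp only [Finset.mem_sdiff, Finset.mem_erase, List.mem_toFinset, List.mem_cons, not_or]
      tauto
    rw [h2, List.length_cons]
    have h3 : m - 1 - ks.length = m - (ks.length + 1) := by omega
    rw [h3, ← mul_assoc]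
    congr 1
    rcases m with _ | m
    · simp
    · rw [Nat.add_sub_cancel, Nat.succ_descFactorial_succ]
      push_cast
      ring

/-- the fundamental class of the torus evaluates to `p !` on `t ^ p` -/
theorem iint_tc' [NeZero ℓ] (hℓ : 3 ≤ ℓ) (y : YY X p ℓ) :
    iint (allc p) (cpow tc p) [y] = (p.factorial : ℤ) := by
  have h := gf_iint (X := X) hℓ (List.finRange p) (List.nodup_finRange p) Finset.univ
    (fun k _ => Finset.mem_univ k) p [y]
  have h1 : gfT (X := X) (ℓ := ℓ) (Finset.univ : Finset (Fin p)) = tc := rfl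
  rw [h1] at h
  rw [allc, h, List.length_finRange, Nat.sub_self, Nat.descFactorial_self]
  simp [cpow, unit]

end fund

end Vale.Agent.P093.Hom
end

section

/-!
TASK HOM-D1: the cocycle `tc` and integration over the grid torus.

Proofs.
* `dl_tc`: `dl (Zc c) [y₀,y₁,y₂] = wrap(1,2) - wrap(0,2) + wrap(0,1) = 0` if the three values of the
  coordinate `c` are in `{g, g+1}`: for `g ≠ -1` all wraps vanish (`ℓ ≥ 3`), for `g = -1` one has
  `wrap a b = s b - s a` with `s (-1) = 0`, `s 0 = 1`. Leibniz for `cup`.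
* `iint_dl`: `pr_dl`, and `∑_g (F (l.map (upd c (g+1))) - F (l.map (upd c g))) = 0` for all `F`, `l`.
* `iint_tc`: Call `f : List (YY X p ℓ) → ℤ` *c-normal* if it does not change when the coordinate `c`
  of the vertices is changed, and vanishes on tuples which have two consecutive vertices that
  agree outside the coordinate `c`... (only needed for positive degree). For such `f` of positive
  degree `pr (upd c g) (upd c (g+1)) f = 0` (each term of the prism has a repeated vertex).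
  By `pr_cup`, `pr (upd c g) (upd c (g+1)) (cup f G) = cup (pr .. f) (G ∘ map (upd c (g+1)))
  + cup (sg (f ∘ map (upd c g))) (pr .. G)`.
  Let `u = ∑_{j ≠ k} Y_j ∪ X_j`, `w = Y ∪ X` (`Y = Zc (k,false)`, `X = Zc (k,true)`), so `tc = u + w`;
  more generally let `T ⊆ Fin p` be a set of indices containing `k`, `t_T = ∑_{j∈T} Y_j ∪ X_j`.
  Claim: `intc (k,true) (intc (k,false) (cpow t_T m)) = m * cpow t_{T∖k} (m-1)`.
  First for the coordinate `c = (k,false)`: `t_T ∘ map (upd c g) = t_{T∖k}` (`wrap g g = 0`), and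
  `pr (upd c g) (upd c (g+1)) t_T = (if g = -1 then 1 else 0) * X` (`pr .. Y [y] = wrap g (g+1)`;
  `pr .. (Y_j ∪ X_j) = 0` for `j ≠ k`, `pr .. Y = 0` in other degrees), so by `pr_cup` and induction on
  `m`: `intc c (cpow t_T m) = ∑_{i<m} cpow t_{T∖k} i ∪ X ∪ cpow t_{T∖k} (m-1-i)`.
  Then for `c = (k,true)`: `pr .. X [y] = if g = -1 then 1 else 0`, so each summand gives
  `cpow t_{T∖k} i ∪ unit 1 ∪ cpow t_{T∖k} (m-1-i) = cpow t_{T∖k} (m-1)`.
  Iterating over `k = 0, …, p-1` gives `p !`. (`cup (unit 1) G = G`, `cup f (unit 1) = f` away from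
  the empty list.)
* `iint_mem`: `pr a b F l` is a signed sum of values `F L` with `L.length = l.length + 1`,
  all vertices of `L` are `a y` or `b y` with `y ∈ l`; if `l` is `GridSmall` (cube `g₀`), then `L` is
  too (cube `update g₀ c g`).
-/

namespace Vale.Agent.P093.Hom

variable {X : Type*} {p ℓ : ℕ} {M N : Type*} [AddCommGroup M] [AddCommGroup N]

theorem tc_length (l : List (YY X p ℓ)) (h : tc l ≠ 0) : l.length = 3 := by
  by_contra hl
  exact h (gfT_len Finset.univ l hl)

/-- the coboundary vanishes if the cochain vanishes one degree below -/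
theorem gi_dl_len {Y : Type*} (n : ℕ) (F : List Y → M) (l : List Y) (hl : l.length = n + 1)
    (hF : ∀ l', l'.length = n → F l' = 0) : dl F l = 0 := by
  induction n generalizing F l with
  | zero =>
    obtain ⟨y, rfl⟩ := List.length_eq_one_iff.1 hl
    rw [dl_singleton]
    exact hF [] rfl
  | succ n ih =>
    match l, hl with
    | y :: l, hl =>
      rw [dl_cons, hF l (by simpa using hl),
        ih (fun l' => F (y :: l')) l (by simpa using hl) fun l' hl' => hF _ (by simp [hl'])]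
      simp

theorem gi_wrap_swap (hℓ : 3 ≤ ℓ) (a b : ZMod ℓ) : wrap b a = - wrap a b := by
  have h0 : (-1 : ZMod ℓ) ≠ 0 := by
    intro h
    have : Fact (1 < ℓ) := ⟨by omega⟩
    exact one_ne_zero (neg_eq_zero.1 h)
  unfold wrap
  by_cases h1 : a = -1 ∧ b = 0
  · obtain ⟨rfl, rfl⟩ := h1
    simp [h0]
  · by_cases h2 : a = 0 ∧ b = -1
    · obtain ⟨rfl, rfl⟩ := h2
      simp [h0]
    · have h3 : ¬ (b = -1 ∧ a = 0) := fun h => h2 ⟨h.2, h.1⟩
      have h4 : ¬ (b = 0 ∧ a = -1) := fun h => h1 ⟨h.2, h.1⟩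
      simp only [h1, h2, h3, h4, if_false, neg_zero]

theorem gi_wrap_three (hℓ : 3 ≤ ℓ) (g a b c : ZMod ℓ) (ha : a = g ∨ a = g + 1)
    (hb : b = g ∨ b = g + 1) (hc : c = g ∨ c = g + 1) : wrap b c - wrap a c + wrap a b = 0 := by
  have hs := gf_wrap_self hℓ g
  have hs' := gf_wrap_self hℓ (g + 1)
  have hw := gi_wrap_swap hℓ g (g + 1)
  rcases ha with rfl | rfl <;> rcases hb with rfl | rfl <;> rcases hc with rfl | rfl <;>
    simp only [hs, hs', hw] <;> ring

theorem gi_dl_Zc (hℓ : 3 ≤ ℓ) (c : Crd p) {l : List (YY X p ℓ)} (hl : GridSmall l) :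
    dl (Zc c) l = 0 := by
  obtain ⟨g, hg⟩ := hl
  by_cases h3 : l.length = 3
  · match l, h3, hg with
    | [y₀, y₁, y₂], _, hg =>
      rw [dl_triple]
      exact gi_wrap_three hℓ (g c) _ _ _ (hg y₀ (by simp) c) (hg y₁ (by simp) c)
        (hg y₂ (by simp) c)
  · rcases Nat.eq_zero_or_pos l.length with h0 | h0
    · rw [List.length_eq_zero_iff.1 h0]
      rfl
    · refine gi_dl_len (l.length - 1) _ l (by omega) fun l' hl' => gf_Zc_len c l' (by omega)

theorem gi_hered : Hered {l : List (YY X p ℓ) | GridSmall l} :=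
  fun _ ⟨g, hg⟩ _ h' => ⟨g, fun y hy => hg y (h'.subset hy)⟩

theorem dl_tc (hℓ : 3 ≤ ℓ) {l : List (YY X p ℓ)} (hl : GridSmall l) : dl tc l = 0 := by
  have h : (tc : List (YY X p ℓ) → ℤ) = fun l => ∑ j : Fin p, cup (Zc (j, false)) (Zc (j, true)) l :=
    rfl
  rw [h, dl_sum]
  refine Finset.sum_eq_zero fun j _ => ?_
  rw [dl_cup' _ _ rfl rfl]
  have h1 : cup (dl (Zc (j, false))) (Zc (j, true)) l = 0 := by
    rw [cup_congr gi_hered (f := dl (Zc (j, false))) (g := fun _ => 0)
      (F := Zc (j, true)) (G := Zc (j, true)) (fun l hl => gi_dl_Zc hℓ _ hl) (fun _ _ => rfl) hl,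
      cup_zero_left]
  have h2 : cup (sg (Zc (j, false))) (dl (Zc (j, true))) l = 0 := by
    rw [cup_congr gi_hered (f := sg (Zc (j, false))) (g := sg (Zc (j, false)))
      (F := dl (Zc (j, true))) (G := fun _ => 0) (fun _ _ => rfl)
      (fun l hl => gi_dl_Zc hℓ _ hl) hl, cup_zero_right]
  rw [h1, h2, add_zero]

theorem gi_Zc_act (σ : Equiv.Perm (Fin p)) (c : Crd p) (l : List (YY X p ℓ)) :
    Zc c (l.map (act σ)) = Zc (σ c.1, c.2) l := by
  rcases l with _ | ⟨y₀, _ | ⟨y₁, _ | ⟨y₂, l⟩⟩⟩ <;> rfl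

theorem tc_act (σ : Equiv.Perm (Fin p)) (l : List (YY X p ℓ)) : tc (l.map (act σ)) = tc l := by
  unfold tc
  rw [← Equiv.sum_comp σ (fun j => cup (Zc (j, false)) (Zc (j, true)) l)]
  refine Finset.sum_congr rfl fun j _ => ?_
  rw [← cup_comp]
  congr 1 <;> funext l' <;> exact gi_Zc_act σ _ l'

theorem gi_map_intc [NeZero ℓ] (D : M →+ N) (c : Crd p) (F : List (YY X p ℓ) → M)
    (l : List (YY X p ℓ)) : D (intc c F l) = intc c (fun l => D (F l)) l := by
  unfold intc
  rw [map_sum]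
  exact Finset.sum_congr rfl fun g _ => map_pr D _ _ F l

theorem map_iint [NeZero ℓ] (D : M →+ N) (cs : List (Crd p)) (F : List (YY X p ℓ) → M)
    (l : List (YY X p ℓ)) : D (iint cs F l) = iint cs (fun l => D (F l)) l := by
  induction cs generalizing F with
  | nil => rfl
  | cons c cs ih =>
    change D (iint cs (intc c F) l) = iint cs (intc c fun l => D (F l)) l
    rw [ih]
    congr 1
    funext l'
    exact gi_map_intc D c F l'

theorem iint_nil' [NeZero ℓ] (cs : List (Crd p)) (F : List (YY X p ℓ) → M) (hF : F [] = 0) :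
    iint cs F [] = 0 := by
  induction cs generalizing F with
  | nil => exact hF
  | cons c cs ih =>
    refine ih (intc c F) ?_
    unfold intc
    simp

theorem gi_intc_add [NeZero ℓ] (c : Crd p) (F G : List (YY X p ℓ) → M)
    (l : List (YY X p ℓ)) : intc c (fun l => F l + G l) l = intc c F l + intc c G l := by
  unfold intc
  rw [← Finset.sum_add_distrib]
  exact Finset.sum_congr rfl fun g _ => pr_add _ _ F G l

theorem iint_add [NeZero ℓ] (cs : List (Crd p)) (F G : List (YY X p ℓ) → M)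
    (l : List (YY X p ℓ)) : iint cs (fun l => F l + G l) l = iint cs F l + iint cs G l := by
  induction cs generalizing F G with
  | nil => rfl
  | cons c cs ih =>
    change iint cs (intc c fun l => F l + G l) l = iint cs (intc c F) l + iint cs (intc c G) l
    rw [← ih]
    congr 1
    funext l'
    exact gi_intc_add c F G l'

theorem gi_intc_dl [NeZero ℓ] (c : Crd p) (F : List (YY X p ℓ) → M) (l : List (YY X p ℓ)) :
    intc c (dl F) l = - dl (intc c F) l := by
  have h1 : ∑ g : ZMod ℓ, (F (l.map (upd c (g + 1))) - F (l.map (upd c g))) = 0 := by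
    rw [Finset.sum_sub_distrib, sub_eq_zero]
    exact Equiv.sum_comp (Equiv.addRight (1 : ZMod ℓ)) fun g => F (l.map (upd c g))
  have h2 : dl (intc c F) l = ∑ g : ZMod ℓ, dl (pr (upd c g) (upd c (g + 1)) F) l :=
    dl_sum Finset.univ (fun g => pr (upd c g) (upd c (g + 1)) F) l
  rw [h2]
  unfold intc
  rw [Finset.sum_congr rfl fun g _ => pr_dl (upd c g) (upd c (g + 1)) F l, Finset.sum_sub_distrib,
    h1, zero_sub]

theorem iint_dl [NeZero ℓ] (cs : List (Crd p)) (F : List (YY X p ℓ) → M) (l : List (YY X p ℓ)) :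
    iint cs (dl F) l = (-1 : ℤ) ^ cs.length • dl (iint cs F) l := by
  induction cs generalizing F with
  | nil =>
    change dl F l = (-1 : ℤ) ^ 0 • dl F l
    simp
  | cons c cs ih =>
    change iint cs (intc c (dl F)) l = (-1 : ℤ) ^ (cs.length + 1) • dl (iint cs (intc c F)) l
    have h : intc c (dl F) = fun l => (negAddMonoidHom : M →+ M) (dl (intc c F) l) := by
      funext l'
      exact gi_intc_dl c F l'
    rw [h, ← map_iint, ih, pow_succ]
    simp

theorem gi_pr_mem {Y Z : Type*} (a b : Y → Z) (F : List Z → M) (l : List Y) (H : AddSubgroup M)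
    (hF : ∀ L : List Z, L.length = l.length + 1 → (∀ z ∈ L, ∃ y ∈ l, z = a y ∨ z = b y) →
      F L ∈ H) : pr a b F l ∈ H := by
  induction l generalizing F with
  | nil => exact H.zero_mem
  | cons y l ih =>
    rw [pr_cons]
    refine H.sub_mem (hF _ (by simp) ?_) (ih _ fun L hL hz => hF _ (by simp [hL]) ?_)
    · intro z hz
      rw [List.mem_cons, List.mem_cons, List.mem_map] at hz
      rcases hz with rfl | rfl | ⟨y', hy', rfl⟩
      · exact ⟨y, by simp, Or.inl rfl⟩
      · exact ⟨y, by simp, Or.inr rfl⟩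
      · exact ⟨y', by simp [hy'], Or.inr rfl⟩
    · intro z hz'
      rw [List.mem_cons] at hz'
      rcases hz' with rfl | hz'
      · exact ⟨y, by simp, Or.inl rfl⟩
      · obtain ⟨y', hy', h⟩ := hz z hz'
        exact ⟨y', by simp [hy'], h⟩

/-- support of the iterated integral -/
theorem iint_mem [NeZero ℓ] (cs : List (Crd p)) (F : List (YY X p ℓ) → M)
    (l : List (YY X p ℓ)) (hl : GridSmall l) (H : AddSubgroup M)
    (hF : ∀ L : List (YY X p ℓ), L.length = l.length + cs.length →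
      (∀ y ∈ L, ∃ y' ∈ l, y.1 = y'.1) → GridSmall L → F L ∈ H) : iint cs F l ∈ H := by
  induction cs generalizing F with
  | nil => exact hF l (by simp) (fun y hy => ⟨y, hy, rfl⟩) hl
  | cons c cs ih =>
    refine ih (intc c F) fun L hL hL1 hL2 => ?_
    unfold intc
    refine H.sum_mem fun g _ => gi_pr_mem _ _ F L H fun L' hL' hv => hF L' ?_ ?_ ?_
    · rw [hL', hL, List.length_cons]
      omega
    · intro y hy
      obtain ⟨y', hy', h⟩ := hv y hy
      obtain ⟨y'', hy'', h''⟩ := hL1 y' hy'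
      refine ⟨y'', hy'', ?_⟩
      rcases h with rfl | rfl <;> exact h''
    · obtain ⟨g₀, hg₀⟩ := hL2
      refine ⟨Function.update g₀ c g, fun y hy c' => ?_⟩
      obtain ⟨y', hy', h⟩ := hv y hy
      by_cases hc : c' = c
      · subst hc
        rcases h with rfl | rfl
        · left; simp [upd]
        · right; simp [upd]
      · rcases h with rfl | rfl <;> simpa [upd, Function.update_of_ne hc] using hg₀ y' hy' c'

/-- the fundamental class of the torus evaluates to `p !` on `t ^ p` -/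
theorem iint_tc [NeZero ℓ] (hℓ : 3 ≤ ℓ) (y : YY X p ℓ) :
    iint (allc p) (cpow tc p) [y] = (p.factorial : ℤ) := iint_tc' hℓ y

end Vale.Agent.P093.Hom
end

section

/-!
TASK HOM-D2: divisibility by `p !` from the action of the symmetric group.

Proof of `iint_dvd`. Let `c = iint (allc p) single l : List (YY X p ℓ) →₀ ℤ` where
`single L = Finsupp.single L 1`; then `iint (allc p) F l = c.sum (fun L n => n • F L)` for every `F`
(both sides are the same signed sum; `map_pr`-type statement for the homomorphism extend `F`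
linearly).
(1) `c` is invariant under `act σ` (i.e. `Finsupp.mapDomain (List.map (act σ)) c = c`):
`act σ ∘ upd (σ k, b) g = upd (k, b) g ∘ act σ`, so (for every `F`, and every `l` with zero
parameters, which is fixed by `act σ`) `iint cs (F ∘ map (act σ)) l = iint (σ' cs) F l`, where
`σ'` relabels the coordinates `(k,b) ↦ (σ⁻¹ k, b)`; and `iint` changes by the sign of the
permutation when the list of coordinates is permuted, because of the
*anticommutation lemma*: if `a, b, a', b' : Y → Y` and each of `a, b` commutes with each of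
`a', b'`, then `pr a b (pr a' b' F) l = - pr a' b' (pr a b F) l`. Proof by induction on `l`:
both sides for `y :: l` unfold to
`F(a'ay :: b'ay :: bb' l…) - F(a'ay :: a'by :: …) + pr a' b' (F(a'ay :: a'by :: ·)) (l.map b)
 - pr a b (fun l' => F(a'ay :: b'ay :: l'.map b')) l + pr a b (pr a' b' (F(a'ay :: ·))) l`
and the same with primes exchanged; use naturality
`pr a' b' H (l.map b) = pr a' b' (fun l' => H (l'.map b)) l`. For different coordinates `c ≠ c'` the
maps `upd c g`, `upd c' g'` commute. A permutation of the pairs (blocks of length two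
`[(j,false),(j,true)]`) is a product of swaps of adjacent blocks, each of which is a product of four
adjacent transpositions, so has sign `+1`: `iint (cs₁ ++ [a,b] ++ [c,d] ++ cs₂) F =
iint (cs₁ ++ [c,d] ++ [a,b] ++ cs₂) F`; then `List.Perm` induction on the list of indices
(`iint ((js).flatMap …) F = iint ((js').flatMap …) F` if `js.Perm js'`, `js.Nodup`).
(2) every `L` in the support of `c` has trivial stabilizer: for all coordinates `c ≠ c'` in `allc p`
there are two *consecutive* vertices `y, y'` of `L` with `y.2 c ≠ y'.2 c` and `y.2 c' = y'.2 c'`.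
This is shown for the iterated prism by induction over the coordinates (`ℓ ≥ 2`): a term of the
prism in a new coordinate `c''` of a list `[y₀,…,y_q]` is `[a y₀,…,a y_i, b y_i,…, b y_q]`, the new
edge `(a y_i, b y_i)` changes `c''` and no other coordinate, each old edge `(y_k, y_{k+1})` survives as
`(a y_k, a y_{k+1})` (`k < i`) or `(b y_k, b y_{k+1})` (`k ≥ i`), where `c''` is constant.
If `L.map (act σ) = L` with `σ k = j ≠ k` then `y.2 (k,false) = y.2 (j,false)` for all vertices,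
contradiction. Hence all `p !` lists `L.map (act σ)` are different.
(3) sum over orbits: choose for the equivalence relation same orbit on the support; each class has
`p !` elements, `c` and `F` are constant on it, so `c.sum (n • F)` is `p !` times a sum over
representatives.
-/

namespace Vale.Agent.P093.Hom

variable {X : Type*} {p ℓ : ℕ} {M N : Type*} [AddCommGroup M] [AddCommGroup N]

/-- naturality of the prism operator -/
private theorem pr_nat {Y Z : Type*} {a b : Y → Y} {a' b' : Z → Z} {φ : Y → Z}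
    (ha : ∀ y, φ (a y) = a' (φ y)) (hb : ∀ y, φ (b y) = b' (φ y)) (F : List Z → M) (l : List Y) :
    pr a b (fun l => F (l.map φ)) l = pr a' b' F (l.map φ) := by
  induction l generalizing F with
  | nil => rfl
  | cons y l ih =>
    have h1 : (l.map b).map φ = (l.map φ).map b' := by
      rw [List.map_map, List.map_map]
      exact List.map_congr_left fun z _ => hb z
    simp only [pr_cons, List.map_cons, ha, hb, h1]
    rw [ih (fun l' => F (a' (φ y) :: l'))]

private theorem pr_pr_cons {Y : Type*} (a b a' b' : Y → Y) (F : List Y → M) (y : Y)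
    (l : List Y) : pr a b (pr a' b' F) (y :: l) =
      F (a' (a y) :: b' (a y) :: b' (b y) :: (l.map b).map b') -
        F (a' (a y) :: a' (b y) :: b' (b y) :: (l.map b).map b') +
        pr a' b' (fun l' => F (a' (a y) :: a' (b y) :: l')) (l.map b) -
        pr a b (fun l' => F (a' (a y) :: b' (a y) :: l'.map b')) l +
        pr a b (pr a' b' fun l' => F (a' (a y) :: l')) l := by
  have h1 : (fun l' => pr a' b' F (a y :: l')) = fun l' =>
      F (a' (a y) :: b' (a y) :: l'.map b') - pr a' b' (fun l'' => F (a' (a y) :: l'')) l' := by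
    funext l'
    rw [pr_cons]
  rw [pr_cons a b, h1, pr_sub, pr_cons a' b', pr_cons a' b']
  simp only [List.map_cons]
  abel

theorem pr_pr_comm {Y : Type*} (a b a' b' : Y → Y) (haa : ∀ y, a (a' y) = a' (a y))
    (hab : ∀ y, a (b' y) = b' (a y)) (hba : ∀ y, b (a' y) = a' (b y))
    (hbb : ∀ y, b (b' y) = b' (b y)) (F : List Y → M) (l : List Y) :
    pr a b (pr a' b' F) l = - pr a' b' (pr a b F) l := by
  induction l generalizing F with
  | nil => simp
  | cons y l ih =>
    have h1 : (l.map b').map b = (l.map b).map b' := by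
      rw [List.map_map, List.map_map]
      exact List.map_congr_left fun z _ => hbb z
    rw [pr_pr_cons a b a' b' F, pr_pr_cons a' b' a b F, ih, haa, hab, hba, hbb, h1,
      ← pr_nat (φ := b) (a := a') (b := b') (a' := a') (b' := b') hba hbb,
      ← pr_nat (φ := b') (a := a) (b := b) (a' := a) (b' := b) (fun y => (hab y).symm)
        (fun y => (hbb y).symm)]
    abel

section intc

variable [NeZero ℓ]

private theorem intc_neg' (c : Crd p) (F : List (YY X p ℓ) → M) :
    intc c (fun l => - F l) = fun l => - intc c F l := by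
  funext l
  simp only [intc, pr_neg, Finset.sum_neg_distrib]

omit [NeZero ℓ] in
private theorem upd_comm {c c' : Crd p} (h : c ≠ c') (g g' : ZMod ℓ) (y : YY X p ℓ) :
    upd c g (upd c' g' y) = upd c' g' (upd c g y) := by
  simp only [upd]
  rw [Function.update_comm h]

private theorem intc_comm {c c' : Crd p} (h : c ≠ c') (F : List (YY X p ℓ) → M) :
    intc c (intc c' F) = fun l => - intc c' (intc c F) l := by
  funext l
  have h1 : ∀ (c c' : Crd p), intc c (intc c' F) l = ∑ g : ZMod ℓ, ∑ g' : ZMod ℓ,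
      pr (upd c g) (upd c (g + 1)) (pr (upd c' g') (upd c' (g' + 1)) F) l := by
    intro c c'
    unfold intc
    exact Finset.sum_congr rfl fun g _ => pr_sum _ _ _ _ _
  rw [h1 c c', h1 c' c, Finset.sum_comm, ← Finset.sum_neg_distrib]
  refine Finset.sum_congr rfl fun g _ => ?_
  rw [← Finset.sum_neg_distrib]
  refine Finset.sum_congr rfl fun g' _ => ?_
  exact pr_pr_comm _ _ _ _ (upd_comm h _ _) (upd_comm h _ _) (upd_comm h _ _)
    (upd_comm h _ _) F l

/-- two blocks of length two commute -/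
private theorem intc_block {x y : Fin p} (h : x ≠ y) (F : List (YY X p ℓ) → M) :
    intc (x, true) (intc (x, false) (intc (y, true) (intc (y, false) F))) =
      intc (y, true) (intc (y, false) (intc (x, true) (intc (x, false) F))) := by
  have hc : ∀ b b' : Bool, ((x, b) : Crd p) ≠ (y, b') := fun b b' e => h (Prod.ext_iff.1 e).1
  rw [intc_comm (hc false true), intc_neg', intc_comm (hc true true), intc_comm (hc false false),
    intc_neg' (x, true), intc_neg' (y, true), intc_comm (hc true false), intc_neg' (y, true)]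
  simp only [neg_neg]

private theorem iint_blocks {js js' : List (Fin p)} (h : js.Perm js') (hn : js.Nodup)
    (F : List (YY X p ℓ) → M) :
    iint (js.flatMap fun j => [(j, false), (j, true)]) F =
      iint (js'.flatMap fun j => [(j, false), (j, true)]) F := by
  induction h generalizing F with
  | nil => rfl
  | cons x _ ih =>
    simp only [List.flatMap_cons, List.cons_append, List.nil_append, iint]
    exact ih (List.nodup_cons.1 hn).2 _
  | swap x y l =>
    simp only [List.flatMap_cons, List.cons_append, List.nil_append, iint]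
    rw [intc_block]
    intro e
    subst e
    simp at hn
  | trans h1 _ ih1 ih2 => rw [ih1 hn, ih2 (h1.nodup_iff.1 hn)]

omit [NeZero ℓ] in
private theorem act_upd (σ : Equiv.Perm (Fin p)) (c : Crd p) (g : ZMod ℓ) (y : YY X p ℓ) :
    act σ (upd c g y) = upd (σ⁻¹ c.1, c.2) g (act σ y) := by
  simp only [act, upd]
  refine Prod.ext rfl ?_
  funext d
  simp only [Function.update_apply]
  have : ((σ d.1, d.2) = c) ↔ (d = (σ⁻¹ c.1, c.2)) := by
    constructor
    · rintro rfl
      simp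
    · rintro rfl
      simp
  simp only [this]

private theorem iint_act (σ : Equiv.Perm (Fin p)) (cs : List (Crd p))
    (F : List (YY X p ℓ) → M) (l : List (YY X p ℓ)) :
    iint cs (fun l => F (l.map (act σ))) l =
      iint (cs.map fun c => (σ⁻¹ c.1, c.2)) F (l.map (act σ)) := by
  induction cs generalizing F with
  | nil => rfl
  | cons c cs ih =>
    have h1 : intc c (fun l => F (l.map (act σ))) =
        fun l => intc (σ⁻¹ c.1, c.2) F (l.map (act σ)) := by
      funext l
      unfold intc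
      exact Finset.sum_congr rfl fun g _ => pr_nat (act_upd σ c g) (act_upd σ c (g + 1)) F l
    simp only [iint, List.map_cons]
    rw [h1]
    exact ih (intc (σ⁻¹ c.1, c.2) F)

private theorem iint_inv (σ : Equiv.Perm (Fin p)) (F : List (YY X p ℓ) → M)
    (l : List (YY X p ℓ)) (hl : ∀ y ∈ l, y.2 = 0) :
    iint (allc p) (fun l => F (l.map (act σ))) l = iint (allc p) F l := by
  have h1 : l.map (act σ) = l := by
    conv_rhs => rw [← List.map_id l]
    refine List.map_congr_left fun y hy => ?_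
    refine Prod.ext rfl ?_
    funext c
    simp only [act, id, hl y hy, Pi.zero_apply]
  have h2 : (allc p).map (fun c => (σ⁻¹ c.1, c.2)) =
      ((List.finRange p).map fun j => σ⁻¹ j).flatMap fun j => [(j, false), (j, true)] := by
    rw [allc, List.map_flatMap, List.flatMap_map]
    rfl
  rw [iint_act, h1, h2]
  have h3 : ((List.finRange p).map fun j => σ⁻¹ j).Perm (List.finRange p) := by
    rw [List.perm_ext_iff_of_nodup ((List.nodup_finRange p).map (σ⁻¹).injective)
      (List.nodup_finRange p)]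
    intro a
    simp only [List.mem_map, List.mem_finRange, true_and, iff_true]
    exact ⟨σ a, by simp⟩
  rw [iint_blocks h3 ((List.nodup_finRange p).map (σ⁻¹).injective), allc]

private theorem map_iint' (D : M →+ N) (cs : List (Crd p)) (F : List (YY X p ℓ) → M)
    (l : List (YY X p ℓ)) : D (iint cs F l) = iint cs (fun l => D (F l)) l := by
  induction cs generalizing F with
  | nil => rfl
  | cons c cs ih =>
    have h1 : (fun l => D (intc c F l)) = intc c (fun l => D (F l)) := by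
      funext l
      unfold intc
      rw [map_sum]
      exact Finset.sum_congr rfl fun g _ => map_pr D _ _ F l
    simp only [iint]
    rw [ih, h1]

end intc

/-- support of the prism operator -/
private theorem pr_supp {Y : Type*} {a b : Y → Y} {F : List Y → M} {l : List Y}
    (H : AddSubgroup M)
    (hF : ∀ L₁ y L₂, l = L₁ ++ y :: L₂ → F (L₁.map a ++ a y :: b y :: L₂.map b) ∈ H) :
    pr a b F l ∈ H := by
  induction l generalizing F with
  | nil => exact H.zero_mem
  | cons y l ih =>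
    rw [pr_cons]
    refine H.sub_mem (hF [] y l rfl) (ih fun L₁ z L₂ e => ?_)
    have := hF (y :: L₁) z L₂ (by rw [e]; rfl)
    simpa using this

/-- every coordinate in `cs` is changed between two vertices at which any given other coordinate
is the same -/
private def Sep (cs : List (Crd p)) (L : List (YY X p ℓ)) : Prop :=
  ∀ c ∈ cs, ∀ c' : Crd p, c' ≠ c → ∃ y ∈ L, ∃ y' ∈ L, y.2 c ≠ y'.2 c ∧ y.2 c' = y'.2 c'

private theorem upd_same (c : Crd p) (g : ZMod ℓ) (y : YY X p ℓ) : (upd c g y).2 c = g := by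
  simp [upd]

private theorem upd_other {c c' : Crd p} (h : c' ≠ c) (g : ZMod ℓ) (y : YY X p ℓ) :
    (upd c g y).2 c' = y.2 c' := by
  simp [upd, Function.update_of_ne h]

private theorem sep_step (hℓ : 2 ≤ ℓ) {cs : List (Crd p)} {c : Crd p} (hc : c ∉ cs)
    {L₁ L₂ : List (YY X p ℓ)} {y : YY X p ℓ} (h : Sep cs (L₁ ++ y :: L₂)) (g : ZMod ℓ) :
    Sep (c :: cs) (L₁.map (upd c g) ++ upd c g y :: upd c (g + 1) y ::
      L₂.map (upd c (g + 1))) := by
  have hg : g ≠ g + 1 := by
    have : Fact (1 < ℓ) := ⟨hℓ⟩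
    intro e
    have : (1 : ZMod ℓ) = 0 := by
      have := congrArg (fun t => t - g) e
      simpa using this.symm
    exact one_ne_zero this
  have hy1 : upd c g y ∈ L₁.map (upd c g) ++ upd c g y :: upd c (g + 1) y ::
      L₂.map (upd c (g + 1)) := by simp
  have hy2 : upd c (g + 1) y ∈ L₁.map (upd c g) ++ upd c g y :: upd c (g + 1) y ::
      L₂.map (upd c (g + 1)) := by simp
  intro d hd c' hc'
  rcases List.mem_cons.1 hd with rfl | hd
  · exact ⟨_, hy1, _, hy2, by rw [upd_same, upd_same]; exact hg,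
      by rw [upd_other hc', upd_other hc']⟩
  · have hdc : d ≠ c := fun e => hc (e ▸ hd)
    -- every old vertex survives
    have hsurv : ∀ u ∈ L₁ ++ y :: L₂, ∃ u' ∈ L₁.map (upd c g) ++ upd c g y ::
        upd c (g + 1) y :: L₂.map (upd c (g + 1)), ∀ e : Crd p, e ≠ c → u'.2 e = u.2 e := by
      intro u hu
      rcases List.mem_append.1 hu with hu | hu
      · exact ⟨upd c g u, List.mem_append_left _ (List.mem_map_of_mem hu),
          fun e he => upd_other he _ _⟩
      · rcases List.mem_cons.1 hu with rfl | hu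
        · exact ⟨_, hy1, fun e he => upd_other he _ _⟩
        · exact ⟨upd c (g + 1) u, List.mem_append_right _ (List.mem_cons_of_mem _
            (List.mem_cons_of_mem _ (List.mem_map_of_mem hu))), fun e he => upd_other he _ _⟩
    obtain ⟨u, hu, v, hv, huv, huv'⟩ := h d hd c' hc'
    by_cases hcc : c' = c
    · -- the new coordinate
      subst hcc
      have key : ∀ w ∈ L₁ ++ y :: L₂, w.2 d ≠ y.2 d → ∃ s ∈ L₁.map (upd c' g) ++ upd c' g y ::
          upd c' (g + 1) y :: L₂.map (upd c' (g + 1)), ∃ t ∈ L₁.map (upd c' g) ++ upd c' g y ::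
          upd c' (g + 1) y :: L₂.map (upd c' (g + 1)), s.2 d ≠ t.2 d ∧ s.2 c' = t.2 c' := by
        intro w hw hne
        rcases List.mem_append.1 hw with hw | hw
        · exact ⟨upd c' g w, List.mem_append_left _ (List.mem_map_of_mem hw), _, hy1,
            by rw [upd_other hdc, upd_other hdc]; exact hne, by rw [upd_same, upd_same]⟩
        · rcases List.mem_cons.1 hw with rfl | hw
          · exact absurd rfl hne
          · exact ⟨upd c' (g + 1) w, List.mem_append_right _ (List.mem_cons_of_mem _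
              (List.mem_cons_of_mem _ (List.mem_map_of_mem hw))), _, hy2,
              by rw [upd_other hdc, upd_other hdc]; exact hne, by rw [upd_same, upd_same]⟩
      by_cases h1 : u.2 d = y.2 d
      · exact key v hv fun e => huv (h1.trans e.symm)
      · exact key u hu h1
    · obtain ⟨u', hu', hu2⟩ := hsurv u hu
      obtain ⟨v', hv', hv2⟩ := hsurv v hv
      exact ⟨u', hu', v', hv', by rw [hu2 d hdc, hv2 d hdc]; exact huv,
        by rw [hu2 c' hcc, hv2 c' hcc]; exact huv'⟩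

private theorem iint_supp [NeZero ℓ] (hℓ : 2 ≤ ℓ) (H : AddSubgroup M) (cs : List (Crd p))
    (hn : cs.Nodup) (F : List (YY X p ℓ) → M) (hF : ∀ L, Sep cs L → F L ∈ H)
    (l : List (YY X p ℓ)) : iint cs F l ∈ H := by
  induction cs generalizing F with
  | nil => exact hF l fun c hc => absurd hc List.not_mem_nil
  | cons c cs ih =>
    simp only [iint]
    refine ih (List.nodup_cons.1 hn).2 _ fun L hL => ?_
    unfold intc
    refine H.sum_mem fun g _ => pr_supp H fun L₁ y L₂ e => hF _ ?_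
    exact sep_step hℓ (List.nodup_cons.1 hn).1 (e ▸ hL) g

/-- sums over free orbits are divisible by the order of the group -/
private theorem orbit_sum {G Ω : Type*} [Group G] [Fintype G] (A : G → Ω → Ω)
    (A1 : ∀ x, A 1 x = x) (Am : ∀ g h x, A g (A h x) = A (h * g) x) (c : Ω →₀ ℤ)
    (hc : ∀ g x, c (A g x) = c x) (hfree : ∀ g x, c x ≠ 0 → A g x = x → g = 1) (F : Ω → M)
    (hF : ∀ g x, F (A g x) = F x) :
    ∃ m : M, (c.sum fun x n => n • F x) = (Fintype.card G : ℤ) • m := by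
  classical
  let S : Setoid Ω :=
    { r := fun x y => ∃ g, A g x = y
      iseqv :=
        { refl := fun x => ⟨1, A1 x⟩
          symm := by
            rintro x y ⟨g, rfl⟩
            exact ⟨g⁻¹, by rw [Am, mul_inv_cancel, A1]⟩
          trans := by
            rintro x y z ⟨g, rfl⟩ ⟨h, rfl⟩
            exact ⟨g * h, (Am _ _ _).symm⟩ } }
  let π : Ω → Quotient S := fun x => Quotient.mk S x
  have key : ∀ q ∈ c.support.image π, ∃ m : M,
      ∑ x ∈ c.support.filter (fun x => π x = q), c x • F x = (Fintype.card G : ℤ) • m := by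
    intro q hq
    obtain ⟨x₀, hx₀, rfl⟩ := Finset.mem_image.1 hq
    have hne : c x₀ ≠ 0 := Finsupp.mem_support_iff.1 hx₀
    have himg : c.support.filter (fun x => π x = π x₀) =
        Finset.univ.image fun g => A g x₀ := by
      ext x
      simp only [Finset.mem_filter, Finsupp.mem_support_iff, Finset.mem_image, Finset.mem_univ,
        true_and]
      constructor
      · rintro ⟨-, h⟩
        have h2 : S.r x₀ x := Quotient.exact h.symm
        exact h2
      · rintro ⟨g, rfl⟩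
        refine ⟨by rw [hc]; exact hne, Quotient.sound ?_⟩
        exact S.symm ⟨g, rfl⟩
    have hinj : Set.InjOn (fun g => A g x₀) (Finset.univ : Finset G) := by
      intro g _ h _ e
      have e2 : A g x₀ = A h x₀ := e
      have : A h⁻¹ (A g x₀) = x₀ := by rw [e2, Am, mul_inv_cancel, A1]
      rw [Am] at this
      exact mul_inv_eq_one.1 (hfree _ _ hne this)
    refine ⟨c x₀ • F x₀, ?_⟩
    rw [himg, Finset.sum_image hinj]
    simp only [hc, hF, Finset.sum_const, Finset.card_univ, natCast_zsmul]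
  choose! m hm using key
  refine ⟨∑ q ∈ c.support.image π, m q, ?_⟩
  rw [Finsupp.sum, Finset.smul_sum,
    ← Finset.sum_fiberwise_of_maps_to (g := π) (t := c.support.image π)
      (fun x hx => Finset.mem_image_of_mem π hx)]
  exact Finset.sum_congr rfl fun q hq => hm q hq

private theorem nodup_allc : (allc p).Nodup := by
  rw [allc, List.nodup_flatMap]
  refine ⟨fun j _ => by simp, ?_⟩
  refine (List.nodup_finRange p).imp ?_
  intro a b hab
  simp [Function.onFun, List.disjoint_left, hab]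

theorem iint_dvd [NeZero ℓ] (hℓ : 3 ≤ ℓ) (F : List (YY X p ℓ) → M)
    (hF : ∀ (σ : Equiv.Perm (Fin p)) l, F (l.map (act σ)) = F l) (l : List (YY X p ℓ))
    (hl : ∀ y ∈ l, y.2 = 0) : ∃ m : M, iint (allc p) F l = (p.factorial : ℤ) • m := by
  classical
  set e : List (YY X p ℓ) → (List (YY X p ℓ) →₀ ℤ) := fun L => Finsupp.single L 1 with he
  set c := iint (allc p) e l with hc
  have h1 : iint (allc p) F l = c.sum fun L n => n • F L := by
    have h2 := map_iint' (Finsupp.linearCombination ℤ F).toAddMonoidHom (allc p) e l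
    have h3 : (fun l => (Finsupp.linearCombination ℤ F).toAddMonoidHom (e l)) = F := by
      funext L
      simp [he]
    rw [h3] at h2
    rw [← h2]
    rfl
  have hact1 : ∀ y : YY X p ℓ, act 1 y = y := fun y => rfl
  have hactm : ∀ (σ τ : Equiv.Perm (Fin p)) (y : YY X p ℓ),
      act σ (act τ y) = act (τ * σ) y := fun σ τ y => rfl
  have hinj : ∀ σ : Equiv.Perm (Fin p), Function.Injective (act σ : YY X p ℓ → YY X p ℓ) := by
    intro σ x y h
    have := congrArg (act σ⁻¹) h
    rwa [hactm, hactm, mul_inv_cancel, hact1, hact1] at this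
  have hcinv : ∀ (σ : Equiv.Perm (Fin p)) L, c (L.map (act σ)) = c L := by
    intro σ L
    have h2 := map_iint' (Finsupp.mapDomain.addMonoidHom (M := ℤ) (List.map (act σ)))
      (allc p) e l
    have h3 : (fun l => Finsupp.mapDomain.addMonoidHom (M := ℤ) (List.map (act σ)) (e l)) =
        fun l => e (l.map (act σ)) := by
      funext L
      simp [he, Finsupp.mapDomain.addMonoidHom, Finsupp.mapDomain_single]
    rw [h3, iint_inv σ e l hl] at h2
    have h4 : Finsupp.mapDomain (List.map (act σ)) c = c := h2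
    conv_lhs => rw [← h4]
    exact Finsupp.mapDomain_apply (List.map_injective_iff.2 (hinj σ)) c L
  have hsupp : ∀ L, c L ≠ 0 → Sep (allc p) L := by
    let H : AddSubgroup (List (YY X p ℓ) →₀ ℤ) :=
      { carrier := {f | ∀ L, f L ≠ 0 → Sep (allc p) L}
        zero_mem' := fun L h => absurd rfl h
        add_mem' := by
          intro f g hf hg L h
          by_contra hn
          have h1 : f L = 0 := by_contra fun h => hn (hf L h)
          have h2 : g L = 0 := by_contra fun h => hn (hg L h)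
          exact h (by rw [Finsupp.add_apply, h1, h2, add_zero])
        neg_mem' := by
          intro f hf L h
          exact hf L fun h1 => h (by rw [Finsupp.neg_apply, h1, neg_zero]) }
    have : c ∈ H := iint_supp (by omega) H (allc p) nodup_allc e (fun L hL L' h => by
      by_cases hLL : L = L'
      · exact hLL ▸ hL
      · exact absurd (by rw [he]; exact Finsupp.single_eq_of_ne' hLL) h) l
    exact this
  obtain ⟨m, hm⟩ := orbit_sum (G := Equiv.Perm (Fin p)) (fun σ L => L.map (act σ))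
    (fun L => by
      conv_rhs => rw [← List.map_id L]
      exact List.map_congr_left fun y _ => hact1 y)
    (fun σ τ L => by
      rw [List.map_map]
      exact List.map_congr_left fun y _ => hactm σ τ y) c hcinv
    (fun σ L hL hfix => by
      by_contra hne
      obtain ⟨k, hk⟩ : ∃ k, σ k ≠ k := by
        by_contra hcon
        push Not at hcon
        exact hne (Equiv.ext hcon)
      have hmem : ((σ k, false) : Crd p) ∈ allc p := by
        rw [allc, List.mem_flatMap]
        exact ⟨σ k, List.mem_finRange _, by simp⟩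
      obtain ⟨y, hy, y', hy', h2, h3⟩ := hsupp L hL (σ k, false) hmem (k, false)
        (fun e => hk (Prod.ext_iff.1 e).1.symm)
      have hfix' : ∀ y ∈ L, act σ y = y := by
        have h5 : L.map (act σ) = L.map id := by rw [List.map_id]; exact hfix
        exact fun y hy => List.map_inj_left.1 h5 y hy
      have h6 : ∀ y ∈ L, y.2 (σ k, false) = y.2 (k, false) := by
        intro y hy
        conv_rhs => rw [← hfix' y hy]
        rfl
      exact h2 (by rw [h6 y hy, h6 y' hy']; exact h3)) F hF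
  refine ⟨m, ?_⟩
  rw [h1, hm, Fintype.card_perm, Fintype.card_fin]

end Vale.Agent.P093.Hom
end

section

/-!
TASK HOM-D4: quasi-periodicity on the grid.

Proofs.
* `wrap` facts for two points of a grid cube (`ℓ ≥ 3`): with `a = y₀.2 c`, `b = y₁.2 c` both in
  `{g, g+1}`: `b.val = a.val + (-1|0|1) - ℓ * wrap a b`, more precisely
  `|b.val/ℓ + wrap a b - a.val/ℓ| ≤ 1/ℓ`.
* `thc_coboundary`: `wrap(1,2) - wrap(0,2) + wrap(0,1) = 0` for three points in a grid cube, so the
  left side is `∑_j Y_j(0,1) (x_j(y₁) - x_j(y₂)) - Y_j(0,1) X_j(1,2)` and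
  `|x_j(y₁) - x_j(y₂) - X_j(1,2)| ≤ 1/ℓ`, `|Y_j| ≤ 1`.
* `qp_close`: let `q̃ j = ph (x_j(y₁) * Y_j(y₀,y₁)) • qq y₁ j`. By `MultiHom`,
  `F x₁ q̃ = ph (thc y₀ y₁) * F x₁ (qq y₁)` (`∏ ph = ph ∑`). And `‖q̃ j - qq y₀ j‖ ≤ 20/ℓ`: no wrap of
  the `y`-coordinate: `b₀, b₁` differ by at most `1/ℓ`, `a₀, a₁` by at most `1/ℓ` modulo 1, `ph` is
  `2π`-Lipschitz and 1-periodic; wrap `+1`: `b₀ = (ℓ-1)/ℓ`, `b₁ = 0`, `q̃ = (ph a₁, 0)`,
  `qq y₀ j = (1/ℓ + (1-1/ℓ) ph a₀, (1-1/ℓ)/ℓ)`; wrap `-1`: `b₀ = 0`, `b₁ = (ℓ-1)/ℓ`,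
  `q̃ = ph (-a₁) (1/ℓ + (1-1/ℓ) ph a₁, (1-1/ℓ)/ℓ)`, `qq y₀ j = (1, 0)`. All `q`'s are in a fixed
  compact ball; `F` is uniformly continuous on `X × ball`.
* `ktf_ne_zero`: if `b ∈ {0,1}` the first entry has absolute value `1`, otherwise the second is
  nonzero. `act` permutes: `qq (act σ y) j = qq y (σ j)`, `thc (act σ y₀) (act σ y₁) = thc y₀ y₁`.
-/

namespace Vale.Agent.P093.Hom

variable {X : Type*} {p ℓ : ℕ}

/-! ### wrap numbers -/

theorem gc_neg_one_ne_zero (hℓ : 3 ≤ ℓ) : (-1 : ZMod ℓ) ≠ 0 := by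
  have : Fact (1 < ℓ) := ⟨by omega⟩
  exact neg_ne_zero.2 one_ne_zero

theorem gc_one_ne_neg_one (hℓ : 3 ≤ ℓ) : (1 : ZMod ℓ) ≠ -1 := by
  intro h
  have h2 : ((2 : ℕ) : ZMod ℓ) = 0 := by
    have h3 : (1 : ZMod ℓ) + 1 = 0 := by
      nth_rewrite 2 [h]
      exact add_neg_cancel 1
    rw [Nat.cast_ofNat, ← one_add_one_eq_two]
    exact h3
  rw [ZMod.natCast_eq_zero_iff] at h2
  have h4 := Nat.le_of_dvd two_pos h2
  omega

theorem gc_val_neg_one (hℓ : 3 ≤ ℓ) : ((-1 : ZMod ℓ).val : ℝ) = ℓ - 1 := by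
  obtain ⟨n, rfl⟩ : ∃ n, ℓ = n + 1 := ⟨ℓ - 1, by omega⟩
  rw [ZMod.val_neg_one]
  push_cast
  ring

theorem gc_val_succ (hℓ : 3 ≤ ℓ) {g : ZMod ℓ} (hg : g ≠ -1) :
    ((g + 1).val : ℝ) = g.val + 1 := by
  have : NeZero ℓ := ⟨by omega⟩
  have h1 : (1 : ZMod ℓ).val = 1 := ZMod.val_one'' (by omega)
  have h2 : g.val + 1 < ℓ := by
    have h3 := ZMod.val_lt g
    by_contra h4
    apply hg
    have h5 : g.val = ℓ - 1 := by omega
    have h6 : (-1 : ZMod ℓ).val = ℓ - 1 := by
      have h7 := gc_val_neg_one hℓ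
      have h8 : (((-1 : ZMod ℓ).val + 1 : ℕ) : ℝ) = (ℓ : ℕ) := by
        push_cast
        linarith
      have h9 := Nat.cast_injective h8
      omega
    exact ZMod.val_injective ℓ (h5.trans h6.symm)
  rw [ZMod.val_add_of_lt (by rw [h1]; exact h2), h1]
  push_cast
  ring

theorem gc_wrap_zero (hℓ : 3 ≤ ℓ) {g a b : ZMod ℓ} (hg : g ≠ -1) (ha : a = g ∨ a = g + 1)
    (hb : b = g ∨ b = g + 1) : wrap a b = 0 := by
  have key : ∀ x y : ZMod ℓ, (x = g ∨ x = g + 1) → (y = g ∨ y = g + 1) → ¬ (x = -1 ∧ y = 0) := by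
    rintro x y hx hy ⟨rfl, rfl⟩
    rcases hy with h | h
    · rcases hx with h1 | h1
      · exact hg h1.symm
      · rw [← h, zero_add] at h1
        exact gc_one_ne_neg_one hℓ h1.symm
    · exact hg (eq_neg_of_add_eq_zero_left h.symm)
  unfold wrap
  rw [if_neg (key a b ha hb), if_neg fun h => key b a hb ha ⟨h.2, h.1⟩]

theorem gc_wrap_self (hℓ : 3 ≤ ℓ) (a : ZMod ℓ) : wrap a a = 0 := by
  unfold wrap
  rw [if_neg fun h => gc_neg_one_ne_zero hℓ (h.1.symm.trans h.2),
    if_neg fun h => gc_neg_one_ne_zero hℓ (h.2.symm.trans h.1)]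

theorem gc_wrap_one (ℓ : ℕ) : wrap (-1 : ZMod ℓ) 0 = 1 := by
  unfold wrap
  rw [if_pos ⟨rfl, rfl⟩]

theorem gc_wrap_neg_one (hℓ : 3 ≤ ℓ) : wrap (0 : ZMod ℓ) (-1) = -1 := by
  unfold wrap
  rw [if_neg fun h => gc_neg_one_ne_zero hℓ h.2, if_pos ⟨rfl, rfl⟩]

/-- the wrap numbers in a grid cube are differences -/
theorem gc_wrap_diff (hℓ : 3 ≤ ℓ) (g : ZMod ℓ) : ∃ φ : ZMod ℓ → ℤ, ∀ a b : ZMod ℓ,
    (a = g ∨ a = g + 1) → (b = g ∨ b = g + 1) → wrap a b = φ b - φ a := by
  by_cases hg : g = -1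
  · subst hg
    have h0 := gc_neg_one_ne_zero hℓ
    refine ⟨fun x => if x = 0 then 1 else 0, ?_⟩
    rintro a b ha hb
    rw [neg_add_cancel] at ha hb
    show wrap a b = (if b = 0 then 1 else 0) - (if a = 0 then 1 else 0)
    rcases ha with rfl | rfl <;> rcases hb with rfl | rfl
    · rw [gc_wrap_self hℓ, sub_self]
    · rw [gc_wrap_one, if_pos rfl, if_neg h0, sub_zero]
    · rw [gc_wrap_neg_one hℓ, if_neg h0, if_pos rfl, zero_sub]
    · rw [gc_wrap_self hℓ, sub_self]
  · exact ⟨fun _ => 0, fun a b ha hb => by rw [gc_wrap_zero hℓ hg ha hb, sub_self]⟩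

theorem gc_wrap_close (hℓ : 3 ≤ ℓ) {g a b : ZMod ℓ} (ha : a = g ∨ a = g + 1)
    (hb : b = g ∨ b = g + 1) :
    |(b.val : ℝ) / ℓ + wrap a b - (a.val : ℝ) / ℓ| ≤ 1 / ℓ := by
  have hp : (0 : ℝ) < ℓ := by
    have h : 0 < ℓ := by omega
    exact_mod_cast h
  have hpos : (0 : ℝ) ≤ 1 / ℓ := by positivity
  by_cases hg : g = -1
  · subst hg
    rw [neg_add_cancel] at ha hb
    rcases ha with rfl | rfl <;> rcases hb with rfl | rfl
    · rw [gc_wrap_self hℓ, Int.cast_zero, add_zero, sub_self, abs_zero]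
      exact hpos
    · rw [gc_wrap_one, ZMod.val_zero, gc_val_neg_one hℓ, Nat.cast_zero, zero_div, Int.cast_one,
        zero_add, show (1 : ℝ) - (ℓ - 1) / ℓ = 1 / ℓ by field_simp; ring, abs_of_nonneg hpos]
    · rw [gc_wrap_neg_one hℓ, ZMod.val_zero, gc_val_neg_one hℓ, Nat.cast_zero, zero_div,
        Int.cast_neg, Int.cast_one, sub_zero,
        show ((ℓ : ℝ) - 1) / ℓ + -1 = -(1 / ℓ) by field_simp; ring, abs_neg, abs_of_nonneg hpos]
    · rw [gc_wrap_self hℓ, Int.cast_zero, add_zero, sub_self, abs_zero]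
      exact hpos
  · rw [gc_wrap_zero hℓ hg ha hb, Int.cast_zero, add_zero]
    have h1 := gc_val_succ hℓ hg
    rcases ha with rfl | rfl <;> rcases hb with rfl | rfl
    · rw [sub_self, abs_zero]
      exact hpos
    · rw [h1, show ((a.val : ℝ) + 1) / ℓ - a.val / ℓ = 1 / ℓ by ring, abs_of_nonneg hpos]
    · rw [h1, show (b.val : ℝ) / ℓ - ((b.val : ℝ) + 1) / ℓ = -(1 / ℓ) by ring, abs_neg,
        abs_of_nonneg hpos]
    · rw [sub_self, abs_zero]
      exact hpos

theorem gc_wrap_cases (a b : ZMod ℓ) :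
    wrap a b = 0 ∨ (a = -1 ∧ b = 0 ∧ wrap a b = 1) ∨ (a = 0 ∧ b = -1 ∧ wrap a b = -1) := by
  unfold wrap
  by_cases h1 : a = -1 ∧ b = 0
  · rw [if_pos h1]
    exact Or.inr (Or.inl ⟨h1.1, h1.2, rfl⟩)
  · rw [if_neg h1]
    by_cases h2 : a = 0 ∧ b = -1
    · rw [if_pos h2]
      exact Or.inr (Or.inr ⟨h2.1, h2.2, rfl⟩)
    · rw [if_neg h2]
      exact Or.inl rfl

theorem gc_abs_wrap (a b : ZMod ℓ) : |(wrap a b : ℝ)| ≤ 1 := by
  rcases gc_wrap_cases a b with h | ⟨-, -, h⟩ | ⟨-, -, h⟩ <;> rw [h] <;> norm_num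

theorem gc_tc (y₀ y₁ y₂ : YY X p ℓ) : tc [y₀, y₁, y₂] = ∑ j : Fin p,
    wrap (y₀.2 (j, false)) (y₁.2 (j, false)) * wrap (y₁.2 (j, true)) (y₂.2 (j, true)) := by
  unfold tc
  refine Finset.sum_congr rfl fun j _ => ?_
  rw [cup_cons, cup_cons, cup_cons, cup_nil]
  show (0 : ℤ) • (0 : ℤ) + (wrap (y₀.2 (j, false)) (y₁.2 (j, false)) •
    wrap (y₁.2 (j, true)) (y₂.2 (j, true)) + ((0 : ℤ) • (0 : ℤ) + 0)) = _
  simp

theorem thc_coboundary (hℓ : 3 ≤ ℓ) (y₀ y₁ y₂ : YY X p ℓ) (h : GridSmall [y₀, y₁, y₂]) :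
    |thc y₁ y₂ - thc y₀ y₂ + thc y₀ y₁ - tc [y₀, y₁, y₂]| ≤ p / ℓ := by
  obtain ⟨g, hg⟩ := h
  have h0 := hg y₀ (by simp)
  have h1 := hg y₁ (by simp)
  have h2 := hg y₂ (by simp)
  have key : thc y₁ y₂ - thc y₀ y₂ + thc y₀ y₁ - tc [y₀, y₁, y₂] =
      ∑ j : Fin p, -((wrap (y₀.2 (j, false)) (y₁.2 (j, false)) : ℝ) *
        (xc y₂ (j, true) + wrap (y₁.2 (j, true)) (y₂.2 (j, true)) - xc y₁ (j, true))) := by
    rw [gc_tc, thc, thc, thc, Int.cast_sum, ← Finset.sum_sub_distrib, ← Finset.sum_add_distrib,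
      ← Finset.sum_sub_distrib]
    refine Finset.sum_congr rfl fun j _ => ?_
    obtain ⟨φ, hφ⟩ := gc_wrap_diff hℓ (g (j, false))
    rw [hφ _ _ (h0 _) (h1 _), hφ _ _ (h0 _) (h2 _), hφ _ _ (h1 _) (h2 _)]
    push_cast
    ring
  rw [key]
  refine (Finset.abs_sum_le_sum_abs _ _).trans ?_
  have h3 : ∀ j ∈ (Finset.univ : Finset (Fin p)),
      |-((wrap (y₀.2 (j, false)) (y₁.2 (j, false)) : ℝ) *
        (xc y₂ (j, true) + wrap (y₁.2 (j, true)) (y₂.2 (j, true)) - xc y₁ (j, true)))| ≤
      1 / (ℓ : ℝ) := by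
    intro j _
    rw [abs_neg, abs_mul]
    have h4 := gc_wrap_close hℓ (h1 (j, true)) (h2 (j, true))
    have h5 := gc_abs_wrap (y₀.2 (j, false)) (y₁.2 (j, false))
    calc _ ≤ 1 * (1 / (ℓ : ℝ)) := mul_le_mul h5 h4 (abs_nonneg _) zero_le_one
      _ = 1 / (ℓ : ℝ) := one_mul _
  refine (Finset.sum_le_sum h3).trans (le_of_eq ?_)
  rw [Finset.sum_const, Finset.card_univ, Fintype.card_fin, nsmul_eq_mul, mul_one_div]

theorem thc_act (σ : Equiv.Perm (Fin p)) (y₀ y₁ : YY X p ℓ) :
    thc (act σ y₀) (act σ y₁) = thc y₀ y₁ :=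
  Equiv.sum_comp σ fun j : Fin p =>
    xc y₁ (j, true) * (wrap (y₀.2 (j, false)) (y₁.2 (j, false)) : ℝ)

theorem qq_act (σ : Equiv.Perm (Fin p)) (y : YY X p ℓ) (j : Fin p) :
    qq (act σ y) j = qq y (σ j) := rfl

theorem gc_xc_mem (hℓ : 3 ≤ ℓ) (y : YY X p ℓ) (c : Crd p) : xc y c ∈ Set.Icc (0 : ℝ) 1 := by
  have : NeZero ℓ := ⟨by omega⟩
  have hp : (0 : ℝ) < ℓ := by
    have h : 0 < ℓ := by omega
    exact_mod_cast h
  unfold xc
  refine ⟨by positivity, ?_⟩
  rw [div_le_one hp]
  exact_mod_cast (ZMod.val_lt (y.2 c)).le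

/-- the values of `qq` lie in the image of the unit square -/
theorem qq_mem (hℓ : 3 ≤ ℓ) (y : YY X p ℓ) (j : Fin p) :
    ∃ a ∈ Set.Icc (0 : ℝ) 1, ∃ b ∈ Set.Icc (0 : ℝ) 1, qq y j = ktf a b :=
  ⟨_, gc_xc_mem hℓ y _, _, gc_xc_mem hℓ y _, rfl⟩

/-! ### phases -/

theorem gc_ph_add (x y : ℝ) : ph (x + y) = ph x * ph y := by
  unfold ph
  rw [← Complex.exp_add]
  congr 1
  push_cast
  ring

theorem gc_ph_int (n : ℤ) : ph n = 1 := by
  unfold ph
  rw [show (2 * (Real.pi : ℂ) * ((n : ℝ) : ℂ) * Complex.I) = n * (2 * Real.pi * Complex.I) by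
    push_cast
    ring]
  exact Complex.exp_int_mul_two_pi_mul_I n

theorem gc_ph_zero : ph 0 = 1 := by
  have h := gc_ph_int 0
  rwa [Int.cast_zero] at h

theorem gc_norm_ph (x : ℝ) : ‖ph x‖ = 1 := by
  unfold ph
  rw [show (2 * (Real.pi : ℂ) * (x : ℂ) * Complex.I) = ((2 * Real.pi * x : ℝ) : ℂ) * Complex.I by
    push_cast
    ring]
  exact Complex.norm_exp_ofReal_mul_I _

theorem gc_ph_sub_one (x : ℝ) : ‖ph x - 1‖ ≤ 7 * |x| := by
  have h1 : ph x = Complex.exp (Complex.I * ((2 * Real.pi * x : ℝ) : ℂ)) := by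
    unfold ph
    congr 1
    push_cast
    ring
  rw [h1]
  refine Real.norm_exp_I_mul_ofReal_sub_one_le.trans ?_
  rw [Real.norm_eq_abs, abs_mul, abs_of_pos Real.two_pi_pos]
  have h2 := Real.pi_lt_d2
  have h3 := abs_nonneg x
  nlinarith

theorem gc_ph_close {x y t : ℝ} {n : ℤ} (h : |x + n - y| ≤ t) : ‖ph x - ph y‖ ≤ 7 * t := by
  have h1 : ph x = ph (x + n - y) * ph y := by
    rw [← gc_ph_add, sub_add_cancel, gc_ph_add, gc_ph_int, mul_one]
  rw [h1, show ph (x + n - y) * ph y - ph y = (ph (x + n - y) - 1) * ph y by ring, norm_mul,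
    gc_norm_ph, mul_one]
  exact (gc_ph_sub_one _).trans (by linarith)

theorem ktf_ne_zero {a b : ℝ} (ha : a ∈ Set.Icc (0 : ℝ) 1) (hb : b ∈ Set.Icc (0 : ℝ) 1) :
    ktf a b ≠ 0 := by
  intro h
  have h0 : ((1 - b : ℝ) : ℂ) + b * ph a = 0 := congrFun h 0
  have h1 : ((b * (1 - b) : ℝ) : ℂ) = 0 := congrFun h 1
  rw [Complex.ofReal_eq_zero, mul_eq_zero] at h1
  rcases h1 with h1 | h1
  · rw [h1] at h0
    norm_num at h0
  · have h2 : b = 1 := by linarith
    rw [h2] at h0
    have h3 : ph a = 0 := by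
      rw [sub_self, Complex.ofReal_zero, zero_add, Complex.ofReal_one, one_mul] at h0
      exact h0
    have h4 := gc_norm_ph a
    rw [h3, norm_zero] at h4
    exact zero_ne_one h4

theorem gc_ph_continuous : Continuous ph := by
  unfold ph
  fun_prop

theorem ktf_continuous : Continuous fun z : ℝ × ℝ => ktf z.1 z.2 := by
  have h := gc_ph_continuous
  refine continuous_pi fun i => ?_
  fin_cases i
  · show Continuous fun z : ℝ × ℝ => ((1 - z.2 : ℝ) : ℂ) + z.2 * ph z.1
    fun_prop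
  · show Continuous fun z : ℝ × ℝ => ((z.2 * (1 - z.2) : ℝ) : ℂ)
    fun_prop

theorem gc_norm_ktf {a b : ℝ} (hb : b ∈ Set.Icc (0 : ℝ) 1) (i : Fin 2) : ‖ktf a b i‖ ≤ 1 := by
  obtain ⟨h0, h1⟩ := hb
  fin_cases i
  · show ‖((1 - b : ℝ) : ℂ) + b * ph a‖ ≤ 1
    refine (norm_add_le _ _).trans ?_
    rw [norm_mul, gc_norm_ph, mul_one, Complex.norm_real, Complex.norm_real, Real.norm_eq_abs,
      Real.norm_eq_abs, abs_of_nonneg h0, abs_of_nonneg (sub_nonneg.2 h1)]
    linarith
  · show ‖((b * (1 - b) : ℝ) : ℂ)‖ ≤ 1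
    rw [Complex.norm_real, Real.norm_eq_abs, abs_of_nonneg (mul_nonneg h0 (sub_nonneg.2 h1))]
    nlinarith

/-- The values of `q̃` and `qq` are close. -/
theorem gc_entry (hℓ : 3 ≤ ℓ) {y₀ y₁ : YY X p ℓ} (h : GridSmall [y₀, y₁]) (j : Fin p)
    (e : Fin 2) :
    ‖ph (xc y₁ (j, true) * wrap (y₀.2 (j, false)) (y₁.2 (j, false))) * qq y₁ j e - qq y₀ j e‖ ≤
      9 / ℓ := by
  obtain ⟨g, hg⟩ := h
  have h0 := hg y₀ (by simp)
  have h1 := hg y₁ (by simp)
  have hp : (0 : ℝ) < ℓ := by
    have h : 0 < ℓ := by omega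
    exact_mod_cast h
  obtain ⟨t, ht⟩ : ∃ t : ℝ, t = 1 / ℓ := ⟨_, rfl⟩
  have ht0 : 0 < t := by rw [ht]; positivity
  have ht1 : t ≤ 1 := by
    rw [ht, div_le_one hp]
    have h : 1 ≤ ℓ := by omega
    exact_mod_cast h
  have h9 : (9 : ℝ) / ℓ = 9 * t := by rw [ht]; ring
  have hlt : ((ℓ : ℝ) - 1) / ℓ = 1 - t := by rw [ht]; field_simp
  have hph := gc_ph_close (gc_wrap_close hℓ (h0 (j, true)) (h1 (j, true)))
  change ‖ph (xc y₁ (j, true)) - ph (xc y₀ (j, true))‖ ≤ 7 * (1 / (ℓ : ℝ)) at hph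
  rw [← ht] at hph
  have hb := gc_wrap_close hℓ (h0 (j, false)) (h1 (j, false))
  change |xc y₁ (j, false) + (wrap (y₀.2 (j, false)) (y₁.2 (j, false)) : ℝ) - xc y₀ (j, false)| ≤
    1 / (ℓ : ℝ) at hb
  rw [← ht] at hb
  have hb0 := gc_xc_mem hℓ y₀ (j, false)
  have hb1 := gc_xc_mem hℓ y₁ (j, false)
  rw [h9]
  unfold qq
  obtain ⟨a₀, ha₀⟩ : ∃ x, x = xc y₀ (j, true) := ⟨_, rfl⟩
  obtain ⟨a₁, ha₁⟩ : ∃ x, x = xc y₁ (j, true) := ⟨_, rfl⟩
  obtain ⟨b₀, hb₀⟩ : ∃ x, x = xc y₀ (j, false) := ⟨_, rfl⟩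
  obtain ⟨b₁, hb₁⟩ : ∃ x, x = xc y₁ (j, false) := ⟨_, rfl⟩
  rw [← ha₀, ← ha₁] at hph
  rw [← hb₀, ← hb₁] at hb
  rw [← hb₀] at hb0
  rw [← hb₁] at hb1
  rw [← ha₀, ← ha₁, ← hb₀, ← hb₁]
  have hn1 : ‖(1 : ℂ) - ph a₁‖ ≤ 2 := by
    refine (norm_sub_le _ _).trans ?_
    rw [norm_one, gc_norm_ph]
    norm_num
  have hn0 : ‖ph a₀ - (1 : ℂ)‖ ≤ 2 := by
    refine (norm_sub_le _ _).trans ?_
    rw [norm_one, gc_norm_ph]
    norm_num
  rcases gc_wrap_cases (y₀.2 (j, false)) (y₁.2 (j, false)) with hw | ⟨hw0, hw1, hw⟩ |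
    ⟨hw0, hw1, hw⟩
  · rw [hw, Int.cast_zero, add_zero] at hb
    rw [hw, Int.cast_zero, mul_zero, gc_ph_zero, one_mul]
    fin_cases e
    · show ‖((1 - b₁ : ℝ) : ℂ) + b₁ * ph a₁ - (((1 - b₀ : ℝ) : ℂ) + b₀ * ph a₀)‖ ≤ 9 * t
      have h2 : ((1 - b₁ : ℝ) : ℂ) + b₁ * ph a₁ - (((1 - b₀ : ℝ) : ℂ) + b₀ * ph a₀) =
          -(((b₁ - b₀ : ℝ) : ℂ) * (1 - ph a₁)) + b₀ * (ph a₁ - ph a₀) := by
        push_cast
        ring
      rw [h2]
      refine (norm_add_le _ _).trans ?_
      rw [norm_neg, norm_mul, norm_mul, Complex.norm_real, Complex.norm_real, Real.norm_eq_abs,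
        Real.norm_eq_abs, abs_of_nonneg hb0.1]
      have h3 : |b₁ - b₀| * ‖(1 : ℂ) - ph a₁‖ ≤ t * 2 :=
        mul_le_mul hb hn1 (norm_nonneg _) ht0.le
      have h4 : b₀ * ‖ph a₁ - ph a₀‖ ≤ 1 * (7 * t) :=
        mul_le_mul hb0.2 hph (norm_nonneg _) zero_le_one
      linarith
    · show ‖((b₁ * (1 - b₁) : ℝ) : ℂ) - ((b₀ * (1 - b₀) : ℝ) : ℂ)‖ ≤ 9 * t
      rw [← Complex.ofReal_sub, Complex.norm_real, Real.norm_eq_abs,
        show b₁ * (1 - b₁) - b₀ * (1 - b₀) = (b₁ - b₀) * (1 - b₁ - b₀) by ring, abs_mul]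
      have h3 : |1 - b₁ - b₀| ≤ 1 := by
        rw [abs_le]
        constructor
        · linarith [hb0.2, hb1.2]
        · linarith [hb0.1, hb1.1]
      have h4 : |b₁ - b₀| * |1 - b₁ - b₀| ≤ t * 1 := mul_le_mul hb h3 (abs_nonneg _) ht0.le
      linarith
  · have hb0' : b₀ = 1 - t := by
      rw [hb₀, ← hlt]
      unfold xc
      rw [hw0, gc_val_neg_one hℓ]
    have hb1' : b₁ = 0 := by
      rw [hb₁]
      unfold xc
      rw [hw1, ZMod.val_zero, Nat.cast_zero, zero_div]
    rw [hw, hb0', hb1', Int.cast_one, mul_one]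
    fin_cases e
    · show ‖ph a₁ * (((1 - 0 : ℝ) : ℂ) + ((0 : ℝ) : ℂ) * ph a₁) -
        (((1 - (1 - t) : ℝ) : ℂ) + ((1 - t : ℝ) : ℂ) * ph a₀)‖ ≤ 9 * t
      have h2 : ph a₁ * (((1 - 0 : ℝ) : ℂ) + ((0 : ℝ) : ℂ) * ph a₁) -
          (((1 - (1 - t) : ℝ) : ℂ) + ((1 - t : ℝ) : ℂ) * ph a₀) =
          (ph a₁ - ph a₀) + (t : ℂ) * (ph a₀ - 1) := by
        push_cast
        ring
      rw [h2]
      refine (norm_add_le _ _).trans ?_
      rw [norm_mul, Complex.norm_real, Real.norm_eq_abs, abs_of_pos ht0]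
      have h3 : t * ‖ph a₀ - 1‖ ≤ t * 2 := mul_le_mul_of_nonneg_left hn0 ht0.le
      linarith
    · show ‖ph a₁ * ((0 * (1 - 0) : ℝ) : ℂ) - (((1 - t) * (1 - (1 - t)) : ℝ) : ℂ)‖ ≤ 9 * t
      rw [zero_mul, Complex.ofReal_zero, mul_zero, zero_sub, norm_neg, Complex.norm_real,
        Real.norm_eq_abs, abs_of_nonneg (by nlinarith)]
      nlinarith
  · have hb0' : b₀ = 0 := by
      rw [hb₀]
      unfold xc
      rw [hw0, ZMod.val_zero, Nat.cast_zero, zero_div]
    have hb1' : b₁ = 1 - t := by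
      rw [hb₁, ← hlt]
      unfold xc
      rw [hw1, gc_val_neg_one hℓ]
    rw [hw, hb0', hb1']
    have h3 : ph (a₁ * ((-1 : ℤ) : ℝ)) * ph a₁ = 1 := by
      rw [← gc_ph_add, Int.cast_neg, Int.cast_one, mul_neg, mul_one, neg_add_cancel, gc_ph_zero]
    fin_cases e
    · show ‖ph (a₁ * ((-1 : ℤ) : ℝ)) * (((1 - (1 - t) : ℝ) : ℂ) + ((1 - t : ℝ) : ℂ) * ph a₁) -
        (((1 - 0 : ℝ) : ℂ) + ((0 : ℝ) : ℂ) * ph a₀)‖ ≤ 9 * t
      have h2 : ph (a₁ * ((-1 : ℤ) : ℝ)) *
          (((1 - (1 - t) : ℝ) : ℂ) + ((1 - t : ℝ) : ℂ) * ph a₁) -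
          (((1 - 0 : ℝ) : ℂ) + ((0 : ℝ) : ℂ) * ph a₀) =
          (t : ℂ) * (ph (a₁ * ((-1 : ℤ) : ℝ)) - 1) := by
        have h4 : ph (a₁ * ((-1 : ℤ) : ℝ)) * (((1 - t : ℝ) : ℂ) * ph a₁) = ((1 - t : ℝ) : ℂ) := by
          rw [mul_left_comm, h3, mul_one]
        rw [mul_add, h4]
        push_cast
        ring
      rw [h2, norm_mul, Complex.norm_real, Real.norm_eq_abs, abs_of_pos ht0]
      have h5 : ‖ph (a₁ * ((-1 : ℤ) : ℝ)) - 1‖ ≤ 2 := by
        refine (norm_sub_le _ _).trans ?_
        rw [norm_one, gc_norm_ph]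
        norm_num
      have h6 := mul_le_mul_of_nonneg_left h5 ht0.le
      linarith
    · show ‖ph (a₁ * ((-1 : ℤ) : ℝ)) * (((1 - t) * (1 - (1 - t)) : ℝ) : ℂ) -
        ((0 * (1 - 0) : ℝ) : ℂ)‖ ≤ 9 * t
      rw [zero_mul, Complex.ofReal_zero, sub_zero, norm_mul, gc_norm_ph, one_mul,
        Complex.norm_real, Real.norm_eq_abs, abs_of_nonneg (by nlinarith)]
      nlinarith

theorem qp_close {X : Type*} [MetricSpace X] [CompactSpace X]
    (F : X → (Fin p → Fin 2 → ℂ) → ℂ)
    (hF : Continuous fun z : X × (Fin p → Fin 2 → ℂ) => F z.1 z.2) (hom : ∀ x, MultiHom (F x))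
    {ε : ℝ} (hε : 0 < ε) : ∃ δ > 0, ∃ ℓ₀ : ℕ, ∀ ℓ ≥ ℓ₀, ∀ y₀ y₁ : YY X p ℓ,
      dist y₀.1 y₁.1 < δ → GridSmall [y₀, y₁] →
        ‖F y₁.1 (qq y₁) * ph (thc y₀ y₁) - F y₀.1 (qq y₀)‖ ≤ ε := by
  have hK : IsCompact ((Set.univ : Set X) ×ˢ
      (Metric.closedBall (0 : Fin p → Fin 2 → ℂ) 1)) :=
    isCompact_univ.prod (isCompact_closedBall _ _)
  have hu := hK.uniformContinuousOn_of_continuous hF.continuousOn
  rw [Metric.uniformContinuousOn_iff] at hu
  obtain ⟨δ, hδ, hδF⟩ := hu ε hε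
  obtain ⟨n, hn⟩ := exists_nat_gt (9 / δ)
  refine ⟨δ, hδ, max 3 n, fun ℓ hℓ y₀ y₁ hy hg => ?_⟩
  have hℓ3 : 3 ≤ ℓ := (le_max_left _ _).trans hℓ
  have hℓn : n ≤ ℓ := (le_max_right _ _).trans hℓ
  have hp : (0 : ℝ) < ℓ := by
    have h : 0 < ℓ := by omega
    exact_mod_cast h
  have h9 : 9 / (ℓ : ℝ) < δ := by
    rw [div_lt_iff₀ hp, mul_comm, ← div_lt_iff₀ hδ]
    exact hn.trans_le (by exact_mod_cast hℓn)
  obtain ⟨c, hc⟩ : ∃ c : Fin p → ℂ, c = fun j =>
    ph (xc y₁ (j, true) * wrap (y₀.2 (j, false)) (y₁.2 (j, false))) := ⟨_, rfl⟩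
  have hcn : ∀ j, ‖c j‖ = 1 := by
    intro j
    rw [hc]
    exact gc_norm_ph _
  have hprod : ∏ j, c j = ph (thc y₀ y₁) := by
    have h1 : ∀ (s : Finset (Fin p)) (f : Fin p → ℝ), ∏ j ∈ s, ph (f j) = ph (∑ j ∈ s, f j) := by
      intro s f
      classical
      induction s using Finset.induction_on with
      | empty => rw [Finset.prod_empty, Finset.sum_empty, gc_ph_zero]
      | insert a s ha ih => rw [Finset.prod_insert ha, Finset.sum_insert ha, ih, gc_ph_add]
    rw [hc, h1]
    rfl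
  have hF1 : F y₁.1 (fun j e => c j * qq y₁ j e) = ph (thc y₀ y₁) * F y₁.1 (qq y₁) := by
    rw [hom y₁.1, hprod]
  have hmem : ∀ y : YY X p ℓ, qq y ∈ Metric.closedBall (0 : Fin p → Fin 2 → ℂ) 1 := by
    intro y
    rw [mem_closedBall_zero_iff, pi_norm_le_iff_of_nonneg zero_le_one]
    intro j
    rw [pi_norm_le_iff_of_nonneg zero_le_one]
    intro e
    exact gc_norm_ktf (gc_xc_mem hℓ3 y _) e
  have hmem' : (fun j e => c j * qq y₁ j e) ∈ Metric.closedBall (0 : Fin p → Fin 2 → ℂ) 1 := by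
    rw [mem_closedBall_zero_iff, pi_norm_le_iff_of_nonneg zero_le_one]
    intro j
    rw [pi_norm_le_iff_of_nonneg zero_le_one]
    intro e
    rw [norm_mul, hcn, one_mul]
    exact gc_norm_ktf (gc_xc_mem hℓ3 y₁ _) e
  have hd : dist (fun j e => c j * qq y₁ j e) (qq y₀) ≤ 9 / ℓ := by
    have h0 : (0 : ℝ) ≤ 9 / ℓ := by positivity
    rw [dist_pi_le_iff h0]
    intro j
    rw [dist_pi_le_iff h0]
    intro e
    rw [dist_eq_norm, hc]
    exact gc_entry hℓ3 hg j e
  have h1 := hδF (y₁.1, fun j e => c j * qq y₁ j e) ⟨Set.mem_univ _, hmem'⟩ (y₀.1, qq y₀)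
    ⟨Set.mem_univ _, hmem y₀⟩ (by
      rw [Prod.dist_eq]
      refine max_lt ?_ (hd.trans_lt h9)
      rw [dist_comm]
      exact hy)
  rw [mul_comm, ← hF1, ← dist_eq_norm]
  exact h1.le

end Vale.Agent.P093.Hom
end

section

/-!
TASK HOM-G1: the modification `h` of the block of one group.

Proof of `exists_h`. `S = SY SX` is hereditary, even: if `l ∈ S` and all entries of `l'` are entries
of `l` then `l' ∈ S` (`SX` is `Full`). Let `E = {y | ∃ k e, c ≤ ‖F k e y‖}` and for `k < κ`
`E_k = {y | c/2 ≤ ‖F k 0 y‖ ∨ c/2 ≤ ‖F k 1 y‖, and |nF f rho κ y| ≤ (2κ+1) η}`,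
`n k = rn E_k (alH C v0 v1) (thH A B C thc)` with `A = nF f rho k`, `B = f (2k+1)`, `C = f (2k+2)`,
`v0 = F k 0`, `v1 = F k 1` (and `n k = 0` for `k ≥ κ`). `nF f rho k` varies by at most `(2k+1) η` on `S`.
On `E_k`: `|nF (k+1)| ≤ |nF κ| + rho (k+1) + … + rho (κ-1) ≤ rho k / 3` (since
`|nF i| ≤ |nF (i+1)| + rho i`), so `rad A B C = nF (k+1) + rho k ≥ rho k / 2` and the Hopf relations
hold. `hopf_round` (with `r₀ = rho k / 2`, `ε = c/2`, its `η` = our `(2κ+1) η`, `t = tc`,
`th = thc`, `thc_coboundary`) gives `dl (n k) = aL tc f rho k` on tuples of `S` inside `E_k`.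
Now apply `push` (`ρ = rho`, `t = tc`, `ht = dl_tc`, this `E`, this `n`): for `hE`, given `l ∈ S` with
all vertices in `E` and `|nF κ| ≤ (2κ+1) η`, take `k, e` with `c ≤ ‖F k e y₀‖` for the first vertex `y₀`
(if `l = []` anything); then `‖F k e y‖ ≥ c - η ≥ c/2` for all other vertices, so `l` and all its
sublists are inside `E_k`. Set `h l = μ l` if all vertices of `l` are in `E`, else `0`.
For `l ∈ S` inside `E` and a sublist `l'`: `dl h l' = dl μ l' = tau (gvs f κ) l'` (`h = μ` on all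
sublists of `l`). Invariance: `act σ` preserves `f`, `F`, `thc`, `tc`, hence `E`, `n k`, `μ`, `h`.
-/

namespace Vale.Agent.P093.Hom

/-- the radii -/
noncomputable def rho (l : ℕ) : ℝ := 1 / 32 / 8 ^ l

variable {X : Type*} {p ℓ κ : ℕ}

/-- the Hopf relations for a vector `(v0, v1)` over the point `(A, B, C) ≠ 0` -/
def HopfRel (A B C : ℝ) (v0 v1 : ℂ) : Prop :=
  ((Real.sqrt (A ^ 2 + B ^ 2 + C ^ 2) + C : ℝ) : ℂ) * v1 = ⟨A, B⟩ * v0 ∧
  ((Real.sqrt (A ^ 2 + B ^ 2 + C ^ 2) - C : ℝ) : ℂ) * v0 = ⟨A, -B⟩ * v1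

/-! ### auxiliary lemmas -/

theorem gh_full {SX : Set (List X)} (hSX : Full SX) : Full (SY (p := p) (ℓ := ℓ) SX) := by
  intro l hl l' hl'
  refine ⟨hSX _ hl.1 _ ?_, ?_⟩
  · intro x hx
    obtain ⟨y, hy, rfl⟩ := List.mem_map.1 hx
    exact List.mem_map.2 ⟨y, hl' y hy, rfl⟩
  · obtain ⟨g, hg⟩ := hl.2
    exact ⟨g, fun y hy => hg y (hl' y hy)⟩

theorem gh_rho_pos (l : ℕ) : 0 < rho l := by
  unfold rho
  positivity

theorem gh_rho_succ (l : ℕ) : rho (l + 1) ≤ rho l / 8 := by
  unfold rho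
  rw [pow_succ]
  apply le_of_eq
  field_simp

theorem gh_nF_inv {Y : Type*} {f : ℕ → Y → ℝ} {ρ : ℕ → ℝ} {σ : Y → Y}
    (hσ : ∀ k ≤ 2 * κ, ∀ y, f k (σ y) = f k y) (i : ℕ) (hi : i ≤ κ) (y : Y) :
    nF f ρ i (σ y) = nF f ρ i y := by
  induction i generalizing y with
  | zero => exact hσ 0 (by omega) y
  | succ i ih =>
    simp only [nF, rad]
    rw [ih (by omega) y, hσ (2 * i + 1) (by omega), hσ (2 * i + 2) (by omega)]

theorem gh_rn_inv {Y : Type*} {E : Set Y} {α : Y → ℝ} {th : Y → Y → ℝ} {σ : Y → Y}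
    (hE : ∀ y, σ y ∈ E ↔ y ∈ E) (hα : ∀ y, α (σ y) = α y)
    (hth : ∀ y₀ y₁, th (σ y₀) (σ y₁) = th y₀ y₁) (l : List Y) :
    rn E α th (l.map σ) = rn E α th l := by
  match l with
  | [] => rfl
  | [_] => rfl
  | [y₀, y₁] =>
    simp only [List.map_cons, List.map_nil, rn, hα, hth]
    by_cases h : y₀ ∈ E ∧ y₁ ∈ E
    · rw [if_pos h, if_pos ((and_congr (hE y₀) (hE y₁)).2 h)]
    · rw [if_neg h, if_neg fun h' => h ((and_congr (hE y₀) (hE y₁)).1 h')]
  | _ :: _ :: _ :: _ => rfl

theorem gh_alH_inv {Y : Type*} {C : Y → ℝ} {v0 v1 : Y → ℂ} {σ : Y → Y}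
    (hC : ∀ y, C (σ y) = C y) (h0 : ∀ y, v0 (σ y) = v0 y) (h1 : ∀ y, v1 (σ y) = v1 y) (y : Y) :
    alH C v0 v1 (σ y) = alH C v0 v1 y := by
  simp only [alH, hC, h0, h1]

theorem gh_thH_inv {Y : Type*} {A B C : Y → ℝ} {th : Y → Y → ℝ} {σ : Y → Y}
    (hA : ∀ y, A (σ y) = A y) (hB : ∀ y, B (σ y) = B y) (hC : ∀ y, C (σ y) = C y)
    (hth : ∀ y₀ y₁, th (σ y₀) (σ y₁) = th y₀ y₁) (y₀ y₁ : Y) :
    thH A B C th (σ y₀) (σ y₁) = thH A B C th y₀ y₁ := by
  simp only [thH, Hv, hA, hB, hC, hth]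

/-- the set `E_k` -/
def ghE (f : ℕ → YY X p ℓ → ℝ) (F : ℕ → Fin 2 → YY X p ℓ → ℂ) (κ : ℕ) (η c : ℝ) (k : ℕ) :
    Set (YY X p ℓ) :=
  {y | (c / 2 ≤ ‖F k 0 y‖ ∨ c / 2 ≤ ‖F k 1 y‖) ∧ |nF f rho κ y| ≤ (2 * κ + 1) * η}

/-- the cochain `n_k` -/
noncomputable def ghn (f : ℕ → YY X p ℓ → ℝ) (F : ℕ → Fin 2 → YY X p ℓ → ℂ) (κ : ℕ) (η c : ℝ)
    (k : ℕ) : List (YY X p ℓ) → ℤ :=
  if k < κ then rn (ghE f F κ η c k) (alH (f (2 * k + 2)) (F k 0) (F k 1))
    (thH (nF f rho k) (f (2 * k + 1)) (f (2 * k + 2)) thc) else fun _ => 0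

theorem gh_n_len (f : ℕ → YY X p ℓ → ℝ) (F : ℕ → Fin 2 → YY X p ℓ → ℂ) (η c : ℝ)
    (k : ℕ) (l : List (YY X p ℓ)) (h : ghn f F κ η c k l ≠ 0) : l.length = 2 := by
  by_contra hl
  apply h
  unfold ghn
  split_ifs
  · exact ra_rn_len _ _ _ l hl
  · rfl

theorem gh_round (hℓ : 3 ≤ ℓ) (hp : (p : ℝ) / ℓ ≤ 1 / 32) {SX : Set (List X)}
    (hSX : Full SX) (f : ℕ → YY X p ℓ → ℝ) {η c : ℝ} (hη : 0 < η)
    (hηρ : ∀ l < κ, 2000 * (2 * κ + 1) * η ≤ rho l) (hηc : 2000 * (2 * κ + 1) * η ≤ c)
    (hf : ∀ k ≤ 2 * κ, Vary (SY SX) (f k) η) (F : ℕ → Fin 2 → YY X p ℓ → ℂ)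
    (hF : ∀ k < κ, ∀ e y₀ y₁, [y₀, y₁] ∈ SY (p := p) (ℓ := ℓ) SX →
      ‖F k e y₁ * ph (thc y₀ y₁) - F k e y₀‖ ≤ η)
    (hopf : ∀ k < κ, ∀ y, rho k / 2 ≤ rad (nF f rho k) (f (2 * k + 1)) (f (2 * k + 2)) y →
      HopfRel (nF f rho k y) (f (2 * k + 1) y) (f (2 * k + 2) y) (F k 0 y) (F k 1 y))
    {k : ℕ} (hk : k < κ) {l : List (YY X p ℓ)} (hl : l ∈ SY SX)
    (hlE : ∀ y ∈ l, y ∈ ghE f F κ η c k) : dl (ghn f F κ η c k) l = aL tc f rho k l := by
  have hκ0 : (0 : ℝ) ≤ κ := Nat.cast_nonneg κ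
  have hc : 0 < c := lt_of_lt_of_le (by positivity) hηc
  have hρη : ∀ l < κ, 100 * (κ + 1) * η ≤ rho l := by
    intro i hi
    have := hηρ i hi
    nlinarith
  have hk1 : (k : ℝ) + 1 ≤ κ := by exact_mod_cast hk
  have hmono : ∀ {g : YY X p ℓ → ℝ} {a : ℝ}, a ≤ (2 * κ + 1) * η → Vary (SY SX) g a →
      Vary (SY SX) g ((2 * κ + 1) * η) :=
    fun ha hg l hl y hy y' hy' => (hg l hl y hy y' hy').trans ha
  have hη' : η ≤ (2 * κ + 1) * η := by nlinarith
  have hle : (2 * (k : ℝ) + 1) * η ≤ (2 * κ + 1) * η :=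
    mul_le_mul_of_nonneg_right (by linarith) hη.le
  have hr : ∀ y ∈ ghE f F κ η c k,
      rho k / 2 ≤ rad (nF f rho k) (f (2 * k + 1)) (f (2 * k + 2)) y := by
    intro y hy
    have h1 := push_nF_next (f := f) hη gh_rho_succ hρη y k hk
    have h2 : nF f rho (k + 1) y = rad (nF f rho k) (f (2 * k + 1)) (f (2 * k + 2)) y - rho k :=
      rfl
    have h3 := neg_abs_le (nF f rho (k + 1) y)
    have h4 := hηρ k hk
    have h5 := hy.2
    have h6 := gh_rho_pos k
    linarith
  have e1 : ghn f F κ η c k = rn (ghE f F κ η c k) (alH (f (2 * k + 2)) (F k 0) (F k 1))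
      (thH (nF f rho k) (f (2 * k + 1)) (f (2 * k + 2)) thc) := by
    unfold ghn
    rw [if_pos hk]
  rw [e1]
  refine hopf_round (gh_full hSX).hered (r₀ := rho k / 2) (ε := c / 2) (η := (2 * κ + 1) * η)
    (t := tc) (half_pos (gh_rho_pos k)) (half_pos hc) (by positivity) ?_ ?_
    (hmono hle (push_nF_vary hf k hk.le)) (hmono hη' (hf _ (by omega)))
    (hmono hη' (hf _ (by omega))) hr ?_ (fun y hy => (hopf k hk y (hr y hy)).1)
    (fun y hy => (hopf k hk y (hr y hy)).2) (fun y₀ y₁ h => (hF k hk 0 y₀ y₁ h).trans hη')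
    (fun y₀ y₁ h => (hF k hk 1 y₀ y₁ h).trans hη') tc_length
    (fun y₀ y₁ y₂ h => (thc_coboundary hℓ y₀ y₁ y₂ h.2).trans hp) l hl hlE
  · have := hηρ k hk
    linarith
  · linarith
  · rintro y ⟨hy, -⟩
    rcases hy with h | h
    · have := pow_le_pow_left₀ (half_pos hc).le h 2
      have h2 := sq_nonneg ‖F k 1 y‖
      linarith
    · have := pow_le_pow_left₀ (half_pos hc).le h 2
      have h2 := sq_nonneg ‖F k 0 y‖
      linarith

theorem exists_h (hκ : 1 ≤ κ) (hℓ : 3 ≤ ℓ) (hp : (p : ℝ) / ℓ ≤ 1 / 32) {SX : Set (List X)}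
    (hSX : Full SX) (f : ℕ → YY X p ℓ → ℝ) {η c : ℝ} (hη : 0 < η)
    (hηρ : ∀ l < κ, 2000 * (2 * κ + 1) * η ≤ rho l) (hηc : 2000 * (2 * κ + 1) * η ≤ c)
    (hf : ∀ k ≤ 2 * κ, Vary (SY SX) (f k) η) (F : ℕ → Fin 2 → YY X p ℓ → ℂ)
    (hF : ∀ k < κ, ∀ e y₀ y₁, [y₀, y₁] ∈ SY (p := p) (ℓ := ℓ) SX →
      ‖F k e y₁ * ph (thc y₀ y₁) - F k e y₀‖ ≤ η)
    (hopf : ∀ k < κ, ∀ y, rho k / 2 ≤ rad (nF f rho k) (f (2 * k + 1)) (f (2 * k + 2)) y →
      HopfRel (nF f rho k y) (f (2 * k + 1) y) (f (2 * k + 2) y) (F k 0 y) (F k 1 y))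
    (hfs : ∀ k ≤ 2 * κ, ∀ (σ : Equiv.Perm (Fin p)) y, f k (act σ y) = f k y)
    (hFs : ∀ k < κ, ∀ e (σ : Equiv.Perm (Fin p)) y, F k e (act σ y) = F k e y) :
    ∃ h : List (YY X p ℓ) → ℤ, (∀ l, h l ≠ 0 → l.length = 2 * κ + 1) ∧
      (∀ l ∈ SY SX, h l ≠ 0 → ∀ y ∈ l, ∀ k ≤ 2 * κ, |f k y| ≤ 1 / 8) ∧
      (∀ l ∈ SY SX, (∀ y ∈ l, ∃ k < κ, ∃ e, c ≤ ‖F k e y‖) →
        ∀ l', l'.Sublist l → tau (gvs f κ) l' = dl h l') ∧
      ∀ (σ : Equiv.Perm (Fin p)) l, h (l.map (act σ)) = h l := by
  classical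
  have hfull : Full (SY (p := p) (ℓ := ℓ) SX) := gh_full hSX
  have hκ0 : (0 : ℝ) ≤ κ := Nat.cast_nonneg κ
  have hρη : ∀ l < κ, 100 * (κ + 1) * η ≤ rho l := by
    intro i hi
    have := hηρ i hi
    nlinarith
  have hη' : η ≤ (2 * κ + 1) * η := by nlinarith
  obtain ⟨μ, h1, h2, h3, h4⟩ := push hfull.hered hκ (f := f) (ρ := rho) (t := tc) hη
    (by simp [rho]) gh_rho_succ hρη hf tc_length (fun l hl => dl_tc hℓ hl.2)
    {y | ∃ k < κ, ∃ e, c ≤ ‖F k e y‖} (ghn f F κ η c) (gh_n_len f F η c) (by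
      intro l hl hE
      match l, hl, hE with
      | [], hl, _ =>
        exact ⟨0, hκ, fun l' hl' => gh_round hℓ hp hSX f hη hηρ hηc hf F hF hopf hκ
          (hfull.hered _ hl _ hl') (by
            rw [List.sublist_nil.1 hl']
            exact fun y hy => absurd hy List.not_mem_nil)⟩
      | y₀ :: l₁, hl, hE =>
        obtain ⟨k, hk, e, he⟩ := (hE y₀ (by simp)).1
        refine ⟨k, hk, fun l' hl' => gh_round hℓ hp hSX f hη hηρ hηc hf F hF hopf hk
          (hfull.hered _ hl _ hl') fun y hy => ?_⟩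
        have hy' : y ∈ y₀ :: l₁ := hl'.subset hy
        refine ⟨?_, (hE y hy').2⟩
        have hpair : [y₀, y] ∈ SY (p := p) (ℓ := ℓ) SX := by
          refine hfull _ hl _ fun z hz => ?_
          rcases List.mem_cons.1 hz with rfl | hz
          · exact List.mem_cons_self
          · rw [List.mem_singleton.1 hz]
            exact hy'
        have h5 := hF k hk e y₀ y hpair
        have h6 : ‖F k e y * ph (thc y₀ y)‖ = ‖F k e y‖ := by
          rw [norm_mul, gc_norm_ph, mul_one]
        have h7 : ‖F k e y₀‖ ≤ ‖F k e y‖ + ‖F k e y * ph (thc y₀ y) - F k e y₀‖ := by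
          rw [← h6]
          have := norm_sub_norm_le (F k e y₀) (F k e y * ph (thc y₀ y))
          rw [norm_sub_rev] at this
          linarith
        have h8 : c / 2 ≤ ‖F k e y‖ := by linarith
        match e, h8 with
        | 0, h8 => exact Or.inl h8
        | 1, h8 => exact Or.inr h8)
  refine ⟨fun l => if ∀ y ∈ l, ∃ k < κ, ∃ e, c ≤ ‖F k e y‖ then μ l else 0, ?_, ?_, ?_, ?_⟩
  · intro l hl
    exact h1 l fun h => hl (by simp only [h, ite_self])
  · intro l hl hne
    exact h2 l hl fun h => hne (by simp only [h, ite_self])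
  · intro l hl hE l' hl'
    have hT : Hered {l' : List (YY X p ℓ) | l'.Sublist l} := fun l₁ h1 l₂ h2 => h2.trans h1
    rw [← h3 l' (hfull.hered _ hl _ hl') fun y hy => hE y (hl'.subset hy)]
    refine dl_congr hT (fun l₂ hl₂ => ?_) hl'
    rw [if_pos fun y hy => hE y (List.Sublist.subset hl₂ hy)]
  · intro σ l
    have hn : ∀ k l, ghn f F κ η c k (l.map (act σ)) = ghn f F κ η c k l := by
      intro k l
      unfold ghn
      split_ifs with hk
      · have hnF : ∀ i ≤ κ, ∀ y, nF f rho i (act σ y) = nF f rho i y :=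
          gh_nF_inv fun k hk y => hfs k hk σ y
        refine gh_rn_inv (fun y => ?_)
          (gh_alH_inv (hfs _ (by omega) σ) (hFs k hk 0 σ) (hFs k hk 1 σ))
          (gh_thH_inv (hnF k hk.le) (hfs _ (by omega) σ) (hfs _ (by omega) σ) (thc_act σ)) l
        show ((c / 2 ≤ ‖F k 0 (act σ y)‖ ∨ c / 2 ≤ ‖F k 1 (act σ y)‖) ∧
          |nF f rho κ (act σ y)| ≤ (2 * κ + 1) * η) ↔ _
        rw [hFs k hk, hFs k hk, hnF κ le_rfl]
        exact Iff.rfl
      · rfl
    have h5 := h4 (act σ) (fun k hk y => hfs k hk σ y) (tc_act σ) hn l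
    have h6 : (∀ y ∈ l.map (act σ), ∃ k < κ, ∃ e, c ≤ ‖F k e y‖) ↔
        ∀ y ∈ l, ∃ k < κ, ∃ e, c ≤ ‖F k e y‖ := by
      have h7 : ∀ y, (∃ k < κ, ∃ e, c ≤ ‖F k e (act σ y)‖) ↔ ∃ k < κ, ∃ e, c ≤ ‖F k e y‖ := by
        intro y
        refine exists_congr fun k => and_congr_right fun hk => exists_congr fun e => ?_
        rw [hFs k hk]
      simp only [List.forall_mem_map, h7]
    simp only [h6, h5]

end Vale.Agent.P093.Hom
end

section

/-!
TASK HOM-A1: the product of block chain maps is a chain map.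

Proof. Everything is a formal identity, for all lists `l`; use the calculus in `Hom/Cochain.lean`
(`dl_cup'`, `cup_assoc` etc.).
* `dl (cz v) = - ce v`, `dl (co v) = ce v`, `dl (ce v) = 0`, `sg (cz v) = cz v`,
  `sg (co v) = co v`, `sg (ce v) = - ce v`; all vanish at `[]`. Also `cp vs S [] = 0` when
  `S κ [] = 0` for all `κ`.
* `cp_dl`: if `S κ [] = 0` for all `κ` then for all `l`
  `dl (cp vs S) l = cp vs (fun κ l' => cb (fun κ' => S κ' l') κ) l
     + cp vs (fun κ l' => (-1) ^ ecount κ • dl (S κ) l') l`,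
  by induction on `vs`, with the Leibniz rule (`cp` is additive in `S`; with `κ` ranging over lists
  of length `vs.length`, note that `cp vs S` only uses `S κ` with `κ.length = vs.length`).
* the same for `bp B S` instead of `cp B.vs S`: the two correction terms. Put `g = B.vs.length`;
  `h` has degree `g - 1`, so `sg h = (-1)^(g-1) h`, `sg (dl h) = (-1)^g dl h`, `dl (dl h) = 0`,
  `cb (cb T) = 0` and `cb (fun κ => (-1) ^ ecount κ • U κ) (top g) = (-1)^(g-1) cb U (top g)`:
  `dl [h ∪ (cb S)(top) + dl h ∪ S(top)]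
    = dl h ∪ (cb S)(top) + (-1)^(g-1) h ∪ dl((cb S)(top)) + (-1)^g dl h ∪ dl (S(top))`.
* `cb_append`: `cb T (κ ++ κ') = cb (fun κ'' => T (κ'' ++ κ')) κ
    + (-1) ^ ecount κ • cb (fun κ'' => T (κ ++ κ'')) κ'`.
* induction on the list of blocks.
-/

namespace Vale.Agent.P093.Hom

variable {Y : Type*} {M : Type*} [AddCommGroup M]

/-! ### the coordinate cochains -/

theorem dl_cz (v : Y → ℤ) (l : List Y) : dl (cz v) l = - ce v l := by
  rcases l with _ | ⟨y, _ | ⟨y', _ | ⟨y'', l⟩⟩⟩
  · simp [ce]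
  · simp [dl_cons, cz, ce]
  · simp [dl_cons, cz, ce]
  · have h : (fun l' => cz v (y :: y' :: l')) = fun _ => (0 : ℤ) := by
      funext l'; simp [cz]
    simp only [dl_cons, h, dl_zero]
    simp [cz, ce]

theorem dl_co (v : Y → ℤ) (l : List Y) : dl (co v) l = ce v l := by
  rcases l with _ | ⟨y, _ | ⟨y', _ | ⟨y'', l⟩⟩⟩
  · simp [ce]
  · simp [dl_cons, co, ce]
  · simp [dl_cons, co, ce]
  · have h : (fun l' => co v (y :: y' :: l')) = fun _ => (0 : ℤ) := by
      funext l'; simp [co]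
    simp only [dl_cons, h, dl_zero]
    simp [co, ce]

theorem dl_ce (v : Y → ℤ) (l : List Y) : dl (ce v) l = 0 := by
  have h : ce v = dl (co v) := by funext l; rw [dl_co]
  rw [h, dl_dl]

theorem sg_cz (v : Y → ℤ) : sg (cz v) = cz v := by
  funext l
  rcases l with _ | ⟨y, _ | ⟨y', l⟩⟩ <;> simp [sg, cz]

theorem sg_co (v : Y → ℤ) : sg (co v) = co v := by
  funext l
  rcases l with _ | ⟨y, _ | ⟨y', l⟩⟩ <;> simp [sg, co]

theorem sg_ce (v : Y → ℤ) : sg (ce v) = fun l => - ce v l := by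
  funext l
  rcases l with _ | ⟨y, _ | ⟨y', _ | ⟨y'', l⟩⟩⟩ <;> simp [sg, ce]

/-! ### the cubical boundary -/

theorem cb_add (T U : List Cell → M) (κ : List Cell) :
    cb (fun κ' => T κ' + U κ') κ = cb T κ + cb U κ := by
  induction κ generalizing T U with
  | nil => simp [cb]
  | cons c κ ih =>
    cases c
    · simp only [cb]; rw [ih]
    · simp only [cb]; rw [ih]
    · simp only [cb]; rw [ih]; abel

theorem cb_neg (T : List Cell → M) (κ : List Cell) :
    cb (fun κ' => - T κ') κ = - cb T κ := by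
  induction κ generalizing T with
  | nil => simp [cb]
  | cons c κ ih =>
    cases c
    · simp only [cb]; rw [ih]
    · simp only [cb]; rw [ih]
    · simp only [cb]; rw [ih]; abel

theorem cb_sub (T U : List Cell → M) (κ : List Cell) :
    cb (fun κ' => T κ' - U κ') κ = cb T κ - cb U κ := by
  simp only [sub_eq_add_neg]
  rw [cb_add, cb_neg]

theorem map_cb {N : Type*} [AddCommGroup N] (D : M →+ N) (T : List Cell → M) (κ : List Cell) :
    D (cb T κ) = cb (fun κ' => D (T κ')) κ := by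
  induction κ generalizing T with
  | nil => simp [cb]
  | cons c κ ih =>
    cases c
    · simp only [cb]; rw [ih]
    · simp only [cb]; rw [ih]
    · simp only [cb]; rw [map_sub, map_sub, ih]

theorem cb_cb (T : List Cell → M) (κ : List Cell) : cb (cb T) κ = 0 := by
  induction κ generalizing T with
  | nil => simp [cb]
  | cons c κ ih =>
    cases c
    · simp only [cb]; exact ih _
    · simp only [cb]; exact ih _
    · simp only [cb]
      rw [cb_sub, cb_sub]
      have h1 : cb (fun κ' => cb (fun κ'' => T (Cell.e :: κ'')) κ') κ = 0 := ih _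
      rw [h1]
      abel

theorem cb_append (T : List Cell → M) (κ κ' : List Cell) :
    cb T (κ ++ κ') = cb (fun κ'' => T (κ'' ++ κ')) κ +
      (-1 : ℤ) ^ ecount κ • cb (fun κ'' => T (κ ++ κ'')) κ' := by
  induction κ generalizing T with
  | nil => simp [cb, ecount]
  | cons c κ ih =>
    cases c
    · simp only [List.cons_append, cb, ecount]; rw [ih]
    · simp only [List.cons_append, cb, ecount]; rw [ih]
    · simp only [List.cons_append, cb, ecount]; rw [ih, pow_succ]
      simp only [mul_neg, mul_one, neg_smul]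
      abel

theorem cb_sign (U : List Cell → M) (κ : List Cell) :
    cb (fun κ' => (-1 : ℤ) ^ ecount κ' • U κ') κ = - ((-1 : ℤ) ^ ecount κ • cb U κ) := by
  induction κ generalizing U with
  | nil => simp [cb]
  | cons c κ ih =>
    cases c
    · simp only [cb, ecount]; rw [ih]
    · simp only [cb, ecount]; rw [ih]
    · simp only [cb, ecount, pow_succ, mul_neg, mul_one, neg_smul]
      rw [cb_neg, ih]
      simp only [smul_sub]
      abel

theorem cb_dl (S : List Cell → List Y → M) (κ : List Cell) (l : List Y) :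
    cb (fun κ' => dl (S κ') l) κ = dl (fun l' => cb (fun κ' => S κ' l') κ) l := by
  induction κ generalizing S with
  | nil => simp only [cb]; rw [dl_zero]
  | cons c κ ih =>
    cases c
    · simp only [cb]; rw [ih (fun κ' => S (.z :: κ'))]
    · simp only [cb]; rw [ih (fun κ' => S (.o :: κ'))]
    · simp only [cb]; rw [ih (fun κ' => S (.e :: κ')), dl_sub, dl_sub]

theorem ecount_top (g : ℕ) : ecount (top g) = g := by
  induction g with
  | zero => rfl
  | succ g ih =>
    change ecount (top g) + 1 = g + 1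
    rw [ih]

/-! ### products of coordinates -/

theorem cp_add (vs : List (Y → ℤ)) (S S' : List Cell → List Y → M) (l : List Y) :
    cp vs (fun κ l => S κ l + S' κ l) l = cp vs S l + cp vs S' l := by
  induction vs generalizing S S' l with
  | nil => rfl
  | cons v vs ih =>
    have h : ∀ c : Cell, cp vs (fun κ l => S (c :: κ) l + S' (c :: κ) l) =
        fun l => cp vs (fun κ => S (c :: κ)) l + cp vs (fun κ => S' (c :: κ)) l := by
      intro c; funext l; exact ih _ _ l
    simp only [cp]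
    rw [h, h, h, cup_add_right, cup_add_right, cup_add_right]
    abel

theorem cp_neg (vs : List (Y → ℤ)) (S : List Cell → List Y → M) (l : List Y) :
    cp vs (fun κ l => - S κ l) l = - cp vs S l := by
  induction vs generalizing S l with
  | nil => rfl
  | cons v vs ih =>
    have h : ∀ c : Cell, cp vs (fun κ l => - S (c :: κ) l) =
        fun l => - cp vs (fun κ => S (c :: κ)) l := by
      intro c; funext l; exact ih _ l
    simp only [cp]
    rw [h, h, h, cup_neg_right, cup_neg_right, cup_neg_right]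
    abel

theorem cp_sub (vs : List (Y → ℤ)) (S S' : List Cell → List Y → M) (l : List Y) :
    cp vs (fun κ l => S κ l - S' κ l) l = cp vs S l - cp vs S' l := by
  simp only [sub_eq_add_neg]
  rw [cp_add, cp_neg]

theorem map_cp {N : Type*} [AddCommGroup N] (D : M →+ N) (vs : List (Y → ℤ))
    (S : List Cell → List Y → M) (l : List Y) :
    D (cp vs S l) = cp vs (fun κ l => D (S κ l)) l := by
  induction vs generalizing S l with
  | nil => rfl
  | cons v vs ih =>
    have h : ∀ c : Cell, (fun l => D (cp vs (fun κ => S (c :: κ)) l)) =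
        cp vs (fun κ l => D (S (c :: κ) l)) := by
      intro c; funext l; exact ih _ l
    simp only [cp]
    rw [map_add, map_add, map_cup, map_cup, map_cup, h, h, h]

theorem cp_nil' (vs : List (Y → ℤ)) (S : List Cell → List Y → M) (hS : ∀ κ, S κ [] = 0) :
    cp vs S [] = 0 := by
  cases vs with
  | nil => exact hS []
  | cons v vs => simp [cp]

theorem cp_dl (vs : List (Y → ℤ)) (S : List Cell → List Y → M) (hS : ∀ κ, S κ [] = 0)
    (l : List Y) :
    dl (cp vs S) l = cp vs (fun κ l' => cb (fun κ' => S κ' l') κ) l +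
      cp vs (fun κ l' => (-1 : ℤ) ^ ecount κ • dl (S κ) l') l := by
  induction vs generalizing S l with
  | nil =>
    change dl (S []) l = cb (fun κ' => S κ' l) [] + (-1 : ℤ) ^ ecount [] • dl (S []) l
    simp [cb, ecount]
  | cons v vs ih =>
    have hc : ∀ c : Cell, cp vs (fun κ => S (c :: κ)) [] = 0 := fun c =>
      cp_nil' vs _ fun κ => hS _
    have h1 : cp (v :: vs) S = fun l => cup (cz v) (cp vs fun κ => S (.z :: κ)) l +
      cup (co v) (cp vs fun κ => S (.o :: κ)) l + cup (ce v) (cp vs fun κ => S (.e :: κ)) l := rfl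
    rw [h1, dl_add, dl_add]
    have e1 : dl (cup (cz v) (cp vs fun κ => S (.z :: κ))) l =
        - cup (ce v) (cp vs fun κ => S (.z :: κ)) l +
          cup (cz v) (dl (cp vs fun κ => S (.z :: κ))) l := by
      rw [dl_cup' _ _ (by simp [cz]) (hc _), sg_cz, ← cup_neg_left]
      congr 2
      funext l; exact dl_cz v l
    have e2 : dl (cup (co v) (cp vs fun κ => S (.o :: κ))) l =
        cup (ce v) (cp vs fun κ => S (.o :: κ)) l +
          cup (co v) (dl (cp vs fun κ => S (.o :: κ))) l := by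
      rw [dl_cup' _ _ (by simp [co]) (hc _), sg_co]
      congr 2
      funext l; exact dl_co v l
    have e3 : dl (cup (ce v) (cp vs fun κ => S (.e :: κ))) l =
        - cup (ce v) (dl (cp vs fun κ => S (.e :: κ))) l := by
      rw [dl_cup' _ _ (by simp [ce]) (hc _), sg_ce, cup_neg_left]
      have : dl (ce v) = fun _ => 0 := by funext l; exact dl_ce v l
      rw [this, cup_zero_left, zero_add]
    rw [e1, e2, e3]
    have i : ∀ c : Cell, dl (cp vs fun κ => S (c :: κ)) = fun l =>
        cp vs (fun κ l' => cb (fun κ' => S (c :: κ') l') κ) l +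
          cp vs (fun κ l' => (-1 : ℤ) ^ ecount κ • dl (S (c :: κ)) l') l := by
      intro c; funext l; exact ih _ (fun κ => hS _) l
    rw [i, i, i, cup_add_right, cup_add_right, cup_add_right]
    have j1 : cp (v :: vs) (fun κ l' => cb (fun κ' => S κ' l') κ) l =
        cup (cz v) (cp vs fun κ l' => cb (fun κ' => S (.z :: κ') l') κ) l +
        cup (co v) (cp vs fun κ l' => cb (fun κ' => S (.o :: κ') l') κ) l +
        (cup (ce v) (cp vs fun κ => S (.o :: κ)) l - cup (ce v) (cp vs fun κ => S (.z :: κ)) l -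
          cup (ce v) (cp vs fun κ l' => cb (fun κ' => S (.e :: κ') l') κ) l) := by
      simp only [cp, cb]
      rw [← cup_sub_right, ← cup_sub_right]
      congr 2
      funext l'
      rw [cp_sub, cp_sub]
    have j2 : cp (v :: vs) (fun κ l' => (-1 : ℤ) ^ ecount κ • dl (S κ) l') l =
        cup (cz v) (cp vs fun κ l' => (-1 : ℤ) ^ ecount κ • dl (S (.z :: κ)) l') l +
        cup (co v) (cp vs fun κ l' => (-1 : ℤ) ^ ecount κ • dl (S (.o :: κ)) l') l +
        - cup (ce v) (cp vs fun κ l' => (-1 : ℤ) ^ ecount κ • dl (S (.e :: κ)) l') l := by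
      simp only [cp, ecount]
      rw [← cup_neg_right]
      congr 2
      funext l'
      rw [← cp_neg]
      congr 1
      funext κ l''
      rw [pow_succ]; simp
    rw [j1, j2]
    abel

/-! ### blocks -/

theorem support_dl (g : ℕ) (F : List Y → ℤ) (hF : ∀ l, F l ≠ 0 → l.length = g) (l : List Y)
    (hl : dl F l ≠ 0) : l.length = g + 1 := by
  induction l generalizing F g with
  | nil => simp at hl
  | cons y l ih =>
    by_cases h : F l = 0
    · rw [dl_cons, h] at hl
      have h' : dl (fun l' => F (y :: l')) l ≠ 0 := fun h0 => hl (by rw [h0]; simp)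
      cases g with
      | zero =>
        exfalso
        apply h'
        have : (fun l' => F (y :: l')) = fun _ => 0 := by
          funext l'
          by_contra hne
          have := hF _ hne
          simp at this
        rw [this, dl_zero]
      | succ g =>
        have := ih g (fun l' => F (y :: l')) (fun l' hl' => by
          have := hF _ hl'
          simpa using this) h'
        simp [this]
    · simp [hF l h]

theorem sg_of_support (g : ℕ) (F : List Y → ℤ) (hF : ∀ l, F l ≠ 0 → l.length = g) :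
    sg F = fun l => (-1 : ℤ) ^ (g + 1) * F l := by
  funext l
  by_cases h : F l = 0
  · simp [sg, h]
  · simp [sg, hF l h]

theorem bp_nil' (B : Blk Y) (S : List Cell → List Y → M) (hS : ∀ κ, S κ [] = 0) :
    bp B S [] = 0 := by
  simp [bp, cp_nil' _ _ hS]

theorem bp_add (B : Blk Y) (S S' : List Cell → List Y → M) (l : List Y) :
    bp B (fun κ l => S κ l + S' κ l) l = bp B S l + bp B S' l := by
  simp only [bp]
  rw [cp_add, cup_add_right]
  have : (fun l' => cb (fun κ => S κ l' + S' κ l') (top B.vs.length)) = fun l' =>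
      cb (fun κ => S κ l') (top B.vs.length) + cb (fun κ => S' κ l') (top B.vs.length) := by
    funext l'; rw [cb_add]
  rw [this, cup_add_right]
  abel

theorem map_bp {N : Type*} [AddCommGroup N] (D : M →+ N) (B : Blk Y)
    (S : List Cell → List Y → M) (l : List Y) :
    D (bp B S l) = bp B (fun κ l => D (S κ l)) l := by
  simp only [bp]
  rw [map_sub, map_sub, map_cp, map_cup, map_cup]
  congr 3
  funext l'
  rw [map_cb]

theorem bp_dl (B : Blk Y) (hB : B.Good) (S : List Cell → List Y → M) (hS : ∀ κ, S κ [] = 0)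
    (l : List Y) :
    dl (bp B S) l = bp B (fun κ l' => cb (fun κ' => S κ' l') κ) l +
      bp B (fun κ l' => (-1 : ℤ) ^ ecount κ • dl (S κ) l') l := by
  set g := B.vs.length with hg
  have hh0 : B.h [] = 0 := by
    by_contra h
    have := (hB [] h).2
    simp at this
  have hsup : ∀ l, B.h l ≠ 0 → l.length = g := fun l hl => (hB l hl).1
  have h1 : bp B S = fun l => cp B.vs S l - cup B.h (fun l' => cb (fun κ => S κ l') (top g)) l -
    cup (dl B.h) (S (top g)) l := rfl
  have hC0 : (fun l' => cb (fun κ => S κ l') (top g)) [] = 0 := by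
    have : (fun κ => S κ []) = fun _ => (0 : M) := by funext κ; exact hS κ
    change cb (fun κ => S κ []) (top g) = 0
    rw [this]
    have := map_cb (0 : M →+ M) (fun _ => (0 : M)) (top g)
    simpa using this.symm
  rw [h1, dl_sub, dl_sub, cp_dl _ _ hS, dl_cup' _ _ hh0 hC0, dl_cup' _ _ (dl_nil _) (hS _),
    sg_of_support g _ hsup, sg_of_support (g + 1) (dl B.h) (support_dl g _ hsup),
    cup_zsmul_left, cup_zsmul_left]
  have hdd : dl (dl B.h) = fun _ => 0 := by funext l; exact dl_dl _ l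
  rw [hdd, cup_zero_left]
  simp only [bp]
  rw [← hg]
  have k1 : cup B.h (fun l' => cb (fun κ => cb (fun κ' => S κ' l') κ) (top g)) l = 0 := by
    have : (fun l' => cb (fun κ => cb (fun κ' => S κ' l') κ) (top g)) = fun _ => (0 : M) := by
      funext l'; exact cb_cb _ _
    rw [this, cup_zero_right]
  have k2 : cup B.h (fun l' => cb (fun κ => (-1 : ℤ) ^ ecount κ • dl (S κ) l') (top g)) l =
      - ((-1 : ℤ) ^ g • cup B.h (dl fun l' => cb (fun κ => S κ l') (top g)) l) := by
    rw [← cup_zsmul_right, ← cup_neg_right]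
    congr 1
    funext l'
    rw [cb_sign, cb_dl, ecount_top]
  have k3 : cup (dl B.h) (fun l' => (-1 : ℤ) ^ ecount (top g) • dl (S (top g)) l') l =
      (-1 : ℤ) ^ g • cup (dl B.h) (dl (S (top g))) l := by
    rw [ecount_top, ← cup_zsmul_right]
  rw [k1, k2, k3]
  simp only [pow_succ, mul_neg, mul_one, neg_smul, neg_neg]
  abel

theorem unit_map {N : Type*} [AddCommGroup N] (D : M →+ N) (m : M) (l : List Y) :
    D (unit m l) = unit (D m) l := by
  rcases l with _ | ⟨y, _ | ⟨y', l⟩⟩ <;> simp [unit]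

theorem dl_unit (m : M) (l : List Y) : dl (unit m) l = 0 := by
  rcases l with _ | ⟨y, _ | ⟨y', _ | ⟨y'', l⟩⟩⟩
  · simp
  · simp [dl_cons, unit]
  · simp [dl_cons, unit]
  · have h : (fun l' => unit m (y :: y' :: l')) = fun _ => (0 : M) := by
      funext l'; simp [unit]
    simp only [dl_cons, h, dl_zero]
    simp [unit]

theorem blkProd_nil' (Bs : List (Blk Y)) (T : List Cell → M) : blkProd Bs T [] = 0 := by
  induction Bs generalizing T with
  | nil => rfl
  | cons B Bs ih => exact bp_nil' _ _ fun κ => ih _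

/-- linearity in `T` -/
theorem map_blkProd_aux {N : Type*} [AddCommGroup N] (D : M →+ N) (Bs : List (Blk Y))
    (T : List Cell → M) (l : List Y) :
    D (blkProd Bs T l) = blkProd Bs (fun κ => D (T κ)) l := by
  induction Bs generalizing T l with
  | nil => exact unit_map D _ _
  | cons B Bs ih =>
    have h : (fun κ l => D (blkProd Bs (fun κ' => T (κ ++ κ')) l)) =
        fun κ => blkProd Bs fun κ' => D (T (κ ++ κ')) := by
      funext κ l; exact ih _ l
    simp only [blkProd]
    rw [map_bp, h]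

theorem blkProd_add (Bs : List (Blk Y)) (T U : List Cell → M) (l : List Y) :
    blkProd Bs (fun κ => T κ + U κ) l = blkProd Bs T l + blkProd Bs U l := by
  have h1 := map_blkProd_aux (AddMonoidHom.fst M M) Bs (fun κ => (T κ, U κ)) l
  have h2 := map_blkProd_aux (AddMonoidHom.snd M M) Bs (fun κ => (T κ, U κ)) l
  have h3 := map_blkProd_aux (AddMonoidHom.fst M M + AddMonoidHom.snd M M) Bs
    (fun κ => (T κ, U κ)) l
  simp only [AddMonoidHom.coe_fst, AddMonoidHom.coe_snd, AddMonoidHom.add_apply] at h1 h2 h3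
  rw [← h3, h1, h2]

theorem cb_blkProd (Bs : List (Blk Y)) (U : List Cell → List Cell → M) (κ : List Cell)
    (l : List Y) :
    cb (fun κ'' => blkProd Bs (U κ'') l) κ =
      blkProd Bs (fun κ' => cb (fun κ'' => U κ'' κ') κ) l := by
  let D : (List Cell → M) →+ M :=
    { toFun := fun F => cb F κ
      map_zero' := by
        have := map_cb (0 : M →+ M) (fun _ => (0 : M)) κ
        change cb (fun _ => (0 : M)) κ = 0
        simpa using this.symm
      map_add' := fun F G => cb_add F G κ }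
  have h1 := map_blkProd_aux D Bs (fun κ' κ'' => U κ'' κ') l
  have h2 : blkProd Bs (fun κ' κ'' => U κ'' κ') l = fun κ'' => blkProd Bs (U κ'') l := by
    funext κ''
    exact map_blkProd_aux (Pi.evalAddMonoidHom (fun _ : List Cell => M) κ'') Bs
      (fun κ' κ'' => U κ'' κ') l
  rw [h2] at h1
  exact h1

theorem dl_blkProd (Bs : List (Blk Y)) (hB : ∀ B ∈ Bs, B.Good) (T : List Cell → M) (l : List Y) :
    dl (blkProd Bs T) l = blkProd Bs (cb T) l := by
  induction Bs generalizing T l with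
  | nil =>
    change dl (unit (T [])) l = unit (cb T []) l
    rw [dl_unit]
    rcases l with _ | ⟨y, _ | ⟨y', l⟩⟩ <;> simp [unit, cb]
  | cons B Bs ih =>
    change dl (bp B fun κ => blkProd Bs fun κ' => T (κ ++ κ')) l =
      bp B (fun κ => blkProd Bs fun κ' => cb T (κ ++ κ')) l
    rw [bp_dl B (hB B (by simp)) _ (fun κ => blkProd_nil' _ _), ← bp_add]
    congr 1
    funext κ l'
    rw [ih (fun B' hB' => hB B' (by simp [hB'])) (fun κ' => T (κ ++ κ')) l',
      cb_blkProd Bs (fun κ'' κ' => T (κ'' ++ κ')) κ l']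
    have h1 := map_blkProd_aux (zsmulAddGroupHom ((-1 : ℤ) ^ ecount κ) : M →+ M) Bs
      (cb fun κ' => T (κ ++ κ')) l'
    simp only [zsmulAddGroupHom_apply] at h1
    rw [h1, ← blkProd_add]
    congr 1
    funext κ'
    rw [cb_append]

/-- linearity in `T` -/
theorem map_blkProd {N : Type*} [AddCommGroup N] (D : M →+ N) (Bs : List (Blk Y))
    (T : List Cell → M) (l : List Y) :
    D (blkProd Bs T l) = blkProd Bs (fun κ => D (T κ)) l :=
  map_blkProd_aux D Bs T l

end Vale.Agent.P093.Hom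
end

section

/-!
TASK HOM-A2: the support of the product of block chain maps.

Proof. Expand `cp vs S l = ∑_{κ, κ.length = vs.length} cup (φ vs κ) (S κ) l` where `φ vs κ` is the
iterated cup product of the one-coordinate cochains `cz v`, `co v`, `ce v` (with `unit 1` at the
end). `φ vs κ` is homogeneous of degree `ecount κ` (nonzero only on lists of length
`ecount κ + 1`), and is nonzero on a list `l'` only if `Compat vs l' κ`. The coefficient of
`S (top g)` in `bp B S` is `tau B.vs - dl B.h`, the coefficient of the codimension one faces of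
the top cube is changed by `± B.h`. A term `cup f G l` is a sum of `f (l.take (k+1)) • G (l.drop k)`
(`l.take (k+1)` is a sublist of `l`, `l.drop k` is a suffix); if `f` is homogeneous of degree `m`
only `k = m` contributes. `Compat` and `Allowed` are monotone in `l` (for sublists).
-/

namespace Vale.Agent.P093.Hom

variable {Y : Type*} {M : Type*} [AddCommGroup M]

theorem bm_cup_zero {f : List Y → ℤ} (hf : ∀ l, l ≠ [] → f l = 0) (G : List Y → M)
    (l : List Y) : cup f G l = 0 := by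
  induction l generalizing f with
  | nil => rfl
  | cons y l ih =>
    rw [cup_cons, hf [y] (List.cons_ne_nil _ _), zero_smul, zero_add]
    exact ih fun l' _ => hf _ (List.cons_ne_nil _ _)

theorem bm_cup_cz (v : Y → ℤ) (G : List Y → M) (y : Y) (l : List Y) :
    cup (cz v) G (y :: l) = (1 - v y) • G (y :: l) := by
  rw [cup_cons, bm_cup_zero, add_zero]
  · rfl
  · intro l' hl'
    cases l' with
    | nil => exact absurd rfl hl'
    | cons _ _ => rfl

theorem bm_cup_co (v : Y → ℤ) (G : List Y → M) (y : Y) (l : List Y) :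
    cup (co v) G (y :: l) = v y • G (y :: l) := by
  rw [cup_cons, bm_cup_zero, add_zero]
  · rfl
  · intro l' hl'
    cases l' with
    | nil => exact absurd rfl hl'
    | cons _ _ => rfl

theorem bm_cup_unit (G : List Y → M) (y : Y) (l : List Y) :
    cup (unit (1 : ℤ)) G (y :: l) = G (y :: l) := by
  rw [cup_cons, bm_cup_zero, add_zero]
  · exact one_smul ℤ _
  · intro l' hl'
    cases l' with
    | nil => exact absurd rfl hl'
    | cons _ _ => rfl

theorem bm_cup_ce_single (v : Y → ℤ) (G : List Y → M) (y : Y) : cup (ce v) G [y] = 0 := by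
  rw [cup_cons, cup_nil, add_zero]
  exact zero_smul ℤ _

theorem bm_cup_ce (v : Y → ℤ) (G : List Y → M) (y y' : Y) (l : List Y) :
    cup (ce v) G (y :: y' :: l) = (v y' - v y) • G (y' :: l) := by
  rw [cup_cons, cup_cons, bm_cup_zero, add_zero]
  · have h1 : ce v [y] = 0 := rfl
    have h2 : ce v [y, y'] = v y' - v y := rfl
    rw [h1, h2, zero_smul, zero_add]
  · intro l' hl'
    cases l' with
    | nil => exact absurd rfl hl'
    | cons _ _ => rfl

theorem bm_compat_mono {vs : List (Y → ℤ)} {l l' : List Y} (h : ∀ y ∈ l', y ∈ l)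
    {κ : List Cell} (hc : Compat vs l' κ) : Compat vs l κ := by
  refine List.Forall₂.imp ?_ hc
  rintro v c ⟨h1, h2, h3⟩
  refine ⟨fun hz => ?_, fun ho => ?_, fun he => ?_⟩
  · obtain ⟨y, hy, h4⟩ := h1 hz
    exact ⟨y, h y hy, h4⟩
  · obtain ⟨y, hy, h4⟩ := h2 ho
    exact ⟨y, h y hy, h4⟩
  · obtain ⟨y, hy, y', hy', h4⟩ := h3 he
    exact ⟨y, h y hy, y', h y' hy', h4⟩

theorem bm_allowed_mono {B : Blk Y} {l l' : List Y} (h : l'.Sublist l) {κ : List Cell}
    (hc : B.Allowed l' κ) : B.Allowed l κ := by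
  obtain ⟨h1, h2, h3⟩ := hc
  refine ⟨h1, ?_, fun h4 => h3 fun l'' hl'' => h4 l'' (hl''.trans h)⟩
  rcases h2 with h2 | ⟨l'', h4, h5⟩
  · exact Or.inl (bm_compat_mono (fun y hy => h.subset hy) h2)
  · exact Or.inr ⟨l'', h4.trans h, h5⟩

theorem bm_allowedL_mono {l l' : List Y} (h : l'.Sublist l) :
    ∀ (Bs : List (Blk Y)) (κ : List Cell), AllowedL Bs l' κ → AllowedL Bs l κ
  | [], _, hc => hc
  | _ :: Bs, _, ⟨κ₁, κ₂, h1, h2, h3⟩ =>
    ⟨κ₁, κ₂, h1, bm_allowed_mono h h2, bm_allowedL_mono h Bs κ₂ h3⟩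

theorem bm_ecount_append (κ κ' : List Cell) : ecount (κ ++ κ') = ecount κ + ecount κ' := by
  induction κ with
  | nil => simp [ecount]
  | cons c κ ih =>
    cases c with
    | z => simpa only [List.cons_append, ecount] using ih
    | o => simpa only [List.cons_append, ecount] using ih
    | e =>
      simp only [List.cons_append, ecount, ih]
      omega

theorem bm_top_succ (n : ℕ) : top (n + 1) = Cell.e :: top n := rfl

theorem bm_ecount_top (n : ℕ) : ecount (top n) = n := by
  induction n with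
  | zero => rfl
  | succ n ih => rw [bm_top_succ, ecount, ih]

theorem bm_cp_mem (vs : List (Y → ℤ)) : ∀ (S : List Cell → List Y → M) (l : List Y)
    (H : AddSubgroup M), (∀ κ, Compat vs l κ → ∀ l', l' <:+ l →
      l'.length + ecount κ = l.length → S κ l' ∈ H) → cp vs S l ∈ H := by
  induction vs with
  | nil =>
    intro S l H h
    exact h [] List.Forall₂.nil l (List.suffix_refl _) rfl
  | cons v vs ih =>
    intro S l H h
    rw [cp]
    cases l with
    | nil =>
      simp only [cup_nil, add_zero]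
      exact H.zero_mem
    | cons y l =>
      refine H.add_mem (H.add_mem ?_ ?_) ?_
      · rw [bm_cup_cz]
        by_cases hv : 1 - v y = 0
        · rw [hv, zero_smul]
          exact H.zero_mem
        · refine H.zsmul_mem (ih _ _ H fun κ hκ l' hl' hlen => h (.z :: κ) ?_ l' hl' hlen) _
          refine List.Forall₂.cons ⟨fun _ => ⟨y, List.mem_cons_self, fun h' => hv ?_⟩,
            fun h' => ?_, fun h' => ?_⟩ hκ
          · rw [h', sub_self]
          · cases h'
          · cases h'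
      · rw [bm_cup_co]
        by_cases hv : v y = 0
        · rw [hv, zero_smul]
          exact H.zero_mem
        · refine H.zsmul_mem (ih _ _ H fun κ hκ l' hl' hlen => h (.o :: κ) ?_ l' hl' hlen) _
          refine List.Forall₂.cons ⟨fun h' => ?_, fun _ => ⟨y, List.mem_cons_self, hv⟩,
            fun h' => ?_⟩ hκ
          · cases h'
          · cases h'
      · cases l with
        | nil =>
          rw [bm_cup_ce_single]
          exact H.zero_mem
        | cons y' l =>
          rw [bm_cup_ce]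
          by_cases hv : v y' - v y = 0
          · rw [hv, zero_smul]
            exact H.zero_mem
          · refine H.zsmul_mem (ih _ _ H fun κ hκ l' hl' hlen => h (.e :: κ) ?_ l'
              (hl'.trans (List.suffix_cons _ _)) ?_) _
            · refine List.Forall₂.cons ⟨fun h' => ?_, fun h' => ?_, fun _ =>
                ⟨y, List.mem_cons_self, y', List.mem_cons_of_mem _ List.mem_cons_self,
                  fun h' => hv ?_⟩⟩ (bm_compat_mono (fun z hz => List.mem_cons_of_mem _ hz) hκ)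
              · cases h'
              · cases h'
              · rw [h', sub_self]
            · rw [ecount, List.length_cons, ← hlen]
              omega

theorem bm_cp_split (vs : List (Y → ℤ)) : ∀ (S : List Cell → List Y → M) (y : Y) (l : List Y),
    cp vs S (y :: l) =
      cp vs (fun κ l' => if κ = top vs.length then 0 else S κ l') (y :: l) +
        cup (tau vs) (S (top vs.length)) (y :: l) := by
  induction vs with
  | nil =>
    intro S y l
    rw [cp, cp, tau, bm_cup_unit]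
    have : top (([] : List (Y → ℤ)).length) = [] := rfl
    rw [this, if_pos rfl, zero_add]
  | cons v vs ih =>
    intro S y l
    have hl : (v :: vs).length = vs.length + 1 := rfl
    have hz : (fun (κ : List Cell) (l' : List Y) =>
        if Cell.z :: κ = top (v :: vs).length then 0 else S (.z :: κ) l') =
        fun κ => S (.z :: κ) := by
      funext κ l'
      rw [if_neg]
      rw [hl, bm_top_succ]
      intro h
      cases h
    have ho : (fun (κ : List Cell) (l' : List Y) =>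
        if Cell.o :: κ = top (v :: vs).length then 0 else S (.o :: κ) l') =
        fun κ => S (.o :: κ) := by
      funext κ l'
      rw [if_neg]
      rw [hl, bm_top_succ]
      intro h
      cases h
    have he : (fun (κ : List Cell) (l' : List Y) =>
        if Cell.e :: κ = top (v :: vs).length then 0 else S (.e :: κ) l') =
        fun κ l' => if κ = top vs.length then 0 else (fun κ => S (.e :: κ)) κ l' := by
      funext κ l'
      rw [hl, bm_top_succ]
      by_cases h : κ = top vs.length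
      · rw [if_pos h, if_pos (by rw [h])]
      · rw [if_neg h, if_neg]
        intro h'
        exact h (List.cons.inj h').2
    rw [cp, cp, hz, ho, he, tau, cup_assoc, hl, bm_top_succ]
    have key : cup (ce v) (cp vs fun κ => S (.e :: κ)) (y :: l) =
        cup (ce v) (cp vs fun κ l' => if κ = top vs.length then 0 else
          (fun κ => S (.e :: κ)) κ l') (y :: l) +
        cup (ce v) (cup (tau vs) (S (.e :: top vs.length))) (y :: l) := by
      cases l with
      | nil => rw [bm_cup_ce_single, bm_cup_ce_single, bm_cup_ce_single, add_zero]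
      | cons y' l =>
        rw [bm_cup_ce, bm_cup_ce, bm_cup_ce, ← smul_add, ih (fun κ => S (.e :: κ)) y' l]
    rw [key, ← add_assoc]

theorem bm_cup_mem {H : AddSubgroup M} {G : List Y → M} : ∀ (l : List Y) (f : List Y → ℤ) (n : ℕ),
    (∀ l, f l ≠ 0 → l.length = n + 1) →
    (∀ l₁ l', f l₁ ≠ 0 → l₁ <+: l → l' <:+ l → l'.length + n = l.length → G l' ∈ H) →
    cup f G l ∈ H := by
  intro l
  induction l with
  | nil =>
    intro f n _ _
    exact H.zero_mem
  | cons y l ih =>
    intro f n hf h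
    rw [cup_cons]
    refine H.add_mem ?_ ?_
    · by_cases h0 : f [y] = 0
      · rw [h0, zero_smul]
        exact H.zero_mem
      · refine H.zsmul_mem (h [y] (y :: l) h0 ?_ (List.suffix_refl _) ?_) _
        · rw [List.cons_prefix_cons]
          exact ⟨rfl, List.nil_prefix⟩
        · have := hf _ h0
          rw [List.length_singleton] at this
          omega
    · cases n with
      | zero =>
        rw [bm_cup_zero]
        · exact H.zero_mem
        · intro l' hl'
          by_contra h0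
          have := hf _ h0
          rw [List.length_cons, zero_add, Nat.add_eq_right] at this
          exact hl' (List.length_eq_zero_iff.1 this)
      | succ n =>
        refine ih _ n (fun l' hl' => ?_) fun l₁ l' h0 h1 h2 h3 => h (y :: l₁) l' h0 ?_
          (h2.trans (List.suffix_cons _ _)) ?_
        · have := hf _ hl'
          rw [List.length_cons] at this
          omega
        · rw [List.cons_prefix_cons]
          exact ⟨rfl, h1⟩
        · rw [List.length_cons]
          omega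

theorem bm_dl_supp : ∀ (l : List Y) (f : List Y → ℤ) (n : ℕ), (∀ l, f l ≠ 0 → l.length = n) →
    dl f l ≠ 0 → l.length = n + 1 ∧ ∃ l', l'.Sublist l ∧ f l' ≠ 0 := by
  intro l
  induction l with
  | nil =>
    intro f n _ h
    exact absurd rfl h
  | cons y l ih =>
    intro f n hf h
    by_cases h0 : f l = 0
    · rw [dl_cons, h0, zero_sub, neg_ne_zero] at h
      cases n with
      | zero =>
        exfalso
        apply h
        have : (fun l' => f (y :: l')) = fun _ => (0 : ℤ) := by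
          funext l'
          by_contra h1
          have := hf _ h1
          rw [List.length_cons] at this
          omega
        rw [this, dl_zero]
      | succ n =>
        obtain ⟨h1, l', h2, h3⟩ := ih (fun l' => f (y :: l')) n (fun l' hl' => by
          have := hf _ hl'
          rw [List.length_cons] at this
          omega) h
        exact ⟨by rw [List.length_cons, h1], y :: l', h2.cons_cons y, h3⟩
    · exact ⟨by rw [List.length_cons, hf l h0], l, List.sublist_cons_self _ _, h0⟩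

theorem bm_cb_mem (H : AddSubgroup M) : ∀ (n : ℕ) (T : List Cell → M),
    (∀ κ, κ.length = n → ecount κ + 1 = n → κ ≠ top n → T κ ∈ H) → cb T (top n) ∈ H := by
  intro n
  induction n with
  | zero =>
    intro T _
    exact H.zero_mem
  | succ n ih =>
    intro T h
    rw [bm_top_succ, cb]
    refine H.sub_mem (H.sub_mem (h _ ?_ ?_ ?_) (h _ ?_ ?_ ?_)) (ih _ fun κ h1 h2 h3 => h _ ?_ ?_ ?_)
    · rw [List.length_cons, top, List.length_replicate]
    · rw [ecount, bm_ecount_top]
    · rw [bm_top_succ]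
      intro h'
      cases h'
    · rw [List.length_cons, top, List.length_replicate]
    · rw [ecount, bm_ecount_top]
    · rw [bm_top_succ]
      intro h'
      cases h'
    · rw [List.length_cons, h1]
    · rw [ecount, h2]
    · rw [bm_top_succ]
      intro h'
      exact h3 (List.cons.inj h').2

theorem bm_bp_mem {B : Blk Y} (hB : B.Good) (S : List Cell → List Y → M) (y : Y) (l : List Y)
    (H : AddSubgroup M) (hS : ∀ κ, B.Allowed (y :: l) κ → ∀ l', l' <:+ y :: l →
      l'.length + ecount κ = (y :: l).length → S κ l' ∈ H) : bp B S (y :: l) ∈ H := by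
  have h2 : cup B.h (fun l' => cb (fun κ => S κ l') (top B.vs.length)) (y :: l) ∈ H := by
    refine bm_cup_mem _ _ (B.vs.length - 1) (fun l' hl' => ?_) fun l₁ l' h0 h1 h2 h3 => ?_
    · have := hB l' hl'
      omega
    · refine bm_cb_mem H _ _ fun κ h4 h5 h6 => hS κ ⟨h4, Or.inr ⟨l₁, h1.sublist, h0⟩,
        fun _ => h6⟩ l' h2 ?_
      have := hB l₁ h0
      omega
  rw [bp]
  by_cases hA : ∀ l', l'.Sublist (y :: l) → tau B.vs l' = dl B.h l'
  · have h3 : cup (tau B.vs) (S (top B.vs.length)) (y :: l) =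
        cup (dl B.h) (S (top B.vs.length)) (y :: l) := by
      refine cup_congr (S := {l' | l'.Sublist (y :: l)}) ?_ (fun l' hl' => hA l' hl')
        (fun _ _ => rfl) (List.Sublist.refl _)
      intro l₁ h1 l₂ h2
      exact h2.trans h1
    rw [bm_cp_split, h3, sub_right_comm, add_sub_cancel_right]
    refine H.sub_mem (bm_cp_mem _ _ _ H fun κ hκ l' hl' hlen => ?_) h2
    by_cases h4 : κ = top B.vs.length
    · rw [if_pos h4]
      exact H.zero_mem
    · rw [if_neg h4]
      exact hS κ ⟨hκ.length_eq.symm, Or.inl hκ, fun _ => h4⟩ l' hl' hlen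
  · refine H.sub_mem (H.sub_mem ?_ h2) ?_
    · exact bm_cp_mem _ _ _ H fun κ hκ l' hl' hlen =>
        hS κ ⟨hκ.length_eq.symm, Or.inl hκ, fun h => absurd h hA⟩ l' hl' hlen
    · refine bm_cup_mem _ _ B.vs.length (fun l' hl' => ?_) fun l₁ l' h0 h1 h2 h3 => ?_
      · exact (bm_dl_supp l' B.h B.vs.length (fun l'' hl'' => (hB l'' hl'').1) hl').1
      · obtain ⟨-, l'', h4, h5⟩ := bm_dl_supp l₁ B.h B.vs.length
          (fun l'' hl'' => (hB l'' hl'').1) h0
        refine hS _ ⟨?_, Or.inr ⟨l'', h4.trans h1.sublist, h5⟩, fun h => absurd h hA⟩ l' h2 ?_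
        · rw [top, List.length_replicate]
        · rw [bm_ecount_top, h3]

theorem bm_cp_nil (vs : List (Y → ℤ)) (S : List Cell → List Y → M) (hS : ∀ κ, S κ [] = 0) :
    cp vs S [] = 0 := by
  cases vs with
  | nil => exact hS []
  | cons v vs => rw [cp, cup_nil, cup_nil, cup_nil, add_zero, add_zero]

theorem bm_blkProd_nil : ∀ (Bs : List (Blk Y)) (T : List Cell → M), blkProd Bs T [] = 0
  | [], _ => rfl
  | B :: Bs, T => by
    rw [blkProd, bp, cup_nil, cup_nil, sub_zero, sub_zero]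
    exact bm_cp_nil _ _ fun κ => bm_blkProd_nil Bs _

theorem blkProd_mem (Bs : List (Blk Y)) (hB : ∀ B ∈ Bs, B.Good) (l : List Y) (H : AddSubgroup M)
    (T : List Cell → M) (hT : ∀ κ, AllowedL Bs l κ → ecount κ + 1 = l.length → T κ ∈ H) :
    blkProd Bs T l ∈ H := by
  induction Bs generalizing l T with
  | nil =>
    rw [blkProd]
    match l, hT with
    | [], _ => exact H.zero_mem
    | [y], hT => exact hT [] rfl rfl
    | _ :: _ :: _, _ => exact H.zero_mem
  | cons B Bs ih =>
    cases l with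
    | nil =>
      rw [bm_blkProd_nil]
      exact H.zero_mem
    | cons y l =>
      rw [blkProd]
      refine bm_bp_mem (hB B List.mem_cons_self) _ _ _ H fun κ hκ l' hl' hlen =>
        ih (fun B' hB' => hB B' (List.mem_cons_of_mem _ hB')) l' _ fun κ' h1 h2 => ?_
      refine hT (κ ++ κ') ⟨κ, κ', rfl, hκ, bm_allowedL_mono hl'.sublist _ _ h1⟩ ?_
      rw [bm_ecount_append, add_assoc, h2, ← hlen, add_comm]

theorem bm_cp_map {N : Type*} [AddCommGroup N] (D : M →+ N) (vs : List (Y → ℤ)) :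
    ∀ (S : List Cell → List Y → M) (l : List Y), D (cp vs S l) = cp vs (fun κ l' => D (S κ l')) l := by
  induction vs with
  | nil => intro S l; rfl
  | cons v vs ih =>
    intro S l
    rw [cp, cp, map_add, map_add, map_cup, map_cup, map_cup]
    simp only [ih]

theorem bm_cb_map {N : Type*} [AddCommGroup N] (D : M →+ N) (κ : List Cell) :
    ∀ (T : List Cell → M), D (cb T κ) = cb (fun κ => D (T κ)) κ := by
  induction κ with
  | nil => intro T; exact map_zero D
  | cons c κ ih =>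
    intro T
    cases c with
    | z => rw [cb, cb, ih]
    | o => rw [cb, cb, ih]
    | e => rw [cb, cb, map_sub, map_sub, ih]

theorem bm_blkProd_map {N : Type*} [AddCommGroup N] (D : M →+ N) (Bs : List (Blk Y)) :
    ∀ (T : List Cell → M) (l : List Y),
      D (blkProd Bs T l) = blkProd Bs (fun κ => D (T κ)) l := by
  induction Bs with
  | nil =>
    intro T l
    rw [blkProd, blkProd]
    match l with
    | [] => exact map_zero D
    | [y] => rfl
    | _ :: _ :: _ => exact map_zero D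
  | cons B Bs ih =>
    intro T l
    rw [blkProd, blkProd, bp, bp, map_sub, map_sub, bm_cp_map, map_cup, map_cup]
    simp only [ih, bm_cb_map]

/-- two functions on cubes which agree on the relevant cubes give the same value -/
theorem blkProd_congr (Bs : List (Blk Y)) (hB : ∀ B ∈ Bs, B.Good) (l : List Y)
    (T T' : List Cell → M)
    (hT : ∀ κ, AllowedL Bs l κ → ecount κ + 1 = l.length → T κ = T' κ) :
    blkProd Bs T l = blkProd Bs T' l := by
  let H : AddSubgroup (M × M) := AddMonoidHom.eqLocus (AddMonoidHom.fst M M) (AddMonoidHom.snd M M)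
  have h := blkProd_mem Bs hB l H (fun κ => (T κ, T' κ)) fun κ h1 h2 => by
    change T κ = T' κ
    exact hT κ h1 h2
  have h1 : (blkProd Bs (fun κ => (T κ, T' κ)) l).1 = blkProd Bs T l :=
    bm_blkProd_map (AddMonoidHom.fst M M) Bs (fun κ => (T κ, T' κ)) l
  have h2 : (blkProd Bs (fun κ => (T κ, T' κ)) l).2 = blkProd Bs T' l :=
    bm_blkProd_map (AddMonoidHom.snd M M) Bs (fun κ => (T κ, T' κ)) l
  rw [← h1, ← h2]
  exact h

theorem bm_cp_single (y : Y) (m : M) (vs : List (Y → ℤ)) : ∀ (S : List Cell → List Y → M),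
    (∀ κ, ecount κ = 0 → S κ [y] = m) → cp vs S [y] = m := by
  induction vs with
  | nil => intro S h; exact h [] rfl
  | cons v vs ih =>
    intro S h
    rw [cp, bm_cup_cz, bm_cup_co, bm_cup_ce_single, add_zero, ih _ fun κ hκ => h (.z :: κ) hκ,
      ih _ fun κ hκ => h (.o :: κ) hκ, ← add_smul, sub_add_cancel, one_smul]

/-- the augmentation: all zero-dimensional cubes together have weight one -/
theorem blkProd_singleton (Bs : List (Blk Y)) (hB : ∀ B ∈ Bs, B.Good) (y : Y) (m : M)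
    (T : List Cell → M) (hT : ∀ κ, ecount κ = 0 → T κ = m) :
    blkProd Bs T [y] = m := by
  induction Bs generalizing T with
  | nil => exact hT [] rfl
  | cons B Bs ih =>
    have hG := hB B List.mem_cons_self
    have h1 : B.h [y] = 0 := by
      by_contra h
      have := (hG _ h).2
      rw [List.length_singleton] at this
      omega
    have h2 : B.h [] = 0 := by
      by_contra h
      have := (hG _ h).2
      rw [List.length_nil] at this
      omega
    rw [blkProd, bp, cup_cons B.h, cup_cons (dl B.h), cup_nil, cup_nil, dl_singleton, h1, h2,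
      zero_smul, zero_smul, add_zero, sub_zero, sub_zero]
    refine bm_cp_single y m _ _ fun κ hκ => ih (fun B' hB' => hB B' (List.mem_cons_of_mem _ hB'))
      _ fun κ' hκ' => hT _ ?_
    rw [bm_ecount_append, hκ, hκ']

end Vale.Agent.P093.Hom
end

section

/-!
TASK HOM-A3: triangulated cubes.

Proof. Both by induction on `κ` (generalizing `F`): `ct` is additive in `F`, `dl_comp`, and
`pr_dl : pr a b (dl F) l = F (l.map b) - F (l.map a) - dl (pr a b F) l`. For `ct_mem` note that
`pr a b F l` is a signed sum of values `F L`, where `L` has length `l.length + 1` and all entries of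
`L` are `a y` or `b y` with `y ∈ l`.
-/

namespace Vale.Agent.P093.Hom

variable {M : Type*} [AddCommGroup M]

theorem ct_sub (κ : List Cell) (F G : List (List Bool) → M) :
    ct κ (fun l => F l - G l) = ct κ F - ct κ G := by
  induction κ generalizing F G with
  | nil => rfl
  | cons c κ ih =>
    cases c with
    | z => exact ih (fun l => F (l.map (false :: ·))) (fun l => G (l.map (false :: ·)))
    | o => exact ih (fun l => F (l.map (true :: ·))) (fun l => G (l.map (true :: ·)))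
    | e =>
      change ct κ (pr (false :: ·) (true :: ·) (fun l => F l - G l)) = _
      have h : (pr (false :: ·) (true :: ·) (fun l => F l - G l)) =
          fun l : List (List Bool) => pr (false :: ·) (true :: ·) F l -
            pr (false :: ·) (true :: ·) G l := by
        funext l
        exact pr_sub _ _ F G l
      rw [h, ih]
      rfl

theorem ct_dl (F : List (List Bool) → M) (hF : F [] = 0) (κ : List Cell) :
    ct κ (dl F) = cb (fun κ' => ct κ' F) κ := by
  induction κ generalizing F with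
  | nil => simpa [ct, cb, dl_cons] using hF
  | cons c κ ih =>
    cases c with
    | z =>
      change ct κ (fun l => dl F (l.map (false :: ·))) = _
      have h : (fun l : List (List Bool) => dl F (l.map (false :: ·))) =
          dl (fun l => F (l.map (false :: ·))) := by
        funext l
        exact (dl_comp (false :: ·) F l).symm
      rw [h, ih (fun l => F (l.map (false :: ·))) (by simpa using hF)]
      rfl
    | o =>
      change ct κ (fun l => dl F (l.map (true :: ·))) = _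
      have h : (fun l : List (List Bool) => dl F (l.map (true :: ·))) =
          dl (fun l => F (l.map (true :: ·))) := by
        funext l
        exact (dl_comp (true :: ·) F l).symm
      rw [h, ih (fun l => F (l.map (true :: ·))) (by simpa using hF)]
      rfl
    | e =>
      change ct κ (pr (false :: ·) (true :: ·) (dl F)) = _
      have h : (pr (false :: ·) (true :: ·) (dl F)) =
          fun l : List (List Bool) => (F (l.map (true :: ·)) - F (l.map (false :: ·))) -
            dl (pr (false :: ·) (true :: ·) F) l := by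
        funext l
        exact pr_dl _ _ F l
      rw [h, ct_sub, ct_sub, ih (pr (false :: ·) (true :: ·) F) rfl]
      rfl

theorem pr_mem {Y Z : Type*} (H : AddSubgroup M) (a b : Y → Z) (F : List Z → M) (l : List Y)
    (hF : ∀ L : List Z, L.length = l.length + 1 → (∀ S ∈ L, ∃ y ∈ l, S = a y ∨ S = b y) →
      F L ∈ H) : pr a b F l ∈ H := by
  induction l generalizing F with
  | nil => exact H.zero_mem
  | cons y l ih =>
    rw [pr_cons]
    refine H.sub_mem (hF _ (by simp) ?_) (ih _ ?_)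
    · intro S hS
      simp only [List.mem_cons, List.mem_map] at hS
      rcases hS with rfl | rfl | ⟨y', hy', rfl⟩
      · exact ⟨y, by simp, Or.inl rfl⟩
      · exact ⟨y, by simp, Or.inr rfl⟩
      · exact ⟨y', by simp [hy'], Or.inr rfl⟩
    · intro L hL hL'
      refine hF _ (by simp [hL]) ?_
      intro S hS
      rcases List.mem_cons.1 hS with rfl | hS
      · exact ⟨y, by simp, Or.inl rfl⟩
      · obtain ⟨y', hy', h⟩ := hL' S hS
        exact ⟨y', by simp [hy'], h⟩

theorem ct_mem (H : AddSubgroup M) (κ : List Cell) (F : List (List Bool) → M)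
    (hF : ∀ L : List (List Bool), L.length = ecount κ + 1 → (∀ S ∈ L, VertexOf S κ) → F L ∈ H) :
    ct κ F ∈ H := by
  induction κ generalizing F with
  | nil =>
    refine hF _ rfl ?_
    intro S hS
    obtain rfl : S = [] := by simpa using hS
    exact List.Forall₂.nil
  | cons c κ ih =>
    cases c with
    | z =>
      refine ih (fun l => F (l.map (false :: ·))) ?_
      intro L hL hL'
      refine hF _ (by simpa [ecount] using hL) ?_
      intro S hS
      obtain ⟨S', hS', rfl⟩ := List.mem_map.1 hS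
      exact List.Forall₂.cons ⟨by simp, by simp⟩ (hL' S' hS')
    | o =>
      refine ih (fun l => F (l.map (true :: ·))) ?_
      intro L hL hL'
      refine hF _ (by simpa [ecount] using hL) ?_
      intro S hS
      obtain ⟨S', hS', rfl⟩ := List.mem_map.1 hS
      exact List.Forall₂.cons ⟨by simp, by simp⟩ (hL' S' hS')
    | e =>
      refine ih (pr (false :: ·) (true :: ·) F) ?_
      intro L hL hL'
      refine pr_mem H _ _ F L ?_
      intro L' hL1 hL2
      refine hF _ (by rw [hL1, hL]; rfl) ?_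
      intro S hS
      obtain ⟨S', hS', h⟩ := hL2 S hS
      rcases h with rfl | rfl
      · exact List.Forall₂.cons ⟨by simp, by simp⟩ (hL' S' hS')
      · exact List.Forall₂.cons ⟨by simp, by simp⟩ (hL' S' hS')

theorem ct_congr (κ : List Cell) (F F' : List (List Bool) → M)
    (hF : ∀ L : List (List Bool), L.length = ecount κ + 1 → (∀ S ∈ L, VertexOf S κ) →
      F L = F' L) : ct κ F = ct κ F' := by
  have h := ct_mem (⊥ : AddSubgroup M) κ (fun l => F l - F' l) (fun L hL hL' => by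
    rw [AddSubgroup.mem_bot, hF L hL hL', sub_self])
  rw [AddSubgroup.mem_bot, ct_sub] at h
  exact sub_eq_zero.1 h

/-- on a vertex -/
theorem ct_zero (κ : List Cell) (hκ : ecount κ = 0) (F : List (List Bool) → M) :
    ∃ S, VertexOf S κ ∧ ct κ F = F [S] := by
  induction κ generalizing F with
  | nil => exact ⟨[], List.Forall₂.nil, rfl⟩
  | cons c κ ih =>
    cases c with
    | z =>
      obtain ⟨S, hS, h⟩ := ih hκ (fun l => F (l.map (false :: ·)))
      exact ⟨false :: S, List.Forall₂.cons ⟨by simp, by simp⟩ hS, h⟩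
    | o =>
      obtain ⟨S, hS, h⟩ := ih hκ (fun l => F (l.map (true :: ·)))
      exact ⟨true :: S, List.Forall₂.cons ⟨by simp, by simp⟩ hS, h⟩
    | e => exact absurd hκ (Nat.succ_ne_zero _)

theorem map_ct {N : Type*} [AddCommGroup N] (D : M →+ N) (κ : List Cell)
    (F : List (List Bool) → M) : D (ct κ F) = ct κ fun l => D (F l) := by
  induction κ generalizing F with
  | nil => rfl
  | cons c κ ih =>
    cases c with
    | z => exact ih (fun l => F (l.map (false :: ·)))
    | o => exact ih (fun l => F (l.map (true :: ·)))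
    | e =>
      change D (ct κ (pr (false :: ·) (true :: ·) F)) = ct κ (pr (false :: ·) (true :: ·)
        (fun l => D (F l)))
      rw [ih]
      congr 1
      funext l
      exact map_pr D _ _ F l

end Vale.Agent.P093.Hom
end

section

/-!
TASK HOM-D3: the transfer.

Proof of `transfer`. Let `G = cup η Φ`; since `η` lives in degree `2p`,
`G L = η (L.take (2p+1)) • Φ (L.drop (2p))`. Let `Ψ₀ l = iint (allc p) G (l.map (·, 0))`; `G` is
invariant under `act σ` (`cup_comp`), so by `iint_dvd` `Ψ₀ l = p ! • Ψ l` for some `Ψ l`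
(take `Ψ [] = 0`).
* `bd (Ψ₀ l) = iint (bd ∘ G) = iint (cup η (bd ∘ Φ))` (`map_iint`, `map_cup`). On `SY SX` one has
  `cup η (bd ∘ Φ) = cup η (dl Φ) = dl G` (Leibniz, `sg η = η` because `2p` is even, `dl η = 0` on
  `SY SX`, `η [] = 0`; `cup_congr`); `SY SX` is hereditary. `iint` of two functions that agree on
  `SY SX` agree at `l.map (·, 0)`, `l ∈ SX` (`iint_mem` with `H = ⊥` for the difference; the lists `L`
  there are in `SY SX` because `SX` is `Full`; `(l.map (·,0))` is `GridSmall`). Then `iint_dl` with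
  `(allc p).length = 2 p` and `dl_comp` give `bd (Ψ₀ l) = dl Ψ₀ l`; divide by `p !`
  (`OChain V` is torsion free).
* `aug (Ψ₀ [x]) = iint (aug ∘ G) [(x,0)]`, all lists `L` occurring have length `2p+1`, where
  `aug (G L) = η L * aug (Φ [last]) = η L = cpow tc p L + dl ζ L`;
  `iint (cpow tc p) [(x,0)] = p !` (`iint_tc`), `iint (dl ζ) [(x,0)] = ± dl (iint ζ) [(x,0)] =
  ± iint ζ [] = 0`.
* support: if every `G L` had coefficient zero at `s`, so would `Ψ₀ l` (`iint_mem` with
  `H = {c | c s = 0}`), hence `Ψ l`.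
-/

namespace Vale.Agent.P093.Hom

/-- boundary of ordered chains -/
noncomputable def bd {V : Type*} : OChain V →+ OChain V :=
  Finsupp.liftAddHom fun s => zmultiplesHom _ (simplexBoundary s)

/-- augmentation: sum of the coefficients -/
noncomputable def aug {V : Type*} : OChain V →+ ℤ := Finsupp.liftAddHom fun _ => AddMonoidHom.id ℤ

variable {X V : Type*} {p ℓ : ℕ}

theorem bd_single {V : Type*} (s : List V) : bd (Finsupp.single s 1) = simplexBoundary s := by
  simp [bd]

theorem bd_eq_extend {V : Type*} (c : OChain V) : bd c = extend simplexBoundary c := by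
  rw [bd, Finsupp.liftAddHom_apply, extend]
  rfl

theorem aug_eq_sum {V : Type*} (c : OChain V) : aug c = c.sum fun _ n => n := by
  rw [aug, Finsupp.liftAddHom_apply]
  rfl

private theorem tr_dl_eq_sum {X : Type*} {M : Type*} [AddCommGroup M] (F : List X → M)
    (l : List X) : dl F l = ∑ i ∈ Finset.range l.length, (-1 : ℤ) ^ i • F (l.eraseIdx i) := by
  induction l generalizing F with
  | nil => simp
  | cons y l ih =>
    rw [dl_cons, ih, List.length_cons, Finset.sum_range_succ', List.eraseIdx_cons_zero, pow_zero,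
      one_smul, add_comm, sub_eq_add_neg, ← Finset.sum_neg_distrib]
    congr 1
    refine Finset.sum_congr rfl fun i _ => ?_
    rw [List.eraseIdx_cons_succ, pow_succ, mul_neg_one, neg_smul]

/-- `dl` computes the value on the boundary -/
theorem extend_boundary {X : Type*} {M : Type*} [AddCommGroup M] (F : List X → M) (hF : F [] = 0)
    (l : List X) : extend F (simplexBoundary l) = dl F l := by
  have hE : ∀ c : OChain X, extend F c =
      (Finsupp.liftAddHom fun s => zmultiplesHom M (F s) : OChain X →+ M) c := by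
    intro c
    rw [Finsupp.liftAddHom_apply, extend]
    rfl
  rw [hE, simplexBoundary]
  split_ifs with h
  · rw [map_zero]
    match l, h with
    | [], _ => rfl
    | [y], _ => rw [dl_singleton, hF]
    | y :: z :: l, h => simp at h
  · rw [map_sum, tr_dl_eq_sum]
    refine Finset.sum_congr rfl fun i _ => ?_
    rw [map_zsmul, Finsupp.liftAddHom_apply_single]
    simp

/-! ### Auxiliary facts -/

section Aux

variable {Y : Type*} {M : Type*} [AddCommGroup M]

private theorem tr_cup_zero (f : List Y → ℤ) (G : List Y → M) (hf : ∀ l, l ≠ [] → f l = 0)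
    (l : List Y) : cup f G l = 0 := by
  induction l generalizing f with
  | nil => rfl
  | cons y l ih =>
    rw [cup_cons, hf [y] (by simp), zero_smul, zero_add]
    exact ih _ fun l' _ => hf _ (by simp)

/-- cup product with a cochain of degree `n` -/
private theorem tr_cup_split (n : ℕ) (f : List Y → ℤ) (G : List Y → M)
    (hf : ∀ l, f l ≠ 0 → l.length = n + 1) (l : List Y) :
    cup f G l = f (l.take (n + 1)) • G (l.drop n) := by
  induction n generalizing f l with
  | zero =>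
    cases l with
    | nil =>
      have h : f [] = 0 := by
        by_contra h
        simpa using hf _ h
      simp [h]
    | cons y l =>
      rw [cup_cons, tr_cup_zero]
      · simp
      · intro l' hl'
        by_contra h
        have h1 := hf _ h
        rw [List.length_cons] at h1
        exact hl' (List.length_eq_zero_iff.1 (by omega))
  | succ n ih =>
    cases l with
    | nil =>
      have h : f [] = 0 := by
        by_contra h
        simpa using hf _ h
      simp [h]
    | cons y l =>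
      have h : f [y] = 0 := by
        by_contra h
        have h1 := hf _ h
        rw [List.length_singleton] at h1
        omega
      rw [cup_cons, h, zero_smul, zero_add, ih (fun l' => f (y :: l'))]
      · rfl
      · intro l' hl'
        have h1 := hf _ hl'
        rw [List.length_cons] at h1
        omega

end Aux

private theorem tr_hered {SX : Set (List X)} (hSX : Full SX) :
    Hered (SY (p := p) (ℓ := ℓ) SX) := by
  rintro l ⟨hl, g, hg⟩ l' hl'
  refine ⟨hSX _ hl _ fun x hx => ?_, g, fun y hy => hg y (hl'.subset hy)⟩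
  exact (hl'.map Prod.fst).subset hx

private theorem tr_small (l : List X) :
    GridSmall (l.map fun x => ((x, 0) : YY X p ℓ)) := by
  refine ⟨0, fun y hy c => Or.inl ?_⟩
  obtain ⟨x, _, rfl⟩ := List.mem_map.1 hy
  rfl

private theorem tr_length_allc (p : ℕ) : (allc p).length = 2 * p := by
  rw [allc, List.length_flatMap]
  simp [mul_comm]

/-- two functions which agree on `SY SX` have the same iterated integrals -/
private theorem tr_iint_congr [NeZero ℓ] {M : Type*} [AddCommGroup M] {SX : Set (List X)}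
    (hSX : Full SX) (F G : List (YY X p ℓ) → M) {l : List X} (hl : l ∈ SX)
    (h : ∀ L ∈ SY (p := p) (ℓ := ℓ) SX, L.length = l.length + 2 * p → (∀ y ∈ L, y.1 ∈ l) →
      F L = G L) :
    iint (allc p) F (l.map fun x => (x, 0)) = iint (allc p) G (l.map fun x => (x, 0)) := by
  have h1 : iint (allc p) (fun L => F L - G L) (l.map fun x => (x, 0)) ∈ (⊥ : AddSubgroup M) := by
    refine iint_mem _ _ _ (tr_small l) ⊥ fun L hL1 hL2 hL3 => ?_
    have h2 : ∀ y ∈ L, y.1 ∈ l := by
      intro y hy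
      obtain ⟨y', hy', e⟩ := hL2 y hy
      obtain ⟨x, hx, rfl⟩ := List.mem_map.1 hy'
      rw [e]
      exact hx
    have h3 : L ∈ SY (p := p) (ℓ := ℓ) SX := by
      refine ⟨hSX l hl _ fun x hx => ?_, hL3⟩
      obtain ⟨y, hy, rfl⟩ := List.mem_map.1 hx
      exact h2 y hy
    rw [AddSubgroup.mem_bot, h L h3 ?_ h2, sub_self]
    rw [hL1, List.length_map, tr_length_allc]
  rw [AddSubgroup.mem_bot] at h1
  have h2 := iint_add (allc p) (fun L => F L - G L) G (l.map fun x => ((x, 0) : YY X p ℓ))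
  simp only [sub_add_cancel] at h2
  rw [h2, h1, zero_add]

theorem transfer [NeZero ℓ] (hℓ : 3 ≤ ℓ) {SX : Set (List X)} (hSX : Full SX)
    (η : List (YY X p ℓ) → ℤ) (Φ : List (YY X p ℓ) → OChain V)
    (hη0 : ∀ l, η l ≠ 0 → l.length = 2 * p + 1) (hηc : ∀ l ∈ SY SX, dl η l = 0)
    (hηt : ∃ ζ : List (YY X p ℓ) → ℤ, ζ [] = 0 ∧
      ∀ l ∈ SY SX, l.length = 2 * p + 1 → η l = cpow tc p l + dl ζ l)
    (hηs : ∀ (σ : Equiv.Perm (Fin p)) l, η (l.map (act σ)) = η l)
    (hΦ0 : Φ [] = 0) (hΦc : ∀ l ∈ SY SX, bd (Φ l) = dl Φ l) (hΦ1 : ∀ y, aug (Φ [y]) = 1)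
    (hΦs : ∀ (σ : Equiv.Perm (Fin p)) l, Φ (l.map (act σ)) = Φ l) :
    ∃ Ψ : List X → OChain V, Ψ [] = 0 ∧ (∀ l ∈ SX, bd (Ψ l) = dl Ψ l) ∧
      (∀ x, [x] ∈ SX → aug (Ψ [x]) = 1) ∧
      ∀ l ∈ SX, ∀ s ∈ (Ψ l).support, ∃ L ∈ SY (p := p) (ℓ := ℓ) SX, (∀ y ∈ L, y.1 ∈ l) ∧
        L.length = l.length + 2 * p ∧ η (L.take (2 * p + 1)) ≠ 0 ∧
        s ∈ (Φ (L.drop (2 * p))).support := by
  set G : List (YY X p ℓ) → OChain V := cup η Φ with hG
  have hGsplit : ∀ L, G L = η (L.take (2 * p + 1)) • Φ (L.drop (2 * p)) := fun L =>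
    tr_cup_split (2 * p) η Φ hη0 L
  have hGs : ∀ (σ : Equiv.Perm (Fin p)) l, G (l.map (act σ)) = G l := by
    intro σ l
    rw [hG, ← cup_comp (act σ) η Φ l]
    simp only [hηs, hΦs]
  have hdvd : ∀ l : List X, ∃ m : OChain V,
      iint (allc p) G (l.map fun x => (x, 0)) = (p.factorial : ℤ) • m := by
    intro l
    refine iint_dvd hℓ G hGs _ fun y hy => ?_
    obtain ⟨x, _, rfl⟩ := List.mem_map.1 hy
    rfl
  choose Ψ hΨ using hdvd
  have hfac : ((p.factorial : ℕ) : ℤ) ≠ 0 := Int.natCast_ne_zero.2 (Nat.factorial_ne_zero p)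
  have hcancel : ∀ a b : OChain V, (p.factorial : ℤ) • a = (p.factorial : ℤ) • b → a = b := by
    intro a b h
    ext s
    have h1 := DFunLike.congr_fun h s
    rw [Finsupp.smul_apply, Finsupp.smul_apply, smul_eq_mul, smul_eq_mul] at h1
    exact mul_left_cancel₀ hfac h1
  have hη00 : η [] = 0 := by
    by_contra h
    simpa using hη0 _ h
  have hsg : sg η = η := by
    funext l
    by_cases h : η l = 0
    · rw [sg, h, smul_zero]
    · rw [sg, hη0 l h]
      have h2 : (-1 : ℤ) ^ (2 * p + 1 + 1) = 1 := by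
        rw [show 2 * p + 1 + 1 = 2 * (p + 1) by ring, pow_mul]
        simp
      rw [h2, one_smul]
  have hpow : (-1 : ℤ) ^ (allc p).length = 1 := by
    rw [tr_length_allc, pow_mul]
    simp
  -- the boundary on small tuples
  have hbd : ∀ L ∈ SY (p := p) (ℓ := ℓ) SX, bd (G L) = dl G L := by
    intro L hL
    have h1 : bd (G L) = cup η (dl Φ) L := by
      rw [hG, map_cup]
      exact cup_congr (tr_hered hSX) (fun _ _ => rfl) hΦc hL
    have h2 : cup (dl η) Φ L = 0 := by
      rw [cup_congr (tr_hered hSX) (g := fun _ => 0) (G := Φ) hηc (fun _ _ => rfl) hL,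
        cup_zero_left]
    rw [h1, hG, dl_cup' η Φ hη00 hΦ0, h2, zero_add, hsg]
  refine ⟨Ψ, ?_, ?_, ?_, ?_⟩
  · refine hcancel _ _ ?_
    rw [← hΨ, List.map_nil, smul_zero]
    exact iint_nil' _ _ rfl
  · intro l hl
    refine hcancel _ _ ?_
    rw [← map_zsmul, ← hΨ, map_iint, ← dl_zsmul]
    simp only [← hΨ]
    rw [tr_iint_congr hSX (fun L => bd (G L)) (dl G) hl fun L hL _ _ => hbd L hL, iint_dl, hpow,
      one_smul, dl_comp (fun x => ((x, 0) : YY X p ℓ)) (iint (allc p) G)]
  · intro x hx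
    obtain ⟨ζ, hζ0, hζ⟩ := hηt
    refine mul_left_cancel₀ hfac ?_
    rw [← smul_eq_mul, ← map_zsmul, ← hΨ, map_iint, mul_one]
    rw [tr_iint_congr hSX (fun L => aug (G L)) (fun L => cpow tc p L + dl ζ L) hx ?_, iint_add,
      iint_dl, hpow, one_smul]
    · change iint (allc p) (cpow tc p) [(x, 0)] + dl (iint (allc p) ζ) [(x, 0)] = _
      rw [iint_tc hℓ, dl_singleton, iint_nil' _ _ hζ0, add_zero]
    · intro L hL hlen _
      rw [List.length_singleton] at hlen
      have hlen' : L.length = 2 * p + 1 := by omega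
      have h1 : L.take (2 * p + 1) = L := List.take_of_length_le (by omega)
      obtain ⟨y, hy⟩ : ∃ y, L.drop (2 * p) = [y] := by
        rw [← List.length_eq_one_iff, List.length_drop]
        omega
      change aug (G L) = _
      rw [hGsplit, map_zsmul, h1, hy, hΦ1, smul_eq_mul, mul_one, hζ L hL hlen']
  · intro l hl s hs
    by_contra hcon
    push Not at hcon
    have h1 : iint (allc p) G (l.map fun x => (x, 0)) ∈
        (Finsupp.applyAddHom s : OChain V →+ ℤ).ker := by
      refine iint_mem _ _ _ (tr_small l) _ fun L hL1 hL2 hL3 => ?_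
      have h2 : ∀ y ∈ L, y.1 ∈ l := by
        intro y hy
        obtain ⟨y', hy', e⟩ := hL2 y hy
        obtain ⟨x, hx, rfl⟩ := List.mem_map.1 hy'
        rw [e]
        exact hx
      have h3 : L ∈ SY (p := p) (ℓ := ℓ) SX := by
        refine ⟨hSX l hl _ fun x hx => ?_, hL3⟩
        obtain ⟨y, hy, rfl⟩ := List.mem_map.1 hx
        exact h2 y hy
      have h4 : L.length = l.length + 2 * p := by
        rw [hL1, List.length_map, tr_length_allc]
      rw [AddMonoidHom.mem_ker, hGsplit, map_zsmul, smul_eq_mul, Finsupp.applyAddHom_apply]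
      by_cases h5 : η (L.take (2 * p + 1)) = 0
      · rw [h5, zero_mul]
      · have h6 := hcon L h3 h2 h4 h5
        rw [Finsupp.notMem_support_iff.1 h6, mul_zero]
    rw [AddMonoidHom.mem_ker, hΨ, map_zsmul, smul_eq_mul, Finsupp.applyAddHom_apply] at h1
    exact (Finsupp.mem_support_iff.1 hs) ((mul_eq_zero.1 h1).resolve_left hfac)

end Vale.Agent.P093.Hom
end

section

/-!
The blocks of the static theorem.
-/

namespace Vale.Agent.P093.Hom

variable {Y C : Type*} {m : ℕ}

/-- all coordinates: first those of the groups, then the single ones -/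
def coords (κ : ℕ) (crd : Fin m → ℕ → C) (ss : List C) : List C :=
  (List.finRange m).flatMap (fun γ => (List.range (2 * κ + 1)).map (crd γ)) ++ ss

/-- the blocks -/
noncomputable def blks (κ : ℕ) (χ : C → Y → ℝ) (crd : Fin m → ℕ → C) (ss : List C)
    (h : Fin m → List Y → ℤ) : List (Blk Y) :=
  (List.finRange m).map (fun γ => ⟨gvs (fun k y => χ (crd γ k) y - 1 / 2) κ, h γ⟩) ++
    ss.map fun c => ⟨[Hv fun y => χ c y - 1 / 2], fun _ => 0⟩

/-- the set of coordinates which are on at the vertex `S` -/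
def onS (cs : List C) (S : List Bool) : Set C := {c | (c, true) ∈ cs.zip S}

end Vale.Agent.P093.Hom
end

section

/-!
TASK HOM-G2b: triangulated cubes with labelled vertices (`w S` is the label of the vertex `S`).
-/

namespace Vale.Agent.P093.Hom

variable {V : Type*}

/-- the labelled simplex -/
noncomputable def lsx (w : List Bool → V) (L : List (List Bool)) : OChain V :=
  if L = [] then 0 else Finsupp.single (L.map w) 1

theorem lsx_ne (w : List Bool → V) {L : List (List Bool)} (hL : L ≠ []) :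
    lsx w L = Finsupp.single (L.map w) 1 := if_neg hL

theorem simplexBoundary_nil (s : List V) : simplexBoundary s [] = 0 := by
  unfold simplexBoundary
  split_ifs with h
  · rfl
  · rw [Finsupp.finsetSum_apply]
    refine Finset.sum_eq_zero fun i _ => ?_
    have h1 : s.eraseIdx i ≠ [] := by
      intro h2
      have h4 := congrArg List.length h2
      rw [List.length_eraseIdx] at h4
      simp only [List.length_nil] at h4
      split_ifs at h4 <;> omega
    rw [Finsupp.smul_apply, Finsupp.single_eq_of_ne' h1, smul_zero]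

theorem bd_lsx (w : List Bool → V) (L : List (List Bool)) : bd (lsx w L) = dl (lsx w) L := by
  let G : List V → OChain V := fun s => if s = [] then 0 else Finsupp.single s 1
  have h1 : ∀ L : List (List Bool), lsx w L = G (L.map w) := by
    intro L
    simp only [G, lsx, List.map_eq_nil_iff]
  have h2 : dl (lsx w) L = dl G (L.map w) := by
    rw [← dl_comp w G L]
    congr 1
    funext L
    exact h1 L
  rw [h2, ← extend_boundary G (if_pos rfl)]
  by_cases hL : L = []
  · subst hL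
    have h3 : simplexBoundary ([] : List V) = 0 := by
      unfold simplexBoundary
      exact if_pos (Nat.zero_le 1)
    rw [List.map_nil, h3, lsx, if_pos rfl, map_zero]
    simp [extend]
  · rw [lsx_ne w hL, bd_single]
    rw [extend]
    conv_lhs => rw [← Finsupp.sum_single (simplexBoundary (L.map w))]
    refine Finsupp.sum_congr fun s hs => ?_
    have h3 : s ≠ [] := by
      rintro rfl
      exact (Finsupp.mem_support_iff.mp hs) (simplexBoundary_nil _)
    simp only [G]
    rw [if_neg h3, Finsupp.smul_single, smul_eq_mul, mul_one]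

theorem TW_bd' (w : List Bool → V) (κ : List Cell) :
    bd (ct κ fun L => if L = [] then 0 else Finsupp.single (L.map w) 1) =
      cb (fun κ' => ct κ' fun L => if L = [] then 0 else Finsupp.single (L.map w) 1) κ := by
  rw [map_ct, ← ct_dl (fun L => if L = [] then 0 else Finsupp.single (L.map w) 1) (if_pos rfl)]
  congr 1
  funext L
  exact bd_lsx w L

theorem TW_aug' (w : List Bool → V) (κ : List Cell) (hκ : ecount κ = 0) :
    aug (ct κ fun L => if L = [] then 0 else Finsupp.single (L.map w) 1) = 1 := by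
  obtain ⟨S, -, hS⟩ := ct_zero κ hκ
    (fun L => if L = [] then (0 : OChain V) else Finsupp.single (L.map w) 1)
  rw [hS, if_neg (List.cons_ne_nil _ _)]
  simp [aug]

theorem TW_support' (w : List Bool → V) (κ : List Cell) (s : List V)
    (hs : s ∈ (ct κ fun L => if L = [] then (0 : OChain V) else
      Finsupp.single (L.map w) 1).support) :
    s.length = ecount κ + 1 ∧ ∀ v ∈ s, ∃ S, VertexOf S κ ∧ v = w S := by
  by_contra hcon
  have h1 : (ct κ fun L => if L = [] then (0 : OChain V) else Finsupp.single (L.map w) 1) ∈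
      (Finsupp.applyAddHom s : OChain V →+ ℤ).ker := by
    refine ct_mem _ κ _ fun L hL hL' => ?_
    have hne : L ≠ [] := by
      rintro rfl
      simp at hL
    rw [AddMonoidHom.mem_ker, Finsupp.applyAddHom_apply, if_neg hne]
    refine Finsupp.single_eq_of_ne' fun h => hcon ?_
    rw [← h]
    refine ⟨by rw [List.length_map, hL], fun v hv => ?_⟩
    obtain ⟨S, hS, rfl⟩ := List.mem_map.1 hv
    exact ⟨S, hL' S hS, rfl⟩
  rw [AddMonoidHom.mem_ker, Finsupp.applyAddHom_apply] at h1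
  exact (Finsupp.mem_support_iff.1 hs) h1

theorem TW_congr' (w w' : List Bool → V) (κ : List Cell)
    (h : ∀ S, VertexOf S κ → w S = w' S) :
    (ct κ fun L => if L = [] then (0 : OChain V) else Finsupp.single (L.map w) 1) =
      ct κ fun L => if L = [] then (0 : OChain V) else Finsupp.single (L.map w') 1 := by
  refine ct_congr κ _ _ fun L _ hL' => ?_
  have h1 : L.map w = L.map w' := List.map_congr_left fun S hS => h S (hL' S hS)
  rw [h1]

end Vale.Agent.P093.Hom
end

section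

/-!
TASK HOM-G2: the chain map on the product of `X` with the parameter grid.

Proof of `exists_Phi`. `Φ [] = 0`, `Φ (y :: l) = blkProd Bs (T y.1) (y :: l)`.
* `bd (Φ l) = dl Φ l` for `l = y₀ :: l' ∈ SY SX`: `bd (Φ l) = blkProd Bs (bd ∘ T y₀.1) l`
  (`map_blkProd`) `= blkProd Bs (cb (T y₀.1)) l = dl (blkProd Bs (T y₀.1)) l` (`dl_blkProd`). In `dl` the
  value at each sublist `l''` of `l` (nonempty) is `blkProd Bs (T y₀.1) l'' = blkProd Bs (T y'.1) l'' =
  Φ l''` where `y'` is the head of `l''`: by `blkProd_congr`, since `AllowedL Bs l'' κ` implies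
  `AllowedL Bs l κ` (monotone in `l`), and `hloc`. (`dl_congr` with the hereditary set of sublists of
  `l`; both functions vanish at `[]`, `blkProd_nil'`.)
* `aug (Φ [y]) = blkProd Bs (aug ∘ T y.1) [y] = 1` (`blkProd_singleton`).
* invariance: `blkProd Bs T (l.map σ) = blkProd Bs T l` if `v ∘ σ = v` for the coordinates and `h` is
  invariant: induction over the blocks (`cup_comp`, `dl_comp`); `(act σ y).1 = y.1`.
* support: `blkProd_mem` with `H = {c | c s = 0}`.

Proof of `TW` statements: `F L = if L = [] then 0 else single (L.map w) 1`, then `bd (F L) = dl F L`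
for all `L` (`bd_single`; alternating sum over `eraseIdx`; compare with `extend_boundary`), and
`map_ct`, `ct_dl`; `ct_zero`; `ct_mem` with `H = {c | c s = 0}`; `ct_congr`.
-/

namespace Vale.Agent.P093.Hom

variable {X V C : Type*} {p ℓ : ℕ}

section Comp

variable {Y M : Type*} [AddCommGroup M]

private theorem phi_cz_comp {a : Y → Y} {v : Y → ℤ} (hv : ∀ y, v (a y) = v y) (l : List Y) :
    cz v (l.map a) = cz v l := by
  match l with
  | [] => rfl
  | [y] => simp [cz, hv]
  | _ :: _ :: _ => rfl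

private theorem phi_co_comp {a : Y → Y} {v : Y → ℤ} (hv : ∀ y, v (a y) = v y) (l : List Y) :
    co v (l.map a) = co v l := by
  match l with
  | [] => rfl
  | [y] => simp [co, hv]
  | _ :: _ :: _ => rfl

private theorem phi_ce_comp {a : Y → Y} {v : Y → ℤ} (hv : ∀ y, v (a y) = v y) (l : List Y) :
    ce v (l.map a) = ce v l := by
  match l with
  | [] => rfl
  | [y] => rfl
  | [y, y'] => simp [ce, hv]
  | _ :: _ :: _ :: _ => rfl

private theorem phi_cup_comp (a : Y → Y) {f : List Y → ℤ} {G : List Y → M}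
    (hf : ∀ l, f (l.map a) = f l) (hG : ∀ l, G (l.map a) = G l) (l : List Y) :
    cup f G (l.map a) = cup f G l := by
  rw [← cup_comp a f G l]
  simp only [hf, hG]

private theorem phi_cp_comp (a : Y → Y) (vs : List (Y → ℤ)) (hv : ∀ v ∈ vs, ∀ y, v (a y) = v y) :
    ∀ (S : List Cell → List Y → M), (∀ κ l, S κ (l.map a) = S κ l) → ∀ l,
      cp vs S (l.map a) = cp vs S l := by
  induction vs with
  | nil => intro S hS l; exact hS [] l
  | cons v vs ih =>
    intro S hS l
    have hv' := hv v List.mem_cons_self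
    have ih' := ih fun v' h' => hv v' (List.mem_cons_of_mem _ h')
    rw [cp, cp, phi_cup_comp a (phi_cz_comp hv') (ih' _ fun κ => hS _),
      phi_cup_comp a (phi_co_comp hv') (ih' _ fun κ => hS _),
      phi_cup_comp a (phi_ce_comp hv') (ih' _ fun κ => hS _)]

private theorem phi_blkProd_comp (a : Y → Y) (Bs : List (Blk Y))
    (hv : ∀ B ∈ Bs, (∀ v ∈ B.vs, ∀ y, v (a y) = v y) ∧ ∀ l, B.h (l.map a) = B.h l) :
    ∀ (T : List Cell → M) (l : List Y), blkProd Bs T (l.map a) = blkProd Bs T l := by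
  induction Bs with
  | nil =>
    intro T l
    match l with
    | [] => rfl
    | [y] => rfl
    | _ :: _ :: _ => rfl
  | cons B Bs ih =>
    intro T l
    obtain ⟨h1, h2⟩ := hv B List.mem_cons_self
    have ih' := ih fun B' h' => hv B' (List.mem_cons_of_mem _ h')
    have h3 : ∀ l, dl B.h (l.map a) = dl B.h l := by
      intro l
      rw [← dl_comp a B.h l]
      simp only [h2]
    rw [blkProd, bp, bp, phi_cp_comp a B.vs h1 _ fun κ l => ih' _ l,
      phi_cup_comp a h2 (fun l => by simp only [ih']), phi_cup_comp a h3 (fun l => ih' _ l)]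

end Comp

/-- the chain map -/
private noncomputable def phiF (Bs : List (Blk (YY X p ℓ))) (T : X → List Cell → OChain V) :
    List (YY X p ℓ) → OChain V
  | [] => 0
  | y :: l => blkProd Bs (T y.1) (y :: l)

theorem exists_Phi (Bs : List (Blk (YY X p ℓ))) (hB : ∀ B ∈ Bs, B.Good)
    (T : X → List Cell → OChain V) (hT : ∀ x κ, bd (T x κ) = cb (T x) κ)
    (hT1 : ∀ x κ, ecount κ = 0 → aug (T x κ) = 1) {SX : Set (List X)} (hSX : Full SX)
    (hloc : ∀ l ∈ SY SX, ∀ y ∈ l, ∀ y' ∈ l, ∀ κ, AllowedL Bs l κ → T y.1 κ = T y'.1 κ)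
    (hinv : ∀ (σ : Equiv.Perm (Fin p)), ∀ B ∈ Bs, (∀ v ∈ B.vs, ∀ y, v (act σ y) = v y) ∧
      ∀ l, B.h (l.map (act σ)) = B.h l) :
    ∃ Φ : List (YY X p ℓ) → OChain V, Φ [] = 0 ∧ (∀ l ∈ SY SX, bd (Φ l) = dl Φ l) ∧
      (∀ y, aug (Φ [y]) = 1) ∧
      (∀ (σ : Equiv.Perm (Fin p)) l, Φ (l.map (act σ)) = Φ l) ∧
      ∀ l ∈ SY SX, ∀ s ∈ (Φ l).support, ∃ y ∈ l, ∃ κ, AllowedL Bs l κ ∧ ecount κ + 1 = l.length ∧
          s ∈ (T y.1 κ).support := by
  refine ⟨phiF Bs T, rfl, fun l hl => ?_, fun y => ?_, fun σ l => ?_, fun l hl s hs => ?_⟩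
  · cases l with
    | nil => exact map_zero _
    | cons y₀ l =>
      change bd (blkProd Bs (T y₀.1) (y₀ :: l)) = _
      rw [map_blkProd]
      simp only [hT]
      change blkProd Bs (cb (T y₀.1)) (y₀ :: l) = _
      rw [← dl_blkProd Bs hB]
      refine dl_congr (S := {l' | l'.Sublist (y₀ :: l)}) (fun l₁ h₁ l₂ h₂ => h₂.trans h₁)
        (fun l₁ h₁ => ?_) (List.Sublist.refl _)
      cases l₁ with
      | nil => exact blkProd_nil' _ _
      | cons y₁ l₁ =>
        change _ = blkProd Bs (T y₁.1) (y₁ :: l₁)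
        refine blkProd_congr Bs hB _ _ _ fun κ h₂ _ => ?_
        exact hloc _ hl y₀ List.mem_cons_self y₁ (h₁.subset List.mem_cons_self) κ
          (bm_allowedL_mono h₁ Bs κ h₂)
  · change aug (blkProd Bs (T y.1) [y]) = 1
    rw [map_blkProd]
    exact blkProd_singleton Bs hB y 1 _ fun κ hκ => hT1 _ κ hκ
  · cases l with
    | nil => rfl
    | cons y l =>
      change blkProd Bs (T (act σ y).1) ((y :: l).map (act σ)) = blkProd Bs (T y.1) (y :: l)
      rw [phi_blkProd_comp (act σ) Bs (hinv σ)]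
      rfl
  · cases l with
    | nil => simp [phiF] at hs
    | cons y l =>
      by_contra hcon
      push Not at hcon
      have h1 : blkProd Bs (T y.1) (y :: l) ∈ (Finsupp.applyAddHom s : OChain V →+ ℤ).ker := by
        refine blkProd_mem Bs hB _ _ _ fun κ h2 h3 => ?_
        rw [AddMonoidHom.mem_ker, Finsupp.applyAddHom_apply]
        exact Finsupp.notMem_support_iff.1 (hcon y List.mem_cons_self κ h2 h3)
      rw [AddMonoidHom.mem_ker, Finsupp.applyAddHom_apply] at h1
      exact (Finsupp.mem_support_iff.1 hs) h1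

/-- the chain of the triangulated cube `κ` whose vertices are labelled by `W` -/
noncomputable def TW (cs : List C) (W : Set C → V) (κ : List Cell) : OChain V :=
  ct κ fun L => if L = [] then 0 else Finsupp.single (L.map fun S => W (onS cs S)) 1

theorem TW_bd (cs : List C) (W : Set C → V) (κ : List Cell) :
    bd (TW cs W κ) = cb (TW cs W) κ :=
  TW_bd' (fun S => W (onS cs S)) κ

theorem TW_aug (cs : List C) (W : Set C → V) (κ : List Cell) (hκ : ecount κ = 0) :
    aug (TW cs W κ) = 1 :=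
  TW_aug' (fun S => W (onS cs S)) κ hκ

theorem TW_support (cs : List C) (W : Set C → V) (κ : List Cell) (s : List V)
    (hs : s ∈ (TW cs W κ).support) :
    s.length = ecount κ + 1 ∧ ∀ v ∈ s, ∃ S, VertexOf S κ ∧ v = W (onS cs S) :=
  TW_support' (fun S => W (onS cs S)) κ s hs

theorem TW_congr (cs : List C) (W W' : Set C → V) (κ : List Cell)
    (h : ∀ S, VertexOf S κ → W (onS cs S) = W' (onS cs S)) : TW cs W κ = TW cs W' κ :=
  TW_congr' (fun S => W (onS cs S)) (fun S => W' (onS cs S)) κ h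

end Vale.Agent.P093.Hom
end

section

/-!
TASK HOM-E1: the cocycle `η` supported near the common zeros of `p` quasi-periodic functions.

Proof. `α m y = arg (A m y)/(2π)`, `E m = {y | d ≤ ‖A m y‖}`, `n m = rn (E m) (α m) thc`,
`T m = fun l => tc l - dl (n m) l`, `η = cprod [T 0, …, T (p-1)]`.
* On tuples of `S` with all vertices in `E m`: `dl (n m) = tc` (`round_cochain` with `T = tc`:
  (h1) is `arg_close` since `‖A m y₁ * ph (thc y₀ y₁) - A m y₀‖ ≤ d/100 ≤ ‖A m y₀‖/100`, (h2) is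
  `thc_coboundary` and `p/ℓ ≤ 1/16`), so `T m = 0` there.
* closed: `dl (T m) = dl tc - dl dl = 0` on `S`; Leibniz for products of even cocycles.
* degree: `T m` is nonzero only on lists of length 3.
* `cprod - cpow tc p = dl ζ` on `S`: `T_0…T_{k-1} ∪ tc^{p-k}` telescopes:
  `tc^p - T_0 ∪ … ∪ T_{p-1} = ∑_k T_0…T_{k-1} ∪ (tc - T_k) ∪ tc^{p-1-k}
  = ∑_k T_0…T_{k-1} ∪ dl n_k ∪ tc^{p-1-k} = dl (∑_k T_0…T_{k-1} ∪ n_k ∪ tc^{p-1-k})`.
* support: `cprod [T 0, …] l ≠ 0` implies for every `m` that `T m l' ≠ 0` for a sublist `l'` of `l`,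
  so some vertex of `l` is not in `E m`, i.e. `‖A m y‖ < d`.
* invariance: `act σ` preserves `thc`, `tc`, `A m`.
-/

namespace Vale.Agent.P093.Hom

variable {X : Type*} {p ℓ : ℕ}

/-- product of a list of cochains -/
def cprod {Y : Type*} : List (List Y → ℤ) → List Y → ℤ
  | [] => unit 1
  | f :: fs => cup f (cprod fs)

theorem eta_cup_ne {Y : Type*} (f G : List Y → ℤ) (l : List Y) (h : cup f G l ≠ 0) :
    ∃ l₁ y l₂, l = l₁ ++ y :: l₂ ∧ f (l₁ ++ [y]) ≠ 0 ∧ G (y :: l₂) ≠ 0 := by
  induction l generalizing f with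
  | nil => exact absurd (cup_nil f G) h
  | cons y l ih =>
    rw [cup_cons] at h
    by_cases h0 : f [y] • G (y :: l) = 0
    · rw [h0, zero_add] at h
      obtain ⟨l₁, z, l₂, rfl, h1, h2⟩ := ih _ h
      exact ⟨y :: l₁, z, l₂, rfl, h1, h2⟩
    · rw [smul_eq_mul] at h0
      obtain ⟨h1, h2⟩ := mul_ne_zero_iff.1 h0
      exact ⟨[], y, l, rfl, h1, h2⟩

theorem eta_cprod_nil {Y : Type*} (fs : List (List Y → ℤ)) : cprod fs [] = 0 := by
  cases fs with
  | nil => rfl
  | cons f fs => exact cup_nil _ _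

theorem eta_cpow_nil {Y : Type*} (t : List Y → ℤ) (k : ℕ) : cpow t k [] = 0 := by
  cases k with
  | zero => rfl
  | succ k => exact cup_nil _ _

theorem eta_unit_len {Y : Type*} (l : List Y) (h : unit (1 : ℤ) l ≠ 0) : l.length = 1 := by
  rcases l with _ | ⟨y, _ | ⟨y', l⟩⟩
  · exact absurd rfl h
  · rfl
  · exact absurd rfl h

/-- degree of a product of cochains of degree two -/
theorem eta_cprod_len {Y : Type*} (fs : List (List Y → ℤ))
    (hf : ∀ f ∈ fs, ∀ l, f l ≠ 0 → l.length = 3) (l : List Y) (h : cprod fs l ≠ 0) :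
    l.length = 2 * fs.length + 1 := by
  induction fs generalizing l with
  | nil => exact eta_unit_len l h
  | cons f fs ih =>
    obtain ⟨l₁, y, l₂, rfl, h1, h2⟩ := eta_cup_ne f (cprod fs) l h
    have e1 := hf f (List.mem_cons_self ..) _ h1
    have e2 := ih (fun g hg => hf g (List.mem_cons_of_mem _ hg)) _ h2
    rw [List.length_append, List.length_cons, List.length_nil] at e1
    rw [List.length_append, List.length_cons]
    rw [List.length_cons] at e2 ⊢
    omega

/-- support of a product of cochains -/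
theorem eta_cprod_mem {Y : Type*} (fs : List (List Y → ℤ)) (l : List Y) (h : cprod fs l ≠ 0)
    (f : List Y → ℤ) (hf : f ∈ fs) : ∃ l' : List Y, (∀ y ∈ l', y ∈ l) ∧ f l' ≠ 0 := by
  induction fs generalizing l with
  | nil => exact absurd hf List.not_mem_nil
  | cons g fs ih =>
    obtain ⟨l₁, y, l₂, rfl, h1, h2⟩ := eta_cup_ne g (cprod fs) l h
    rcases List.mem_cons.1 hf with rfl | hf
    · refine ⟨l₁ ++ [y], fun z hz => ?_, h1⟩
      rw [List.mem_append] at hz ⊢
      rcases hz with hz | hz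
      · exact Or.inl hz
      · rw [List.mem_singleton] at hz
        exact Or.inr (hz ▸ List.mem_cons_self ..)
    · obtain ⟨l', h3, h4⟩ := ih _ h2 hf
      exact ⟨l', fun z hz => List.mem_append.2 (Or.inr (h3 z hz)), h4⟩

theorem eta_dl_unit {Y : Type*} (l : List Y) : dl (unit (1 : ℤ)) l = 0 := by
  rcases l with _ | ⟨y, _ | ⟨y', l⟩⟩
  · rfl
  · rw [dl_singleton]
    rfl
  · have h : (fun l' => unit (1 : ℤ) (y :: y' :: l')) = fun _ => (0 : ℤ) := rfl
    rw [dl_cons, dl_cons, h, dl_zero]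
    rcases l with _ | ⟨z, l⟩
    · rfl
    · rfl

theorem eta_dl_cup_closed {Y : Type*} {S : Set (List Y)} (hS : Hered S) {f G : List Y → ℤ}
    (hf : f [] = 0) (hG : G [] = 0) (h1 : ∀ l ∈ S, dl f l = 0) (h2 : ∀ l ∈ S, dl G l = 0) :
    ∀ l ∈ S, dl (cup f G) l = 0 := by
  intro l hl
  rw [dl_cup' f G hf hG,
    cup_congr hS (f := dl f) (g := fun _ => 0) (F := G) (G := G) h1 (fun _ _ => rfl) hl,
    cup_congr hS (f := sg f) (g := sg f) (F := dl G) (G := fun _ => 0) (fun _ _ => rfl) h2 hl,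
    cup_zero_left, cup_zero_right, add_zero]

/-- products of closed cochains are closed -/
theorem eta_cprod_closed {Y : Type*} {S : Set (List Y)} (hS : Hered S) (fs : List (List Y → ℤ))
    (h0 : ∀ f ∈ fs, f [] = 0) (hf : ∀ f ∈ fs, ∀ l ∈ S, dl f l = 0) :
    ∀ l ∈ S, dl (cprod fs) l = 0 := by
  induction fs with
  | nil => exact fun l _ => eta_dl_unit l
  | cons f fs ih =>
    exact eta_dl_cup_closed hS (h0 f (List.mem_cons_self ..)) (eta_cprod_nil fs)
      (hf f (List.mem_cons_self ..))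
      (ih (fun g hg => h0 g (List.mem_cons_of_mem _ hg))
        (fun g hg => hf g (List.mem_cons_of_mem _ hg)))

theorem eta_cpow_closed {Y : Type*} {S : Set (List Y)} (hS : Hered S) {t : List Y → ℤ}
    (h0 : t [] = 0) (ht : ∀ l ∈ S, dl t l = 0) (k : ℕ) : ∀ l ∈ S, dl (cpow t k) l = 0 := by
  induction k with
  | zero => exact fun l _ => eta_dl_unit l
  | succ k ih => exact eta_dl_cup_closed hS h0 (eta_cpow_nil t k) ht ih

theorem eta_sg_even {Y : Type*} {f : List Y → ℤ} (hf : ∀ l, f l ≠ 0 → l.length = 3) :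
    sg f = f := by
  funext l
  unfold sg
  by_cases h : f l = 0
  · rw [h, smul_zero]
  · rw [hf l h, show (-1 : ℤ) ^ (3 + 1) = 1 by norm_num, one_smul]

/-- a product of cochains cohomologous to `t` is cohomologous to a power of `t` -/
theorem eta_cprod_cpow {Y : Type*} {S : Set (List Y)} (hS : Hered S) {t : List Y → ℤ}
    (ht0 : t [] = 0) (ht : ∀ l ∈ S, dl t l = 0) {ι : Type*} (T n : ι → List Y → ℤ)
    (hn0 : ∀ i, n i [] = 0) (hT : ∀ i l, T i l = t l - dl (n i) l)
    (hT3 : ∀ i l, T i l ≠ 0 → l.length = 3) (is : List ι) :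
    ∃ ζ : List Y → ℤ, ζ [] = 0 ∧ ∀ l ∈ S, cprod (is.map T) l = cpow t is.length l + dl ζ l := by
  have hT0 : ∀ i, T i [] = 0 := fun i => by rw [hT, ht0, dl_nil, sub_zero]
  have hTc : ∀ i, ∀ l ∈ S, dl (T i) l = 0 := fun i l hl => by
    have e : T i = fun l => t l - dl (n i) l := funext (hT i)
    rw [e, dl_sub, ht l hl, dl_dl, sub_zero]
  induction is with
  | nil => exact ⟨fun _ => 0, rfl, fun l _ => by rw [dl_zero, add_zero]; rfl⟩
  | cons i is ih =>
    obtain ⟨ζ, hζ0, hζ⟩ := ih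
    refine ⟨fun l => cup (T i) ζ l - cup (n i) (cpow t is.length) l, ?_, fun l hl => ?_⟩
    · show cup (T i) ζ [] - cup (n i) (cpow t is.length) [] = 0
      rw [cup_nil, cup_nil, sub_zero]
    · have e1 : cprod ((i :: is).map T) l =
          cup (T i) (fun l => cpow t is.length l + dl ζ l) l := by
        show cup (T i) (cprod (is.map T)) l = _
        exact cup_congr hS (fun _ _ => rfl) hζ hl
      have e2 : cup (T i) (dl ζ) l = dl (cup (T i) ζ) l := by
        rw [dl_cup' (T i) ζ (hT0 i) hζ0, eta_sg_even (hT3 i),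
          cup_congr hS (f := dl (T i)) (g := fun _ => 0) (F := ζ) (G := ζ) (hTc i)
            (fun _ _ => rfl) hl, cup_zero_left, zero_add]
      have e3 : dl (cup (n i) (cpow t is.length)) l = cup (dl (n i)) (cpow t is.length) l := by
        rw [dl_cup' (n i) _ (hn0 i) (eta_cpow_nil t _),
          cup_congr hS (f := sg (n i)) (g := sg (n i)) (F := dl (cpow t is.length))
            (G := fun _ => 0) (fun _ _ => rfl) (eta_cpow_closed hS ht0 ht _) hl,
          cup_zero_right, add_zero]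
      have e4 : cup (T i) (cpow t is.length) l =
          cup t (cpow t is.length) l - cup (dl (n i)) (cpow t is.length) l := by
        rw [← cup_sub_left, ← (funext (hT i) : T i = fun l => t l - dl (n i) l)]
      rw [e1, cup_add_right, e2, e4, dl_sub, e3]
      show _ = cup t (cpow t is.length) l + _
      ring

/-- invariance of a product of invariant cochains -/
theorem eta_cprod_comp {Y : Type*} (a : Y → Y) (fs : List (List Y → ℤ))
    (hf : ∀ f ∈ fs, ∀ l : List Y, f (l.map a) = f l) (l : List Y) :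
    cprod fs (l.map a) = cprod fs l := by
  induction fs generalizing l with
  | nil => rcases l with _ | ⟨y, _ | ⟨y', l⟩⟩ <;> rfl
  | cons f fs ih =>
    have e1 : (fun l : List Y => f (l.map a)) = f := funext (hf f (List.mem_cons_self ..))
    have e2 : (fun l : List Y => cprod fs (l.map a)) = cprod fs :=
      funext (ih fun g hg => hf g (List.mem_cons_of_mem _ hg))
    show cup f (cprod fs) (l.map a) = cup f (cprod fs) l
    rw [← cup_comp a f (cprod fs) l, e1, e2]

theorem eta_gridSmall {l l' : List (YY X p ℓ)} (h : GridSmall l) (hl : ∀ y ∈ l', y ∈ l) :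
    GridSmall l' := by
  obtain ⟨g, hg⟩ := h
  exact ⟨g, fun y hy => hg y (hl y hy)⟩

theorem eta_SY_full {SX : Set (List X)} (hSX : Full SX) :
    Full (SY (p := p) (ℓ := ℓ) SX) := by
  rintro l ⟨h1, h2⟩ l' hl
  refine ⟨hSX _ h1 _ fun x hx => ?_, eta_gridSmall h2 hl⟩
  obtain ⟨y, hy, rfl⟩ := List.mem_map.1 hx
  exact List.mem_map.2 ⟨y, hl y hy, rfl⟩

theorem exists_eta (hℓ : 3 ≤ ℓ) (hpℓ : (p : ℝ) / ℓ ≤ 1 / 16) {SX : Set (List X)} (hSX : Full SX)
    (A : Fin p → YY X p ℓ → ℂ) {d : ℝ} (hd : 0 < d)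
    (hA : ∀ m y₀ y₁, [y₀, y₁] ∈ SY (p := p) (ℓ := ℓ) SX →
      ‖A m y₁ * ph (thc y₀ y₁) - A m y₀‖ ≤ d / 100)
    (hs : ∀ m (σ : Equiv.Perm (Fin p)) y, A m (act σ y) = A m y) :
    ∃ η : List (YY X p ℓ) → ℤ, (∀ l, η l ≠ 0 → l.length = 2 * p + 1) ∧
      (∀ l ∈ SY SX, dl η l = 0) ∧
      (∃ ζ : List (YY X p ℓ) → ℤ, ζ [] = 0 ∧ ∀ l ∈ SY SX, l.length = 2 * p + 1 →
        η l = cpow tc p l + dl ζ l) ∧
      (∀ (σ : Equiv.Perm (Fin p)) l, η (l.map (act σ)) = η l) ∧
      ∀ l ∈ SY SX, η l ≠ 0 → ∀ m, ∃ y ∈ l, ‖A m y‖ < d := by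
  have hF : Full (SY (p := p) (ℓ := ℓ) SX) := eta_SY_full hSX
  have hS : Hered (SY (p := p) (ℓ := ℓ) SX) := hF.hered
  obtain ⟨E, hE⟩ : ∃ E : Fin p → Set (YY X p ℓ), E = fun m => {y | d ≤ ‖A m y‖} := ⟨_, rfl⟩
  obtain ⟨α, hα⟩ : ∃ α : Fin p → YY X p ℓ → ℝ, α = fun m y => (A m y).arg / (2 * Real.pi) :=
    ⟨_, rfl⟩
  have hEm : ∀ m y, y ∈ E m ↔ d ≤ ‖A m y‖ := fun m y => by rw [hE]; rfl
  obtain ⟨n, hn⟩ : ∃ n : Fin p → List (YY X p ℓ) → ℤ, n = fun m => rn (E m) (α m) thc :=
    ⟨_, rfl⟩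
  obtain ⟨T, hT⟩ : ∃ T : Fin p → List (YY X p ℓ) → ℤ, T = fun m l => tc l - dl (n m) l :=
    ⟨_, rfl⟩
  have hT' : ∀ m l, T m l = tc l - dl (n m) l := fun m l => by rw [hT]
  have ht0 : (tc : List (YY X p ℓ) → ℤ) [] = 0 := by
    by_contra h
    exact absurd (tc_length _ h) (by simp)
  have htc : ∀ l ∈ SY (p := p) (ℓ := ℓ) SX, dl tc l = 0 := fun l hl => dl_tc hℓ hl.2
  have hn0 : ∀ m, n m [] = 0 := fun m => by rw [hn]; rfl
  have hT3 : ∀ m l, T m l ≠ 0 → l.length = 3 := by
    intro m l h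
    by_contra h3
    apply h
    have e1 : tc l = 0 := by
      by_contra h4
      exact h3 (tc_length l h4)
    have e2 : dl (n m) l = 0 := by
      rw [hn]
      exact ra_dl_len _ 2 (ra_rn_len _ _ _) l h3
    rw [hT', e1, e2, sub_zero]
  have hTE : ∀ m, ∀ l ∈ SY (p := p) (ℓ := ℓ) SX, (∀ y ∈ l, y ∈ E m) → T m l = 0 := by
    intro m l hl hy
    rw [hT', hn, sub_eq_zero]
    refine (round_cochain hS (E m) (α m) thc tc (fun l => tc_length l) ?_ ?_ l hl hy).symm
    · intro y₀ y₁ h01 h0 h1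
      have h0' := (hEm m y₀).1 h0
      have hne : A m y₀ ≠ 0 := by
        intro h
        rw [h, norm_zero] at h0'
        linarith
      have h2 := arg_close (z₀ := A m y₀) (z₁ := A m y₁) (θ := thc y₀ y₁) hne
        ((hA m y₀ y₁ h01).trans (by linarith))
      have e : α m y₁ - α m y₀ = ((A m y₁).arg - (A m y₀).arg) / (2 * Real.pi) := by
        rw [hα, sub_div]
      rw [e]
      exact h2.trans (by norm_num)
    · intro y₀ y₁ y₂ h012 _ _ _
      exact (thc_coboundary hℓ y₀ y₁ y₂ h012.2).trans hpℓ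
  refine ⟨cprod ((List.finRange p).map T), ?_, ?_, ?_, ?_, ?_⟩
  · intro l h
    have := eta_cprod_len _ (fun f hf => by
      obtain ⟨m, -, rfl⟩ := List.mem_map.1 hf
      exact hT3 m) l h
    rwa [List.length_map, List.length_finRange] at this
  · refine eta_cprod_closed hS _ (fun f hf => ?_) (fun f hf l hl => ?_)
    · obtain ⟨m, -, rfl⟩ := List.mem_map.1 hf
      rw [hT', ht0, dl_nil, sub_zero]
    · obtain ⟨m, -, rfl⟩ := List.mem_map.1 hf
      rw [hT, dl_sub, htc l hl, dl_dl, sub_zero]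
  · obtain ⟨ζ, h0, h1⟩ := eta_cprod_cpow hS ht0 htc T n hn0 hT' hT3 (List.finRange p)
    rw [List.length_finRange] at h1
    exact ⟨ζ, h0, fun l hl _ => h1 l hl⟩
  · intro σ l
    refine eta_cprod_comp (act σ) _ (fun f hf l => ?_) l
    obtain ⟨m, -, rfl⟩ := List.mem_map.1 hf
    have e1 : (fun l : List (YY X p ℓ) => n m (l.map (act σ))) = n m := by
      funext l
      rw [hn]
      match l with
      | [] => rfl
      | [_] => rfl
      | [y₀, y₁] =>
        show rn (E m) (α m) thc [act σ y₀, act σ y₁] = rn (E m) (α m) thc [y₀, y₁]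
        have a0 : ∀ y, act σ y ∈ E m ↔ y ∈ E m := fun y =>
          (hEm m _).trans (by rw [hs, ← hEm m y])
        have a1 : ∀ y, α m (act σ y) = α m y := fun y => by
          rw [hα]
          show (A m (act σ y)).arg / _ = (A m y).arg / _
          rw [hs]
        classical
        by_cases h : y₀ ∈ E m ∧ y₁ ∈ E m
        · rw [show rn (E m) (α m) thc [y₀, y₁] = _ from if_pos h,
            show rn (E m) (α m) thc [act σ y₀, act σ y₁] = _ from
              if_pos ⟨(a0 y₀).2 h.1, (a0 y₁).2 h.2⟩, a1, a1, thc_act]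
        · rw [show rn (E m) (α m) thc [y₀, y₁] = _ from if_neg h,
            show rn (E m) (α m) thc [act σ y₀, act σ y₁] = _ from
              if_neg fun h' => h ⟨(a0 y₀).1 h'.1, (a0 y₁).1 h'.2⟩]
      | _ :: _ :: _ :: _ => rfl
    rw [hT', hT', tc_act, ← dl_comp (act σ) (n m) l, e1]
  · intro l hl h m
    obtain ⟨l', h1, h2⟩ := eta_cprod_mem _ l h (T m)
      (List.mem_map.2 ⟨m, List.mem_finRange m, rfl⟩)
    have hl' : l' ∈ SY (p := p) (ℓ := ℓ) SX := hF l hl l' h1
    by_contra hcon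
    push Not at hcon
    exact h2 (hTE m l' hl' fun y hy => (hEm m y).2 (hcon y (h1 y hy)))

end Vale.Agent.P093.Hom
end

section

/-!
TASK HOM-F1: the Reed-Solomon trick and compactness.

Proof. `lamb i = ∑_γ (γ : ℂ)^i • v γ`. `vandermonde`: if `∑_γ γ^i • v γ = 0` for all `i < a` and
`v γ = 0` outside a set of at most `a` indices then `v = 0` (invertibility of a Vandermonde matrix with
distinct nodes, applied to each component; e.g. `Matrix.det_vandermonde_ne_zero_iff`, or
`vandermonde_zero` in `Vale/Agent/P093/NC.lean` transposed, or Lagrange interpolation: for a polynomial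
`P` of degree `< a` one has `∑_γ P(γ) v γ = 0`; choose `P` vanishing at all indices of the support except
one).
`mds_compact`: for a set `Δ` of indices whose complement has at most `a` elements, the continuous
function `(x, q) ↦ max (max_m ‖A m x q‖) (max_{γ ∈ Δ, k, e} ‖F γ k e x q‖)` is positive on the compact
set `X × K₀^p`, `K₀ = {ktf u w | u, w ∈ [0,1]}` (all entries of `q` nonzero by `ktf_ne_zero`), hence bounded
below by some `c_Δ > 0`. Let `c` be the minimum over the finitely many `Δ` (and `1`). If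
`‖A m x q‖ < c` for all `m` and at most `a` indices `γ` have some `‖F γ k e x q‖ ≥ c`, take for `Δ` the
complement of this set of indices: contradiction. (If `X` is empty everything is trivial.)
-/

namespace Vale.Agent.P093.Hom

theorem vandermonde {m a : ℕ} {V : Type*} [AddCommGroup V] [Module ℂ V] (v : Fin m → V)
    (h : ∀ i < a, ∑ γ : Fin m, ((γ : ℕ) : ℂ) ^ i • v γ = 0) (s : Finset (Fin m))
    (hs : s.card ≤ a) (hv : ∀ γ ∉ s, v γ = 0) : v = 0 := by
  classical
  have hpoly : ∀ P : Polynomial ℂ, P.natDegree < a →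
      ∑ γ : Fin m, P.eval ((γ : ℕ) : ℂ) • v γ = 0 := by
    intro P hP
    have e1 : ∀ γ : Fin m, P.eval ((γ : ℕ) : ℂ) • v γ =
        ∑ i ∈ Finset.range a, P.coeff i • (((γ : ℕ) : ℂ) ^ i • v γ) := by
      intro γ
      rw [Polynomial.eval_eq_sum_range' hP, Finset.sum_smul]
      exact Finset.sum_congr rfl fun i _ => by rw [mul_smul]
    rw [Finset.sum_congr rfl fun γ _ => e1 γ, Finset.sum_comm]
    refine Finset.sum_eq_zero fun i hi => ?_
    rw [← Finset.smul_sum, h i (Finset.mem_range.1 hi), smul_zero]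
  funext γ₀
  by_cases h0 : γ₀ ∈ s
  · set P : Polynomial ℂ := ∏ γ ∈ s.erase γ₀, (Polynomial.X - Polynomial.C ((γ : ℕ) : ℂ)) with hP
    have hdeg : P.natDegree < a := by
      have h1 : P.natDegree = (s.erase γ₀).card := by
        rw [hP, Polynomial.natDegree_prod_of_monic _ _ fun γ _ => Polynomial.monic_X_sub_C _,
          Finset.sum_congr rfl fun γ _ => Polynomial.natDegree_X_sub_C _, Finset.sum_const,
          smul_eq_mul, mul_one]
      rw [h1, Finset.card_erase_of_mem h0]
      have h2 : 0 < s.card := Finset.card_pos.2 ⟨γ₀, h0⟩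
      omega
    have h1 := hpoly P hdeg
    rw [Finset.sum_eq_single γ₀] at h1
    · have h2 : P.eval ((γ₀ : ℕ) : ℂ) ≠ 0 := by
        rw [hP, Polynomial.eval_prod, Finset.prod_ne_zero_iff]
        intro γ hγ h3
        simp only [Polynomial.eval_sub, Polynomial.eval_X, Polynomial.eval_C] at h3
        have h4 : ((γ₀ : ℕ) : ℂ) = ((γ : ℕ) : ℂ) := sub_eq_zero.1 h3
        exact (Finset.mem_erase.1 hγ).1 (Fin.ext (by exact_mod_cast h4.symm))
      exact (smul_eq_zero.1 h1).resolve_left h2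
    · intro γ _ hγ
      by_cases h2 : γ ∈ s
      · have h3 : P.eval ((γ : ℕ) : ℂ) = 0 := by
          rw [hP, Polynomial.eval_prod]
          refine Finset.prod_eq_zero (Finset.mem_erase.2 ⟨hγ, h2⟩) ?_
          simp
        rw [h3, zero_smul]
      · rw [hv γ h2, smul_zero]
    · intro h2
      exact absurd (Finset.mem_univ _) h2
  · exact hv γ₀ h0

/-- one set `Δ` -/
theorem mds_one {X : Type*} [TopologicalSpace X] [CompactSpace X] {m a κ p : ℕ}
    (F : Fin m → Fin κ → Fin 2 → X → (Fin p → Fin 2 → ℂ) → ℂ)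
    (hF : ∀ γ k e, Continuous fun z : X × (Fin p → Fin 2 → ℂ) => F γ k e z.1 z.2)
    (hne : ∀ x q, (∀ j, q j ≠ 0) → ∃ γ k e, F γ k e x q ≠ 0) (Δ : Finset (Fin m)) :
    ∃ c > 0, Δᶜ.card ≤ a → ∀ x (q : Fin p → Fin 2 → ℂ),
      (∀ j, ∃ u ∈ Set.Icc (0 : ℝ) 1, ∃ w ∈ Set.Icc (0 : ℝ) 1, q j = ktf u w) →
      (∀ (i : Fin a) k e, ‖∑ γ : Fin m, ((γ : ℕ) : ℂ) ^ (i : ℕ) * F γ k e x q‖ < c) →
      ¬ ∀ γ ∈ Δ, ∀ k e, ‖F γ k e x q‖ < c := by
  by_cases hΔ : Δᶜ.card ≤ a
  swap
  · exact ⟨1, one_pos, fun h => absurd h hΔ⟩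
  -- the parametrization
  let K : Set (Fin p → ℝ × ℝ) := Set.pi Set.univ fun _ => Set.Icc (0 : ℝ) 1 ×ˢ Set.Icc (0 : ℝ) 1
  have hK : IsCompact K := isCompact_univ_pi fun _ => isCompact_Icc.prod isCompact_Icc
  let Q : (Fin p → ℝ × ℝ) → Fin p → Fin 2 → ℂ := fun w j => ktf (w j).1 (w j).2
  have hQ : Continuous Q := continuous_pi fun j => ktf_continuous.comp (continuous_apply j)
  have hFQ : ∀ γ k e, Continuous fun z : X × (Fin p → ℝ × ℝ) => F γ k e z.1 (Q z.2) := by
    intro γ k e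
    exact (hF γ k e).comp (continuous_fst.prodMk (hQ.comp continuous_snd))
  let g : X × (Fin p → ℝ × ℝ) → ℝ := fun z =>
    (∑ i : Fin a, ∑ k : Fin κ, ∑ e : Fin 2,
      ‖∑ γ : Fin m, ((γ : ℕ) : ℂ) ^ (i : ℕ) * F γ k e z.1 (Q z.2)‖) +
    ∑ γ ∈ Δ, ∑ k : Fin κ, ∑ e : Fin 2, ‖F γ k e z.1 (Q z.2)‖
  have hg : Continuous g := by
    refine Continuous.add ?_ ?_
    · refine continuous_finsetSum _ fun i _ => continuous_finsetSum _ fun k _ =>
        continuous_finsetSum _ fun e _ => ?_
      exact (continuous_finsetSum _ fun γ _ => continuous_const.mul (hFQ γ k e)).norm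
    · exact continuous_finsetSum _ fun γ _ => continuous_finsetSum _ fun k _ =>
        continuous_finsetSum _ fun e _ => (hFQ γ k e).norm
  have hpos : ∀ z ∈ (Set.univ : Set X) ×ˢ K, 0 < g z := by
    rintro ⟨x, w⟩ ⟨-, hw⟩
    have hnn1 : 0 ≤ ∑ i : Fin a, ∑ k : Fin κ, ∑ e : Fin 2,
      ‖∑ γ : Fin m, ((γ : ℕ) : ℂ) ^ (i : ℕ) * F γ k e x (Q w)‖ := by positivity
    have hnn2 : 0 ≤ ∑ γ ∈ Δ, ∑ k : Fin κ, ∑ e : Fin 2, ‖F γ k e x (Q w)‖ := by positivity
    refine lt_of_le_of_ne (add_nonneg hnn1 hnn2) fun h0 => ?_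
    have h0' : (∑ i : Fin a, ∑ k : Fin κ, ∑ e : Fin 2,
        ‖∑ γ : Fin m, ((γ : ℕ) : ℂ) ^ (i : ℕ) * F γ k e x (Q w)‖) +
        ∑ γ ∈ Δ, ∑ k : Fin κ, ∑ e : Fin 2, ‖F γ k e x (Q w)‖ = 0 := h0.symm
    have h1 : (∑ i : Fin a, ∑ k : Fin κ, ∑ e : Fin 2,
        ‖∑ γ : Fin m, ((γ : ℕ) : ℂ) ^ (i : ℕ) * F γ k e x (Q w)‖) = 0 := by linarith
    have h2 : ∑ γ ∈ Δ, ∑ k : Fin κ, ∑ e : Fin 2, ‖F γ k e x (Q w)‖ = 0 := by linarith
    have h1' : ∀ (i : Fin a) (k : Fin κ) (e : Fin 2),
        ∑ γ : Fin m, ((γ : ℕ) : ℂ) ^ (i : ℕ) * F γ k e x (Q w) = 0 := by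
      intro i k e
      have g1 := (Finset.sum_eq_zero_iff_of_nonneg fun i _ => by positivity).1 h1 i
        (Finset.mem_univ _)
      have g2 := (Finset.sum_eq_zero_iff_of_nonneg fun i _ => by positivity).1 g1 k
        (Finset.mem_univ _)
      have g3 := (Finset.sum_eq_zero_iff_of_nonneg fun i _ => by positivity).1 g2 e
        (Finset.mem_univ _)
      exact norm_eq_zero.1 g3
    have h2' : ∀ γ ∈ Δ, ∀ (k : Fin κ) (e : Fin 2), F γ k e x (Q w) = 0 := by
      intro γ hγ k e
      have g1 := (Finset.sum_eq_zero_iff_of_nonneg fun i _ => by positivity).1 h2 γ hγ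
      have g2 := (Finset.sum_eq_zero_iff_of_nonneg fun i _ => by positivity).1 g1 k
        (Finset.mem_univ _)
      have g3 := (Finset.sum_eq_zero_iff_of_nonneg fun i _ => by positivity).1 g2 e
        (Finset.mem_univ _)
      exact norm_eq_zero.1 g3
    have hq : ∀ j, Q w j ≠ 0 := by
      intro j
      have h3 := hw j (Set.mem_univ _)
      exact ktf_ne_zero h3.1 h3.2
    obtain ⟨γ, k, e, h3⟩ := hne x (Q w) hq
    have h4 := vandermonde (a := a) (fun γ => F γ k e x (Q w)) (fun i hi => h1' ⟨i, hi⟩ k e)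
      Δᶜ hΔ (fun γ hγ => h2' γ (by simpa using hγ) k e)
    exact h3 (congrFun h4 γ)
  obtain ⟨c, hc, hc2⟩ := (isCompact_univ.prod hK).exists_forall_le' hg.continuousOn hpos
  set N : ℝ := (a * κ * 2 + m * κ * 2 : ℕ) + 1 with hN
  have hN0 : 0 < N := by positivity
  refine ⟨c / N, div_pos hc hN0, fun _ x q hq hA hB => ?_⟩
  choose u hu w hw hquw using hq
  have hqQ : q = Q fun j => (u j, w j) := funext hquw
  have h1 := hc2 (x, fun j => (u j, w j)) ⟨Set.mem_univ _, fun j _ => ⟨hu j, hw j⟩⟩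
  have h2 : g (x, fun j => (u j, w j)) ≤ (a * κ * 2 + m * κ * 2 : ℕ) * (c / N) := by
    have h3 : (∑ i : Fin a, ∑ k : Fin κ, ∑ e : Fin 2,
        ‖∑ γ : Fin m, ((γ : ℕ) : ℂ) ^ (i : ℕ) * F γ k e x (Q fun j => (u j, w j))‖) ≤
        ∑ i : Fin a, ∑ k : Fin κ, ∑ e : Fin 2, c / N := by
      refine Finset.sum_le_sum fun i _ => Finset.sum_le_sum fun k _ => Finset.sum_le_sum
        fun e _ => ?_
      rw [← hqQ]
      exact (hA i k e).le
    have h4 : ∑ γ ∈ Δ, ∑ k : Fin κ, ∑ e : Fin 2, ‖F γ k e x (Q fun j => (u j, w j))‖ ≤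
        ∑ γ : Fin m, ∑ k : Fin κ, ∑ e : Fin 2, c / N := by
      calc _ ≤ ∑ γ ∈ Δ, ∑ k : Fin κ, ∑ e : Fin 2, c / N := by
            refine Finset.sum_le_sum fun i hi => Finset.sum_le_sum fun k _ => Finset.sum_le_sum
              fun e _ => ?_
            rw [← hqQ]
            exact (hB i hi k e).le
        _ ≤ _ := by
            refine Finset.sum_le_sum_of_subset_of_nonneg (Finset.subset_univ _) fun i _ _ => ?_
            have : 0 ≤ c / N := (div_pos hc hN0).le
            positivity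
    simp only [Finset.sum_const, Finset.card_univ, Fintype.card_fin, nsmul_eq_mul] at h3 h4
    push_cast
    push_cast at h3 h4
    calc g (x, fun j => (u j, w j)) ≤ _ := add_le_add h3 h4
      _ = _ := by ring
  have h3 : ((a * κ * 2 + m * κ * 2 : ℕ) : ℝ) * (c / N) < c := by
    have h4 : ((a * κ * 2 + m * κ * 2 : ℕ) : ℝ) = N - 1 := by rw [hN]; ring
    rw [h4]
    have h5 : (N - 1) * (c / N) = c - c / N := by
      field_simp
    rw [h5]
    have := div_pos hc hN0
    linarith
  linarith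

open scoped Classical in
/-- `F γ k e x q`: component `(k,e)` of the section of the group `γ`; for all `(x,q)` with nonzero `q j` some
component is nonzero. -/
theorem mds_compact {X : Type*} [TopologicalSpace X] [CompactSpace X] {m a κ p : ℕ}
    (F : Fin m → Fin κ → Fin 2 → X → (Fin p → Fin 2 → ℂ) → ℂ)
    (hF : ∀ γ k e, Continuous fun z : X × (Fin p → Fin 2 → ℂ) => F γ k e z.1 z.2)
    (hne : ∀ x q, (∀ j, q j ≠ 0) → ∃ γ k e, F γ k e x q ≠ 0) :
    ∃ c > 0, ∀ x (q : Fin p → Fin 2 → ℂ),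
      (∀ j, ∃ u ∈ Set.Icc (0 : ℝ) 1, ∃ w ∈ Set.Icc (0 : ℝ) 1, q j = ktf u w) →
      (∀ (i : Fin a) k e, ‖∑ γ : Fin m, ((γ : ℕ) : ℂ) ^ (i : ℕ) * F γ k e x q‖ < c) →
      a + 1 ≤ (Finset.univ.filter fun γ => ∃ k e, c ≤ ‖F γ k e x q‖).card := by
  choose cΔ hcΔ hcΔ2 using mds_one (a := a) F hF hne
  obtain ⟨Δ₀, -, hmin⟩ := Finset.exists_min_image (Finset.univ : Finset (Finset (Fin m))) cΔ
    ⟨∅, Finset.mem_univ _⟩
  refine ⟨cΔ Δ₀, hcΔ Δ₀, fun x q hq hA => ?_⟩
  by_contra hlt
  set s : Finset (Fin m) := Finset.univ.filter fun γ => ∃ k e, cΔ Δ₀ ≤ ‖F γ k e x q‖ with hs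
  have h1 : sᶜᶜ.card ≤ a := by
    rw [compl_compl]
    omega
  have h2 := hmin sᶜ (Finset.mem_univ _)
  refine hcΔ2 sᶜ h1 x q hq (fun i k e => (hA i k e).trans_le h2) fun γ hγ k e => ?_
  have h3 : γ ∉ s := by simpa using hγ
  have h4 : ¬ ∃ k e, cΔ Δ₀ ≤ ‖F γ k e x q‖ := by
    intro h5
    exact h3 (by rw [hs, Finset.mem_filter]; exact ⟨Finset.mem_univ _, h5⟩)
  push Not at h4
  exact (h4 k e).trans_le h2

end Vale.Agent.P093.Hom
end

section

/-!
Cells which may occur (task HOM-G3a).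

`al_R χ y c cell`: if `cell ≠ z` then `1/8 < χ c y`; if `cell ≠ o` then `χ c y < 7/8`. For every
allowed list of cells this holds at every position. The number of edges is counted block by block.
-/

namespace Vale.Agent.P093.Hom

variable {Y C : Type*} {m κ : ℕ}

/-- What a cell says about the value of its coordinate. -/
def al_R (χ : C → Y → ℝ) (y : Y) (c : C) (k : Cell) : Prop :=
  (k ≠ Cell.z → 1 / 8 < χ c y) ∧ (k ≠ Cell.o → χ c y < 7 / 8)

theorem al_Hv_ne_one {f : Y → ℝ} {y : Y} (h : Hv f y ≠ 1) : f y < 0 := by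
  by_contra h'
  exact h (Hv_pos (not_lt.1 h'))

theorem al_Hv_ne_zero {f : Y → ℝ} {y : Y} (h : Hv f y ≠ 0) : 0 ≤ f y := by
  by_contra h'
  exact h (Hv_neg (not_le.1 h'))

/-- one block -/
theorem al_block (χ : C → Y → ℝ) (cs : List C) (h : List Y → ℤ) (l : List Y)
    (hvar : ∀ c ∈ cs, ∀ y ∈ l, ∀ y' ∈ l, |χ c y - χ c y'| ≤ 1 / 8)
    (hh : ∀ l', l'.Sublist l → h l' ≠ 0 → l' ≠ [] ∧
      ∀ y ∈ l', ∀ c ∈ cs, |χ c y - 1 / 2| ≤ 1 / 8)
    {B : Blk Y} (hB : B.vs = cs.map fun c => Hv fun y => χ c y - 1 / 2) (hBh : B.h = h)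
    {κs : List Cell} (hκ : B.Allowed l κs) {y : Y} (hy : y ∈ l) :
    List.Forall₂ (al_R χ y) cs κs := by
  obtain ⟨hlen, hc, -⟩ := hκ
  rw [hB, List.length_map] at hlen
  rcases hc with hc | ⟨l', hl', hne⟩
  · rw [hB, Compat, List.forall₂_map_left_iff, List.forall₂_iff_zip] at hc
    rw [List.forall₂_iff_zip]
    refine ⟨hc.1, fun {c k} hck => ?_⟩
    obtain ⟨hz, ho, he⟩ := hc.2 hck
    have hcm := (List.of_mem_zip hck).1
    have hv := hvar c hcm
    have lo : ∀ y' ∈ l, 0 ≤ χ c y' - 1 / 2 → 1 / 8 < χ c y := by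
      intro y' hy' h1
      have h2 := abs_le.1 (hv y hy y' hy')
      linarith [h2.1]
    have hi : ∀ y' ∈ l, χ c y' - 1 / 2 < 0 → χ c y < 7 / 8 := by
      intro y' hy' h1
      have h2 := abs_le.1 (hv y hy y' hy')
      linarith [h2.2]
    have both : ∀ y₁ ∈ l, ∀ y₂ ∈ l, Hv (fun y => χ c y - 1 / 2) y₁ ≠
        Hv (fun y => χ c y - 1 / 2) y₂ → 1 / 8 < χ c y ∧ χ c y < 7 / 8 := by
      intro y₁ h₁ y₂ h₂ hn
      by_cases a₁ : 0 ≤ χ c y₁ - 1 / 2
      · by_cases a₂ : 0 ≤ χ c y₂ - 1 / 2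
        · rw [Hv_pos (f := fun y => χ c y - 1 / 2) a₁,
            Hv_pos (f := fun y => χ c y - 1 / 2) a₂] at hn
          exact absurd rfl hn
        · exact ⟨lo y₁ h₁ a₁, hi y₂ h₂ (not_le.1 a₂)⟩
      · by_cases a₂ : 0 ≤ χ c y₂ - 1 / 2
        · exact ⟨lo y₂ h₂ a₂, hi y₁ h₁ (not_le.1 a₁)⟩
        · rw [Hv_neg (f := fun y => χ c y - 1 / 2) (not_le.1 a₁),
            Hv_neg (f := fun y => χ c y - 1 / 2) (not_le.1 a₂)] at hn
          exact absurd rfl hn
    cases k with
    | z =>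
      obtain ⟨y', hy', h1⟩ := hz rfl
      exact ⟨fun h0 => absurd rfl h0, fun _ => hi y' hy' (al_Hv_ne_one h1)⟩
    | o =>
      obtain ⟨y', hy', h1⟩ := ho rfl
      exact ⟨fun _ => lo y' hy' (al_Hv_ne_zero h1), fun h0 => absurd rfl h0⟩
    | e =>
      obtain ⟨y₁, h₁, y₂, h₂, hn⟩ := he rfl
      exact ⟨fun _ => (both y₁ h₁ y₂ h₂ hn).1, fun _ => (both y₁ h₁ y₂ h₂ hn).2⟩
  · rw [List.forall₂_iff_zip]
    refine ⟨hlen.symm, fun {c k} hck => ?_⟩
    have hcm := (List.of_mem_zip hck).1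
    rw [hBh] at hne
    obtain ⟨h0, h1⟩ := hh l' hl' hne
    obtain ⟨y', hy'⟩ := List.exists_mem_of_ne_nil l' h0
    have h2 := abs_le.1 (h1 y' hy' c hcm)
    have h3 := abs_le.1 (hvar c hcm y hy y' (hl'.subset hy'))
    exact ⟨fun _ => by linarith [h2.1, h3.1], fun _ => by linarith [h2.2, h3.2]⟩

theorem al_split {Bs Bs' : List (Blk Y)} {l : List Y} {κs : List Cell}
    (h : AllowedL (Bs ++ Bs') l κs) :
    ∃ κ₁ κ₂, κs = κ₁ ++ κ₂ ∧ AllowedL Bs l κ₁ ∧ AllowedL Bs' l κ₂ := by
  induction Bs generalizing κs with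
  | nil => exact ⟨[], κs, rfl, rfl, h⟩
  | cons B Bs ih =>
    obtain ⟨κ₁, κ₂, rfl, h1, h2⟩ := h
    obtain ⟨κ₃, κ₄, rfl, h3, h4⟩ := ih h2
    exact ⟨κ₁ ++ κ₃, κ₄, (List.append_assoc _ _ _).symm, ⟨κ₁, κ₃, rfl, h1, h3⟩, h4⟩

theorem al_forall₂ {ι : Type*} {R : C → Cell → Prop} {l : List Y} (Bk : ι → Blk Y)
    (cr : ι → List C) (xs : List ι)
    (h : ∀ x ∈ xs, ∀ κ', (Bk x).Allowed l κ' → List.Forall₂ R (cr x) κ') {κs : List Cell}
    (hκ : AllowedL (xs.map Bk) l κs) : List.Forall₂ R (xs.flatMap cr) κs := by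
  induction xs generalizing κs with
  | nil =>
    have h0 : κs = [] := hκ
    subst h0
    exact List.Forall₂.nil
  | cons x xs ih =>
    obtain ⟨κ₁, κ₂, rfl, h1, h2⟩ := hκ
    rw [List.flatMap_cons]
    exact List.rel_append (h x List.mem_cons_self _ h1)
      (ih (fun x' hx' => h x' (List.mem_cons_of_mem _ hx')) h2)

theorem al_ecount_append (a b : List Cell) : ecount (a ++ b) = ecount a + ecount b := by
  induction a with
  | nil => exact (Nat.zero_add _).symm
  | cons c a ih =>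
    cases c with
    | z => exact ih
    | o => exact ih
    | e =>
      show ecount (a ++ b) + 1 = ecount a + 1 + ecount b
      rw [ih]
      omega

theorem al_sum {ι : Type*} {l : List Y} (Bk : ι → Blk Y) (f g : ι → ℕ) (xs : List ι)
    (h : ∀ x ∈ xs, ∀ κ', (Bk x).Allowed l κ' → ecount κ' + g x ≤ f x) {κs : List Cell}
    (hκ : AllowedL (xs.map Bk) l κs) : ecount κs + (xs.map g).sum ≤ (xs.map f).sum := by
  induction xs generalizing κs with
  | nil =>
    have h0 : κs = [] := hκ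
    subst h0
    exact le_rfl
  | cons x xs ih =>
    obtain ⟨κ₁, κ₂, rfl, h1, h2⟩ := hκ
    have h3 := h x List.mem_cons_self _ h1
    have h4 := ih (fun x' hx' => h x' (List.mem_cons_of_mem _ hx')) h2
    rw [al_ecount_append, List.map_cons, List.sum_cons, List.map_cons, List.sum_cons]
    omega

theorem al_ecount_le (a : List Cell) : ecount a ≤ a.length := by
  induction a with
  | nil => exact le_rfl
  | cons c a ih =>
    cases c with
    | z => exact ih.trans (Nat.le_succ _)
    | o => exact ih.trans (Nat.le_succ _)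
    | e => exact Nat.succ_le_succ ih

theorem al_ecount_top {a : List Cell} (h : a.length ≤ ecount a) : a = top a.length := by
  induction a with
  | nil => rfl
  | cons c a ih =>
    have h1 := al_ecount_le a
    cases c with
    | z =>
      have h2 : a.length + 1 ≤ ecount a := h
      omega
    | o =>
      have h2 : a.length + 1 ≤ ecount a := h
      omega
    | e =>
      have h2 : a.length + 1 ≤ ecount a + 1 := h
      have h3 := ih (by omega)
      show Cell.e :: a = Cell.e :: top a.length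
      rw [← h3]

theorem al_ecount_zero {a : List Cell} (h : ∀ k ∈ a, k = Cell.z) : ecount a = 0 := by
  induction a with
  | nil => rfl
  | cons c a ih =>
    have h1 := h c List.mem_cons_self
    subst h1
    exact ih fun k hk => h k (List.mem_cons_of_mem _ hk)

/-- every position -/
theorem al_all (χ : C → Y → ℝ) (crd : Fin m → ℕ → C) (ss : List C)
    (h : Fin m → List Y → ℤ) (l : List Y)
    (hvar : ∀ c ∈ coords κ crd ss, ∀ y ∈ l, ∀ y' ∈ l, |χ c y - χ c y'| ≤ 1 / 8)
    (hh : ∀ γ l', l'.Sublist l → h γ l' ≠ 0 → l' ≠ [] ∧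
      ∀ y ∈ l', ∀ k ≤ 2 * κ, |χ (crd γ k) y - 1 / 2| ≤ 1 / 8) {y : Y} (hy : y ∈ l) :
    (∀ γ κ', (⟨gvs (fun k y => χ (crd γ k) y - 1 / 2) κ, h γ⟩ : Blk Y).Allowed l κ' →
      List.Forall₂ (al_R χ y) ((List.range (2 * κ + 1)).map (crd γ)) κ') ∧
    ∀ c ∈ ss, ∀ κ', (⟨[Hv fun y => χ c y - 1 / 2], fun _ => 0⟩ : Blk Y).Allowed l κ' →
      List.Forall₂ (al_R χ y) [c] κ' := by
  refine ⟨fun γ κ' hκ' => ?_, fun c hc κ' hκ' => ?_⟩
  · refine al_block χ _ (h γ) l (fun c hc => hvar c ?_) (fun l' hl' hne => ?_) ?_ rfl hκ' hy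
    · exact List.mem_append_left _ (List.mem_flatMap.2 ⟨γ, List.mem_finRange _, hc⟩)
    · refine ⟨(hh γ l' hl' hne).1, fun y' hy' c hc => ?_⟩
      obtain ⟨k, hk, rfl⟩ := List.mem_map.1 hc
      exact (hh γ l' hl' hne).2 y' hy' k (by have := List.mem_range.1 hk; omega)
    · show gvs _ κ = _
      rw [gvs, List.map_map]
      rfl
  · refine al_block χ [c] (fun _ => 0) l (fun c' hc' => hvar c' ?_) (fun l' _ hne => ?_) rfl rfl
      hκ' hy
    · rw [List.mem_singleton] at hc'
      subst hc'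
      exact List.mem_append_right _ hc
    · exact absurd rfl hne

theorem al_coords (χ : C → Y → ℝ) (crd : Fin m → ℕ → C) (ss : List C)
    (h : Fin m → List Y → ℤ) (l : List Y)
    (hvar : ∀ c ∈ coords κ crd ss, ∀ y ∈ l, ∀ y' ∈ l, |χ c y - χ c y'| ≤ 1 / 8)
    (hh : ∀ γ l', l'.Sublist l → h γ l' ≠ 0 → l' ≠ [] ∧
      ∀ y ∈ l', ∀ k ≤ 2 * κ, |χ (crd γ k) y - 1 / 2| ≤ 1 / 8)
    {κs : List Cell} (hκ : AllowedL (blks κ χ crd ss h) l κs) {y : Y} (hy : y ∈ l) :
    List.Forall₂ (al_R χ y) (coords κ crd ss) κs := by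
  obtain ⟨h1, h2⟩ := al_all χ crd ss h l hvar hh hy
  obtain ⟨κ₁, κ₂, rfl, h3, h4⟩ := al_split hκ
  refine List.rel_append (al_forall₂ _ _ _ (fun γ _ => h1 γ) h3) ?_
  have h5 := al_forall₂ _ (fun c => [c]) ss h2 h4
  rwa [List.flatMap_singleton'] at h5

theorem allowed_vertex (χ : C → Y → ℝ) (crd : Fin m → ℕ → C) (ss : List C)
    (h : Fin m → List Y → ℤ) (l : List Y)
    (hvar : ∀ c ∈ coords κ crd ss, ∀ y ∈ l, ∀ y' ∈ l, |χ c y - χ c y'| ≤ 1 / 8)
    (hh : ∀ γ l', l'.Sublist l → h γ l' ≠ 0 → l' ≠ [] ∧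
      ∀ y ∈ l', ∀ k ≤ 2 * κ, |χ (crd γ k) y - 1 / 2| ≤ 1 / 8)
    {κs : List Cell} (hκ : AllowedL (blks κ χ crd ss h) l κs) {S : List Bool}
    (hS : VertexOf S κs) {y : Y} (hy : y ∈ l) :
    (∀ c ∈ onS (coords κ crd ss) S, c ∈ coords κ crd ss ∧ 1 / 8 < χ c y) ∧
      ∀ c ∈ coords κ crd ss, 7 / 8 < χ c y → c ∈ onS (coords κ crd ss) S := by
  have h1 := al_coords χ crd ss h l hvar hh hκ hy
  generalize coords κ crd ss = cs at h1 ⊢
  clear hκ hvar hh
  induction h1 generalizing S with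
  | nil => exact ⟨fun c hc => absurd hc (by simp [onS]), fun c hc => absurd hc (by simp)⟩
  | cons hR hF ih =>
    rename_i c k cs κs
    cases hS with
    | cons hb hS' =>
      rename_i b S
      obtain ⟨i1, i2⟩ := ih hS'
      refine ⟨fun c' hc' => ?_, fun c' hc' h7 => ?_⟩
      · rcases List.mem_cons.1 hc' with h2 | h2
        · obtain ⟨rfl, hbt⟩ := Prod.ext_iff.1 h2
          exact ⟨List.mem_cons_self, hR.1 (hb.1 hbt.symm)⟩
        · exact ⟨List.mem_cons_of_mem _ (i1 c' h2).1, (i1 c' h2).2⟩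
      · rcases List.mem_cons.1 hc' with rfl | h2
        · refine List.mem_cons.2 (Or.inl ?_)
          have hko : k = Cell.o := by
            by_contra hko
            exact absurd (hR.2 hko) (not_lt.2 h7.le)
          cases b with
          | false => exact absurd hko (hb.2 rfl)
          | true => rfl
        · exact List.mem_cons_of_mem _ (i2 c' h2 h7)

open scoped Classical in
theorem allowed_count (χ : C → Y → ℝ) (crd : Fin m → ℕ → C) (ss : List C)
    (h : Fin m → List Y → ℤ) (l : List Y)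
    (hvar : ∀ c ∈ coords κ crd ss, ∀ y ∈ l, ∀ y' ∈ l, |χ c y - χ c y'| ≤ 1 / 8)
    (hh : ∀ γ l', l'.Sublist l → h γ l' ≠ 0 → l' ≠ [] ∧
      ∀ y ∈ l', ∀ k ≤ 2 * κ, |χ (crd γ k) y - 1 / 2| ≤ 1 / 8)
    {κs : List Cell} (hκ : AllowedL (blks κ χ crd ss h) l κs) {y : Y} (hy : y ∈ l)
    (P : Fin m → Prop) (hP : ∀ γ, ¬ P γ → ∀ k ≤ 2 * κ, χ (crd γ k) y ≤ 1 / 8)
    (good : Finset (Fin m)) (hgP : ∀ γ ∈ good, P γ)
    (hg : ∀ γ ∈ good, ∀ l', l'.Sublist l →
      tau (gvs (fun k y => χ (crd γ k) y - 1 / 2) κ) l' = dl (h γ) l') :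
    ecount κs + good.card ≤ (2 * κ + 1) * (Finset.univ.filter P).card +
      (ss.filter fun c => 1 / 8 < χ c y ∧ χ c y < 7 / 8).length := by
  obtain ⟨h1, h2⟩ := al_all χ crd ss h l hvar hh hy
  obtain ⟨κ₁, κ₂, rfl, h3, h4⟩ := al_split hκ
  have e1 := al_sum _ (fun γ => (2 * κ + 1) * if P γ then 1 else 0)
    (fun γ => if γ ∈ good then 1 else 0) (List.finRange m) (fun γ _ κ' hκ' => ?_) h3
  · have e2 := al_sum _ (fun c => if 1 / 8 < χ c y ∧ χ c y < 7 / 8 then 1 else 0)
      (fun _ => 0) ss (fun c hc κ' hκ' => ?_) h4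
    · have e3 : (good.card : ℕ) = ((List.finRange m).map fun γ => if γ ∈ good then 1 else 0).sum := by
        rw [← Fin.sum_univ_def, Finset.sum_boole]
        simp
      have e4 : (2 * κ + 1) * (Finset.univ.filter P).card =
          ((List.finRange m).map fun γ => (2 * κ + 1) * if P γ then 1 else 0).sum := by
        rw [← Fin.sum_univ_def, ← Finset.mul_sum, Finset.sum_boole]
        simp
      have e5 : (ss.filter fun c => 1 / 8 < χ c y ∧ χ c y < 7 / 8).length =
          (ss.map fun c => if 1 / 8 < χ c y ∧ χ c y < 7 / 8 then 1 else 0).sum := by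
        clear e2 h4 h2 hκ hvar
        induction ss with
        | nil => rfl
        | cons c ss ih =>
          rw [List.map_cons, List.sum_cons, ← ih, List.filter_cons]
          by_cases hc : 1 / 8 < χ c y ∧ χ c y < 7 / 8
          · rw [if_pos hc, if_pos (by simpa using hc), List.length_cons, Nat.add_comm]
          · rw [if_neg hc, if_neg (by simpa using hc), Nat.zero_add]
      rw [e3, e4, e5, al_ecount_append]
      omega
    · have hF := h2 c hc κ' hκ'
      cases hF with
      | cons hR hF' =>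
        cases hF'
        rename_i k
        by_cases hk : k = Cell.e
        · subst hk
          rw [if_pos ⟨hR.1 (by decide), hR.2 (by decide)⟩]
          exact le_rfl
        · have h0 : ecount [k] = 0 := by
            cases k with
            | z => rfl
            | o => rfl
            | e => exact absurd rfl hk
          rw [h0]
          exact Nat.zero_le _
  · have hF := h1 γ κ' hκ'
    have hlen : κ'.length = 2 * κ + 1 := by
      have := hF.length_eq
      rw [List.length_map, List.length_range] at this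
      exact this.symm
    have hle := al_ecount_le κ'
    by_cases hPγ : P γ
    · rw [if_pos hPγ]
      by_cases hγ : γ ∈ good
      · rw [if_pos hγ]
        have hne := hκ'.2.2 (hg γ hγ)
        have hvl : (gvs (fun k y => χ (crd γ k) y - 1 / 2) κ).length = κ'.length := by
          rw [gvs, List.length_map, List.length_range, hlen]
        have : ¬ κ'.length ≤ ecount κ' := by
          intro h0
          apply hne
          show κ' = top (gvs (fun k y => χ (crd γ k) y - 1 / 2) κ).length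
          rw [hvl]
          exact al_ecount_top h0
        omega
      · rw [if_neg hγ]
        omega
    · have hγ : γ ∉ good := fun h0 => hPγ (hgP γ h0)
      rw [if_neg hPγ, if_neg hγ]
      have : ecount κ' = 0 := by
        refine al_ecount_zero fun k hk => ?_
        by_contra hkz
        obtain ⟨i, hi, rfl⟩ := List.getElem_of_mem hk
        have hi' : i < ((List.range (2 * κ + 1)).map (crd γ)).length := by
          rw [hF.length_eq]; exact hi
        have h5 := (List.forall₂_iff_get.1 hF).2 i hi' hi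
        have h6 := h5.1 hkz
        have h7 : i < 2 * κ + 1 := by omega
        have h8 := hP γ hPγ i (by omega)
        simp only [List.get_eq_getElem, List.getElem_map, List.getElem_range] at h6
        linarith
      omega

end Vale.Agent.P093.Hom
end

section

/-!
TASK HOM-G3: the static theorem.

Proof. `p = 2 * κ * a`; `e : Fin p ≃ Fin a × Fin κ × Fin 2`. If `X` is empty the claim is trivial
(`𝒢 = ∅`, `Φ = 0`). Let `A m x q = ∑_γ γ^i F γ k e x q` for `m ↔ (i,k,e)`; let `c > 0` be from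
`mds_compact`. Put `d = c/2`, `c' = c/2`. Choose `η > 0` with `η ≤ 1/16`, `η ≤ d/100`,
`2000 (2κ+1) η ≤ rho l` for `l < κ`, `2000 (2κ+1) η ≤ c/2`.
`qp_close` for all (finitely many) `F γ k e` and `A m` with `ε = η` (`A m` is continuous and multihomogeneous,
symmetric), uniform continuity of all `χ c`, `c ∈ coords κ crd ss`, and `δ₁` give `δ > 0` and
`ℓ ≥ 3` with `p/ℓ ≤ 1/32`. Let `SX = {l | ∀ x ∈ l, ∀ x' ∈ l, dist x x' < δ}`, `Full`.
On `Y = YY X p ℓ` put `χ' c y = χ c y.1`, `F' γ k e y = F γ k e y.1 (qq y)`, `A' m y = A m y.1 (qq y)`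
(invariant under `act σ` by `qq_act` and `sym`).
* `exists_eta` with `A'`, `d`: gives `η_c`.
* `exists_h` for every `γ` with `f = fun k y => χ' (crd γ k) y - 1/2`, `c := c'`: gives `h γ`
  (`F k` for `k ≥ κ` := 0; `hopf` applied with `x = y.1`, note `nF (fun i y => f i y.1) ρ k y =
  nF f ρ k y.1`).
* `Bs = blks κ χ' crd ss h`, good blocks; `T x κs = TW (coords κ crd ss) (W x) κs`.
  `hloc`: for `l ∈ SY SX`, `y, y' ∈ l`, `AllowedL Bs l κs`: by `TW_congr` it suffices that
  `W y.1 (onS cs S) = W y'.1 (onS cs S)` for the vertices `S` of `κs`: `allowed_vertex` and `hW`.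
  `exists_Phi` gives `Φ`; `transfer` gives `Ψ`.
* `𝒢` = finitely many open balls of radius `δ/2` covering `X`; `𝒢`-small tuples are in `SX`.
  Boundary and augmentation conditions: `bd_eq_extend`, `extend_boundary`, `aug_eq_sum`.
* Let `x ∈ SX`, `x ≠ []`, `s ∈ (Ψ x).support`: there is `L ∈ SY SX` with vertices over `x`,
  `η_c (L.take (2p+1)) ≠ 0`, `s ∈ (Φ (L.drop (2p))).support`; let `L' = L.drop (2p)`,
  `L'.length = x.length > 0`. So there are `y ∈ L'` and `κs` with `AllowedL Bs L' κs`,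
  `ecount κs + 1 = x.length`, `s ∈ (TW … (W y.1) κs).support`. By `TW_support`
  `s.length = x.length` and the entries of `s` are `W y.1 (onS cs S)`, `S` vertex of `κs`: in `𝒲` and
  contain all points of `x` (`hW` with `x := y.1`, `x' ∈ x`; `allowed_vertex`).
  If `x.length > D + 1`, i.e. `ecount κs > D`: for all `m` some vertex of `L` has `‖A' m‖ < d`, so at
  the vertex `y` `‖A' m y‖ < d + η < c` (`‖A' m y‖ ≤ ‖A' m y'‖ + η` by `qp_close` and `‖ph‖ = 1`), hence
  by `mds_compact` there is a set `good` of at least `a+1` groups `γ` with some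
  `c ≤ ‖F' γ k e y‖`; then `‖F' γ k e y'‖ ≥ c - η ≥ c'` at all vertices `y'` of `L'`, so by `exists_h`
  `tau … l' = dl (h γ) l'` for all sublists `l'` of `L'`; and `y.1 ∈ actv γ` by `hact1`.
  `allowed_count` with `P γ = (y.1 ∈ actv γ)` and `hD` give `ecount κs + (a+1) ≤ D + a + 1`,
  contradiction. So `Ψ x = 0`.
-/

open Set

namespace Vale.Agent.P093.Hom

/-! ### auxiliary facts -/

/-- nested radii commute with pull back -/
theorem st_nF {Y Z : Type*} (π : Y → Z) (g : ℕ → Z → ℝ) (ρ : ℕ → ℝ) (k : ℕ) (y : Y) :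
    nF (fun i y => g i (π y)) ρ k y = nF g ρ k (π y) := by
  induction k with
  | zero => rfl
  | succ k ih =>
    change rad (nF (fun i y => g i (π y)) ρ k) (fun y => g (2 * k + 1) (π y))
        (fun y => g (2 * k + 2) (π y)) y - ρ k =
      rad (nF g ρ k) (g (2 * k + 1)) (g (2 * k + 2)) (π y) - ρ k
    unfold rad
    rw [ih]

/-- a common threshold for finitely many conditions -/
theorem st_unif {ι : Type*} [Finite ι] (P : ι → ℝ → ℕ → Prop)
    (hP : ∀ i, ∃ δ > 0, ∃ n, P i δ n)
    (mono : ∀ i δ δ' n n', δ' ≤ δ → n ≤ n' → P i δ n → P i δ' n') :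
    ∃ δ > 0, ∃ n, ∀ i, P i δ n := by
  have := Fintype.ofFinite ι
  choose δ hδ n hn using hP
  rcases isEmpty_or_nonempty ι with h | h
  · exact ⟨1, one_pos, 0, fun i => h.elim i⟩
  · obtain ⟨i₀, -, h0⟩ := Finset.exists_min_image Finset.univ δ Finset.univ_nonempty
    refine ⟨δ i₀, hδ i₀, Finset.univ.sup n, fun i => ?_⟩
    exact mono i _ _ _ _ (h0 i (Finset.mem_univ i)) (Finset.le_sup (Finset.mem_univ i)) (hn i)

/-- uniform continuity of finitely many functions -/
theorem st_chi {X C : Type*} [MetricSpace X] [CompactSpace X] (χ : C → X → ℝ)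
    (hχ : ∀ c, Continuous (χ c)) (cs : List C) {η : ℝ} (hη : 0 < η) :
    ∃ δ > 0, ∀ c ∈ cs, ∀ x x', dist x x' < δ → |χ c x - χ c x'| ≤ η := by
  induction cs with
  | nil => exact ⟨1, one_pos, fun c hc => by simp at hc⟩
  | cons c cs ih =>
    obtain ⟨δ, hδ, h1⟩ := ih
    have hu := CompactSpace.uniformContinuous_of_continuous (hχ c)
    rw [Metric.uniformContinuous_iff] at hu
    obtain ⟨δ', hδ', h2⟩ := hu η hη
    refine ⟨min δ δ', lt_min hδ hδ', fun c' hc' x x' hx => ?_⟩
    rcases List.mem_cons.1 hc' with rfl | hc'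
    · have := h2 (hx.trans_le (min_le_right _ _))
      rw [Real.dist_eq] at this
      exact this.le
    · exact h1 c' hc' x x' (hx.trans_le (min_le_left _ _))

theorem st_rho_pos (l : ℕ) : 0 < rho l := by unfold rho; positivity

theorem st_rho_anti {l k : ℕ} (h : l ≤ k) : rho k ≤ rho l := by
  unfold rho
  exact div_le_div_of_nonneg_left (by norm_num) (by positivity)
    (pow_le_pow_right₀ (by norm_num) h)

/-- choice of the small constant -/
theorem st_eta (κ : ℕ) {c : ℝ} (hc : 0 < c) : ∃ η : ℝ, 0 < η ∧ η ≤ 1 / 16 ∧ η ≤ c / 2 / 100 ∧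
    (∀ l < κ, 2000 * (2 * κ + 1) * η ≤ rho l) ∧ 2000 * (2 * κ + 1) * η ≤ c / 2 := by
  have hK : (0 : ℝ) < 2000 * (2 * κ + 1) := by positivity
  have hr := st_rho_pos κ
  refine ⟨min (1 / 16) (min (c / 2 / 100) (min (rho κ) (c / 2) / (2000 * (2 * κ + 1)))),
    ?_, min_le_left _ _, ?_, ?_, ?_⟩
  · refine lt_min (by norm_num) (lt_min (by positivity) (div_pos (lt_min hr (by positivity)) hK))
  · exact (min_le_right _ _).trans (min_le_left _ _)
  · intro l hl
    have h1 : min (1 / 16 : ℝ) (min (c / 2 / 100) (min (rho κ) (c / 2) / (2000 * (2 * κ + 1)))) ≤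
        min (rho κ) (c / 2) / (2000 * (2 * κ + 1)) := (min_le_right _ _).trans (min_le_right _ _)
    rw [le_div_iff₀ hK] at h1
    have h2 := st_rho_anti hl.le
    have h3 := min_le_left (rho κ) (c / 2)
    linarith
  · have h1 : min (1 / 16 : ℝ) (min (c / 2 / 100) (min (rho κ) (c / 2) / (2000 * (2 * κ + 1)))) ≤
        min (rho κ) (c / 2) / (2000 * (2 * κ + 1)) := (min_le_right _ _).trans (min_le_right _ _)
    rw [le_div_iff₀ hK] at h1
    have h3 := min_le_right (rho κ) (c / 2)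
    linarith

/-- `δ`-small tuples -/
def stSX {X : Type*} [MetricSpace X] (δ : ℝ) : Set (List X) :=
  {l | ∀ x ∈ l, ∀ x' ∈ l, dist x x' < δ}

theorem st_full {X : Type*} [MetricSpace X] (δ : ℝ) : Full (stSX (X := X) δ) :=
  fun _ hl _ hl' x hx x' hx' => hl x (hl' x hx) x' (hl' x' hx')

theorem st_SY_dist {X : Type*} [MetricSpace X] {p ℓ : ℕ} {δ : ℝ} {l : List (YY X p ℓ)}
    (hl : l ∈ SY (stSX δ)) {y y' : YY X p ℓ} (hy : y ∈ l) (hy' : y' ∈ l) :
    dist y.1 y'.1 < δ :=
  hl.1 _ (List.mem_map.2 ⟨y, hy, rfl⟩) _ (List.mem_map.2 ⟨y', hy', rfl⟩)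

/-- pairs of vertices of a small tuple -/
theorem st_pair {X : Type*} [MetricSpace X] {p ℓ : ℕ} {δ : ℝ} {l : List (YY X p ℓ)}
    (hl : l ∈ SY (stSX δ)) {y y' : YY X p ℓ} (hy : y ∈ l) (hy' : y' ∈ l) :
    [y, y'] ∈ SY (stSX δ) := by
  refine eta_SY_full (st_full δ) l hl _ fun z hz => ?_
  rcases List.mem_cons.1 hz with rfl | hz
  · exact hy
  · rw [List.mem_singleton] at hz
    rw [hz]
    exact hy'

/-- `‖v‖` varies little if `v` is quasi-periodic -/
theorem st_norm {v₀ v₁ : ℂ} {t η : ℝ} (h : ‖v₁ * ph t - v₀‖ ≤ η) :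
    ‖v₁‖ ≤ ‖v₀‖ + η ∧ ‖v₀‖ ≤ ‖v₁‖ + η := by
  have h1 : ‖v₁ * ph t‖ = ‖v₁‖ := by rw [norm_mul, gc_norm_ph, mul_one]
  have h2 := norm_sub_norm_le (v₁ * ph t) v₀
  have h3 := norm_sub_norm_le v₀ (v₁ * ph t)
  rw [norm_sub_rev] at h3
  rw [h1] at h2 h3
  constructor <;> linarith

theorem st_blks_good {Y C : Type*} {m κ : ℕ} (hκ : 1 ≤ κ) (χ : C → Y → ℝ) (crd : Fin m → ℕ → C)
    (ss : List C) (h : Fin m → List Y → ℤ) (hh : ∀ γ l, h γ l ≠ 0 → l.length = 2 * κ + 1) :
    ∀ B ∈ blks κ χ crd ss h, B.Good := by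
  intro B hB
  rcases List.mem_append.1 hB with hB | hB
  · obtain ⟨γ, -, rfl⟩ := List.mem_map.1 hB
    intro l hl
    have h1 := hh γ l hl
    refine ⟨?_, by omega⟩
    rw [h1]
    simp [gvs]
  · obtain ⟨c, -, rfl⟩ := List.mem_map.1 hB
    intro l hl
    exact absurd rfl hl

theorem st_Hv_congr {Y : Type*} {f : Y → ℝ} {y y' : Y} (h : f y = f y') : Hv f y = Hv f y' := by
  unfold Hv
  rw [h]

theorem st_blks_inv {Y C : Type*} {m κ : ℕ} (χ : C → Y → ℝ) (crd : Fin m → ℕ → C)
    (ss : List C) (h : Fin m → List Y → ℤ) (a : Y → Y) (ha : ∀ c y, χ c (a y) = χ c y)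
    (hh : ∀ γ l, h γ (l.map a) = h γ l) :
    ∀ B ∈ blks κ χ crd ss h, (∀ v ∈ B.vs, ∀ y, v (a y) = v y) ∧ ∀ l, B.h (l.map a) = B.h l := by
  intro B hB
  rcases List.mem_append.1 hB with hB | hB
  · obtain ⟨γ, -, rfl⟩ := List.mem_map.1 hB
    refine ⟨fun v hv y => ?_, hh γ⟩
    obtain ⟨k, -, rfl⟩ := List.mem_map.1 hv
    refine st_Hv_congr ?_
    change χ (crd γ k) (a y) - 1 / 2 = χ (crd γ k) y - 1 / 2
    rw [ha]
  · obtain ⟨c, -, rfl⟩ := List.mem_map.1 hB
    refine ⟨fun v hv y => ?_, fun l => rfl⟩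
    rw [List.mem_singleton] at hv
    subst hv
    refine st_Hv_congr ?_
    change χ c (a y) - 1 / 2 = χ c y - 1 / 2
    rw [ha]

theorem st_mem_coords {C : Type*} {m κ : ℕ} (crd : Fin m → ℕ → C) (ss : List C) (γ : Fin m) {k : ℕ}
    (hk : k ≤ 2 * κ) : crd γ k ∈ coords κ crd ss := by
  refine List.mem_append_left _ (List.mem_flatMap.2 ⟨γ, List.mem_finRange γ, ?_⟩)
  exact List.mem_map.2 ⟨k, List.mem_range.2 (by omega), rfl⟩

/-- the components of a group on the product with the grid -/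
noncomputable def stF {X : Type*} {κ p ℓ : ℕ} (F : Fin κ → Fin 2 → X → (Fin p → Fin 2 → ℂ) → ℂ)
    (k : ℕ) (e : Fin 2) (y : YY X p ℓ) : ℂ := if h : k < κ then F ⟨k, h⟩ e y.1 (qq y) else 0

theorem stF_lt {X : Type*} {κ p ℓ : ℕ} (F : Fin κ → Fin 2 → X → (Fin p → Fin 2 → ℂ) → ℂ)
    {k : ℕ} (hk : k < κ) (e : Fin 2) (y : YY X p ℓ) : stF F k e y = F ⟨k, hk⟩ e y.1 (qq y) :=
  dif_pos hk

theorem st_qq_act {X : Type*} {p ℓ : ℕ} (G : X → (Fin p → Fin 2 → ℂ) → ℂ)
    (sym : ∀ x (σ : Equiv.Perm (Fin p)) q, G x (fun j => q (σ j)) = G x q)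
    (σ : Equiv.Perm (Fin p)) (y : YY X p ℓ) : G (act σ y).1 (qq (act σ y)) = G y.1 (qq y) :=
  sym y.1 σ (qq y)

/-- the modifications `h` for all groups -/
theorem st_h {X : Type*} [MetricSpace X] {C : Type*} {κ m p ℓ : ℕ} (hκ : 1 ≤ κ) (hℓ : 3 ≤ ℓ)
    (hp : (p : ℝ) / ℓ ≤ 1 / 32) (χ : C → X → ℝ) (crd : Fin m → ℕ → C) (ss : List C)
    (F : Fin m → Fin κ → Fin 2 → X → (Fin p → Fin 2 → ℂ) → ℂ)
    (sym : ∀ γ k e x (σ : Equiv.Perm (Fin p)) q, F γ k e x (fun j => q (σ j)) = F γ k e x q)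
    (hopf : ∀ γ (k : Fin κ) x q,
      rho k / 2 ≤ rad (nF (fun i x => χ (crd γ i) x - 1 / 2) rho k)
        (fun x => χ (crd γ (2 * k + 1)) x - 1 / 2) (fun x => χ (crd γ (2 * k + 2)) x - 1 / 2) x →
      HopfRel (nF (fun i x => χ (crd γ i) x - 1 / 2) rho k x)
        (χ (crd γ (2 * k + 1)) x - 1 / 2) (χ (crd γ (2 * k + 2)) x - 1 / 2)
        (F γ k 0 x q) (F γ k 1 x q))
    {δ η c : ℝ} (hη : 0 < η) (hηρ : ∀ l < κ, 2000 * (2 * κ + 1) * η ≤ rho l)
    (hηc : 2000 * (2 * κ + 1) * η ≤ c)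
    (hχδ : ∀ c ∈ coords κ crd ss, ∀ x x', dist x x' < δ → |χ c x - χ c x'| ≤ η)
    (hFδ : ∀ γ k e (y₀ y₁ : YY X p ℓ), dist y₀.1 y₁.1 < δ → GridSmall [y₀, y₁] →
      ‖F γ k e y₁.1 (qq y₁) * ph (thc y₀ y₁) - F γ k e y₀.1 (qq y₀)‖ ≤ η) (γ : Fin m) :
    ∃ h : List (YY X p ℓ) → ℤ, (∀ l, h l ≠ 0 → l.length = 2 * κ + 1) ∧
      (∀ l ∈ SY (stSX δ), h l ≠ 0 → ∀ y ∈ l, ∀ k ≤ 2 * κ, |χ (crd γ k) y.1 - 1 / 2| ≤ 1 / 8) ∧
      (∀ l ∈ SY (stSX δ), (∀ y ∈ l, ∃ k e, c ≤ ‖F γ k e y.1 (qq y)‖) →
        ∀ l', l'.Sublist l → tau (gvs (fun k y => χ (crd γ k) y.1 - 1 / 2) κ) l' = dl h l') ∧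
      ∀ (σ : Equiv.Perm (Fin p)) l, h (l.map (act σ)) = h l := by
  have hv : ∀ k ≤ 2 * κ, Vary (SY (p := p) (ℓ := ℓ) (stSX δ))
      (fun y : YY X p ℓ => χ (crd γ k) y.1 - 1 / 2) η := by
    intro k hk l hl y hy y' hy'
    change |χ (crd γ k) y.1 - 1 / 2 - (χ (crd γ k) y'.1 - 1 / 2)| ≤ η
    rw [sub_sub_sub_cancel_right]
    exact hχδ _ (st_mem_coords crd ss γ hk) _ _ (st_SY_dist hl hy hy')
  have hF1 : ∀ k < κ, ∀ e (y₀ y₁ : YY X p ℓ), [y₀, y₁] ∈ SY (p := p) (ℓ := ℓ) (stSX δ) →
      ‖stF (F γ) k e y₁ * ph (thc y₀ y₁) - stF (F γ) k e y₀‖ ≤ η := by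
    intro k hk e y₀ y₁ h01
    rw [stF_lt (F γ) hk, stF_lt (F γ) hk]
    exact hFδ γ ⟨k, hk⟩ e y₀ y₁ (st_SY_dist h01 (by simp) (by simp)) h01.2
  have hho : ∀ k < κ, ∀ y : YY X p ℓ,
      rho k / 2 ≤ rad (nF (fun k (y : YY X p ℓ) => χ (crd γ k) y.1 - 1 / 2) rho k)
        (fun y => χ (crd γ (2 * k + 1)) y.1 - 1 / 2) (fun y => χ (crd γ (2 * k + 2)) y.1 - 1 / 2) y →
      HopfRel (nF (fun k (y : YY X p ℓ) => χ (crd γ k) y.1 - 1 / 2) rho k y)
        (χ (crd γ (2 * k + 1)) y.1 - 1 / 2) (χ (crd γ (2 * k + 2)) y.1 - 1 / 2)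
        (stF (F γ) k 0 y) (stF (F γ) k 1 y) := by
    intro k hk y hy
    rw [stF_lt (F γ) hk, stF_lt (F γ) hk, st_nF Prod.fst (fun i x => χ (crd γ i) x - 1 / 2)]
    refine hopf γ ⟨k, hk⟩ y.1 (qq y) ?_
    refine hy.trans (le_of_eq ?_)
    unfold rad
    rw [st_nF Prod.fst (fun i x => χ (crd γ i) x - 1 / 2)]
  have hFs : ∀ k < κ, ∀ e (σ : Equiv.Perm (Fin p)) (y : YY X p ℓ),
      stF (F γ) k e (act σ y) = stF (F γ) k e y := by
    intro k hk e σ y
    rw [stF_lt (F γ) hk, stF_lt (F γ) hk]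
    exact st_qq_act (F γ ⟨k, hk⟩ e) (fun x σ q => sym γ ⟨k, hk⟩ e x σ q) σ y
  obtain ⟨h, h1, h2, h3, h4⟩ := exists_h (X := X) (p := p) (ℓ := ℓ) (κ := κ) hκ hℓ hp
    (st_full δ) (fun k y => χ (crd γ k) y.1 - 1 / 2) hη hηρ hηc hv (stF (F γ)) hF1 hho
    (fun _ _ _ _ => rfl) hFs
  refine ⟨h, h1, h2, fun l hl hy => h3 l hl fun y hyl => ?_, h4⟩
  obtain ⟨k, e, hk⟩ := hy y hyl
  refine ⟨k, k.2, e, ?_⟩
  rw [stF_lt (F γ) k.2]
  exact hk

/-- the combination number `i` of the components `(k, e)` of the groups -/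
noncomputable def stA {X : Type*} {κ m p : ℕ}
    (F : Fin m → Fin κ → Fin 2 → X → (Fin p → Fin 2 → ℂ) → ℂ) (i : ℕ) (k : Fin κ) (e : Fin 2)
    (x : X) (q : Fin p → Fin 2 → ℂ) : ℂ := ∑ γ : Fin m, ((γ : ℕ) : ℂ) ^ i * F γ k e x q

open scoped Classical in
/-- the static theorem once all constants have been chosen -/
theorem st_core {X : Type*} [MetricSpace X] {C : Type*} {κ a m p ℓ : ℕ} (hκ : 1 ≤ κ) (hℓ : 3 ≤ ℓ)
    (hp : (p : ℝ) / ℓ ≤ 1 / 32) (χ : C → X → ℝ) (crd : Fin m → ℕ → C) (ss : List C)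
    (F : Fin m → Fin κ → Fin 2 → X → (Fin p → Fin 2 → ℂ) → ℂ)
    (sym : ∀ γ k e x (σ : Equiv.Perm (Fin p)) q, F γ k e x (fun j => q (σ j)) = F γ k e x q)
    (hopf : ∀ γ (k : Fin κ) x q,
      rho k / 2 ≤ rad (nF (fun i x => χ (crd γ i) x - 1 / 2) rho k)
        (fun x => χ (crd γ (2 * k + 1)) x - 1 / 2) (fun x => χ (crd γ (2 * k + 2)) x - 1 / 2) x →
      HopfRel (nF (fun i x => χ (crd γ i) x - 1 / 2) rho k x)
        (χ (crd γ (2 * k + 1)) x - 1 / 2) (χ (crd γ (2 * k + 2)) x - 1 / 2)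
        (F γ k 0 x q) (F γ k 1 x q))
    (actv : Fin m → Set X) (hact1 : ∀ γ k e x q, F γ k e x q ≠ 0 → x ∈ actv γ)
    (hact2 : ∀ γ x, x ∉ actv γ → ∀ i ≤ 2 * κ, χ (crd γ i) x ≤ 1 / 8)
    (𝒲 : Set (Set X)) (W : X → Set C → Set X) {δ₁ : ℝ}
    (hW : ∀ x x', dist x x' < δ₁ → ∀ A : Set C,
      (∀ c ∈ A, c ∈ coords κ crd ss ∧ 1 / 8 < χ c x) →
      (∀ c ∈ coords κ crd ss, 7 / 8 < χ c x → c ∈ A) → W x A ∈ 𝒲 ∧ x' ∈ W x A ∧ W x' A = W x A)
    {D : ℕ} (hD : ∀ x, (2 * κ + 1) * (Finset.univ.filter fun γ => x ∈ actv γ).card +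
      (ss.filter fun c => 1 / 8 < χ c x ∧ χ c x < 7 / 8).length ≤ D + a + 1)
    (e₀ : Fin p ≃ Fin a × Fin κ × Fin 2) {δ η c : ℝ} (hδ : δ ≤ δ₁) (hc : 0 < c) (hη : 0 < η)
    (hη1 : η ≤ 1 / 16) (hη2 : η ≤ c / 2 / 100)
    (hηρ : ∀ l < κ, 2000 * (2 * κ + 1) * η ≤ rho l) (hηc : 2000 * (2 * κ + 1) * η ≤ c / 2)
    (hmds : ∀ x (q : Fin p → Fin 2 → ℂ),
      (∀ j, ∃ u ∈ Set.Icc (0 : ℝ) 1, ∃ w ∈ Set.Icc (0 : ℝ) 1, q j = ktf u w) →
      (∀ (i : Fin a) k e, ‖stA F i k e x q‖ < c) →
      a + 1 ≤ (Finset.univ.filter fun γ => ∃ k e, c ≤ ‖F γ k e x q‖).card)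
    (hχδ : ∀ c ∈ coords κ crd ss, ∀ x x', dist x x' < δ → |χ c x - χ c x'| ≤ η)
    (hFδ : ∀ γ k e (y₀ y₁ : YY X p ℓ), dist y₀.1 y₁.1 < δ → GridSmall [y₀, y₁] →
      ‖F γ k e y₁.1 (qq y₁) * ph (thc y₀ y₁) - F γ k e y₀.1 (qq y₀)‖ ≤ η)
    (hAδ : ∀ (i : Fin a) k e (y₀ y₁ : YY X p ℓ), dist y₀.1 y₁.1 < δ → GridSmall [y₀, y₁] →
      ‖stA F i k e y₁.1 (qq y₁) * ph (thc y₀ y₁) - stA F i k e y₀.1 (qq y₀)‖ ≤ η) :
    ∃ Ψ : List X → OChain (Set X), Ψ [] = 0 ∧ (∀ l ∈ stSX δ, bd (Ψ l) = dl Ψ l) ∧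
      (∀ x, [x] ∈ stSX δ → aug (Ψ [x]) = 1) ∧
      (∀ l ∈ stSX δ, ∀ s ∈ (Ψ l).support, s.length = l.length ∧
        ∀ V ∈ s, V ∈ 𝒲 ∧ ∀ x ∈ l, x ∈ V) ∧
      ∀ l ∈ stSX δ, D + 1 < l.length → Ψ l = 0 := by
  have : NeZero ℓ := ⟨by omega⟩
  have hfull := st_full (X := X) δ
  have hfullY := eta_SY_full (p := p) (ℓ := ℓ) hfull
  -- the cocycle
  obtain ⟨ηc, e1, e2, e3, e4, e5⟩ := exists_eta (X := X) (p := p) (ℓ := ℓ) hℓ
    (hp.trans (by norm_num)) hfull
    (fun j y => stA F (e₀ j).1 (e₀ j).2.1 (e₀ j).2.2 y.1 (qq y)) (d := c / 2) (by positivity)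
    (fun j y₀ y₁ h01 => (hAδ _ _ _ y₀ y₁ (st_SY_dist h01 (by simp) (by simp)) h01.2).trans hη2)
    (fun j σ y => by
      refine st_qq_act (stA F (e₀ j).1 (e₀ j).2.1 (e₀ j).2.2) (fun x σ q => ?_) σ y
      unfold stA
      exact Finset.sum_congr rfl fun γ _ => by rw [sym])
  -- the modifications
  choose h h1 h2 h3 h4 using st_h (δ := δ) (η := η) (c := c / 2) hκ hℓ hp χ crd ss F sym hopf hη hηρ
    hηc hχδ hFδ
  have hvar : ∀ l ∈ SY (p := p) (ℓ := ℓ) (stSX δ), ∀ c ∈ coords κ crd ss, ∀ y ∈ l, ∀ y' ∈ l,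
      |χ c y.1 - χ c y'.1| ≤ 1 / 8 := fun l hl c hc y hy y' hy' =>
    (hχδ c hc _ _ (st_SY_dist hl hy hy')).trans (by linarith)
  have hh : ∀ l ∈ SY (p := p) (ℓ := ℓ) (stSX δ), ∀ γ l', l'.Sublist l → h γ l' ≠ 0 → l' ≠ [] ∧
      ∀ y ∈ l', ∀ k ≤ 2 * κ, |χ (crd γ k) y.1 - 1 / 2| ≤ 1 / 8 := by
    intro l hl γ l' hl' hne
    refine ⟨fun h0 => ?_, h2 γ l' (hfullY l hl l' fun y hy => hl'.subset hy) hne⟩
    have := h1 γ l' hne
    rw [h0] at this
    simp at this
  have hWl : ∀ l ∈ SY (p := p) (ℓ := ℓ) (stSX δ), ∀ κs, 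
      AllowedL (blks κ (fun c (y : YY X p ℓ) => χ c y.1) crd ss h) l κs → ∀ y ∈ l, ∀ S,
      VertexOf S κs → ∀ x', dist y.1 x' < δ₁ → W y.1 (onS (coords κ crd ss) S) ∈ 𝒲 ∧
        x' ∈ W y.1 (onS (coords κ crd ss) S) ∧
        W x' (onS (coords κ crd ss) S) = W y.1 (onS (coords κ crd ss) S) := by
    intro l hl κs hκs y hy S hS x' hx'
    obtain ⟨a1, a2⟩ := allowed_vertex (fun c (y : YY X p ℓ) => χ c y.1) crd ss h l (hvar l hl)
      (hh l hl) hκs hS hy
    exact hW y.1 x' hx' _ a1 a2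
  -- the chain map on the product
  obtain ⟨Φ, f1, f2, f3, f4, f5⟩ := exists_Phi (X := X) (V := Set X) (p := p) (ℓ := ℓ)
    (blks κ (fun c (y : YY X p ℓ) => χ c y.1) crd ss h)
    (st_blks_good hκ _ crd ss h h1)
    (fun x κs => TW (coords κ crd ss) (W x) κs) (fun x κs => TW_bd _ _ _)
    (fun x κs hκs => TW_aug _ _ _ hκs) hfull
    (fun l hl y hy y' hy' κs hκs => TW_congr _ _ _ _ fun S hS =>
      ((hWl l hl κs hκs y hy S hS y'.1 ((st_SY_dist hl hy hy').trans_le hδ)).2.2).symm)
    (fun σ => st_blks_inv _ crd ss h (act σ) (fun _ _ => rfl) fun γ l => h4 γ σ l)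
  obtain ⟨Ψ, g1, g2, g3, g4⟩ := transfer (X := X) (V := Set X) (p := p) (ℓ := ℓ) hℓ hfull ηc Φ
    e1 e2 e3 e4 f1 f2 f3 f4
  refine ⟨Ψ, g1, g2, g3, fun l hl s hs => ?_, fun l hl hlen => ?_⟩
  · obtain ⟨L, hL, hLl, hLlen, -, hLs⟩ := g4 l hl s hs
    have hL' : L.drop (2 * p) ∈ SY (p := p) (ℓ := ℓ) (stSX δ) :=
      hfullY L hL _ fun y hy => List.mem_of_mem_drop hy
    obtain ⟨y, hy, κs, hκs, hec, hs'⟩ := f5 _ hL' s hLs
    obtain ⟨b1, b2⟩ := TW_support _ _ _ _ hs'
    have hyl : y.1 ∈ l := hLl y (List.mem_of_mem_drop hy)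
    refine ⟨?_, fun V hV => ?_⟩
    · rw [b1, hec, List.length_drop, hLlen]
      omega
    · obtain ⟨S, hS, rfl⟩ := b2 V hV
      refine ⟨(hWl _ hL' κs hκs y hy S hS y.1 ?_).1, fun x hx =>
        (hWl _ hL' κs hκs y hy S hS x ?_).2.1⟩
      · exact (hl y.1 hyl y.1 hyl).trans_le hδ
      · exact (hl y.1 hyl x hx).trans_le hδ
  · by_contra hne
    obtain ⟨s, hs⟩ := Finsupp.support_nonempty_iff.2 hne
    obtain ⟨L, hL, hLl, hLlen, hLη, hLs⟩ := g4 l hl s hs
    have hL' : L.drop (2 * p) ∈ SY (p := p) (ℓ := ℓ) (stSX δ) :=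
      hfullY L hL _ fun y hy => List.mem_of_mem_drop hy
    have hL'' : L.take (2 * p + 1) ∈ SY (p := p) (ℓ := ℓ) (stSX δ) :=
      hfullY L hL _ fun y hy => List.mem_of_mem_take hy
    obtain ⟨y, hy, κs, hκs, hec, hs'⟩ := f5 _ hL' s hLs
    have hyL : y ∈ L := List.mem_of_mem_drop hy
    have hgood := hmds y.1 (qq y) (qq_mem hℓ y) (fun i k e => by
      obtain ⟨y', hy', hy'd⟩ := e5 _ hL'' hLη (e₀.symm (i, k, e))
      rw [Equiv.apply_symm_apply] at hy'd
      have hy'L : y' ∈ L := List.mem_of_mem_take hy'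
      have h01 := st_pair hL hy'L hyL
      have := (st_norm (hAδ i k e y' y (st_SY_dist h01 (by simp) (by simp)) h01.2)).1
      change ‖stA F i k e y'.1 (qq y')‖ < c / 2 at hy'd
      linarith)
    have hcount := allowed_count (fun c (y : YY X p ℓ) => χ c y.1) crd ss h _ (hvar _ hL')
      (hh _ hL') hκs hy (fun γ => y.1 ∈ actv γ) (fun γ hγ => hact2 γ y.1 hγ)
      (Finset.univ.filter fun γ => ∃ k e, c ≤ ‖F γ k e y.1 (qq y)‖)
      (fun γ hγ => by
        obtain ⟨k, e, hke⟩ := (Finset.mem_filter.1 hγ).2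
        refine hact1 γ k e y.1 (qq y) fun h0 => ?_
        rw [h0, norm_zero] at hke
        linarith)
      (fun γ hγ => by
        obtain ⟨k, e, hke⟩ := (Finset.mem_filter.1 hγ).2
        refine h3 γ _ hL' fun y' hy' => ⟨k, e, ?_⟩
        have h01 := st_pair hL' hy' hy
        have := (st_norm (hFδ γ k e y' y (st_SY_dist h01 (by simp) (by simp)) h01.2)).1
        linarith)
    have hDy := hD y.1
    rw [List.length_drop, hLlen] at hec
    have hcount' := hcount.trans hDy
    omega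

open scoped Classical in
/-- **The static theorem.** -/
theorem static {X : Type*} [MetricSpace X] [CompactSpace X] {C : Type*} {κ a m : ℕ} (hκ : 1 ≤ κ)
    (χ : C → X → ℝ) (hχ : ∀ c, Continuous (χ c)) (crd : Fin m → ℕ → C) (ss : List C)
    (F : Fin m → Fin κ → Fin 2 → X → (Fin (2 * κ * a) → Fin 2 → ℂ) → ℂ)
    (hF : ∀ γ k e, Continuous fun z : X × (Fin (2 * κ * a) → Fin 2 → ℂ) => F γ k e z.1 z.2)
    (hom : ∀ γ k e x, MultiHom (F γ k e x))
    (sym : ∀ γ k e x (σ : Equiv.Perm (Fin (2 * κ * a))) q,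
      F γ k e x (fun j => q (σ j)) = F γ k e x q)
    (hne : ∀ x q, (∀ j, q j ≠ 0) → ∃ γ k e, F γ k e x q ≠ 0)
    (hopf : ∀ γ (k : Fin κ) x q,
      rho k / 2 ≤ rad (nF (fun i x => χ (crd γ i) x - 1 / 2) rho k)
        (fun x => χ (crd γ (2 * k + 1)) x - 1 / 2) (fun x => χ (crd γ (2 * k + 2)) x - 1 / 2) x →
      HopfRel (nF (fun i x => χ (crd γ i) x - 1 / 2) rho k x)
        (χ (crd γ (2 * k + 1)) x - 1 / 2) (χ (crd γ (2 * k + 2)) x - 1 / 2)
        (F γ k 0 x q) (F γ k 1 x q))
    (actv : Fin m → Set X) (hact1 : ∀ γ k e x q, F γ k e x q ≠ 0 → x ∈ actv γ)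
    (hact2 : ∀ γ x, x ∉ actv γ → ∀ i ≤ 2 * κ, χ (crd γ i) x ≤ 1 / 8)
    (𝒲 : Set (Set X)) (W : X → Set C → Set X) {δ₁ : ℝ} (hδ₁ : 0 < δ₁)
    (hW : ∀ x x', dist x x' < δ₁ → ∀ A : Set C,
      (∀ c ∈ A, c ∈ coords κ crd ss ∧ 1 / 8 < χ c x) →
      (∀ c ∈ coords κ crd ss, 7 / 8 < χ c x → c ∈ A) → W x A ∈ 𝒲 ∧ x' ∈ W x A ∧ W x' A = W x A)
    {D : ℕ} (hD : ∀ x, (2 * κ + 1) * (Finset.univ.filter fun γ => x ∈ actv γ).card +
      (ss.filter fun c => 1 / 8 < χ c x ∧ χ c x < 7 / 8).length ≤ D + a + 1) :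
    HomOrderLE 𝒲 D := by
  obtain ⟨e₀⟩ : Nonempty (Fin (2 * κ * a) ≃ Fin a × Fin κ × Fin 2) := by
    refine ⟨Fintype.equivOfCardEq ?_⟩
    simp only [Fintype.card_fin, Fintype.card_prod]
    ring
  obtain ⟨c, hc, hmds⟩ := mds_compact (a := a) F hF hne
  obtain ⟨η, hη, hη1, hη2, hηρ, hηc⟩ := st_eta κ hc
  obtain ⟨δ₂, hδ₂, hχδ⟩ := st_chi χ hχ (coords κ crd ss) hη
  obtain ⟨δ₃, hδ₃, n₃, hFδ⟩ := st_unif (ι := Fin m × Fin κ × Fin 2)
    (fun i δ n => ∀ ℓ ≥ n, ∀ y₀ y₁ : YY X (2 * κ * a) ℓ, dist y₀.1 y₁.1 < δ →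
      GridSmall [y₀, y₁] → ‖F i.1 i.2.1 i.2.2 y₁.1 (qq y₁) * ph (thc y₀ y₁) -
        F i.1 i.2.1 i.2.2 y₀.1 (qq y₀)‖ ≤ η)
    (fun i => qp_close _ (hF i.1 i.2.1 i.2.2) (hom i.1 i.2.1 i.2.2) hη)
    (fun i δ δ' n n' h1 h2 h3 ℓ hℓ y₀ y₁ hy => h3 ℓ (h2.trans hℓ) y₀ y₁ (hy.trans_le h1))
  obtain ⟨δ₄, hδ₄, n₄, hAδ⟩ := st_unif (ι := Fin a × Fin κ × Fin 2)
    (fun i δ n => ∀ ℓ ≥ n, ∀ y₀ y₁ : YY X (2 * κ * a) ℓ, dist y₀.1 y₁.1 < δ →
      GridSmall [y₀, y₁] → ‖stA F i.1 i.2.1 i.2.2 y₁.1 (qq y₁) * ph (thc y₀ y₁) -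
        stA F i.1 i.2.1 i.2.2 y₀.1 (qq y₀)‖ ≤ η)
    (fun i => qp_close _
      (by
        unfold stA
        exact continuous_finsetSum _ fun γ _ => continuous_const.mul (hF γ i.2.1 i.2.2))
      (fun x q cc => by
        unfold stA
        rw [Finset.mul_sum]
        refine Finset.sum_congr rfl fun γ _ => ?_
        rw [hom γ i.2.1 i.2.2 x q cc]
        ring) hη)
    (fun i δ δ' n n' h1 h2 h3 ℓ hℓ y₀ y₁ hy => h3 ℓ (h2.trans hℓ) y₀ y₁ (hy.trans_le h1))
  obtain ⟨δ, hδ0, hδ1, hδ2, hδ3, hδ4⟩ : ∃ δ : ℝ, 0 < δ ∧ δ ≤ δ₁ ∧ δ ≤ δ₂ ∧ δ ≤ δ₃ ∧ δ ≤ δ₄ :=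
    ⟨min (min δ₁ δ₂) (min δ₃ δ₄), lt_min (lt_min hδ₁ hδ₂) (lt_min hδ₃ hδ₄),
      (min_le_left _ _).trans (min_le_left _ _), (min_le_left _ _).trans (min_le_right _ _),
      (min_le_right _ _).trans (min_le_left _ _), (min_le_right _ _).trans (min_le_right _ _)⟩
  obtain ⟨ℓ, hℓ3, hℓn3, hℓn4, hℓp⟩ : ∃ ℓ : ℕ, 3 ≤ ℓ ∧ n₃ ≤ ℓ ∧ n₄ ≤ ℓ ∧ 32 * (2 * κ * a) ≤ ℓ :=
    ⟨3 + n₃ + n₄ + 32 * (2 * κ * a), by omega, by omega, by omega, by omega⟩
  have hp : ((2 * κ * a : ℕ) : ℝ) / ℓ ≤ 1 / 32 := by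
    have h0 : (0 : ℝ) < ℓ := by
      have : 0 < ℓ := by omega
      exact_mod_cast this
    rw [div_le_iff₀ h0]
    have : ((32 * (2 * κ * a) : ℕ) : ℝ) ≤ ℓ := by exact_mod_cast hℓp
    push_cast at this ⊢
    linarith
  obtain ⟨Ψ, g1, g2, g3, g4, g5⟩ := st_core (δ := δ) (η := η) (c := c) hκ hℓ3 hp χ crd ss F sym hopf
    actv hact1 hact2 𝒲 W hW hD e₀ hδ1 hc hη hη1 hη2 hηρ hηc hmds
    (fun c hc x x' hx => hχδ c hc x x' (hx.trans_le hδ2))
    (fun γ k e y₀ y₁ hy => hFδ (γ, k, e) ℓ hℓn3 y₀ y₁ (hy.trans_le hδ3))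
    (fun i k e y₀ y₁ hy => hAδ (i, k, e) ℓ hℓn4 y₀ y₁ (hy.trans_le hδ4))
  -- the cover
  obtain ⟨t, -, ht, htc⟩ := finite_cover_balls_of_compact (isCompact_univ (X := X))
    (half_pos hδ0)
  refine ⟨(fun x => Metric.ball x (δ / 2)) '' t, Ψ, ⟨ht.image _, ?_, ?_⟩, fun x hx hsmall => ?_⟩
  · rintro V ⟨x, -, rfl⟩
    exact Metric.isOpen_ball
  · rw [Set.sUnion_image]
    exact Set.univ_subset_iff.1 htc
  · have hxS : x ∈ stSX δ := by
      obtain ⟨G, ⟨z, -, rfl⟩, hG⟩ := hsmall
      intro y hy y' hy'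
      have h1 := hG y hy
      have h2 := hG y' hy'
      rw [Metric.mem_ball] at h1 h2
      have := dist_triangle_right y y' z
      linarith
    refine ⟨fun s hs => g4 x hxS s hs, ?_, fun hlen => ?_, fun hlen => g5 x hxS hlen⟩
    · rw [← bd_eq_extend, g2 x hxS, extend_boundary Ψ g1]
    · obtain ⟨z, rfl⟩ := List.length_eq_one_iff.1 hlen
      rw [← aug_eq_sum]
      exact g3 z hxS

end Vale.Agent.P093.Hom
end

section

/-!
TASK HOM-H1: colour functions of a finite open cover.

Proof. Let `n = coverDim 𝒰` (the infimum is attained: the set is nonempty since `𝒰` itself is a finite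
open refinement of finite order), `𝒱` a finite open refinement of order `≤ n`. Take a partition of unity
`(p_V)_{V ∈ 𝒱}`, `p_V > 0` only inside `V` (for instance `p_V = d(x, Vᶜ) / ∑`, with `d(x, ∅) = 1`).
For `c ≥ 0` and `S ⊆ 𝒱` with `c + 1` elements let
`q_S x = max 0 (min_{V ∈ S} p_V x - max_{V ∉ S} p_V x)` (`max` over the empty set `= 0`). For different `S, S'`
of the same cardinality `q_S x > 0` and `q_S' x > 0` is impossible. `ψ c = min 1 ((n+1)^2 max_S q_S)`
(`0` if there is no such `S`); `P c x` = a member of `𝒰` containing a `V ∈ S`, for the unique `S` with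
`q_S x > 0` (anything if there is none). If `ψ c x > 0` then `p_V x > 0` for all `V ∈ S`, so `x ∈ V`.
For every `x` there is `c ≤ n` with `ψ c x = 1`: sort the values `p_(0) ≥ p_(1) ≥ …`; at most `n+1` are
nonzero, `p_(0) ≥ 1/(n+1)`, so `∑_{c ≤ n} (p_(c) - p_(c+1)) = p_(0) ≥ 1/(n+1)` and one of the differences is
`≥ 1/(n+1)^2`; take `S` = the `c+1` largest.
Local constancy: on the compact set `{ψ c ≥ ε}` the index `S` is locally constant (the sets
`{q_S > 0}` are open and disjoint, and `{ψ c ≥ ε}` is covered by them); the sets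
`{x | ψ c x ≥ ε, q_S x > 0}` are closed, hence compact, and contained in the open set `{q_S > 0}`; so there
is `δ` with: `ε ≤ ψ c x`, `dist x x' < δ` imply `q_S x' > 0` for the same `S`.
-/

open Set

namespace Vale.Agent.P093.Hom

/-- a gap in the values of a partition of unity -/
private theorem hc_gap {ι : Type*} [Fintype ι] (n : ℕ) (p : ι → ℝ) (h0 : ∀ i, 0 ≤ p i)
    (hs : ∑ i, p i = 1) (hA : ((Finset.univ : Finset ι).filter fun i => 0 < p i).card ≤ n + 1) :
    ∃ S : Finset ι, S.Nonempty ∧ S.card ≤ n + 1 ∧ (∀ i ∈ S, 1 / ((n : ℝ) + 1) ^ 2 ≤ p i) ∧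
      ∀ i ∈ S, ∀ j ∉ S, 1 / ((n : ℝ) + 1) ^ 2 ≤ p i - p j := by
  classical
  have hne : (Finset.univ : Finset ι).Nonempty := by
    rw [Finset.univ_nonempty_iff]
    by_contra h
    rw [not_nonempty_iff] at h
    simp at hs
  obtain ⟨i0, _, hi0⟩ := Finset.exists_max_image Finset.univ p hne
  have hn : (0 : ℝ) < (n : ℝ) + 1 := by positivity
  set A := (Finset.univ : Finset ι).filter fun i => 0 < p i with hAdef
  have hsA : ∑ i ∈ A, p i = 1 := by
    rw [← hs]
    refine Finset.sum_subset (Finset.subset_univ _) fun i _ hi => ?_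
    by_contra h
    exact hi (Finset.mem_filter.2 ⟨Finset.mem_univ _, lt_of_le_of_ne (h0 i) (Ne.symm h)⟩)
  have hm : 1 ≤ ((n : ℝ) + 1) * p i0 := by
    have h1 : ∑ i ∈ A, p i ≤ ∑ _i ∈ A, p i0 :=
      Finset.sum_le_sum fun i _ => hi0 i (Finset.mem_univ _)
    rw [hsA, Finset.sum_const, nsmul_eq_mul] at h1
    have h2 : (A.card : ℝ) ≤ (n : ℝ) + 1 := by exact_mod_cast hA
    exact h1.trans (mul_le_mul_of_nonneg_right h2 (h0 i0))
  set δ : ℝ := p i0 / ((n : ℝ) + 1) with hδ
  have hδm : ((n : ℝ) + 1) * δ = p i0 := by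
    rw [hδ]
    field_simp
  have hδ1 : 1 / ((n : ℝ) + 1) ^ 2 ≤ δ := by
    rw [div_le_iff₀ (by positivity)]
    have h3 : δ * ((n : ℝ) + 1) ^ 2 = ((n : ℝ) + 1) * p i0 := by
      rw [← hδm]
      ring
    rw [h3]
    exact hm
  have hδ0 : 0 < δ := lt_of_lt_of_le (by positivity) hδ1
  have hi0A : i0 ∈ A := by
    refine Finset.mem_filter.2 ⟨Finset.mem_univ _, ?_⟩
    rw [← hδm]
    positivity
  obtain ⟨k, hk, hgap⟩ : ∃ k ≤ n, ∀ i, ¬ ((k : ℝ) * δ < p i ∧ p i < ((k : ℝ) + 1) * δ) := by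
    by_contra hcon
    push Not at hcon
    have hιne : Nonempty ι := ⟨i0⟩
    choose! f hf using hcon
    have h1 : (Finset.range (n + 1)).card ≤ (A.erase i0).card := by
      refine Finset.card_le_card_of_injOn f ?_ ?_
      · intro k hk
        have hk' : k ≤ n := by
          have := Finset.mem_range.1 hk
          omega
        obtain ⟨h2, h3⟩ := hf k hk'
        refine Finset.mem_erase.2 ⟨?_, Finset.mem_filter.2 ⟨Finset.mem_univ _, ?_⟩⟩
        · intro h4
          rw [h4, ← hδm] at h3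
          have h5 : ((k : ℝ) + 1) * δ ≤ ((n : ℝ) + 1) * δ := by
            refine mul_le_mul_of_nonneg_right ?_ hδ0.le
            have : (k : ℝ) ≤ n := by exact_mod_cast hk'
            linarith
          linarith
        · exact lt_of_le_of_lt (by positivity) h2
      · have key : ∀ k l : ℕ, k ≤ n → l ≤ n → k < l → f k ≠ f l := by
          intro k l hk hl hkl h
          obtain ⟨_, h3⟩ := hf k hk
          obtain ⟨h4, _⟩ := hf l hl
          rw [h] at h3
          have h5 : ((k : ℝ) + 1) * δ ≤ (l : ℝ) * δ := by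
            refine mul_le_mul_of_nonneg_right ?_ hδ0.le
            exact_mod_cast hkl
          linarith
        intro k hk l hl h
        have hk' : k ≤ n := by
          have := Finset.mem_range.1 hk
          omega
        have hl' : l ≤ n := by
          have := Finset.mem_range.1 hl
          omega
        rcases lt_trichotomy k l with h6 | h6 | h6
        · exact absurd h (key k l hk' hl' h6)
        · exact h6
        · exact absurd h.symm (key l k hl' hk' h6)
    rw [Finset.card_range, Finset.card_erase_of_mem hi0A] at h1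
    have h2 : 0 < A.card := Finset.card_pos.2 ⟨i0, hi0A⟩
    omega
  have hkn : ((k : ℝ) + 1) * δ ≤ p i0 := by
    rw [← hδm]
    refine mul_le_mul_of_nonneg_right ?_ hδ0.le
    have : (k : ℝ) ≤ n := by exact_mod_cast hk
    linarith
  have hk0 : (0 : ℝ) ≤ (k : ℝ) * δ := by positivity
  refine ⟨Finset.univ.filter fun i => ((k : ℝ) + 1) * δ ≤ p i,
    ⟨i0, Finset.mem_filter.2 ⟨Finset.mem_univ _, hkn⟩⟩, ?_, ?_, ?_⟩
  · refine (Finset.card_le_card fun i hi => ?_).trans hA
    have h1 := (Finset.mem_filter.1 hi).2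
    refine Finset.mem_filter.2 ⟨Finset.mem_univ _, ?_⟩
    linarith
  · intro i hi
    have h1 := (Finset.mem_filter.1 hi).2
    linarith
  · intro i hi j hj
    have h1 := (Finset.mem_filter.1 hi).2
    have h2 : p j < ((k : ℝ) + 1) * δ := by
      by_contra h
      exact hj (Finset.mem_filter.2 ⟨Finset.mem_univ _, not_lt.1 h⟩)
    have h3 : p j ≤ (k : ℝ) * δ := by
      by_contra h
      exact hgap j ⟨not_le.1 h, h2⟩
    linarith

theorem exists_colours {X : Type*} [MetricSpace X] [CompactSpace X] (𝒰 : Set (Set X))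
    (h𝒰 : IsFinOpenCover 𝒰) :
    ∃ (ψ : ℕ → C(X, ℝ)) (P : ℕ → X → Set X), (∀ c x, 0 ≤ ψ c x ∧ ψ c x ≤ 1) ∧
      (∀ x, ∃ c ≤ coverDim 𝒰, ψ c x = 1) ∧
      (∀ c x, 0 < ψ c x → P c x ∈ 𝒰 ∧ x ∈ P c x) ∧
      ∀ c, ∀ ε > 0, ∃ δ > 0, ∀ x x', dist x x' < δ → ε ≤ ψ c x → P c x' = P c x ∧ x' ∈ P c x := by
  classical
  rcases isEmpty_or_nonempty X with hX | hX
  · exact ⟨fun _ => 0, fun _ _ => ∅, fun _ x => isEmptyElim x, fun x => isEmptyElim x,
      fun _ x => isEmptyElim x, fun _ _ _ => ⟨1, one_pos, fun x => isEmptyElim x⟩⟩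
  -- a refinement of minimal order
  have hmem : coverDim 𝒰 ∈ {d : ℕ | ∃ 𝒱 : Set (Set X), IsFinOpenCover 𝒱 ∧
      (∀ V ∈ 𝒱, ∃ U ∈ 𝒰, V ⊆ U) ∧ ∀ S ⊆ 𝒱, (⋂₀ S).Nonempty → S.encard ≤ d + 1} := by
    refine Nat.sInf_mem ⟨𝒰.ncard, 𝒰, h𝒰, fun V hV => ⟨V, hV, Subset.rfl⟩, fun S hS _ => ?_⟩
    refine (Set.encard_le_encard hS).trans ?_
    rw [← h𝒰.1.cast_ncard_eq]
    exact le_self_add
  obtain ⟨𝒱, h𝒱, href, hord⟩ := hmem
  set n := coverDim 𝒰 with hn
  have : Finite 𝒱 := h𝒱.1.to_subtype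
  have : Fintype 𝒱 := Fintype.ofFinite 𝒱
  obtain ⟨f, hf⟩ := PartitionOfUnity.exists_isSubordinate_of_locallyFinite (s := (Set.univ : Set X))
    isClosed_univ (fun v : 𝒱 => (v : Set X)) (fun v => h𝒱.2.1 v v.2) (locallyFinite_of_finite _)
    (by
      intro x _
      have : x ∈ ⋃₀ 𝒱 := by rw [h𝒱.2.2]; trivial
      obtain ⟨v, hv, hxv⟩ := this
      exact Set.mem_iUnion.mpr ⟨⟨v, hv⟩, hxv⟩)
  have hsum : ∀ x, ∑ v, f v x = 1 := by
    intro x
    have := f.sum_eq_one (x := x) (Set.mem_univ x)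
    rwa [finsum_eq_sum_of_fintype] at this
  have hf0 : ∀ v x, 0 ≤ f v x := fun v x => f.nonneg v x
  have hfm : ∀ (i : 𝒱) x, 0 < f i x → x ∈ (i : Set X) := by
    intro i x h
    apply hf i
    apply subset_tsupport
    exact h.ne'
  have hcard : ∀ x, ((Finset.univ : Finset 𝒱).filter fun v => 0 < f v x).card ≤ n + 1 := by
    intro x
    have h1 := hord (Subtype.val '' (((Finset.univ : Finset 𝒱).filter fun v => 0 < f v x) : Set 𝒱))
      (by rintro V ⟨v, _, rfl⟩; exact v.2)
      ⟨x, by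
        rintro V ⟨v, hv, rfl⟩
        exact hfm v x (Finset.mem_filter.1 (Finset.mem_coe.1 hv)).2⟩
    rw [Subtype.val_injective.encard_image, Set.encard_coe_eq_coe_finsetCard] at h1
    exact_mod_cast h1
  have huniv : (Finset.univ : Finset 𝒱).Nonempty := by
    rw [Finset.univ_nonempty_iff]
    by_contra h
    rw [not_nonempty_iff] at h
    have := hsum hX.some
    simp at this
  -- the functions `q_S`
  let mS : Finset 𝒱 → X → ℝ := fun S x => Finset.univ.inf' huniv fun i => if i ∈ S then f i x else 1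
  let MS : Finset 𝒱 → X → ℝ := fun S x => Finset.univ.sup' huniv fun i => if i ∈ S then 0 else f i x
  let qS : Finset 𝒱 → X → ℝ := fun S x => max 0 (mS S x - MS S x)
  have hmc : ∀ S, Continuous (mS S) := by
    intro S
    refine Continuous.finset_inf'_apply huniv fun i _ => ?_
    by_cases h : i ∈ S
    · simp only [h, if_true]
      exact (f i).continuous
    · simp only [h, if_false]
      exact continuous_const
  have hMc : ∀ S, Continuous (MS S) := by
    intro S
    refine Continuous.finset_sup'_apply huniv fun i _ => ?_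
    by_cases h : i ∈ S
    · simp only [h, if_true]
      exact continuous_const
    · simp only [h, if_false]
      exact (f i).continuous
  have hqc : ∀ S, Continuous (qS S) := fun S => continuous_const.max ((hmc S).sub (hMc S))
  have hq0 : ∀ S x, 0 ≤ qS S x := fun S x => le_max_left _ _
  have hm1 : ∀ S x, ∀ i ∈ S, mS S x ≤ f i x := by
    intro S x i hi
    have h := Finset.inf'_le (fun i => if i ∈ S then f i x else 1) (Finset.mem_univ i)
    simp only [hi, if_true] at h
    exact h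
  have hM1 : ∀ S x, ∀ i ∉ S, f i x ≤ MS S x := by
    intro S x i hi
    have h := Finset.le_sup' (fun i => if i ∈ S then 0 else f i x) (Finset.mem_univ i)
    simp only [hi, if_false] at h
    exact h
  have hM0 : ∀ S x, 0 ≤ MS S x := by
    intro S x
    obtain ⟨i, _⟩ := huniv
    refine le_trans ?_ (Finset.le_sup' (fun i => if i ∈ S then 0 else f i x) (Finset.mem_univ i))
    split_ifs
    · exact le_rfl
    · exact hf0 i x
  have hqpos : ∀ S x, 0 < qS S x → MS S x < mS S x := by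
    intro S x h
    rcases lt_max_iff.1 h with h1 | h1
    · exact absurd h1 (lt_irrefl _)
    · linarith
  have hqi : ∀ S x, 0 < qS S x → ∀ i ∈ S, 0 < f i x := by
    intro S x h i hi
    have h1 := hqpos S x h
    have h2 := hm1 S x i hi
    have h3 := hM0 S x
    linarith
  -- uniqueness
  have huniq : ∀ S T x, S.card = T.card → 0 < qS S x → 0 < qS T x → S = T := by
    intro S T x hST hS hT
    by_contra hne
    have h1 : ∃ i ∈ S, i ∉ T := by
      by_contra hcon
      push Not at hcon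
      exact hne (Finset.eq_of_subset_of_card_le hcon hST.ge)
    have h2 : ∃ i ∈ T, i ∉ S := by
      by_contra hcon
      push Not at hcon
      exact hne (Finset.eq_of_subset_of_card_le hcon hST.le).symm
    obtain ⟨i, hiS, hiT⟩ := h1
    obtain ⟨j, hjT, hjS⟩ := h2
    have a1 := hqpos S x hS
    have a2 := hqpos T x hT
    have a3 := hm1 S x i hiS
    have a4 := hM1 S x j hjS
    have a5 := hm1 T x j hjT
    have a6 := hM1 T x i hiT
    linarith
  -- lower bound for `q_S`
  have hqlow : ∀ S x (r : ℝ), r ≤ 1 → (∀ i ∈ S, r ≤ f i x) →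
      (∀ i ∈ S, ∀ j ∉ S, r ≤ f i x - f j x) → S.Nonempty → r ≤ qS S x := by
    intro S x r hr1 h1 h2 hS
    refine le_trans ?_ (le_max_right _ _)
    obtain ⟨i, _, hi⟩ := Finset.exists_mem_eq_inf' huniv fun i => if i ∈ S then f i x else 1
    obtain ⟨j, _, hj⟩ := Finset.exists_mem_eq_sup' huniv fun i => if i ∈ S then 0 else f i x
    change r ≤ (Finset.univ.inf' huniv fun i => if i ∈ S then f i x else 1) -
      Finset.univ.sup' huniv fun i => if i ∈ S then 0 else f i x
    obtain ⟨s, hs⟩ := hS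
    have hmle := hm1 S x s hs
    change (Finset.univ.inf' huniv fun i => if i ∈ S then f i x else 1) ≤ f s x at hmle
    rw [hj]
    by_cases hjS : j ∈ S
    · rw [hi]
      simp only [hjS, if_true, sub_zero]
      split_ifs with hiS
      · exact h1 i hiS
      · exact hr1
    · simp only [hjS, if_false]
      rw [hi] at hmle ⊢
      by_cases hiS : i ∈ S
      · simp only [hiS, if_true]
        exact h2 i hiS j hjS
      · simp only [hiS, if_false] at hmle ⊢
        have h3 := h2 s hs j hjS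
        have h4 : f s x ≤ 1 := by
          rw [← hsum x]
          exact Finset.single_le_sum (f := fun v => f v x) (fun v _ => hf0 v x) (Finset.mem_univ s)
        linarith
  set K : ℝ := ((n : ℝ) + 1) ^ 2 with hK
  have hK0 : 0 < K := by positivity
  -- a member of the cover for every `S`
  have hUf : ∀ S : Finset 𝒱, ∃ U : Set X, S.Nonempty → U ∈ 𝒰 ∧ ∃ i ∈ S, (i : Set X) ⊆ U := by
    intro S
    by_cases hS : S.Nonempty
    · obtain ⟨i, hi⟩ := hS
      obtain ⟨U, hU, hiU⟩ := href i i.2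
      exact ⟨U, fun _ => ⟨hU, i, hi, hiU⟩⟩
    · exact ⟨∅, fun h => absurd h hS⟩
  choose Uf hUf using hUf
  let Q : ℕ → X → ℝ := fun c x => ∑ S ∈ Finset.powersetCard (c + 1) (Finset.univ : Finset 𝒱), qS S x
  have hQc : ∀ c, Continuous (Q c) := fun c => continuous_finsetSum _ fun S _ => hqc S
  have hQ0 : ∀ c x, 0 ≤ Q c x := fun c x => Finset.sum_nonneg fun S _ => hq0 S x
  let P : ℕ → X → Set X := fun c x =>
    if h : ∃ S : Finset 𝒱, S.card = c + 1 ∧ 0 < qS S x then Uf h.choose else ∅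
  have hP : ∀ c x (S : Finset 𝒱), S.card = c + 1 → 0 < qS S x → P c x = Uf S := by
    intro c x S hS hq
    have h : ∃ S : Finset 𝒱, S.card = c + 1 ∧ 0 < qS S x := ⟨S, hS, hq⟩
    have h1 := h.choose_spec
    have h2 : h.choose = S := huniq _ _ x (by rw [h1.1, hS]) h1.2 hq
    change (if h : ∃ S : Finset 𝒱, S.card = c + 1 ∧ 0 < qS S x then Uf h.choose else ∅) = Uf S
    rw [dif_pos h, h2]
  have hPx : ∀ x (S : Finset 𝒱), S.Nonempty → 0 < qS S x → Uf S ∈ 𝒰 ∧ x ∈ Uf S := by
    intro x S hS hq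
    obtain ⟨h1, i, hi, h2⟩ := hUf S hS
    exact ⟨h1, h2 (hfm i x (hqi S x hq i hi))⟩
  have hne : ∀ (c : ℕ) (S : Finset 𝒱), S.card = c + 1 → S.Nonempty := by
    intro c S hS
    rw [← Finset.card_pos, hS]
    omega
  -- `Q c x` is the value of one `q_S`
  have hQS : ∀ c x, 0 < Q c x → ∃ S : Finset 𝒱, S.card = c + 1 ∧ qS S x = Q c x := by
    intro c x h
    obtain ⟨S, hS, hS2⟩ : ∃ S ∈ Finset.powersetCard (c + 1) (Finset.univ : Finset 𝒱),
        0 < qS S x := by
      by_contra hcon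
      push Not at hcon
      have : Q c x ≤ 0 := Finset.sum_nonpos hcon
      linarith
    have hSc := (Finset.mem_powersetCard.1 hS).2
    refine ⟨S, hSc, ?_⟩
    symm
    refine Finset.sum_eq_single S (fun T hT hTS => ?_) fun h => absurd hS h
    have hTc := (Finset.mem_powersetCard.1 hT).2
    by_contra h3
    exact hTS (huniq T S x (by rw [hTc, hSc]) (lt_of_le_of_ne (hq0 T x) (Ne.symm h3)) hS2)
  refine ⟨fun c => ⟨fun x => min 1 (K * Q c x),
    continuous_const.min (continuous_const.mul (hQc c))⟩, P, ?_, ?_, ?_, ?_⟩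
  · intro c x
    exact ⟨le_min zero_le_one (mul_nonneg hK0.le (hQ0 c x)), min_le_left _ _⟩
  · intro x
    obtain ⟨S, hS, hSc, h1, h2⟩ := hc_gap n (fun v => f v x) (fun v => hf0 v x) (hsum x) (hcard x)
    have hS0 : 0 < S.card := Finset.card_pos.2 hS
    refine ⟨S.card - 1, by omega, ?_⟩
    change min 1 (K * Q (S.card - 1) x) = 1
    refine min_eq_left ?_
    have hr : 1 / ((n : ℝ) + 1) ^ 2 ≤ 1 := by
      rw [div_le_one (by positivity)]
      have : (1 : ℝ) ≤ (n : ℝ) + 1 := by
        have : (0 : ℝ) ≤ n := by positivity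
        linarith
      exact one_le_pow₀ this
    have h3 := hqlow S x _ hr h1 h2 hS
    have h4 : qS S x ≤ Q (S.card - 1) x := by
      refine Finset.single_le_sum (f := fun S => qS S x) (fun T _ => hq0 T x) ?_
      rw [Finset.mem_powersetCard]
      exact ⟨Finset.subset_univ _, by omega⟩
    have h5 : 1 / K ≤ Q (S.card - 1) x := h3.trans h4
    rw [div_le_iff₀ hK0] at h5
    linarith
  · intro c x h
    have h1 : 0 < K * Q c x := lt_of_lt_of_le h (min_le_right _ _)
    have h2 : 0 < Q c x := (mul_pos_iff_of_pos_left hK0).1 h1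
    obtain ⟨S, hS, hSq⟩ := hQS c x h2
    rw [← hSq] at h2
    rw [hP c x S hS h2]
    exact hPx x S (hne c S hS) h2
  · intro c ε hε
    let Φ : X → (Finset 𝒱 → ℝ) := fun x S => qS S x
    have hΦ : UniformContinuous Φ :=
      CompactSpace.uniformContinuous_of_continuous (continuous_pi fun S => hqc S)
    obtain ⟨δ, hδ, h⟩ := Metric.uniformContinuous_iff.1 hΦ (ε / K) (by positivity)
    refine ⟨δ, hδ, fun x x' hxx' hψ => ?_⟩
    have h1 : ε ≤ K * Q c x := le_trans hψ (min_le_right _ _)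
    have h2 : ε / K ≤ Q c x := by
      rw [div_le_iff₀ hK0]
      linarith
    have h3 : 0 < Q c x := lt_of_lt_of_le (by positivity) h2
    obtain ⟨S, hS, hSq⟩ := hQS c x h3
    have h4 : dist (qS S x) (qS S x') < ε / K :=
      lt_of_le_of_lt (dist_le_pi_dist (Φ x) (Φ x') S) (h hxx')
    rw [Real.dist_eq] at h4
    have h5 := (abs_lt.1 h4).2
    have h6 : 0 < qS S x' := by
      rw [← hSq] at h2
      linarith
    have h7 : 0 < qS S x := by rw [hSq]; exact h3
    rw [hP c x S hS h7, hP c x' S hS h6]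
    exact ⟨rfl, (hPx x' S (hne c S hS) h6).2⟩

end Vale.Agent.P093.Hom
end

section

/-!
TASK HOM-G4: the homological order is at most the topological order.

Proof of `static_zero`: as in the proof of `static` (see the docstring of `Hom/Static.lean`), but without
groups (`m = 0`, `crd : Fin 0 → ℕ → C` arbitrary, `h` arbitrary) and without parameters (`p = 0`, e.g.
`ℓ = 3`, `YY X 0 3`; every list of `YY X 0 3` is `GridSmall`): `δ` from uniform continuity of the `χ c`,
`c ∈ ss`, and `δ₁`; `SX = {l | ∀ x ∈ l, ∀ x' ∈ l, dist x x' < δ}`; `Bs = blks 0 χ' crd ss h`,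
`T x κs = TW (coords 0 crd ss) (W x) κs`, `exists_Phi` gives `Φ`, and `Ψ l = Φ (l.map fun x => (x, 0))`
(`dl_comp`); `𝒢` = finitely many open balls of radius `δ/2`; `bd_eq_extend`, `extend_boundary`,
`aug_eq_sum`, `TW_support`, `allowed_vertex`, `allowed_count` (with `good = ∅`).

Proof of `homOrderLE_coverDim`: `exists_colours 𝒲` gives `ψ, P`; `C = ℕ`, `ss = List.range (d+1)` with
`d = coverDim 𝒲`, `χ c = ψ c`, `W x A = P c x` for `c` the least element of `A` (anything if `A` is empty).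
Condition `hW`: `δ₁` from the last property of `exists_colours` for `ε = 1/8`, `c ≤ d`; some `c ≤ d` has
`ψ c x = 1 > 7/8`, so `A` is nonempty and its least element `c` has `1/8 < ψ c x`.
Count: at each `x` one of the `d + 1` colours has the value `1`, so at most `d` are in `(1/8, 7/8)`.
-/

open Set

namespace Vale.Agent.P093.Hom

theorem sz_uniform {X : Type*} [MetricSpace X] [CompactSpace X] {C : Type*} (χ : C → X → ℝ)
    (hχ : ∀ c, Continuous (χ c)) (ss : List C) :
    ∃ δ > 0, ∀ c ∈ ss, ∀ x x', dist x x' < δ → |χ c x - χ c x'| ≤ 1 / 8 := by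
  induction ss with
  | nil => exact ⟨1, one_pos, fun c hc => absurd hc List.not_mem_nil⟩
  | cons c ss ih =>
    obtain ⟨δ, hδ, h⟩ := ih
    obtain ⟨δ', hδ', h'⟩ := Metric.uniformContinuous_iff.1
      (CompactSpace.uniformContinuous_of_continuous (hχ c)) (1 / 8) (by norm_num)
    refine ⟨min δ δ', lt_min hδ hδ', fun c' hc' x x' hx => ?_⟩
    rcases List.mem_cons.1 hc' with rfl | hc'
    · have h1 := h' (hx.trans_le (min_le_right _ _))
      rw [Real.dist_eq] at h1
      exact h1.le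
    · exact h c' hc' x x' (hx.trans_le (min_le_left _ _))

theorem sz_cover {X : Type*} [MetricSpace X] [CompactSpace X] {δ : ℝ} (hδ : 0 < δ) :
    ∃ 𝒢 : Set (Set X), IsFinOpenCover 𝒢 ∧
      ∀ G ∈ 𝒢, ∀ y ∈ G, ∀ y' ∈ G, dist y y' < δ := by
  obtain ⟨t, ht, h⟩ := (Metric.totallyBounded_iff.1
    (isCompact_univ (X := X)).totallyBounded) (δ / 2) (half_pos hδ)
  refine ⟨(fun x => Metric.ball x (δ / 2)) '' t, ⟨ht.image _, ?_, ?_⟩, ?_⟩
  · rintro _ ⟨x, _, rfl⟩
    exact Metric.isOpen_ball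
  · refine eq_univ_of_univ_subset fun x hx => ?_
    obtain ⟨y, hy, hxy⟩ := mem_iUnion₂.1 (h hx)
    exact mem_sUnion.2 ⟨_, ⟨y, hy, rfl⟩, hxy⟩
  · rintro _ ⟨x, _, rfl⟩ y hy y' hy'
    have h1 := Metric.mem_ball.1 hy
    have h2 := Metric.mem_ball'.1 hy'
    calc dist y y' ≤ dist y x + dist x y' := dist_triangle _ _ _
      _ < δ := by linarith

open scoped Classical in
theorem static_zero {X : Type*} [MetricSpace X] [CompactSpace X] {C : Type*}
    (χ : C → X → ℝ) (hχ : ∀ c, Continuous (χ c)) (ss : List C)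
    (𝒲 : Set (Set X)) (W : X → Set C → Set X) {δ₁ : ℝ} (hδ₁ : 0 < δ₁)
    (hW : ∀ x x', dist x x' < δ₁ → ∀ A : Set C, (∀ c ∈ A, c ∈ ss ∧ 1 / 8 < χ c x) →
      (∀ c ∈ ss, 7 / 8 < χ c x → c ∈ A) → W x A ∈ 𝒲 ∧ x' ∈ W x A ∧ W x' A = W x A)
    {D : ℕ} (hD : ∀ x, (ss.filter fun c => 1 / 8 < χ c x ∧ χ c x < 7 / 8).length ≤ D) :
    HomOrderLE 𝒲 D := by
  obtain ⟨δ₂, hδ₂, hun⟩ := sz_uniform χ hχ ss
  obtain ⟨δ, hδe⟩ : ∃ δ, δ = min δ₁ δ₂ := ⟨_, rfl⟩
  have hδ : 0 < δ := hδe ▸ lt_min hδ₁ hδ₂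
  have hd1 : δ ≤ δ₁ := hδe ▸ min_le_left _ _
  have hd2 : δ ≤ δ₂ := hδe ▸ min_le_right _ _
  obtain ⟨SX, hSXe⟩ : ∃ SX : Set (List X), SX = {l | ∀ x ∈ l, ∀ x' ∈ l, dist x x' < δ} :=
    ⟨_, rfl⟩
  have hSXm : ∀ l, l ∈ SX ↔ ∀ x ∈ l, ∀ x' ∈ l, dist x x' < δ := fun l => by rw [hSXe]; rfl
  have hSX : Full SX := fun l hl l' hl' =>
    (hSXm l').2 fun x hx x' hx' => (hSXm l).1 hl x (hl' x hx) x' (hl' x' hx')
  obtain ⟨χ', hχ'⟩ : ∃ χ' : C → YY X 0 3 → ℝ, χ' = fun c y => χ c y.1 := ⟨_, rfl⟩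
  obtain ⟨crd, -⟩ : ∃ _ : Fin 0 → ℕ → C, True := ⟨fun γ => γ.elim0, trivial⟩
  obtain ⟨h, -⟩ : ∃ _ : Fin 0 → List (YY X 0 3) → ℤ, True := ⟨fun γ => γ.elim0, trivial⟩
  have hcs : coords 0 crd ss = ss := by simp [coords]
  obtain ⟨Bs, hBse⟩ : ∃ Bs, Bs = blks 0 χ' crd ss h := ⟨_, rfl⟩
  have hBm : ∀ B ∈ Bs, ∃ c, B = ⟨[Hv fun y => χ' c y - 1 / 2], fun _ => 0⟩ := by
    intro B hB
    rw [hBse, blks] at hB
    rcases List.mem_append.1 hB with hB | hB
    · simp at hB
    · obtain ⟨c, -, rfl⟩ := List.mem_map.1 hB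
      exact ⟨c, rfl⟩
  have hvar : ∀ l ∈ SY (p := 0) (ℓ := 3) SX, ∀ c ∈ coords 0 crd ss, ∀ y ∈ l, ∀ y' ∈ l,
      |χ' c y - χ' c y'| ≤ 1 / 8 := by
    intro l hl c hc y hy y' hy'
    rw [hcs] at hc
    rw [hχ']
    refine hun c hc y.1 y'.1 (lt_of_lt_of_le ?_ hd2)
    exact (hSXm _).1 hl.1 _ (List.mem_map_of_mem hy) _ (List.mem_map_of_mem hy')
  have hdist : ∀ l ∈ SY (p := 0) (ℓ := 3) SX, ∀ y ∈ l, ∀ y' ∈ l, dist y.1 y'.1 < δ₁ := by
    intro l hl y hy y' hy'
    refine lt_of_lt_of_le ?_ hd1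
    exact (hSXm _).1 hl.1 _ (List.mem_map_of_mem hy) _ (List.mem_map_of_mem hy')
  have hh : ∀ (l : List (YY X 0 3)) (γ : Fin 0) l', l'.Sublist l → h γ l' ≠ 0 → l' ≠ [] ∧
      ∀ y ∈ l', ∀ k ≤ 2 * 0, |χ' (crd γ k) y - 1 / 2| ≤ 1 / 8 := fun l γ => γ.elim0
  have hvert : ∀ l ∈ SY (p := 0) (ℓ := 3) SX, ∀ κs, AllowedL Bs l κs → ∀ S, VertexOf S κs →
      ∀ y ∈ l, ∀ x', dist y.1 x' < δ₁ → W y.1 (onS (coords 0 crd ss) S) ∈ 𝒲 ∧
        x' ∈ W y.1 (onS (coords 0 crd ss) S) ∧
        W x' (onS (coords 0 crd ss) S) = W y.1 (onS (coords 0 crd ss) S) := by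
    intro l hl κs hκs S hS y hy x' hx'
    obtain ⟨h1, h2⟩ := allowed_vertex χ' crd ss h l (hvar l hl) (hh l) (hBse ▸ hκs) hS hy
    rw [hcs] at h1 h2 ⊢
    refine hW y.1 x' hx' _ (fun c hc => ?_) (fun c hc h7 => h2 c hc ?_)
    · have := h1 c hc
      rwa [hχ'] at this
    · rwa [hχ']
  obtain ⟨Φ, hΦ0, hΦc, hΦ1, -, hΦs⟩ := exists_Phi (V := Set X) Bs
    (fun B hB => by
      obtain ⟨c, rfl⟩ := hBm B hB
      intro l hl
      exact absurd rfl hl)
    (fun x κs => TW (coords 0 crd ss) (W x) κs) (fun x κs => TW_bd _ _ _)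
    (fun x κs => TW_aug _ _ _) hSX
    (fun l hl y hy y' hy' κs hκs => TW_congr _ _ _ _ fun S hS =>
      ((hvert l hl κs hκs S hS y hy y'.1 (hdist l hl y hy y' hy')).2.2).symm)
    (fun σ B hB => by
      obtain ⟨c, rfl⟩ := hBm B hB
      refine ⟨fun v hv y => ?_, fun _ => rfl⟩
      rw [List.mem_singleton] at hv
      subst hv
      rw [hχ']
      rfl)
  obtain ⟨𝒢, h𝒢, hsmall⟩ := sz_cover (X := X) hδ
  have hmap : ∀ x : List X, x ∈ SX → (x.map fun x => ((x, 0) : YY X 0 3)) ∈ SY SX := by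
    intro x hx
    refine ⟨?_, 0, fun y _ c => c.1.elim0⟩
    rw [List.map_map]
    have : (Prod.fst ∘ fun x => ((x, 0) : YY X 0 3)) = id := rfl
    rw [this, List.map_id]
    exact hx
  refine ⟨𝒢, fun x => Φ (x.map fun x => (x, 0)), h𝒢, fun x hx hxs => ?_⟩
  obtain ⟨G, hG, hxG⟩ := hxs
  have hxS : x ∈ SX := (hSXm x).2 fun y hy y' hy' => hsmall G hG y (hxG y hy) y' (hxG y' hy')
  have hL := hmap x hxS
  refine ⟨fun s hs => ?_, ?_, fun h1 => ?_, fun hlen => ?_⟩
  · obtain ⟨y, hy, κs, hκs, hec, hs'⟩ := hΦs _ hL s hs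
    obtain ⟨h1, h2⟩ := TW_support _ _ _ _ hs'
    refine ⟨by rw [h1, hec, List.length_map], fun V hV => ?_⟩
    obtain ⟨S, hS, rfl⟩ := h2 V hV
    refine ⟨(hvert _ hL κs hκs S hS y hy y.1 (by rw [dist_self]; exact hδ₁)).1, fun x' hx' => ?_⟩
    exact (hvert _ hL κs hκs S hS y hy x'
      (hdist _ hL y hy (x', 0) (List.mem_map.2 ⟨x', hx', rfl⟩))).2.1
  · rw [← bd_eq_extend, hΦc _ hL, ← dl_comp (fun x => ((x, 0) : YY X 0 3)) Φ x]
    exact (extend_boundary (fun x : List X => Φ (x.map fun x => (x, 0))) hΦ0 x).symm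
  · obtain ⟨x0, rfl⟩ := List.length_eq_one_iff.1 h1
    rw [← aug_eq_sum]
    exact hΦ1 (x0, 0)
  · by_contra hne
    obtain ⟨s, hs⟩ := Finsupp.support_nonempty_iff.2 hne
    obtain ⟨y, hy, κs, hκs, hec, -⟩ := hΦs _ hL s hs
    have hc := allowed_count χ' crd ss h _ (hvar _ hL) (hh _) (hBse ▸ hκs) hy (fun _ => True)
      (fun γ => γ.elim0) ∅ (fun γ => γ.elim0) (fun γ => γ.elim0)
    rw [hχ'] at hc
    have h2 := hD y.1
    rw [List.length_map] at hec
    simp only [Finset.card_empty, Finset.univ_eq_empty, Finset.filter_empty] at hc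
    have h3 := hc.trans (Nat.add_le_add_left h2 _)
    omega

/-- `D_ℤ ≤ D` -/
theorem homOrderLE_coverDim {X : Type*} [MetricSpace X] [CompactSpace X] (𝒲 : Set (Set X))
    (h𝒲 : IsFinOpenCover 𝒲) : HomOrderLE 𝒲 (coverDim 𝒲) := by
  classical
  obtain ⟨ψ, P, -, h1, hP, hloc⟩ := exists_colours 𝒲 h𝒲
  have hδ : ∀ n : ℕ, ∃ δ > 0, ∀ c ≤ n, ∀ x x', dist x x' < δ → 1 / 8 ≤ ψ c x →
      P c x' = P c x ∧ x' ∈ P c x := by
    intro n
    induction n with
    | zero =>
      obtain ⟨δ, hδ, h⟩ := hloc 0 (1 / 8) (by norm_num)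
      refine ⟨δ, hδ, fun c hc x x' hx h8 => ?_⟩
      obtain rfl : c = 0 := Nat.le_zero.1 hc
      exact h x x' hx h8
    | succ n ih =>
      obtain ⟨δ, hδ, h⟩ := ih
      obtain ⟨δ', hδ', h'⟩ := hloc (n + 1) (1 / 8) (by norm_num)
      refine ⟨min δ δ', lt_min hδ hδ', fun c hc x x' hx h8 => ?_⟩
      rcases Nat.lt_or_ge n c with h2 | h2
      · obtain rfl : c = n + 1 := le_antisymm hc h2
        exact h' x x' (hx.trans_le (min_le_right _ _)) h8
      · exact h c h2 x x' (hx.trans_le (min_le_left _ _)) h8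
  obtain ⟨δ₁, hδ₁, hloc'⟩ := hδ (coverDim 𝒲)
  refine static_zero (fun c x => ψ c x) (fun c => (ψ c).continuous)
    (List.range (coverDim 𝒲 + 1)) 𝒲 (fun x A => P (sInf A) x) hδ₁ ?_ ?_
  · intro x x' hx A hA1 hA2
    obtain ⟨c, hc, hc1⟩ := h1 x
    have hcA : c ∈ A := hA2 c (List.mem_range.2 (Nat.lt_succ_of_le hc)) (by
      show 7 / 8 < ψ c x
      rw [hc1]; norm_num)
    have h0 : sInf A ∈ A := Nat.sInf_mem ⟨c, hcA⟩
    obtain ⟨h2, h3⟩ := hA1 _ h0
    obtain ⟨h4, h5⟩ := hloc' (sInf A) (Nat.lt_succ_iff.1 (List.mem_range.1 h2)) x x' hx h3.le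
    exact ⟨(hP _ x (lt_trans (by norm_num) h3)).1, h5, h4⟩
  · intro x
    obtain ⟨c, hc, hc1⟩ := h1 x
    have hlt : ((List.range (coverDim 𝒲 + 1)).filter
        fun c => 1 / 8 < ψ c x ∧ ψ c x < 7 / 8).length <
        (List.range (coverDim 𝒲 + 1)).length := by
      rw [List.length_filter_lt_length_iff_exists]
      refine ⟨c, List.mem_range.2 (Nat.lt_succ_of_le hc), ?_⟩
      rw [hc1]
      norm_num
    rw [List.length_range] at hlt
    exact Nat.lt_succ_iff.1 hlt

end Vale.Agent.P093.Hom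
end

section

/-!
TASK HOM-I1: a cube in the space gives a lower bound for the homological order.

Proof of `le_of_cube`. Suppose `HomOrderLE 𝒲 d` with `𝒢, Φ` and `d < n`. Put `Φ' l = Φ l` for `l ≠ []`,
`Φ' [] = 0`. For `W : Set X` let `v j W = 0` if `∀ y, Ψ y ∈ W → y j ≠ 1` and `v j W = 1` otherwise (a
function to `ℤ`); on lists of sets let `e_k = tau [v k, …, v (n-1)]` (see `tau` in `Hom/BlocksDef.lean`;
`dl (tau vs) = 0` and `tau (v :: vs) = cup (ce v) (tau vs) = dl (cup (co v) (tau vs))`).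
For a cochain `e` on lists of sets let `Φ^* e l = extend e (Φ' (l.map Ψ))`, a cochain on lists of points
of the cube `Q = Fin n → unitInterval` (`extend` = linear extension, as in `Hom/OrderDef.lean`), for lists
which are small for the cover `Ψ⁻¹ 𝒢`. On small lists `Φ^* (dl e) = dl (Φ^* e)` (chain map property;
`extend_boundary`).
Choose `m` so large that every set of points of the cube with coordinates differing by at most `1/m`
lies in a member of `Ψ⁻¹ 𝒢` (Lebesgue number). For a coordinate `j` and a cochain `F` on lists of `Q` let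
`I_j F l = ∑_{g<m} pr (upd j (g/m)) (upd j ((g+1)/m)) F l`; by `pr_dl`
`I_j (dl F) l = F (l.map (upd j 1)) - F (l.map (upd j 0)) - dl (I_j F) l`.
Claim (downward induction on `k`): for every point `y` of the cube whose coordinates `< k` are arbitrary,
`I_{n-1} … I_k` (apply `I_k` first) of `Φ^* e_k`, evaluated at `[y]`, is `± 1`. For `k = n`: `e_n = unit 1`
and `Φ^* (unit 1) [y] = aug = 1`. Step: `Φ^* e_k = Φ^* (dl (cup (co (v k)) e_{k+1})) = dl (Φ^* G)`,
`G = cup (co (v k)) e_{k+1}`. `I_k (dl F) l = F (l.map (upd k 1)) - F (l.map (upd k 0)) - dl (I_k F) l`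
with `F = Φ^* G`. Every set `W` occurring in `Φ' (l.map (Ψ ∘ upd k 1))` contains a point `Ψ y` with
`y k = 1`, so `v k W = 1`, and every set occurring for `upd k 0` contains a point with `y k = 0`, so by
`hW` the alternative `y k ≠ 1` holds and `v k W = 0`. Hence `F (l.map (upd k 1)) = Φ^* e_{k+1}
(l.map (upd k 1))` and `F (l.map (upd k 0)) = 0`. The remaining term: `I_{n-1} … I_{k+1} (dl (I_k F))`:
move `dl` outside, `I_j (dl F') = F' (upd j 1) - F' (upd j 0) - dl (I_j F')`; the boundary terms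
`F' = ` (iterated integral of `Φ^* G`) at `upd j 1`, `upd j 0` vanish for `j > k`, because `e_{k+1}` contains
the factor `ce (v j)` and `v j` is constant (`1` resp. `0`) on all the sets occurring; and the last term
`dl (…) [y] = (…) [] = 0`. (It may be more convenient to prove: for a cochain `F` on lists of points, if
`F` vanishes on lists inside the faces `y j = 0` and `y j = 1` for all `j ∈ js`, then
`I_js (dl F) [y] = 0`.)
For `k = 0` this contradicts `Φ' l = 0` for `l.length = n + 1 > d + 1`.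

Proof of `homMeanDim_ge`: let `𝒰` be the finite open cover of `X` by the sets
`{x | f x s < 1 for s ∈ A, f x s > 0 for s ∉ A}`, `A ⊆ Fin q`. For `p = (j,s) ∈ J k` and a member `W` of
`iterCover h 𝒰 (N k)`, `W ⊆ h^{-j} U`, so `f (h^j ·) s` misses `1` or `0` on `W`. Enumerate
`J k` by `Fin n`, `n = (J k).card`, and apply `le_of_cube` to
`y ↦ Ψ k (extension of y by 0)`. So `n ≤ homOrder` (the infimum is over a nonempty set by
`homOrderLE_coverDim`; choose a metric), and the limsup over `N` is at least `μ - ε`.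
-/

open Filter Topology Set
open scoped ENNReal

namespace Vale.Agent.P093.Hom

section Aux

variable {Y Z Z' : Type*}

private theorem cl_pr_comp_right (a b : Y → Z) (u : Z → Z') (F : List Z' → ℤ) (l : List Y) :
    pr a b (fun L => F (L.map u)) l = pr (fun y => u (a y)) (fun y => u (b y)) F l := by
  induction l generalizing F with
  | nil => rfl
  | cons y l ih =>
    rw [pr_cons, pr_cons]
    have h := ih (fun L => F (u (a y) :: L))
    simp only [List.map_cons, List.map_map] at h ⊢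
    rw [h]
    rfl

private theorem cl_pr_comp_left (w : Y → Z) (a b : Z → Z') (F : List Z' → ℤ) (l : List Y) :
    pr a b F (l.map w) = pr (fun y => a (w y)) (fun y => b (w y)) F l := by
  induction l generalizing F with
  | nil => rfl
  | cons y l ih =>
    rw [List.map_cons, pr_cons, pr_cons, ih, List.map_map]
    rfl

private theorem cl_pr_zero (a b : Y → Z) (F : List Z → ℤ) (l : List Y)
    (hF : ∀ L : List Z, L.length = l.length + 1 → (∀ z ∈ L, ∃ y ∈ l, z = a y ∨ z = b y) →
      F L = 0) : pr a b F l = 0 := by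
  induction l generalizing F with
  | nil => rfl
  | cons y l ih =>
    rw [pr_cons, hF _ (by simp) ?_, ih _ fun L hL hz => hF _ (by simp [hL]) ?_, sub_zero]
    · intro z hz'
      rw [List.mem_cons] at hz'
      rcases hz' with rfl | hz'
      · exact ⟨y, by simp, Or.inl rfl⟩
      · obtain ⟨y', hy', h⟩ := hz z hz'
        exact ⟨y', by simp [hy'], h⟩
    · intro z hz
      rw [List.mem_cons, List.mem_cons, List.mem_map] at hz
      rcases hz with rfl | rfl | ⟨y', hy', rfl⟩
      · exact ⟨y, by simp, Or.inl rfl⟩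
      · exact ⟨y, by simp, Or.inr rfl⟩
      · exact ⟨y', by simp [hy'], Or.inr rfl⟩

end Aux

section Cube

variable {n : ℕ}

/-- change of the coordinate `j` -/
private def cu (j : Fin n) (c : unitInterval) (y : Fin n → unitInterval) : Fin n → unitInterval :=
  Function.update y j c

private theorem cu_self (j : Fin n) (c : unitInterval) (y : Fin n → unitInterval) :
    cu j c y j = c := Function.update_self _ _ _

private theorem cu_ne {j i : Fin n} (h : i ≠ j) (c : unitInterval) (y : Fin n → unitInterval) :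
    cu j c y i = y i := Function.update_of_ne h _ _

private theorem cu_comm {j k : Fin n} (h : j ≠ k) (c c' : unitInterval)
    (y : Fin n → unitInterval) : cu k c' (cu j c y) = cu j c (cu k c' y) :=
  Function.update_comm h _ _ _

/-- integral in the direction `j` over the subdivision `t 0, …, t m` -/
private def cI (t : ℕ → unitInterval) (m : ℕ) (j : Fin n)
    (F : List (Fin n → unitInterval) → ℤ) (l : List (Fin n → unitInterval)) : ℤ :=
  ∑ g ∈ Finset.range m, pr (cu j (t g)) (cu j (t (g + 1))) F l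

/-- iterated integral (the first direction first) -/
private def cII (t : ℕ → unitInterval) (m : ℕ) : List (Fin n) →
    (List (Fin n → unitInterval) → ℤ) → List (Fin n → unitInterval) → ℤ
  | [], F => F
  | j :: js, F => cII t m js (cI t m j F)

/-- lists in one cell of the grid -/
private def cS (n : ℕ) (t : ℕ → unitInterval) : Set (List (Fin n → unitInterval)) :=
  {l | ∀ i, ∃ g, ∀ y ∈ l, y i = t g ∨ y i = t (g + 1)}

private theorem cI_sub (t : ℕ → unitInterval) (m : ℕ) (j : Fin n)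
    (F G : List (Fin n → unitInterval) → ℤ) (l : List (Fin n → unitInterval)) :
    cI t m j (fun l => F l - G l) l = cI t m j F l - cI t m j G l := by
  simp only [cI, pr_sub, Finset.sum_sub_distrib]

private theorem cI_nil (t : ℕ → unitInterval) (m : ℕ) (j : Fin n)
    (F : List (Fin n → unitInterval) → ℤ) : cI t m j F [] = 0 := by
  simp [cI]

private theorem cII_sub (t : ℕ → unitInterval) (m : ℕ) (js : List (Fin n))
    (F G : List (Fin n → unitInterval) → ℤ) (l : List (Fin n → unitInterval)) :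
    cII t m js (fun l => F l - G l) l = cII t m js F l - cII t m js G l := by
  induction js generalizing F G with
  | nil => rfl
  | cons j js ih =>
    have h : cI t m j (fun l => F l - G l) = fun l => cI t m j F l - cI t m j G l := by
      funext l
      exact cI_sub t m j F G l
    change cII t m js (cI t m j (fun l => F l - G l)) l = _
    rw [h, ih]
    rfl

private theorem cI_zero {t : ℕ → unitInterval} (m : ℕ) (j : Fin n)
    (F : List (Fin n → unitInterval) → ℤ) {l : List (Fin n → unitInterval)} (hl : l ∈ cS n t)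
    (h : ∀ L ∈ cS n t, L.length = l.length + 1 → (∀ z ∈ L, ∃ y ∈ l, ∀ i, i ≠ j → z i = y i) →
      F L = 0) : cI t m j F l = 0 := by
  refine Finset.sum_eq_zero fun g _ => cl_pr_zero _ _ _ _ fun L hL hz => h L ?_ hL ?_
  · intro i
    by_cases hi : i = j
    · subst hi
      refine ⟨g, fun z hz' => ?_⟩
      obtain ⟨y, _, rfl | rfl⟩ := hz z hz'
      · exact Or.inl (cu_self _ _ _)
      · exact Or.inr (cu_self _ _ _)
    · obtain ⟨g', hg'⟩ := hl i
      refine ⟨g', fun z hz' => ?_⟩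
      obtain ⟨y, hy, rfl | rfl⟩ := hz z hz'
      · rw [cu_ne hi]; exact hg' y hy
      · rw [cu_ne hi]; exact hg' y hy
  · intro z hz'
    obtain ⟨y, hy, rfl | rfl⟩ := hz z hz'
    · exact ⟨y, hy, fun i hi => cu_ne hi _ _⟩
    · exact ⟨y, hy, fun i hi => cu_ne hi _ _⟩

private theorem cII_zero {t : ℕ → unitInterval} (m : ℕ) (js : List (Fin n))
    (F : List (Fin n → unitInterval) → ℤ) {l : List (Fin n → unitInterval)} (hl : l ∈ cS n t)
    (h : ∀ L ∈ cS n t, L.length = l.length + js.length → F L = 0) : cII t m js F l = 0 := by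
  induction js generalizing F with
  | nil => exact h l hl (by simp)
  | cons j js ih =>
    refine ih (cI t m j F) fun L hL hlen => cI_zero m j F hL fun L' hL' hlen' _ => h L' hL' ?_
    rw [hlen', hlen, List.length_cons]
    ring

private theorem cII_congr {t : ℕ → unitInterval} (m : ℕ) (js : List (Fin n))
    {F G : List (Fin n → unitInterval) → ℤ} {l : List (Fin n → unitInterval)} (hl : l ∈ cS n t)
    (h : ∀ L ∈ cS n t, F L = G L) : cII t m js F l = cII t m js G l := by
  have h1 := cII_sub t m js F G l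
  rw [cII_zero m js (fun l => F l - G l) hl fun L hL _ => by rw [h L hL, sub_self]] at h1
  exact (sub_eq_zero.1 h1.symm)

private theorem cI_dl (t : ℕ → unitInterval) (m : ℕ) (j : Fin n)
    (F : List (Fin n → unitInterval) → ℤ) (l : List (Fin n → unitInterval)) :
    cI t m j (dl F) l = F (l.map (cu j (t m))) - F (l.map (cu j (t 0))) - dl (cI t m j F) l := by
  have h1 : dl (cI t m j F) l =
      ∑ g ∈ Finset.range m, dl (pr (cu j (t g)) (cu j (t (g + 1))) F) l := dl_sum _ _ _
  rw [h1, ← Finset.sum_range_sub (fun g => F (l.map (cu j (t g)))), ← Finset.sum_sub_distrib]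
  exact Finset.sum_congr rfl fun g _ => pr_dl _ _ _ _

private theorem cII_map (t : ℕ → unitInterval) (m : ℕ) (k : Fin n) (c : unitInterval)
    (js : List (Fin n)) (hk : k ∉ js) (F : List (Fin n → unitInterval) → ℤ)
    (l : List (Fin n → unitInterval)) :
    cII t m js (fun l => F (l.map (cu k c))) l = cII t m js F (l.map (cu k c)) := by
  induction js generalizing F with
  | nil => rfl
  | cons j js ih =>
    rw [List.mem_cons, not_or] at hk
    have h : cI t m j (fun l => F (l.map (cu k c))) = fun l => cI t m j F (l.map (cu k c)) := by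
      funext l
      refine Finset.sum_congr rfl fun g _ => ?_
      rw [cl_pr_comp_right, cl_pr_comp_left]
      congr 1
      · funext y
        exact cu_comm (Ne.symm hk.1) _ _ _
      · funext y
        exact cu_comm (Ne.symm hk.1) _ _ _
    change cII t m js (cI t m j (fun l => F (l.map (cu k c)))) l = _
    rw [h, ih hk.2]
    rfl

private theorem cS_map {t : ℕ → unitInterval} {l : List (Fin n → unitInterval)}
    (hl : l ∈ cS n t) (j : Fin n) (g : ℕ) : l.map (cu j (t g)) ∈ cS n t := by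
  intro i
  by_cases hi : i = j
  · subst hi
    refine ⟨g, fun y hy => ?_⟩
    obtain ⟨y', _, rfl⟩ := List.mem_map.1 hy
    exact Or.inl (cu_self _ _ _)
  · obtain ⟨g', hg'⟩ := hl i
    refine ⟨g', fun y hy => ?_⟩
    obtain ⟨y', hy', rfl⟩ := List.mem_map.1 hy
    rw [cu_ne hi]
    exact hg' y' hy'

/-- the integral of a coboundary of a cochain vanishing on the faces -/
private theorem cII_dl_zero {t : ℕ → unitInterval} {m : ℕ} (h0 : t 0 = 0) (h1 : t m = 1)
    (js : List (Fin n)) (hjs : js.Nodup) (H : List (Fin n → unitInterval) → ℤ) (hH0 : H [] = 0)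
    (hH : ∀ j ∈ js, ∀ l ∈ cS n t, l ≠ [] → ((∀ y ∈ l, y j = 0) ∨ (∀ y ∈ l, y j = 1)) → H l = 0)
    {y : Fin n → unitInterval} (hy : [y] ∈ cS n t) : cII t m js (dl H) [y] = 0 := by
  induction js generalizing H with
  | nil =>
    change dl H [y] = 0
    rw [dl_singleton, hH0]
  | cons j js ih =>
    have hH' : ∀ L ∈ cS n t, cI t m j (dl H) L = 0 - dl (cI t m j H) L := by
      intro L hL
      rw [cI_dl]
      cases L with
      | nil => simp
      | cons z L =>
        rw [hH j List.mem_cons_self _ (cS_map hL j m) (by simp) (Or.inr ?_),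
          hH j List.mem_cons_self _ (cS_map hL j 0) (by simp) (Or.inl ?_), sub_zero]
        · intro y' hy'
          obtain ⟨y'', _, rfl⟩ := List.mem_map.1 hy'
          rw [cu_self, h0]
        · intro y' hy'
          obtain ⟨y'', _, rfl⟩ := List.mem_map.1 hy'
          rw [cu_self, h1]
    change cII t m js (cI t m j (dl H)) [y] = 0
    rw [cII_congr m js hy hH', cII_sub t m js (fun _ => 0) (dl (cI t m j H)) [y],
      cII_zero m js (fun _ => 0) hy (fun _ _ _ => rfl),
      ih (List.nodup_cons.1 hjs).2 (cI t m j H) (cI_nil t m j H), sub_zero]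
    intro j' hj' l hl hne hface
    have hjj : j' ≠ j := by
      rintro rfl
      exact (List.nodup_cons.1 hjs).1 hj'
    refine cI_zero m j H hl fun L hL hlen hz => hH j' (List.mem_cons_of_mem _ hj') L hL ?_ ?_
    · intro h
      rw [h] at hlen
      simp at hlen
    · rcases hface with hf | hf
      · refine Or.inl fun z hz' => ?_
        obtain ⟨y', hy', e⟩ := hz z hz'
        rw [e j' hjj, hf y' hy']
      · refine Or.inr fun z hz' => ?_
        obtain ⟨y', hy', e⟩ := hz z hz'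
        rw [e j' hjj, hf y' hy']

end Cube

section Extend

variable {V M : Type*} [AddCommGroup M]

private theorem cl_extend_eq (F : List V → M) (c : OChain V) : extend F c =
    (Finsupp.liftAddHom fun s => zmultiplesHom M (F s) : OChain V →+ M) c := by
  rw [Finsupp.liftAddHom_apply, extend]
  rfl

private theorem cl_extend_sb_congr {F G : List V → M} (h : ∀ s, s ≠ [] → F s = G s) (l : List V) :
    extend F (simplexBoundary l) = extend G (simplexBoundary l) := by
  rw [cl_extend_eq, cl_extend_eq, simplexBoundary]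
  split_ifs with hl
  · rw [map_zero, map_zero]
  · rw [map_sum, map_sum]
    refine Finset.sum_congr rfl fun i hi => ?_
    rw [Finset.mem_range] at hi
    rw [map_zsmul, map_zsmul, Finsupp.liftAddHom_apply_single, Finsupp.liftAddHom_apply_single]
    simp only [zmultiplesHom_apply, one_smul]
    rw [h]
    intro h0
    have h2 := congrArg List.length h0
    rw [List.length_eraseIdx_of_lt hi] at h2
    simp at h2
    omega

private theorem cl_extend_extend {V' : Type*} (e : List V' → M) (Φ : List V → OChain V')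
    (c : OChain V) : extend e (extend Φ c) = extend (fun s => extend e (Φ s)) c := by
  rw [cl_extend_eq e]
  rw [extend, extend, Finsupp.sum, Finsupp.sum, map_sum]
  refine Finset.sum_congr rfl fun s _ => ?_
  rw [map_zsmul, ← cl_extend_eq]

private theorem cl_extend_congr {F G : List V → M} {c : OChain V}
    (h : ∀ s ∈ c.support, F s = G s) : extend F c = extend G c :=
  Finsupp.sum_congr fun s hs => by rw [h s hs]

end Extend

section Main

variable {X : Type*}

private theorem cl_tau_nil (vs : List (Set X → ℤ)) : tau vs [] = 0 := by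
  cases vs <;> rfl

private theorem cl_tau_cons (v : Set X → ℤ) (vs : List (Set X → ℤ)) (l : List (Set X)) :
    tau (v :: vs) l = dl (cup (co v) (tau vs)) l := by
  have h : ∀ l, dl (tau vs) l = 0 := by
    induction vs with
    | nil => exact fun l => dl_unit _ l
    | cons w ws ih =>
      intro l
      change dl (cup (ce w) (tau ws)) l = 0
      rw [dl_cup' _ _ rfl (cl_tau_nil ws)]
      have h1 : dl (ce w) = fun _ => 0 := by funext l; exact dl_ce w l
      have h2 : dl (tau ws) = fun _ => 0 := by funext l; exact ih l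
      rw [h1, h2, cup_zero_left, cup_zero_right, add_zero]
  change cup (ce v) (tau vs) l = _
  rw [dl_cup' _ _ rfl (cl_tau_nil vs)]
  have h1 : dl (co v) = ce v := by funext l; exact dl_co v l
  have h2 : dl (tau vs) = fun _ => 0 := by funext l; exact h l
  rw [h1, h2, cup_zero_right, add_zero]

/-- `tau` vanishes if one of the functions is constant -/
private theorem cl_tau_const (vs : List (Set X → ℤ)) {v : Set X → ℤ} (hv : v ∈ vs)
    {s : List (Set X)} {c : ℤ} (hs : ∀ W ∈ s, v W = c) : tau vs s = 0 := by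
  induction vs generalizing s with
  | nil => simp at hv
  | cons w ws ih =>
    change cup (ce w) (tau ws) s = 0
    rcases s with _ | ⟨W, _ | ⟨W', s⟩⟩
    · rfl
    · exact bm_cup_ce_single _ _ _
    · rw [bm_cup_ce]
      rcases List.mem_cons.1 hv with rfl | hv
      · rw [hs W (by simp), hs W' (by simp), sub_self, zero_smul]
      · rw [ih hv fun W'' hW'' => hs W'' (List.mem_cons_of_mem _ hW''), smul_zero]

variable {n : ℕ}

open Classical in
/-- pull-back of a cochain of the nerve to the cube -/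
private noncomputable def PB (Φ : List X → OChain (Set X)) (Ψ : (Fin n → unitInterval) → X)
    (e : List (Set X) → ℤ) (l : List (Fin n → unitInterval)) : ℤ :=
  if l = [] then 0 else extend e (Φ (l.map Ψ))

open Classical in
/-- the vertex function of the coordinate `j` -/
private noncomputable def vj (Ψ : (Fin n → unitInterval) → X) (j : Fin n) (W : Set X) : ℤ :=
  if ∀ y, Ψ y ∈ W → y j ≠ 1 then 0 else 1

end Main

theorem le_of_cube {X : Type*} [TopologicalSpace X] (𝒲 : Set (Set X)) {n : ℕ}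
    (Ψ : (Fin n → unitInterval) → X) (hΨ : Continuous Ψ)
    (hW : ∀ W ∈ 𝒲, ∀ j, (∀ y, Ψ y ∈ W → y j ≠ 0) ∨ (∀ y, Ψ y ∈ W → y j ≠ 1)) {d : ℕ}
    (hd : HomOrderLE 𝒲 d) : n ≤ d := by
  classical
  by_contra hn
  push Not at hn
  obtain ⟨𝒢, Φ, h𝒢, hΦ⟩ := hd
  -- the grid
  obtain ⟨t, m, h0, h1, hsmall⟩ : ∃ (t : ℕ → unitInterval) (m : ℕ), t 0 = 0 ∧ t m = 1 ∧
      ∀ l ∈ cS n t, l ≠ [] → ∃ G ∈ 𝒢, ∀ y ∈ l, Ψ y ∈ G := by
    obtain ⟨δ, hδ, hleb⟩ := lebesgue_number_lemma_of_metric_sUnion
      (s := (univ : Set (Fin n → unitInterval))) (c := (fun G => Ψ ⁻¹' G) '' 𝒢) isCompact_univ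
      (by
        rintro _ ⟨G, hG, rfl⟩
        exact (h𝒢.2.1 G hG).preimage hΨ)
      (by
        intro y _
        have : Ψ y ∈ ⋃₀ 𝒢 := by rw [h𝒢.2.2]; exact mem_univ _
        obtain ⟨G, hG, hy⟩ := mem_sUnion.1 this
        exact mem_sUnion.2 ⟨_, ⟨G, hG, rfl⟩, hy⟩)
    obtain ⟨m, hm⟩ := exists_nat_gt (1 / δ)
    have hm0 : (0 : ℝ) < m := lt_trans (by positivity) hm
    refine ⟨fun g => Set.projIcc 0 1 zero_le_one ((g : ℝ) / m), m, ?_, ?_, ?_⟩
    · simp only [Nat.cast_zero, zero_div]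
      exact Set.projIcc_left _
    · simp only [div_self hm0.ne']
      exact Set.projIcc_right _
    · intro l hl hne
      obtain ⟨y0, hy0⟩ := List.exists_mem_of_ne_nil l hne
      obtain ⟨_, ⟨G, hG, rfl⟩, hball⟩ := hleb y0 (mem_univ _)
      refine ⟨G, hG, fun y hy => hball ?_⟩
      rw [Metric.mem_ball, dist_pi_lt_iff hδ]
      intro i
      obtain ⟨g, hg⟩ := hl i
      have hstep : dist (Set.projIcc (0 : ℝ) 1 zero_le_one ((g : ℝ) / m))
          (Set.projIcc (0 : ℝ) 1 zero_le_one (((g + 1 : ℕ) : ℝ) / m)) < δ := by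
        refine lt_of_le_of_lt (b := dist ((g : ℝ) / m) (((g + 1 : ℕ) : ℝ) / m)) ?_ ?_
        · rw [Subtype.dist_eq, Real.dist_eq, Real.dist_eq]
          exact Set.abs_projIcc_sub_projIcc zero_le_one
        · rw [Real.dist_eq]
          have : (g : ℝ) / m - ((g + 1 : ℕ) : ℝ) / m = - (1 / m) := by
            push_cast
            field_simp
            ring
          rw [this, abs_neg, abs_of_pos (by positivity)]
          rw [div_lt_iff₀ hm0]
          rw [div_lt_iff₀ hδ] at hm
          linarith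
      rcases hg y hy with e | e <;> rcases hg y0 hy0 with e' | e'
      · rw [e, e', dist_self]; exact hδ
      · rw [e, e']; exact hstep
      · rw [e, e', dist_comm]; exact hstep
      · rw [e, e', dist_self]; exact hδ
  -- the facts about `Φ`
  have hΦl : ∀ l ∈ cS n t, l ≠ [] → ∃ G ∈ 𝒢, ∀ y ∈ l.map Ψ, y ∈ G := by
    intro l hl hne
    obtain ⟨G, hG, h⟩ := hsmall l hl hne
    refine ⟨G, hG, fun y hy => ?_⟩
    obtain ⟨y', hy', rfl⟩ := List.mem_map.1 hy
    exact h y' hy'
  have hne' : ∀ l : List (Fin n → unitInterval), l ≠ [] → l.map Ψ ≠ [] := by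
    intro l hl h
    exact hl (List.map_eq_nil_iff.1 h)
  -- congruence for the pull-back
  have PB_congr : ∀ l ∈ cS n t, l ≠ [] → ∀ e e' : List (Set X) → ℤ,
      (∀ s : List (Set X), s.length = l.length → (∀ W ∈ s, W ∈ 𝒲 ∧ ∀ y ∈ l, Ψ y ∈ W) →
        e s = e' s) → PB Φ Ψ e l = PB Φ Ψ e' l := by
    intro l hl hne e e' h
    rw [PB, PB, if_neg hne, if_neg hne]
    refine cl_extend_congr fun s hs => ?_
    obtain ⟨h2, h3⟩ := (hΦ _ (hne' l hne) (hΦl l hl hne)).1 s hs
    refine h s (by rw [h2, List.length_map]) fun W hWs => ⟨(h3 W hWs).1, fun y hy => ?_⟩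
    exact (h3 W hWs).2 _ (List.mem_map_of_mem hy)
  have PB_zero : ∀ l, PB Φ Ψ (fun _ => 0) l = 0 := by
    intro l
    rw [PB]
    split_ifs
    · rfl
    · simp [extend]
  -- the pull-back is a chain map
  have PB_dl : ∀ e : List (Set X) → ℤ, e [] = 0 → ∀ l ∈ cS n t,
      PB Φ Ψ (dl e) l = dl (PB Φ Ψ e) l := by
    intro e he l hl
    by_cases hne : l = []
    · subst hne
      simp [PB]
    · have h2 := (hΦ _ (hne' l hne) (hΦl l hl hne)).2.1
      have h3 : PB Φ Ψ (dl e) l = extend e (extend simplexBoundary (Φ (l.map Ψ))) := by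
        rw [PB, if_neg hne, cl_extend_extend]
        refine cl_extend_congr fun s _ => ?_
        rw [extend_boundary e he]
      have h4 : extend e (extend Φ (simplexBoundary (l.map Ψ))) =
          extend (fun s => if s = [] then 0 else extend e (Φ s)) (simplexBoundary (l.map Ψ)) := by
        rw [cl_extend_extend]
        refine cl_extend_sb_congr (fun s hs => ?_) _
        rw [if_neg hs]
      rw [h3, h2, h4, extend_boundary (fun s => if s = [] then 0 else extend e (Φ s))
        (if_pos rfl), ← dl_comp Ψ]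
      congr 1
      funext l'
      rw [PB]
      by_cases h5 : l' = []
      · subst h5
        simp
      · rw [if_neg h5, if_neg (hne' l' h5)]
  -- values of the vertex functions
  have v1 : ∀ j (l : List (Fin n → unitInterval)), l ≠ [] → (∀ y ∈ l, y j = 1) →
      ∀ W, (∀ y ∈ l, Ψ y ∈ W) → vj Ψ j W = 1 := by
    intro j l hne hl W hW'
    obtain ⟨y, hy⟩ := List.exists_mem_of_ne_nil l hne
    rw [vj, if_neg]
    intro h
    exact h y (hW' y hy) (hl y hy)
  have v0 : ∀ j (l : List (Fin n → unitInterval)), l ≠ [] → (∀ y ∈ l, y j = 0) →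
      ∀ W ∈ 𝒲, (∀ y ∈ l, Ψ y ∈ W) → vj Ψ j W = 0 := by
    intro j l hne hl W hWW hW'
    obtain ⟨y, hy⟩ := List.exists_mem_of_ne_nil l hne
    rw [vj, if_pos]
    rcases hW W hWW j with h | h
    · exact absurd (hl y hy) (h y (hW' y hy))
    · exact h
  have key : ∀ js : List (Fin n), js.Nodup → ∀ y, [y] ∈ cS n t →
      cII t m js (PB Φ Ψ (tau (js.map (vj Ψ)))) [y] = 1 := by
    intro js
    induction js with
    | nil =>
      intro _ y hy
      change PB Φ Ψ (unit 1) [y] = 1
      have h2 := hΦ _ (hne' [y] (by simp)) (hΦl [y] hy (by simp))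
      rw [PB, if_neg (by simp)]
      refine Eq.trans (Finsupp.sum_congr fun s hs => ?_) (h2.2.2.1 (by simp))
      have h3 := (h2.1 s hs).1
      rw [List.length_map, List.length_singleton, List.length_eq_one_iff] at h3
      obtain ⟨W, rfl⟩ := h3
      simp [unit]
    | cons k js ih =>
      intro hnd y hy
      obtain ⟨hk, hnd'⟩ := List.nodup_cons.1 hnd
      obtain ⟨F, hF⟩ : ∃ F, F = PB Φ Ψ (cup (co (vj Ψ k)) (tau (js.map (vj Ψ)))) := ⟨_, rfl⟩
      have e1 : ∀ L ∈ cS n t, cI t m k (PB Φ Ψ (tau ((k :: js).map (vj Ψ)))) L =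
          cI t m k (dl F) L := by
        intro L hL
        have h2 := cI_sub t m k (PB Φ Ψ (tau ((k :: js).map (vj Ψ)))) (dl F) L
        rw [cI_zero m k _ hL] at h2
        · exact sub_eq_zero.1 h2.symm
        · intro L' hL' _ _
          have h3 : tau ((k :: js).map (vj Ψ)) =
              dl (cup (co (vj Ψ k)) (tau (js.map (vj Ψ)))) := by
            funext s
            exact cl_tau_cons _ _ _
          rw [h3, PB_dl _ rfl L' hL', hF, sub_self]
      have e2 : ∀ L ∈ cS n t, cI t m k (dl F) L =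
          PB Φ Ψ (tau (js.map (vj Ψ))) (L.map (cu k 1)) - dl (cI t m k F) L := by
        intro L hL
        rw [cI_dl]
        congr 1
        rw [h1, h0]
        cases L with
        | nil => simp [hF, PB]
        | cons z L =>
          have hm := cS_map hL k m
          have hm0 := cS_map hL k 0
          rw [h1] at hm
          rw [h0] at hm0
          have h3 : F ((z :: L).map (cu k 0)) = 0 := by
            rw [hF, PB_congr _ hm0 (by simp) _ (fun _ => 0), PB_zero]
            intro s hs hsW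
            cases s with
            | nil => rfl
            | cons W s =>
              rw [bm_cup_co, v0 k _ (by simp) ?_ W (hsW W (by simp)).1 (hsW W (by simp)).2,
                zero_smul]
              intro y' hy'
              obtain ⟨y'', _, rfl⟩ := List.mem_map.1 hy'
              exact cu_self _ _ _
          have h4 : F ((z :: L).map (cu k 1)) =
              PB Φ Ψ (tau (js.map (vj Ψ))) ((z :: L).map (cu k 1)) := by
            rw [hF]
            refine PB_congr _ hm (by simp) _ _ ?_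
            intro s hs hsW
            cases s with
            | nil => rw [cup_nil, cl_tau_nil]
            | cons W s =>
              rw [bm_cup_co, v1 k _ (by simp) ?_ W (hsW W (by simp)).2, one_smul]
              intro y' hy'
              obtain ⟨y'', _, rfl⟩ := List.mem_map.1 hy'
              exact cu_self _ _ _
          rw [h3, h4, sub_zero]
      change cII t m js (cI t m k (PB Φ Ψ (tau ((k :: js).map (vj Ψ))))) [y] = 1
      rw [cII_congr m js hy e1, cII_congr m js hy e2, cII_sub, cII_map t m k 1 js hk]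
      have e3 : cII t m js (dl (cI t m k F)) [y] = 0 := by
        refine cII_dl_zero h0 h1 js hnd' (cI t m k F) (cI_nil _ _ _ _) ?_ hy
        intro j hj l hl hne hface
        have hjk : j ≠ k := by
          rintro rfl
          exact hk hj
        refine cI_zero m k F hl fun L hL hlen hz => ?_
        have hLne : L ≠ [] := by
          intro h
          rw [h] at hlen
          simp at hlen
        rw [hF, PB_congr L hL hLne _ (fun _ => 0), PB_zero]
        intro s hs hsW
        cases s with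
        | nil => rfl
        | cons W s =>
          rw [bm_cup_co]
          have hvj : vj Ψ j ∈ js.map (vj Ψ) := List.mem_map_of_mem hj
          rcases hface with hf | hf
          · rw [cl_tau_const _ hvj (c := 0), smul_zero]
            intro W' hW'
            refine v0 j L hLne (fun z hz' => ?_) W' (hsW W' hW').1 (hsW W' hW').2
            obtain ⟨y', hy', e⟩ := hz z hz'
            rw [e j hjk, hf y' hy']
          · rw [cl_tau_const _ hvj (c := 1), smul_zero]
            intro W' hW'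
            refine v1 j L hLne (fun z hz' => ?_) W' (hsW W' hW').2
            obtain ⟨y', hy', e⟩ := hz z hz'
            rw [e j hjk, hf y' hy']
      rw [e3, sub_zero]
      have hy1 := cS_map hy k m
      rw [h1] at hy1
      exact ih hnd' (cu k 1 y) hy1
  have hy0 : [fun _ => t 0] ∈ cS n t := by
    intro i
    refine ⟨0, fun y hy => ?_⟩
    rw [List.mem_singleton] at hy
    subst hy
    exact Or.inl rfl
  have h2 := key (List.finRange n) (List.nodup_finRange n) _ hy0
  rw [cII_zero m (List.finRange n) _ hy0 ?_] at h2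
  · exact zero_ne_one h2
  · intro L hL hlen
    rw [List.length_singleton, List.length_finRange] at hlen
    have hLne : L ≠ [] := by
      intro h
      rw [h] at hlen
      simp at hlen
      omega
    rw [PB, if_neg hLne, (hΦ _ (hne' L hLne) (hΦl L hL hLne)).2.2.2 (by
      rw [List.length_map, hlen]; omega)]
    simp [extend]

section Dyn

private theorem cl_pow {X : Type*} [TopologicalSpace X] (h : X ≃ₜ X) (j : ℕ) (x : X) :
    (h ^ j) x = h^[j] x := by
  induction j generalizing x with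
  | zero => rfl
  | succ j ih =>
    rw [pow_succ, Function.iterate_succ]
    exact ih (h x)

private theorem cl_iterCover {X : Type*} [TopologicalSpace X] (h : X ≃ₜ X) {𝒰 : Set (Set X)}
    (h𝒰 : IsFinOpenCover 𝒰) (N : ℕ) : IsFinOpenCover (iterCover h 𝒰 N) := by
  refine ⟨?_, ?_, ?_⟩
  · have hfin : (Set.pi univ fun _ : Fin N => 𝒰).Finite := Set.Finite.pi fun _ => h𝒰.1
    refine (hfin.image fun g => ⋂ j : Fin N, (⇑(h ^ (j : ℕ))) ⁻¹' (g j)).subset ?_
    rintro _ ⟨g, hg, rfl⟩
    refine ⟨fun j => g j, fun j _ => hg j, ?_⟩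
    ext x
    simp only [mem_iInter, Finset.mem_range]
    exact ⟨fun hx j hj => hx ⟨j, hj⟩, fun hx j => hx j j.2⟩
  · rintro _ ⟨g, hg, rfl⟩
    exact isOpen_biInter_finset fun j _ => (h𝒰.2.1 _ (hg j)).preimage (h ^ j).continuous
  · refine eq_univ_of_forall fun x => ?_
    have hx : ∀ j : ℕ, ∃ U ∈ 𝒰, (h ^ j) x ∈ U := fun j => by
      have : (h ^ j) x ∈ ⋃₀ 𝒰 := by rw [h𝒰.2.2]; exact mem_univ _
      exact mem_sUnion.1 this
    choose g hg hgx using hx
    exact mem_sUnion.2 ⟨_, ⟨g, hg, rfl⟩, mem_iInter₂.2 fun j _ => hgx j⟩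

private theorem cl_limsup {a : ℕ → ℕ} {μ : ℝ}
    (ha : ∀ ε > 0, ∀ N₀ : ℕ, ∃ N, N₀ ≤ N ∧ (μ - ε) * N ≤ a N) :
    ENNReal.ofReal μ ≤ limsup (fun N : ℕ => (a N : ℝ≥0∞) / N) atTop := by
  refine ENNReal.le_of_forall_pos_le_add fun ε hε _ => ?_
  have h1 : ENNReal.ofReal μ ≤ ENNReal.ofReal (μ - ε) + ε := by
    have : ENNReal.ofReal μ = ENNReal.ofReal ((μ - ε) + ε) := by congr 1; ring
    rw [this]
    refine ENNReal.ofReal_add_le.trans ?_
    rw [ENNReal.ofReal_coe_nnreal]
  refine h1.trans (add_le_add_left ?_ _)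
  refine le_limsup_of_frequently_le (frequently_atTop.2 fun N₀ => ?_) (by isBoundedDefault)
  obtain ⟨N, hN, h2⟩ := ha ε (NNReal.coe_pos.2 hε) (N₀ + 1)
  refine ⟨N, by omega, ?_⟩
  have hN0 : (N : ℝ≥0∞) ≠ 0 := by
    rw [Nat.cast_ne_zero]
    omega
  rw [ENNReal.le_div_iff_mul_le (Or.inl hN0) (Or.inl (ENNReal.natCast_ne_top N))]
  rw [← ENNReal.ofReal_natCast N, ← ENNReal.ofReal_mul' (Nat.cast_nonneg N),
    ← ENNReal.ofReal_natCast (a N)]
  exact ENNReal.ofReal_le_ofReal h2

end Dyn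

/-- free cubes bound the homological mean dimension from below -/
theorem homMeanDim_ge {X : Type*} [TopologicalSpace X] [CompactSpace X]
    [TopologicalSpace.MetrizableSpace X] {h : X ≃ₜ X} {q : ℕ} {f : X → Fin q → unitInterval}
    (hf : Continuous f) {μ : ℝ} {Λ : Type*} {N : Λ → ℕ} {J : Λ → Finset (ℕ × Fin q)}
    {Ψ : Λ → (ℕ → Fin q → unitInterval) → X} (hJ : ∀ k, ∀ p ∈ J k, p.1 < N k)
    (hΨ : ∀ k, Continuous (Ψ k))
    (hfree : ∀ ε > 0, ∀ N₀ : ℕ, ∃ k, N₀ ≤ N k ∧ (μ - ε) * N k ≤ (J k).card)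
    (hΨJ : ∀ k, ∀ p ∈ J k, ∀ y, f (h^[p.1] (Ψ k y)) p.2 = y p.1 p.2) :
    ENNReal.ofReal μ ≤ homMeanDim h := by
  classical
  -- the cover
  let U : Finset (Fin q) → Set X := fun A => {x | ∀ s, (s ∈ A → f x s ≠ 1) ∧ (s ∉ A → f x s ≠ 0)}
  have hcs : ∀ s, Continuous fun x => f x s := fun s => (continuous_apply s).comp hf
  have h𝒰 : IsFinOpenCover (range U) := by
    refine ⟨Set.finite_range U, ?_, ?_⟩
    · rintro _ ⟨A, rfl⟩
      have : U A = ⋂ s, {x | (s ∈ A → f x s ≠ 1) ∧ (s ∉ A → f x s ≠ 0)} := by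
        ext x
        simp only [U, mem_iInter, mem_ofPred_eq]
      rw [this]
      refine isOpen_iInter_of_finite fun s => ?_
      by_cases hs : s ∈ A
      · simp only [hs, true_imp_iff, not_true_eq_false, false_imp_iff, and_true]
        exact isOpen_ne_fun (hcs s) continuous_const
      · simp only [hs, not_false_eq_true, true_imp_iff, false_imp_iff, true_and]
        exact isOpen_ne_fun (hcs s) continuous_const
    · refine eq_univ_of_forall fun x => mem_sUnion.2 ⟨_, ⟨Finset.univ.filter fun s => f x s ≠ 1,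
        rfl⟩, fun s => ⟨fun hs => (Finset.mem_filter.1 hs).2, fun hs h0 => hs ?_⟩⟩
      rw [Finset.mem_filter, h0]
      exact ⟨Finset.mem_univ _, zero_ne_one⟩
  -- the lower bound for one cube
  letI : MetricSpace X := TopologicalSpace.metrizableSpaceMetric X
  have hle : ∀ k, (J k).card ≤ homOrder (iterCover h (range U) (N k)) := by
    intro k
    have hne : homOrder (iterCover h (range U) (N k)) ∈
        {d | HomOrderLE (iterCover h (range U) (N k)) d} :=
      Nat.sInf_mem ⟨_, homOrderLE_coverDim _ (cl_iterCover h h𝒰 (N k))⟩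
    let e := (J k).equivFin
    let ext : (Fin (J k).card → unitInterval) → ℕ → Fin q → unitInterval := fun y j s =>
      if hp : (j, s) ∈ J k then y (e ⟨(j, s), hp⟩) else 0
    have hext : Continuous ext := by
      refine continuous_pi fun j => continuous_pi fun s => ?_
      by_cases hp : (j, s) ∈ J k
      · simp only [ext, hp, dif_pos]
        exact continuous_apply _
      · simp only [ext, hp, dif_neg, not_false_eq_true]
        exact continuous_const
    refine le_of_cube _ (fun y => Ψ k (ext y)) ((hΨ k).comp hext) ?_ hne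
    rintro _ ⟨g, hg, rfl⟩ i
    obtain ⟨⟨⟨j, s⟩, hp⟩, rfl⟩ := e.surjective i
    have hjN : j ∈ Finset.range (N k) := Finset.mem_range.2 (hJ k _ hp)
    obtain ⟨A, hA⟩ := hg j
    have hval : ∀ y, f (h^[j] (Ψ k (ext y))) s = y (e ⟨(j, s), hp⟩) := by
      intro y
      have h1 := hΨJ k _ hp (ext y)
      simp only [ext, hp, dif_pos] at h1
      exact h1
    have hmem : ∀ y, Ψ k (ext y) ∈ ⋂ j ∈ Finset.range (N k), (⇑(h ^ j)) ⁻¹' (g j) →
        h^[j] (Ψ k (ext y)) ∈ U A := by
      intro y hy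
      have h1 := mem_iInter₂.1 hy j hjN
      rw [mem_preimage, cl_pow, ← hA] at h1
      exact h1
    by_cases hs : s ∈ A
    · refine Or.inr fun y hy => ?_
      rw [← hval y]
      exact (hmem y hy s).1 hs
    · refine Or.inl fun y hy => ?_
      rw [← hval y]
      exact (hmem y hy s).2 hs
  refine (cl_limsup (a := fun N => homOrder (iterCover h (range U) N)) ?_).trans
    (le_iSup (fun 𝒰 : {𝒰 : Set (Set X) // IsFinOpenCover 𝒰} =>
      limsup (fun N : ℕ => (homOrder (iterCover h 𝒰.1 N) : ℝ≥0∞) / N) atTop) ⟨range U, h𝒰⟩)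
  intro ε hε N₀
  obtain ⟨k, hk, hk2⟩ := hfree ε hε N₀
  exact ⟨N k, hk, hk2.trans (Nat.cast_le.2 (hle k))⟩

end Vale.Agent.P093.Hom
end
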