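import Vale.Agent.P093.MathlibUsed
import Vale.Agent.P093.Hom.ResultDefs
import Vale.Agent.P093.HB.H1
import Vale.Agent.P093.HB.H2
import Vale.Agent.P093.Bdl.B2

set_option linter.all false

section
open Filter Topology Set
set_option linter.unusedSectionVars false
namespace Vale.Agent.P093

noncomputable section

theorem latDist_nonneg (n : ℕ) (s : ℝ) : 0 ≤ latDist n s := Metric.infDist_nonneg

end

end Vale.Agent.P093
end

section

/-!
Continuous towers (task HOM-H2a). The phases move by `q` modulo `n = q L + 1`.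
-/

open Filter Topology Set

namespace Vale.Agent.P093.Hom

section count

open scoped Classical in
/-- among `n = q L + 1` phases with increments `q` at least `c` are in an arc of length `c` -/
theorem tw_arc_count {q L n c : ℕ} (hn : n = q * L + 1) (hc : c ≤ n) (o s : ℝ) :
    c ≤ (Finset.univ.filter fun i : Fin n => ∃ k : ℤ, o ≤ s + q * (i : ℕ) - n * k ∧
      s + q * (i : ℕ) - n * k ≤ o + c).card := by
  have hn0 : 0 < n := by omega
  refine (arc_count_lower hc hn0 o s).trans ?_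
  let f : Fin n → Fin n := fun i => ⟨(q * (i : ℕ)) % n, Nat.mod_lt _ hn0⟩
  have hcop : Nat.Coprime n q := by
    rw [hn]
    exact Nat.isCoprime_iff_coprime.1 ⟨1, -(L : ℤ), by push_cast; ring⟩
  have hinj : Function.Injective f := by
    intro i j hij
    have h1 : (q * (i : ℕ)) % n = (q * (j : ℕ)) % n := congrArg Fin.val hij
    have h2 : (i : ℕ) ≡ j [MOD n] := Nat.ModEq.cancel_left_of_coprime hcop h1
    exact Fin.ext (by
      have h3 : (i : ℕ) % n = (j : ℕ) % n := h2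
      rwa [Nat.mod_eq_of_lt i.2, Nat.mod_eq_of_lt j.2] at h3)
  have hsurj : Function.Surjective f := Finite.surjective_of_injective hinj
  refine le_trans (Finset.card_le_card ?_) (Finset.card_image_le (f := f))
  intro r hr
  rw [Finset.mem_filter] at hr
  obtain ⟨-, k, h1, h2⟩ := hr
  obtain ⟨i, rfl⟩ := hsurj r
  obtain ⟨e, he⟩ : ∃ e : ℕ, e = q * (i : ℕ) / n := ⟨_, rfl⟩
  refine Finset.mem_image.2 ⟨i, Finset.mem_filter.2 ⟨Finset.mem_univ _, k + (e : ℤ), ?_⟩, rfl⟩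
  have h3 : (((f i : Fin n) : ℕ) : ℝ) = q * (i : ℕ) - n * (e : ℝ) := by
    have h4 : (q * (i : ℕ)) % n + n * e = q * (i : ℕ) := by rw [he]; exact Nat.mod_add_div _ _
    have h5 : (((q * (i : ℕ)) % n : ℕ) : ℝ) + n * (e : ℝ) = q * (i : ℕ) := by exact_mod_cast h4
    show (((q * (i : ℕ)) % n : ℕ) : ℝ) = _
    linarith
  rw [h3] at h1 h2
  push_cast
  constructor <;> nlinarith

variable {s : ℕ → ℝ} {A : ℕ → Prop}

theorem tw_stretch {q : ℕ} (hs : ∀ j, ¬ A (j + 1) → s (j + 1) = s j + q) (a i : ℕ)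
    (hA : ∀ j, a < j → j ≤ a + i → ¬ A j) : s (a + i) = s a + q * i := by
  induction i with
  | zero => simp
  | succ i ih =>
    rw [← add_assoc, hs (a + i) (hA _ (by omega) (by omega)), ih fun j h1 h2 => hA j h1 (by omega)]
    push_cast
    ring

variable [DecidablePred A]

theorem tw_block_one {q L n c : ℕ} (hn : n = q * L + 1)
    (hs : ∀ j, ¬ A (j + 1) → s (j + 1) = s j + q) (hc : c ≤ n) (o : ℝ) (P : ℕ → Prop)
    [DecidablePred P]
    (hP : ∀ j, (∃ k : ℤ, o ≤ s j - n * k ∧ s j - n * k ≤ o + c) → P j) (a : ℕ) :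
    c ≤ ((Finset.Ico a (a + n)).filter P).card + c * ((Finset.Ico a (a + n)).filter A).card := by
  classical
  by_cases hA : ∀ j, a < j → j < a + n → ¬ A j
  · refine le_trans ?_ (Nat.le_add_right _ _)
    rw [count_Ico_eq]
    refine (tw_arc_count hn hc o (s a)).trans (Finset.card_le_card ?_)
    intro i hi
    rw [Finset.mem_filter] at hi ⊢
    refine ⟨Finset.mem_univ _, hP _ ?_⟩
    rw [tw_stretch hs a i fun j h1 h2 => hA j h1 (by have := i.2; omega)]
    exact hi.2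
  · push Not at hA
    obtain ⟨j, h1, h2, h3⟩ := hA
    have h4 : 0 < ((Finset.Ico a (a + n)).filter A).card :=
      Finset.card_pos.2 ⟨j, Finset.mem_filter.2 ⟨Finset.mem_Ico.2 ⟨h1.le, h2⟩, h3⟩⟩
    calc c = c * 1 := (mul_one c).symm
      _ ≤ c * _ := Nat.mul_le_mul_left _ h4
      _ ≤ _ := Nat.le_add_left _ _

theorem tw_block {q L n c : ℕ} (hn : n = q * L + 1)
    (hs : ∀ j, ¬ A (j + 1) → s (j + 1) = s j + q) (hc : c ≤ n) (o : ℝ) (P : ℕ → Prop)
    [DecidablePred P]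
    (hP : ∀ j, (∃ k : ℤ, o ≤ s j - n * k ∧ s j - n * k ≤ o + c) → P j) (a B : ℕ) :
    c * B ≤ ((Finset.Ico a (a + n * B)).filter P).card +
      c * ((Finset.Ico a (a + n * B)).filter A).card := by
  induction B with
  | zero => simp
  | succ B ih =>
    have h1 := tw_block_one hn hs hc o P hP (a + n * B)
    have h2 : a + n * (B + 1) = a + n * B + n := by ring
    rw [h2, filter_Ico_split P (Nat.le_add_right a (n * B)) (Nat.le_add_right _ n),
      filter_Ico_split A (Nat.le_add_right a (n * B)) (Nat.le_add_right _ n)]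
    nlinarith

/-- the times close to a reset are rare -/
theorem tw_sparse {H : ℕ} (hH : 0 < H) (L N : ℕ) (R : ℕ → Prop) [DecidablePred R]
    (hsep : ∀ i j, i < j → R i → R j → H ≤ j - i) (hA : ∀ j, A j → ∃ k ≤ L, R (j + k)) :
    H * ((Finset.Ico 0 N).filter A).card ≤ (L + 1) * (N + L + H) := by
  have h1 := sparse_count hH 0 (N + L) R hsep
  have h2 : ((Finset.Ico 0 N).filter A).card ≤
      (((Finset.Ico 0 (N + L)).filter R) ×ˢ Finset.range (L + 1)).card := by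
    choose! k hk using hA
    refine Finset.card_le_card_of_injOn (fun j => (j + k j, k j)) ?_ ?_
    · intro j hj
      rw [Finset.mem_coe, Finset.mem_filter, Finset.mem_Ico] at hj
      obtain ⟨h3, h4⟩ := hk j hj.2
      show (j + k j, k j) ∈ _
      rw [Finset.mem_coe, Finset.mem_product, Finset.mem_filter, Finset.mem_Ico, Finset.mem_range]
      exact ⟨⟨⟨Nat.zero_le _, by omega⟩, h4⟩, by omega⟩
    · intro i _ j _ hij
      simp only [Prod.mk.injEq] at hij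
      omega
  rw [Finset.card_product, Finset.card_range] at h2
  calc H * ((Finset.Ico 0 N).filter A).card
      ≤ H * (((Finset.Ico 0 (N + L)).filter R).card * (L + 1)) := Nat.mul_le_mul_left _ h2
    _ = (L + 1) * (H * ((Finset.Ico 0 (N + L)).filter R).card) := by ring
    _ ≤ (L + 1) * ((N + L - 0) + H) := Nat.mul_le_mul_left _ h1
    _ = (L + 1) * (N + L + H) := by rw [Nat.sub_zero]

end count

section tower

variable {X : Type*} [MetricSpace X]

/-- the tower function -/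
theorem tw_def (h : X ≃ₜ X) (L q : ℕ) (w nn : C(X, ℝ)) :
    ∃ ω : C(X, ℝ), ∀ x, ω x = arc (q * L + 1) 1 ((q : ℝ) - 2) 1 (q * nn x) *
      ∏ k ∈ Finset.Icc 1 L, max 0 (1 - 2 * |w ((h ^ (k : ℤ)) x)|) := by
  refine ⟨⟨_, ?_⟩, fun x => rfl⟩
  refine ((arc_continuous _ _ _ _).comp (by fun_prop)).mul (continuous_finsetProd _ fun k _ => ?_)
  have := (h ^ (k : ℤ)).continuous
  fun_prop

variable {h : X ≃ₜ X} {L q : ℕ} {w nn ω : C(X, ℝ)}

theorem tw_nonneg (hω : ∀ x, ω x = arc (q * L + 1) 1 ((q : ℝ) - 2) 1 (q * nn x) *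
    ∏ k ∈ Finset.Icc 1 L, max 0 (1 - 2 * |w ((h ^ (k : ℤ)) x)|)) (x : X) :
    0 ≤ ω x ∧ ω x ≤ 1 := by
  rw [hω]
  have h1 : 0 ≤ ∏ k ∈ Finset.Icc 1 L, max 0 (1 - 2 * |w ((h ^ (k : ℤ)) x)|) :=
    Finset.prod_nonneg fun k _ => le_max_left _ _
  have h2 : ∏ k ∈ Finset.Icc 1 L, max 0 (1 - 2 * |w ((h ^ (k : ℤ)) x)|) ≤ 1 := by
    refine Finset.prod_le_one (fun k _ => le_max_left _ _) fun k _ => max_le zero_le_one ?_
    have := abs_nonneg (w ((h ^ (k : ℤ)) x))
    linarith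
  exact ⟨mul_nonneg (arc_nonneg _ _ _ _ _) h1,
    mul_le_one₀ (arc_le_one _ _ _ _ _) h1 h2⟩

/-- the support of the tower function -/
theorem tw_supp (hω : ∀ x, ω x = arc (q * L + 1) 1 ((q : ℝ) - 2) 1 (q * nn x) *
    ∏ k ∈ Finset.Icc 1 L, max 0 (1 - 2 * |w ((h ^ (k : ℤ)) x)|)) {x : X} (hx : ω x ≠ 0) :
    (∃ k : ℤ, 0 < q * nn x - (q * L + 1) * k ∧ q * nn x - (q * L + 1) * k < q) ∧
      ∀ k : ℕ, 1 ≤ k → k ≤ L → |w ((h ^ (k : ℤ)) x)| ≤ 1 / 2 := by
  rw [hω] at hx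
  constructor
  · obtain ⟨k, h1, h2⟩ := arc_ne_zero one_pos (left_ne_zero_of_mul hx)
    refine ⟨k, ?_, ?_⟩
    · push_cast at h1
      linarith
    · push_cast at h2
      linarith
  · intro k h1 h2
    have h3 := (Finset.prod_ne_zero_iff.1 (right_ne_zero_of_mul hx)) k (Finset.mem_Icc.2 ⟨h1, h2⟩)
    by_contra h4
    rw [not_le] at h4
    exact h3 (max_eq_left (by linarith))

variable [CompactSpace X]

theorem tw_zpow_succ (h : X ≃ₜ X) (i : ℤ) (x : X) : (h ^ (i + 1)) x = h ((h ^ i) x) := by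
  rw [add_comm, zpow_add_apply', zpow_one]

theorem tw_sep (hnn : ∀ x, |w (h x)| ≤ 1 / 2 → nn (h x) = nn x + 1)
    (hω : ∀ x, ω x = arc (q * L + 1) 1 ((q : ℝ) - 2) 1 (q * nn x) *
    ∏ k ∈ Finset.Icc 1 L, max 0 (1 - 2 * |w ((h ^ (k : ℤ)) x)|)) (x : X) (i j : ℤ) (hij : i < j)
    (hi : ω ((h ^ i) x) ≠ 0) (hj : ω ((h ^ j) x) ≠ 0) : (L : ℤ) ≤ j - i := by
  by_contra hlt
  rw [not_le] at hlt
  obtain ⟨⟨k₁, a1, a2⟩, a3⟩ := tw_supp hω hi
  obtain ⟨⟨k₂, b1, b2⟩, -⟩ := tw_supp hω hj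
  obtain ⟨t, ht⟩ : ∃ t : ℕ, j = i + t := ⟨(j - i).toNat, by omega⟩
  have key : ∀ t : ℕ, t ≤ L → nn ((h ^ (i + t)) x) = nn ((h ^ i) x) + t := by
    intro t
    induction t with
    | zero => intro _; simp
    | succ t ih =>
      intro htL
      have h1 := a3 (t + 1) (by omega) htL
      rw [← zpow_add_apply'] at h1
      have h2 : ((t + 1 : ℕ) : ℤ) + i = (i + t) + 1 := by push_cast; ring
      rw [h2, tw_zpow_succ] at h1
      have h3 := hnn _ h1
      have h4 : i + ((t + 1 : ℕ) : ℤ) = (i + t) + 1 := by push_cast; ring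
      rw [h4, tw_zpow_succ, h3, ih (by omega)]
      push_cast
      ring
  subst ht
  have ht1 : 1 ≤ t := by omega
  have htL : t + 1 ≤ L := by omega
  rw [key t (by omega)] at b1 b2
  -- integer inequality
  have c1 : ((q : ℤ) * t - (q * L + 1) * (k₂ - k₁) : ℤ) < q := by
    have : (((q : ℤ) * t - (q * L + 1) * (k₂ - k₁) : ℤ) : ℝ) < ((q : ℤ) : ℝ) := by
      push_cast
      linarith
    exact_mod_cast this
  have c2 : -(q : ℤ) < ((q : ℤ) * t - (q * L + 1) * (k₂ - k₁) : ℤ) := by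
    have : ((-(q : ℤ) : ℤ) : ℝ) < (((q : ℤ) * t - (q * L + 1) * (k₂ - k₁) : ℤ) : ℝ) := by
      push_cast
      linarith
    exact_mod_cast this
  have hq : (0 : ℤ) ≤ q := Int.natCast_nonneg q
  have ht1' : (1 : ℤ) ≤ t := by exact_mod_cast ht1
  have htL' : (t : ℤ) + 1 ≤ L := by exact_mod_cast htL
  rcases le_or_gt (k₂ - k₁) 0 with hk | hk
  · have e1 : (0 : ℤ) ≤ (q * L + 1) * -(k₂ - k₁) := by
      refine mul_nonneg ?_ (by omega)
      positivity
    have e2 : (q : ℤ) * 1 ≤ q * t := mul_le_mul_of_nonneg_left ht1' hq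
    linarith
  · have e1 : ((q : ℤ) * L + 1) * 1 ≤ (q * L + 1) * (k₂ - k₁) := by
      refine mul_le_mul_of_nonneg_left (by omega) ?_
      positivity
    have e2 : (q : ℤ) * (t + 1) ≤ q * L := mul_le_mul_of_nonneg_left htL' hq
    linarith

end tower

open scoped Classical in
theorem exists_towerA {X : Type*} [MetricSpace X] [CompactSpace X] [Infinite X] (h : X ≃ₜ X)
    (hmin : IsMinimalHomeo h) (L : ℕ) (hL : 0 < L) {ε : ℝ} (hε : 0 < ε) :
    ∃ ω : C(X, ℝ), (∀ x, 0 ≤ ω x) ∧ (∀ x, ω x ≤ 1) ∧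
      (∀ x (i j : ℤ), i < j → ω ((h ^ i) x) ≠ 0 → ω ((h ^ j) x) ≠ 0 → (L : ℤ) ≤ j - i) ∧
      ∃ C : ℝ, ∀ x (N : ℕ), (1 - ε) * N / L - C ≤
        ((Finset.range N).filter fun i : ℕ => ω ((h ^ (i : ℤ)) x) = 1).card := by
  have hL' : (0 : ℝ) < L := by exact_mod_cast hL
  obtain ⟨q, hq⟩ := exists_nat_ge (6 / ε + 2)
  have hq2 : 2 ≤ q := by
    have : (2 : ℝ) ≤ q := by
      have := div_pos (show (0 : ℝ) < 6 by norm_num) hε
      linarith
    exact_mod_cast this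
  obtain ⟨c, rfl⟩ : ∃ c, q = c + 2 := ⟨q - 2, by omega⟩
  obtain ⟨n, hn⟩ : ∃ n, n = (c + 2) * L + 1 := ⟨_, rfl⟩
  have hn0 : 0 < n := by omega
  obtain ⟨H, hH⟩ := exists_nat_ge (2 * L * (c + 1) * (L + 1) / ε + 1)
  have hH0 : 0 < H := by
    have : (0 : ℝ) < H := lt_of_lt_of_le (by positivity) hH
    exact_mod_cast this
  obtain ⟨w, nn, hsep, hnn⟩ := exists_lind h hmin H
  obtain ⟨ω, hω⟩ := tw_def h L (c + 2) w nn
  refine ⟨ω, fun x => (tw_nonneg hω x).1, fun x => (tw_nonneg hω x).2, tw_sep hnn hω,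
    c + (c + 1) * (L + 1) * (L + 1), fun x N => ?_⟩
  -- resets
  let R : ℕ → Prop := fun j => w ((h ^ (j : ℤ)) x) ≠ 0
  let A : ℕ → Prop := fun j => ∃ k ≤ L, R (j + k)
  let s : ℕ → ℝ := fun j => ((c + 2 : ℕ) : ℝ) * nn ((h ^ (j : ℤ)) x)
  let P : ℕ → Prop := fun j => ω ((h ^ (j : ℤ)) x) = 1
  let P' : ℕ → Prop := fun j => P j ∨ A j
  have hstep : ∀ j, ¬ A (j + 1) → s (j + 1) = s j + ((c + 2 : ℕ) : ℝ) := by
    intro j hj
    have h1 : w ((h ^ ((j + 1 : ℕ) : ℤ)) x) = 0 := by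
      by_contra h1
      exact hj ⟨0, Nat.zero_le _, h1⟩
    have h2 : (((j + 1 : ℕ) : ℤ)) = (j : ℤ) + 1 := by push_cast; ring
    rw [h2, tw_zpow_succ] at h1
    have h3 := hnn _ (show |w (h ((h ^ (j : ℤ)) x))| ≤ 1 / 2 by rw [h1, abs_zero]; norm_num)
    show ((c + 2 : ℕ) : ℝ) * nn ((h ^ ((j + 1 : ℕ) : ℤ)) x) = _
    rw [h2, tw_zpow_succ, h3]
    ring
  have hP : ∀ j, (∃ k : ℤ, (1 : ℝ) ≤ s j - n * k ∧ s j - n * k ≤ 1 + c) → P' j := by
    rintro j ⟨k, h1, h2⟩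
    by_cases hA : A j
    · exact Or.inr hA
    · left
      show ω ((h ^ (j : ℤ)) x) = 1
      rw [hω]
      have h3 : arc ((c + 2) * L + 1) 1 (((c + 2 : ℕ) : ℝ) - 2) 1
          (((c + 2 : ℕ) : ℝ) * nn ((h ^ (j : ℤ)) x)) = 1 := by
        rw [← hn]
        refine arc_eq_one one_pos k h1 ?_
        refine h2.trans (le_of_eq ?_)
        push_cast
        ring
      rw [h3, one_mul]
      refine Finset.prod_eq_one fun k hk => ?_
      rw [Finset.mem_Icc] at hk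
      have h4 : w ((h ^ (k : ℤ)) ((h ^ (j : ℤ)) x)) = 0 := by
        by_contra h4
        refine hA ⟨k, hk.2, ?_⟩
        show w ((h ^ ((j + k : ℕ) : ℤ)) x) ≠ 0
        rw [← zpow_add_apply'] at h4
        have h5 : (((j + k : ℕ) : ℤ)) = (k : ℤ) + j := by push_cast; ring
        rw [h5]
        exact h4
      rw [h4, abs_zero]
      norm_num
  have hcn : c ≤ n := by
    have := Nat.mul_le_mul_left (c + 2) hL
    omega
  have h1 := tw_block hn hstep hcn 1 P' hP 0 (N / n)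
  have hNn : n * (N / n) ≤ N := Nat.mul_div_le N n
  have h2 : ((Finset.Ico 0 (0 + n * (N / n))).filter P').card ≤
      ((Finset.range N).filter P).card + ((Finset.Ico 0 N).filter A).card := by
    refine le_trans (Finset.card_le_card ?_) (Finset.card_union_le _ _)
    intro j hj
    rw [Finset.mem_filter, Finset.mem_Ico] at hj
    rw [Finset.mem_union, Finset.mem_filter, Finset.mem_filter, Finset.mem_range, Finset.mem_Ico]
    rcases hj.2 with h3 | h3
    · exact Or.inl ⟨by omega, h3⟩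
    · exact Or.inr ⟨⟨Nat.zero_le _, by omega⟩, h3⟩
  have h3 : ((Finset.Ico 0 (0 + n * (N / n))).filter A).card ≤
      ((Finset.Ico 0 N).filter A).card := by
    refine Finset.card_le_card (Finset.filter_subset_filter _ ?_)
    exact Finset.Ico_subset_Ico le_rfl (by omega)
  have h4 : H * ((Finset.Ico 0 N).filter A).card ≤ (L + 1) * (N + L + H) := by
    refine tw_sparse hH0 L N R ?_ (fun j hj => hj)
    intro i j hij hi hj
    have := hsep x i j (by exact_mod_cast hij) hi hj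
    omega
  show (1 - ε) * N / L - (c + (c + 1) * (L + 1) * (L + 1)) ≤ (((Finset.range N).filter P).card : ℝ)
  generalize ((Finset.range N).filter P).card = p at *
  generalize ((Finset.Ico 0 N).filter A).card = a at *
  generalize ((Finset.Ico 0 (0 + n * (N / n))).filter P').card = p' at *
  generalize ((Finset.Ico 0 (0 + n * (N / n))).filter A).card = a' at *
  have h5 : c * (N / n) ≤ p + (c + 1) * a := by
    have := Nat.mul_le_mul_left c h3
    linarith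
  have h6 : N < n * (N / n) + n := by
    have := Nat.lt_mul_div_succ N hn0
    rwa [Nat.mul_add, Nat.mul_one] at this
  generalize N / n = e at *
  have g1 : (c : ℝ) * ε ≥ 6 := by
    have : 6 / ε ≤ c := by push_cast at hq; linarith
    rwa [div_le_iff₀ hε] at this
  have g2 : 2 * L * ((c : ℝ) + 1) * (L + 1) ≤ H * ε := by
    have : 2 * L * ((c : ℝ) + 1) * (L + 1) / ε ≤ H := by linarith
    rwa [div_le_iff₀ hε] at this
  have hL1 : (1 : ℝ) ≤ L := by exact_mod_cast hL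
  have hH1 : (1 : ℝ) ≤ H := by exact_mod_cast hH0
  have h5' : (c : ℝ) * e ≤ p + (c + 1) * a := by exact_mod_cast h5
  have h6' : (N : ℝ) ≤ n * (e + 1) := by
    have : (N : ℝ) < n * e + n := by exact_mod_cast h6
    linarith
  have h4' : (H : ℝ) * a ≤ (L + 1) * (N + L + H) := by exact_mod_cast h4
  have hn' : (n : ℝ) = (c + 2) * L + 1 := by rw [hn]; push_cast; ring
  have hc0 : (0 : ℝ) ≤ c := Nat.cast_nonneg c
  have he0 : (0 : ℝ) ≤ e := Nat.cast_nonneg e
  have hN0 : (0 : ℝ) ≤ N := Nat.cast_nonneg N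
  have k1 : (1 - ε / 2) * N ≤ c * (e + 1) * L := by
    rcases le_or_gt (1 - ε / 2) 0 with h0 | h0
    · exact (mul_nonpos_of_nonpos_of_nonneg h0 hN0).trans (by positivity)
    · have e1 : (1 - ε / 2) * n ≤ c * L := by
        rw [hn']
        have f1 := mul_le_mul_of_nonneg_right g1.le hL'.le
        have f2 : 0 ≤ ε * (2 * (L : ℝ) + 1) := by positivity
        linarith
      calc (1 - ε / 2) * N ≤ (1 - ε / 2) * (n * (e + 1)) := mul_le_mul_of_nonneg_left h6' h0.le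
        _ = ((1 - ε / 2) * n) * (e + 1) := by ring
        _ ≤ (c * L) * (e + 1) := mul_le_mul_of_nonneg_right e1 (by linarith)
        _ = c * (e + 1) * L := by ring
  have k2 : (c + 1) * a * L ≤ ε / 2 * N + (c + 1) * (L + 1) * (L + 1) * (L : ℝ) := by
    have e1 : (H : ℝ) * ((c + 1) * a * L) ≤
        H * (ε / 2 * N + (c + 1) * (L + 1) * (L + 1) * (L : ℝ)) := by
      have e2 : (H : ℝ) * ((c + 1) * a * L) ≤ (c + 1) * L * ((L + 1) * (N + L + H)) := by
        have := mul_le_mul_of_nonneg_left h4' (show (0 : ℝ) ≤ (c + 1) * L by positivity)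
        linarith
      have e3 : (c + 1) * L * (L + 1) * (N : ℝ) ≤ H * (ε / 2 * N) := by
        have := mul_le_mul_of_nonneg_right g2 hN0
        linarith
      have e4 : (L : ℝ) + H ≤ H * (L + 1) := by
        have := mul_le_mul_of_nonneg_right hH1 hL'.le
        linarith
      have e5 : (c + 1) * L * (L + 1) * ((L : ℝ) + H) ≤ (c + 1) * L * (L + 1) * (H * (L + 1)) :=
        mul_le_mul_of_nonneg_left e4 (by positivity)
      linarith
    exact le_of_mul_le_mul_left e1 (by linarith)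
  rw [sub_le_iff_le_add, div_le_iff₀ hL']
  have k3 : (c : ℝ) * (e + 1) * L ≤ (p + (c + 1) * a + c) * L := by
    refine mul_le_mul_of_nonneg_right ?_ hL'.le
    linarith
  linarith

end Vale.Agent.P093.Hom
end

section

/-!
TASK HOM-H2: continuous towers.

Proof. Let `ε < 1` (otherwise `ω = 0`... note that for `ε ≥ 1` the zero function works). Choose
`q ≥ 8/ε`, `d = ε/16`, the period `λ = L + 1/q` and `H` a huge integer (`H ≥ 100 q L² / ε` or so).
`exists_lind h hmin H` gives `w`, `nn : C(X, ℝ)` (`w ≠ 0` at times at least `H` apart, and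
`nn (h x) = nn x + 1` if `|w (h x)| ≤ 1/2`). Let `bump : ℝ → ℝ` be continuous, `λ`-periodic, with values in
`[0,1]`, positive exactly on `(0,1) + λℤ` and `= 1` on `[d, 1-d] + λℤ` (e.g. in terms of the distance to
`1/2 + λℤ`, cf. `latDist` and `arc` in `Vale/Agent/P093/Phase.lean`, where the period is an integer; scale
or copy), and `ω x = bump (nn x) * ∏_{k=1}^{L} max 0 (1 - 2 |w (h^k x)|)`.
Separation: if `ω (h^i x) ≠ 0` and `ω (h^j x) ≠ 0`, `i < j`, `j - i < L`, then there is no reset between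
them: `nn (h^j x) = nn (h^i x) + (j - i)`, both in `(0,1) + λℤ`, so `j - i ∈ λ k + (-1,1)` for an integer
`k`; `1 ≤ j - i ≤ L - 1` is impossible: `k = 0` gives `j - i < 1`, `k ≥ 1` gives `j - i > λ - 1 > L - 1`.
Count: `ω (h^i x) = 1` as soon as `nn (h^i x) ∈ [d, 1-d] + λℤ` and `w (h^{i+k} x) = 0` for `1 ≤ k ≤ L`.
The number of `i < N + L` with `w (h^i x) ≠ 0` is at most `(N+L)/H + 1`; they cut the time interval into
at most `(N+L)/H + 2` stretches on which the phase increases by one in each step and `w = 0`. On a stretch of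
length `T`, with phases `s, s+1, …`, consider the integers `k` with `λ k` well inside; the interval
`λ k + [d, 1-d]` contains a phase unless the fractional part of `s - λ k` is in a fixed interval
of length `2d` modulo 1; as `λ k = L k + k/q`, among `q` consecutive `k` at most `2 d q + 1` are bad. So the
number of good `i` in a stretch of length `T` is at least `(T / (q λ) - 2) (q - 2dq - 1) ≥
(1 - ε/2) T / L - 2 q` (as `λ = L (1 + 1/(qL))`). Sum over the stretches: at least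
`(1 - ε) N / L - C`.

`exists_scalar`: let `δ = (s' - s)/4`, `n ≥ s' + 1` a natural number, `L` large (`n / L ≤ δ`), `c ≤ L` natural
with `n c / L ∈ [s + δ, s + 2δ]`, and `ω` from `exists_tower` for `L` and `ε = min 1 (δ / (n + 1))`, so that
`n c (1 - ε)/L ≥ s`. Put `ω₁ = max 0 (2ω - 1)`, `ω₂ = min 1 (2ω)` and for all `l`
`g l x = ∑_{k<c} ω₁ (h^{-k} x)`, `G l x = ∑_{k<c} ω₂ (h^{-k} x)`. Since `c ≤ L`, at most one summand is nonzero.
`g l x ≠ 0` gives `k` with `ω (h^{-k} x) > 1/2`, so `ω₂ = 1` there. The sum of `G` over `j < N` is at most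
`n * ∑_{k<c} #{i ∈ [-k, N-k) | ω (h^i x) ≠ 0} ≤ n c (N/L + 2)`. If `ω (h^i x) = 1`, `0 ≤ i`, `k < c`,
`i + k < N` then `g (h^{i+k} x) = 1`, and different pairs `(i,k)` give different `i + k`.
-/

open Filter Topology Set

namespace Vale.Agent.P093.Hom

open scoped Classical in
theorem exists_tower {X : Type*} [MetricSpace X] [CompactSpace X] [Infinite X] (h : X ≃ₜ X)
    (hmin : IsMinimalHomeo h) (L : ℕ) (hL : 0 < L) {ε : ℝ} (hε : 0 < ε) :
    ∃ ω : C(X, ℝ), (∀ x, 0 ≤ ω x) ∧ (∀ x, ω x ≤ 1) ∧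
      (∀ x (i j : ℤ), i < j → ω ((h ^ i) x) ≠ 0 → ω ((h ^ j) x) ≠ 0 → (L : ℤ) ≤ j - i) ∧
      ∃ C : ℝ, ∀ x (N : ℕ), (1 - ε) * N / L - C ≤
        ((Finset.range N).filter fun i : ℕ => ω ((h ^ (i : ℤ)) x) = 1).card :=
  exists_towerA h hmin L hL hε

end Vale.Agent.P093.Hom
end

section

/-!
TASK HOM-H2b: scalar elements, from continuous towers.
-/

open Filter Topology Set

namespace Vale.Agent.P093.Hom

/-- a set of times `< N` with gaps at least `L` has at most `N / L + 1` elements. -/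
theorem card_le_of_gap (S : Finset ℕ) (N L : ℕ) (hL : 0 < L) (hS : ∀ i ∈ S, i < N)
    (hgap : ∀ i ∈ S, ∀ j ∈ S, i < j → L ≤ j - i) : (S.card : ℝ) ≤ N / L + 1 := by
  have h1 : S.card ≤ (Finset.range (N / L + 1)).card := by
    refine Finset.card_le_card_of_injOn (fun i => i / L) (fun i hi => ?_) ?_
    · have h2 := hS i (by simpa using hi)
      simp only [Finset.coe_range, Set.mem_Iio]
      exact Nat.lt_succ_of_le (Nat.div_le_div_right h2.le)
    · intro i hi j hj hij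
      simp only at hij
      have hi' : i ∈ S := by simpa using hi
      have hj' : j ∈ S := by simpa using hj
      have e1 := Nat.div_add_mod i L
      have e2 := Nat.div_add_mod j L
      have e3 := Nat.mod_lt i hL
      have e4 := Nat.mod_lt j hL
      rw [hij] at e1
      rcases lt_trichotomy i j with h3 | h3 | h3
      · have := hgap i hi' j hj' h3
        omega
      · exact h3
      · have := hgap j hj' i hi' h3
        omega
  rw [Finset.card_range] at h1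
  have h2 : ((N / L : ℕ) : ℝ) ≤ (N : ℝ) / L := Nat.cast_div_le
  have h3 : (S.card : ℝ) ≤ ((N / L : ℕ) : ℝ) + 1 := by exact_mod_cast h1
  linarith

open scoped Classical in
/-- scalar elements: positive functions with prescribed density -/
theorem exists_scalar {X : Type*} [MetricSpace X] [CompactSpace X] [Infinite X] (h : X ≃ₜ X)
    (hmin : IsMinimalHomeo h) {s s' : ℝ} (hs : 0 ≤ s) (hss : s < s') :
    ∃ (n : ℕ) (g G : Fin n → C(X, ℝ)), (∀ l x, 0 ≤ g l x) ∧ (∀ l x, g l x ≤ 1) ∧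
      (∀ l x, 0 ≤ G l x) ∧ (∀ l x, g l x ≠ 0 → 1 ≤ G l x) ∧
      ∃ C : ℝ, ∀ x (N : ℕ), (∑ j ∈ Finset.range N, ∑ l, G l ((h ^ (j : ℤ)) x) ≤ s' * N + C) ∧
        s * N - C ≤ (Finset.univ.filter
          (fun p : Fin N × Fin n => g p.2 ((h ^ ((p.1 : ℕ) : ℤ)) x) = 1)).card := by
  -- the parameters
  obtain ⟨δ, hδ, hδs⟩ : ∃ δ : ℝ, 0 < δ ∧ s' = s + 4 * δ := ⟨(s' - s) / 4, by linarith, by ring⟩
  obtain ⟨n, hn⟩ := exists_nat_ge (s' + 1)
  have hn1 : (1 : ℝ) ≤ n := by linarith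
  have hn0 : (0 : ℝ) < n := by linarith
  obtain ⟨L, hLn⟩ := exists_nat_ge (n / δ)
  have hL0 : (0 : ℝ) < L := lt_of_lt_of_le (by positivity) hLn
  have hL : 0 < L := by exact_mod_cast hL0
  have hLδ : (n : ℝ) ≤ δ * L := by rwa [div_le_iff₀' hδ] at hLn
  obtain ⟨c, hc⟩ : ∃ c : ℕ, c = ⌈(s + δ) * L / n⌉₊ := ⟨_, rfl⟩
  have hc1 : (s + δ) * L ≤ n * c := by
    have h1 : (s + δ) * L / n ≤ c := by
      rw [hc]
      exact Nat.le_ceil _
    rwa [div_le_iff₀' hn0] at h1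
  have hc2 : n * (c : ℝ) ≤ (s + 2 * δ) * L := by
    have h1 : (c : ℝ) < (s + δ) * L / n + 1 := by
      rw [hc]
      exact Nat.ceil_lt_add_one (by positivity)
    have h2 : n * (c : ℝ) ≤ n * ((s + δ) * L / n + 1) := by gcongr
    rw [mul_add, mul_div_cancel₀ _ hn0.ne'] at h2
    nlinarith
  have hcL : c ≤ L := by
    have h1 : n * (c : ℝ) ≤ n * L := by nlinarith
    exact_mod_cast le_of_mul_le_mul_left h1 hn0
  obtain ⟨ω, h0, h1, hsep, C₀, hC₀⟩ := exists_tower h hmin L hL (ε := δ / n) (by positivity)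
  -- the functions
  let ω₁ : C(X, ℝ) := ⟨fun x => max 0 (2 * ω x - 1), by fun_prop⟩
  let ω₂ : C(X, ℝ) := ⟨fun x => min 1 (2 * ω x), by fun_prop⟩
  have hcont : ∀ k : ℤ, Continuous fun x => (h ^ k) x := fun k => (h ^ k).continuous
  let g : C(X, ℝ) := ⟨fun x => ∑ k ∈ Finset.range c, ω₁ ((h ^ (-(k : ℤ))) x),
    continuous_finsetSum _ fun k _ => ω₁.continuous.comp (hcont _)⟩
  let G : C(X, ℝ) := ⟨fun x => ∑ k ∈ Finset.range c, ω₂ ((h ^ (-(k : ℤ))) x),
    continuous_finsetSum _ fun k _ => ω₂.continuous.comp (hcont _)⟩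
  have hω₁ : ∀ x, ω₁ x = max 0 (2 * ω x - 1) := fun x => rfl
  have hω₂ : ∀ x, ω₂ x = min 1 (2 * ω x) := fun x => rfl
  have hg : ∀ x, g x = ∑ k ∈ Finset.range c, ω₁ ((h ^ (-(k : ℤ))) x) := fun x => rfl
  have hG : ∀ x, G x = ∑ k ∈ Finset.range c, ω₂ ((h ^ (-(k : ℤ))) x) := fun x => rfl
  have hω₁0 : ∀ x, 0 ≤ ω₁ x := fun x => le_max_left _ _
  have hω₁1 : ∀ x, ω₁ x ≤ 1 := fun x => max_le zero_le_one (by linarith [h1 x])
  have hω₂0 : ∀ x, 0 ≤ ω₂ x := fun x => le_min zero_le_one (by linarith [h0 x])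
  have hω₂1 : ∀ x, ω₂ x ≤ 1 := fun x => min_le_left _ _
  have huniq : ∀ x, ∀ i j : ℤ, |i - j| < L → ω ((h ^ i) x) ≠ 0 → ω ((h ^ j) x) ≠ 0 → i = j := by
    intro x i j hij hi hj
    rw [abs_lt] at hij
    rcases lt_trichotomy i j with h3 | h3 | h3
    · have := hsep x i j h3 hi hj
      omega
    · exact h3
    · have := hsep x j i h3 hj hi
      omega
  have hg0 : ∀ x, 0 ≤ g x := by
    intro x
    rw [hg]
    exact Finset.sum_nonneg fun k _ => hω₁0 _
  have hg1 : ∀ x, g x ≤ 1 := by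
    intro x
    rw [hg]
    by_cases hk : ∃ k ∈ Finset.range c, ω ((h ^ (-(k : ℤ))) x) ≠ 0
    · obtain ⟨k, hk, hk'⟩ := hk
      rw [Finset.sum_eq_single_of_mem k hk]
      · exact hω₁1 _
      · intro l hl hlk
        have h3 : ω ((h ^ (-(l : ℤ))) x) = 0 := by
          by_contra h3
          rw [Finset.mem_range] at hk hl
          have := huniq x _ _ (by rw [abs_lt]; omega) h3 hk'
          exact hlk (by omega)
        rw [hω₁, h3]
        norm_num
    · push Not at hk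
      rw [Finset.sum_eq_zero]
      · exact zero_le_one
      · intro l hl
        rw [hω₁, hk l hl]
        norm_num
  have hG0 : ∀ x, 0 ≤ G x := by
    intro x
    rw [hG]
    exact Finset.sum_nonneg fun k _ => hω₂0 _
  have hgG : ∀ x, g x ≠ 0 → 1 ≤ G x := by
    intro x hx
    rw [hg] at hx
    obtain ⟨k, hk, hk'⟩ := Finset.exists_ne_zero_of_sum_ne_zero hx
    have h3 : 1 ≤ ω₂ ((h ^ (-(k : ℤ))) x) := by
      rw [hω₁] at hk'
      rw [hω₂]
      refine le_min le_rfl ?_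
      by_contra h4
      push Not at h4
      exact hk' (max_eq_left (by linarith))
    exact h3.trans (Finset.single_le_sum (f := fun k : ℕ => ω₂ ((h ^ (-(k : ℤ))) x))
      (fun _ _ => hω₂0 _) hk)
  have hgone : ∀ x, ∀ k < c, ω ((h ^ (-(k : ℤ))) x) = 1 → g x = 1 := by
    intro x k hk hx
    refine le_antisymm (hg1 x) ?_
    have h3 : ω₁ ((h ^ (-(k : ℤ))) x) = 1 := by
      rw [hω₁, hx]
      norm_num
    rw [← h3]
    exact Finset.single_le_sum (f := fun k : ℕ => ω₁ ((h ^ (-(k : ℤ))) x))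
      (fun _ _ => hω₁0 _) (Finset.mem_range.2 hk)
  -- upper bound
  have hup : ∀ x (N : ℕ), ∑ j ∈ Finset.range N, G ((h ^ (j : ℤ)) x) ≤ c * (N / L + 1) := by
    intro x N
    simp only [hG]
    rw [Finset.sum_comm, ← nsmul_eq_mul]
    refine (Finset.sum_le_card_nsmul _ _ ((N : ℝ) / L + 1) fun k _ => ?_).trans_eq
      (by rw [Finset.card_range])
    have h3 : ∀ j ∈ Finset.range N, ω₂ ((h ^ (-(k : ℤ))) ((h ^ (j : ℤ)) x)) ≤
        if ω ((h ^ ((j : ℤ) - k)) x) ≠ 0 then 1 else 0 := by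
      intro j _
      rw [← zpow_add_apply', neg_add_eq_sub]
      split_ifs with h4
      · exact hω₂1 _
      · push Not at h4
        rw [hω₂, h4]
        norm_num
    refine (Finset.sum_le_sum h3).trans ?_
    rw [Finset.sum_boole]
    refine card_le_of_gap _ N L hL (fun i hi => ?_) fun i hi j hj hij => ?_
    · exact Finset.mem_range.1 (Finset.mem_filter.1 hi).1
    · have := hsep x _ _ (by omega : (i : ℤ) - k < (j : ℤ) - k) (Finset.mem_filter.1 hi).2
        (Finset.mem_filter.1 hj).2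
      omega
  -- lower bound
  have hlow : ∀ x (N : ℕ), (c : ℝ) * ((1 - δ / n) * N / L - C₀) - c ≤
      ((Finset.range N).filter fun j : ℕ => g ((h ^ (j : ℤ)) x) = 1).card := by
    intro x N
    have h3 : c * ((Finset.range N).filter fun i : ℕ => ω ((h ^ (i : ℤ)) x) = 1).card ≤
        ((Finset.range N).filter fun j : ℕ => g ((h ^ (j : ℤ)) x) = 1).card + c := by
      calc c * ((Finset.range N).filter fun i : ℕ => ω ((h ^ (i : ℤ)) x) = 1).card
          = (((Finset.range N).filter fun i : ℕ => ω ((h ^ (i : ℤ)) x) = 1) ×ˢ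
              Finset.range c).card := by
            rw [Finset.card_product, Finset.card_range, mul_comm]
        _ ≤ ((Finset.range (N + c)).filter fun j : ℕ => g ((h ^ (j : ℤ)) x) = 1).card := by
            refine Finset.card_le_card_of_injOn (fun p => p.1 + p.2) (fun p hp => ?_) ?_
            · simp only [Finset.coe_product, Finset.coe_filter, Finset.coe_range, Set.mem_prod,
                Finset.mem_range, Set.mem_Iio] at hp
              obtain ⟨⟨hp1, hp2⟩, hp3⟩ := hp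
              refine Finset.mem_coe.2 (Finset.mem_filter.2
                ⟨Finset.mem_range.2 (add_lt_add hp1 hp3), hgone _ p.2 hp3 ?_⟩)
              rw [← zpow_add_apply']
              push_cast
              rw [neg_add_eq_sub, add_sub_cancel_right]
              exact hp2
            · rintro ⟨i, k⟩ hp ⟨i', k'⟩ hp' heq
              simp only [Finset.coe_product, Finset.coe_filter, Finset.coe_range, Set.mem_prod,
                Finset.mem_range, Set.mem_Iio] at hp hp'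
              simp only at heq
              obtain ⟨⟨hp1, hp2⟩, hp3⟩ := hp
              obtain ⟨⟨hp1', hp2'⟩, hp3'⟩ := hp'
              have := huniq x i i' (by rw [abs_lt]; omega) (by rw [hp2]; exact one_ne_zero)
                (by rw [hp2']; exact one_ne_zero)
              have h5 : i = i' := by exact_mod_cast this
              subst h5
              have h6 : k = k' := by omega
              rw [h6]
        _ ≤ (((Finset.range N).filter fun j : ℕ => g ((h ^ (j : ℤ)) x) = 1) ∪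
              Finset.Ico N (N + c)).card := by
            refine Finset.card_le_card fun j hj => ?_
            rw [Finset.mem_filter, Finset.mem_range] at hj
            rw [Finset.mem_union, Finset.mem_filter, Finset.mem_range, Finset.mem_Ico]
            by_cases h4 : j < N
            · exact Or.inl ⟨h4, hj.2⟩
            · exact Or.inr ⟨by omega, hj.1⟩
        _ ≤ _ := by
            refine (Finset.card_union_le _ _).trans ?_
            rw [Nat.card_Ico]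
            omega
    have h4 := hC₀ x N
    have h5 : (c : ℝ) * ((Finset.range N).filter fun i : ℕ => ω ((h ^ (i : ℤ)) x) = 1).card ≤
        ((Finset.range N).filter fun j : ℕ => g ((h ^ (j : ℤ)) x) = 1).card + c := by
      exact_mod_cast h3
    have h6 : (c : ℝ) * ((1 - δ / n) * N / L - C₀) ≤
        c * ((Finset.range N).filter fun i : ℕ => ω ((h ^ (i : ℤ)) x) = 1).card := by gcongr
    linarith
  refine ⟨n, fun _ => g, fun _ => G, fun _ => hg0, fun _ => hg1, fun _ => hG0, fun _ => hgG,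
    n * c * (|C₀| + 1), fun x N => ⟨?_, ?_⟩⟩
  · simp only [Finset.sum_const, Finset.card_univ, Fintype.card_fin, nsmul_eq_mul]
    rw [← Finset.mul_sum]
    have h3 := hup x N
    have h4 : (n : ℝ) * ∑ j ∈ Finset.range N, G ((h ^ (j : ℤ)) x) ≤ n * (c * (N / L + 1)) := by
      gcongr
    have h5 : (n : ℝ) * (c * (N / L + 1)) = (n * c) * (N / L) + n * c := by ring
    have h6 : (n * c : ℝ) * (N / L) ≤ (s + 2 * δ) * L * (N / L) := by gcongr
    have h7 : (s + 2 * δ) * L * ((N : ℝ) / L) = (s + 2 * δ) * N := by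
      field_simp
    have h8 : (s + 2 * δ) * N ≤ s' * N := by
      rw [hδs]
      gcongr
      linarith
    have h9 : (n * c : ℝ) ≤ n * c * (|C₀| + 1) := by
      nlinarith [abs_nonneg C₀, (by positivity : (0 : ℝ) ≤ n * c)]
    linarith
  · have hcard : (Finset.univ.filter
        (fun p : Fin N × Fin n => g ((h ^ ((p.1 : ℕ) : ℤ)) x) = 1)).card =
        ((Finset.range N).filter fun j : ℕ => g ((h ^ (j : ℤ)) x) = 1).card * n := by
      have h3 : (Finset.univ.filter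
          (fun p : Fin N × Fin n => g ((h ^ ((p.1 : ℕ) : ℤ)) x) = 1)) =
          (Finset.univ.filter fun j : Fin N => g ((h ^ ((j : ℕ) : ℤ)) x) = 1) ×ˢ
            (Finset.univ : Finset (Fin n)) := by
        ext p
        simp
      rw [h3, Finset.card_product, Finset.card_univ, Fintype.card_fin]
      congr 1
      rw [Finset.card_filter, Finset.card_filter]
      exact Fin.sum_univ_eq_sum_range (fun j => if g ((h ^ (j : ℤ)) x) = 1 then 1 else 0) N
    rw [hcard]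
    push_cast
    have h3 := hlow x N
    have h4 : ((c : ℝ) * ((1 - δ / n) * N / L - C₀) - c) * n ≤
        ((Finset.range N).filter fun j : ℕ => g ((h ^ (j : ℤ)) x) = 1).card * n := by gcongr
    refine le_trans ?_ h4
    have h5 : ((c : ℝ) * ((1 - δ / n) * N / L - C₀) - c) * n =
        (n * c) * (N / L) - δ * c * (N / L) - n * c * (C₀ + 1) := by
      field_simp
      ring
    have h6 : (s + δ) * L * ((N : ℝ) / L) ≤ (n * c) * (N / L) := by gcongr
    have h7 : (s + δ) * L * ((N : ℝ) / L) = (s + δ) * N := by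
      field_simp
    have h8 : δ * c * ((N : ℝ) / L) ≤ δ * L * (N / L) := by
      gcongr
    have h9 : δ * L * ((N : ℝ) / L) = δ * N := by
      field_simp
    have h10 : n * c * (C₀ + 1) ≤ n * c * (|C₀| + 1) := by
      gcongr
      exact le_abs_self _
    rw [h5]
    linarith

end Vale.Agent.P093.Hom
end

section

/-!
TASK HOM-H3: the positive element `b` and the comparison.

Proof of `exists_core`: copy the first half of the proof of `not_comparisonBound'`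
(`Vale/Agent/P093/CriterionG.lean`), which produces
`CuntzLE (diagM π (fun l => cf (g l))) (fullM π β)` from the comparison bound, then `cuntzLE_map` and
`core` (`Vale/Agent/P093/Core.lean`).

Proof of `exists_b`: let `f G j x = ψ G j x - 1/2`, `r_{G,k} = rad (nF (f G) rho k) (f G (2k+1)) (f G (2k+2))`,
`û_{G,k} = (nF (f G) rho k, f G (2k+1), f G (2k+2)) / max r_{G,k} (rho k / 2)` (norm `≤ 1`, continuous),
`ω̃ = max 0 (4ω - 3)`, `β x = ω̃ x •` block diagonal matrix with the blocks `betaM (û_{G,k} x)` (index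
`(G,k,e)`). `betaM` is positive semidefinite, `1 - betaM` too on the unit ball, trace `2 - ‖u‖ ≥ 1`.
Hopf relations: if `r = r_{G,k} x ≥ rho k / 2` then `û` is the unit vector `(A,B,C)/r` and `betaM û = hopf û`,
any vector `v = hopf û w` satisfies `(1 + û₂) v₁ = (û₀ + i û₁) v₀`, `(1 - û₂) v₀ = (û₀ - i û₁) v₁`
(direct computation with `û₀² + û₁² + û₂² = 1`); multiply by `r`.
-/

open Filter Topology Set
open scoped ENNReal ComplexOrder

namespace Vale.Agent.P093.Hom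

section eltaux

open Matrix

/-- block diagonal matrix with `2 × 2` blocks -/
noncomputable def eltM {t κ : ℕ} (P : Fin t → Fin κ → Matrix (Fin 2) (Fin 2) ℂ) :
    Matrix (Fin t × Fin κ × Fin 2) (Fin t × Fin κ × Fin 2) ℂ :=
  Matrix.of fun i j => if i.1 = j.1 ∧ i.2.1 = j.2.1 then P i.1 i.2.1 i.2.2 j.2.2 else 0

variable {t κ : ℕ} (P : Fin t → Fin κ → Matrix (Fin 2) (Fin 2) ℂ)

theorem eltM_apply (i j : Fin t × Fin κ × Fin 2) :
    eltM P i j = if i.1 = j.1 ∧ i.2.1 = j.2.1 then P i.1 i.2.1 i.2.2 j.2.2 else 0 := rfl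

theorem eltM_mulVec (v : Fin t × Fin κ × Fin 2 → ℂ) (G : Fin t) (k : Fin κ) (e : Fin 2) :
    ∑ i, eltM P (G, k, e) i * v i = (P G k *ᵥ fun e' => v (G, k, e')) e := by
  simp only [Fintype.sum_prod_type, eltM_apply]
  rw [Finset.sum_eq_single G, Finset.sum_eq_single k]
  · simp only [and_self, if_true]
    rfl
  · intro k' _ hk'
    exact Finset.sum_eq_zero fun e' _ => by rw [if_neg fun h => hk' h.2.symm, zero_mul]
  · intro h; exact absurd (Finset.mem_univ _) h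
  · intro G' _ hG'
    exact Finset.sum_eq_zero fun k' _ => Finset.sum_eq_zero fun e' _ => by
      rw [if_neg fun h => hG' h.1.symm, zero_mul]
  · intro h; exact absurd (Finset.mem_univ _) h

theorem eltM_posSemidef (hP : ∀ G k, (P G k).PosSemidef) : (eltM P).PosSemidef := by
  apply Matrix.PosSemidef.of_dotProduct_mulVec_nonneg
  · ext i j
    rw [Matrix.conjTranspose_apply, eltM_apply, eltM_apply]
    obtain ⟨G, k, e⟩ := i
    obtain ⟨G', k', e'⟩ := j
    by_cases h : G = G' ∧ k = k'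
    · obtain ⟨rfl, rfl⟩ := h
      simp only [and_self, if_true]
      exact (hP G k).isHermitian.apply e e'
    · rw [if_neg h, if_neg fun h' => h ⟨h'.1.symm, h'.2.symm⟩, star_zero]
  · intro v
    have h : star v ⬝ᵥ (eltM P *ᵥ v) = ∑ G, ∑ k, star (fun e' => v (G, k, e')) ⬝ᵥ
        (P G k *ᵥ fun e' => v (G, k, e')) := by
      simp only [dotProduct, Fintype.sum_prod_type]
      refine Finset.sum_congr rfl fun G _ => Finset.sum_congr rfl fun k _ =>
        Finset.sum_congr rfl fun e _ => ?_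
      have h1 : (eltM P *ᵥ v) (G, k, e) = (P G k *ᵥ fun e' => v (G, k, e')) e :=
        eltM_mulVec P v G k e
      rw [h1]
      rfl
    rw [h]
    exact Finset.sum_nonneg fun G _ => Finset.sum_nonneg fun k _ =>
      (hP G k).dotProduct_mulVec_nonneg _

theorem one_sub_eltM : 1 - eltM P = eltM fun G k => 1 - P G k := by
  ext i j
  rw [Matrix.sub_apply, eltM_apply, eltM_apply]
  obtain ⟨G, k, e⟩ := i
  obtain ⟨G', k', e'⟩ := j
  by_cases h : G = G' ∧ k = k'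
  · obtain ⟨rfl, rfl⟩ := h
    simp only [and_self, if_true, Matrix.sub_apply, Matrix.one_apply, Prod.mk.injEq, true_and]
  · rw [if_neg h, if_neg h, sub_zero, Matrix.one_apply, if_neg]
    rintro h'
    simp only [Prod.mk.injEq] at h'
    exact h ⟨h'.1, h'.2.1⟩

theorem eltM_trace : ∑ i, eltM P i i = ∑ G, ∑ k, (P G k).trace := by
  simp only [Fintype.sum_prod_type, eltM_apply, and_self, if_true]
  rfl

end eltaux

/-- the vector `(A, B, C) / max r (ρ / 2)` -/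
noncomputable def eltU (A B C ρ : ℝ) : EuclideanSpace ℝ (Fin 3) :=
  (max (Real.sqrt (A ^ 2 + B ^ 2 + C ^ 2)) (ρ / 2))⁻¹ • WithLp.toLp 2 ![A, B, C]

theorem eltU_norm {A B C ρ : ℝ} (hρ : 0 < ρ) : ‖eltU A B C ρ‖ =
    (max (Real.sqrt (A ^ 2 + B ^ 2 + C ^ 2)) (ρ / 2))⁻¹ * Real.sqrt (A ^ 2 + B ^ 2 + C ^ 2) := by
  have h0 : 0 < max (Real.sqrt (A ^ 2 + B ^ 2 + C ^ 2)) (ρ / 2) :=
    lt_max_of_lt_right (half_pos hρ)
  rw [eltU, norm_smul, norm_inv, Real.norm_of_nonneg h0.le, EuclideanSpace.norm_eq]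
  simp [Fin.sum_univ_three, sq_abs]

theorem eltU_norm_le {A B C ρ : ℝ} (hρ : 0 < ρ) : ‖eltU A B C ρ‖ ≤ 1 := by
  have h0 : 0 < max (Real.sqrt (A ^ 2 + B ^ 2 + C ^ 2)) (ρ / 2) :=
    lt_max_of_lt_right (half_pos hρ)
  rw [eltU_norm hρ, inv_mul_le_iff₀ h0, mul_one]
  exact le_max_left _ _

theorem eltU_continuous {X : Type*} [TopologicalSpace X] {A B C : X → ℝ} {ρ : ℝ} (hρ : 0 < ρ)
    (hA : Continuous A) (hB : Continuous B) (hC : Continuous C) :
    Continuous fun x => eltU (A x) (B x) (C x) ρ := by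
  have h1 : Continuous fun x => max (Real.sqrt (A x ^ 2 + B x ^ 2 + C x ^ 2)) (ρ / 2) :=
    ((((hA.pow 2).add (hB.pow 2)).add (hC.pow 2)).sqrt).max continuous_const
  have h2 : Continuous fun x => (WithLp.toLp 2 ![A x, B x, C x] : EuclideanSpace ℝ (Fin 3)) := by
    refine (PiLp.continuous_toLp 2 _).comp ?_
    refine continuous_pi fun i => ?_
    fin_cases i
    · exact hA
    · exact hB
    · exact hC
  exact (h1.inv₀ fun x => (lt_max_of_lt_right (half_pos hρ)).ne').smul h2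

theorem hopfRel_of {A B C : ℝ} (hr : 0 < Real.sqrt (A ^ 2 + B ^ 2 + C ^ 2))
    (s w0 w1 v0 v1 : ℂ)
    (h0 : ((Real.sqrt (A ^ 2 + B ^ 2 + C ^ 2) : ℝ) : ℂ) * v0 =
      s * ((((Real.sqrt (A ^ 2 + B ^ 2 + C ^ 2) : ℝ) : ℂ) + C) * w0 + (A - B * Complex.I) * w1))
    (h1 : ((Real.sqrt (A ^ 2 + B ^ 2 + C ^ 2) : ℝ) : ℂ) * v1 =
      s * ((A + B * Complex.I) * w0 + (((Real.sqrt (A ^ 2 + B ^ 2 + C ^ 2) : ℝ) : ℂ) - C) * w1)) :
    HopfRel A B C v0 v1 := by
  have hr2 : ((Real.sqrt (A ^ 2 + B ^ 2 + C ^ 2) : ℝ) : ℂ) ^ 2 = A ^ 2 + B ^ 2 + C ^ 2 := by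
    rw [← Complex.ofReal_pow, Real.sq_sqrt (by positivity)]
    push_cast
    rfl
  unfold HopfRel
  set r := Real.sqrt (A ^ 2 + B ^ 2 + C ^ 2) with hrdef
  have hr0 : (r : ℂ) ≠ 0 := by exact_mod_cast hr.ne'
  have hI := Complex.I_sq
  have e1 : (⟨A, B⟩ : ℂ) = A + B * Complex.I := by
    apply Complex.ext <;> simp
  have e2 : (⟨A, -B⟩ : ℂ) = A - B * Complex.I := by
    apply Complex.ext <;> simp
  rw [e1, e2]
  constructor
  · apply mul_left_cancel₀ hr0
    push_cast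
    linear_combination ((r : ℂ) + C) * h1 - (A + B * Complex.I) * h0 + s * w1 * hr2 +
      s * w1 * B ^ 2 * hI
  · apply mul_left_cancel₀ hr0
    push_cast
    linear_combination ((r : ℂ) - C) * h0 - (A - B * Complex.I) * h1 + s * w0 * hr2 +
      s * w0 * B ^ 2 * hI

theorem nF_continuous {X : Type*} [TopologicalSpace X] {f : ℕ → X → ℝ} {ρ : ℕ → ℝ}
    (hf : ∀ k, Continuous (f k)) (l : ℕ) : Continuous (nF f ρ l) := by
  induction l with
  | zero => exact hf 0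
  | succ l ih =>
    have h : Continuous fun y => Real.sqrt (nF f ρ l y ^ 2 + f (2 * l + 1) y ^ 2 +
        f (2 * l + 2) y ^ 2) - ρ l :=
      ((((ih.pow 2).add ((hf _).pow 2)).add ((hf _).pow 2)).sqrt).sub continuous_const
    exact h

set_option backward.isDefEq.respectTransparency false in
theorem exists_core {X : Type*} [TopologicalSpace X] [CompactSpace X] [T2Space X]
    {A : Type*} [CStarAlgebra A] [PartialOrder A] [StarOrderedRing A] {h : X ≃ₜ X}
    (hfree : ∀ (k : ℤ) (x : X), k ≠ 0 → (h ^ k) x ≠ x)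
    (hA : IsCrossedProduct h A) {r : ℝ} (hr : IsComparisonBound A r) {n m : ℕ}
    (g G : Fin n → C(X, ℝ)) (β : Fin m → Fin m → C(X, ℂ)) (r' : ℝ) (N₀ : ℕ) (hN₀ : 0 < N₀)
    (hr' : r < r')
    (hg0 : ∀ l x, 0 ≤ g l x) (hg1 : ∀ l x, g l x ≤ 1) (hG0 : ∀ l x, 0 ≤ G l x)
    (hG : ∀ l x, g l x ≠ 0 → 1 ≤ G l x)
    (hβ : ∀ x, (Matrix.of fun k k' => β k k' x).PosSemidef)
    (hβ1 : ∀ x, (1 - Matrix.of fun k k' => β k k' x).PosSemidef)
    (hav : ∀ x, ∑ j ∈ Finset.range N₀, ∑ l, G l ((h ^ (j : ℤ)) x) + r' * N₀ ≤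
      ∑ j ∈ Finset.range N₀, ∑ k, (β k k ((h ^ (j : ℤ)) x)).re) :
    ∃ (R : ℕ) (K : Fin m → Fin n → ℤ → ℤ → C(X, ℂ)), ∀ (x0 : X) (I : Finset ℤ)
      (z : ℤ → Fin n → ℂ), (∀ j ∈ I, ∀ l, z j l ≠ 0 → 3 / 4 ≤ g l ((h ^ j) x0)) →
      (∀ (i : ℤ) (κ : Fin m), ∑ κ', β κ κ' ((h ^ i) x0) *
        (∑ l, ∑ j ∈ I, if i ∈ Finset.Icc (j - (R:ℤ)) (j + R) then K κ' l i j x0 * z j l else 0)
          = 0) →
      ∀ j ∈ I, ∀ l, z j l = 0 := by
  obtain ⟨π, u, hπ, hu1, hu2, hcov, hd⟩ := hA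
  obtain ⟨Λ, hΛ, -⟩ := exists_lam hfree hπ hu1 hu2 hcov hd
  obtain ⟨-, hcomp⟩ := hr
  have hle : CuntzLE (diagM π (fun l => cf (g l))) (fullM π β) := by
    refine hcomp n m _ _ (diagM_nonneg π g hg0) (fullM_nonneg π β hβ) fun τ => ?_
    have h1 := dTau_diag_le' π τ g G hg0 hg1 hG0 hG
    have h2 := traceEval_le_dTau τ (fullM_nonneg π β hβ) (fullM_le_one π β hβ1)
    rw [traceEval_full' π τ β hβ] at h2
    have h3 := trace_average' π h hu1 hu2 hcov τ (∑ l, G l) (trFun β) r' N₀ hN₀ (fun x => by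
      have := hav x
      simp only [ContinuousMap.sum_apply, trFun_apply]
      exact this)
    linarith
  exact core h β g (cuntzLE_map Λ hΛ _ β hle)

theorem exists_b {X : Type*} [TopologicalSpace X] [CompactSpace X] {κ t : ℕ}
    (ω : C(X, ℝ)) (hω0 : ∀ x, 0 ≤ ω x) (hω1 : ∀ x, ω x ≤ 1) (ψ : Fin t → ℕ → C(X, ℝ)) :
    ∃ β : Fin t × Fin κ × Fin 2 → Fin t × Fin κ × Fin 2 → C(X, ℂ),
      (∀ x, (Matrix.of fun k k' => β k k' x).PosSemidef) ∧
      (∀ x, (1 - Matrix.of fun k k' => β k k' x).PosSemidef) ∧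
      (∀ x, ω x = 1 → (t * κ : ℝ) ≤ ∑ k, (β k k x).re) ∧
      (∀ x, 0 ≤ ∑ k, (β k k x).re) ∧
      (∀ x i j, β i j x ≠ 0 → 3 / 4 < ω x) ∧
      ∀ x (w : Fin t × Fin κ × Fin 2 → ℂ) (G : Fin t) (k : Fin κ),
        rho k / 2 ≤ rad (nF (fun j x => ψ G j x - 1 / 2) rho k)
          (fun x => ψ G (2 * k + 1) x - 1 / 2) (fun x => ψ G (2 * k + 2) x - 1 / 2) x →
        HopfRel (nF (fun j x => ψ G j x - 1 / 2) rho k x)
          (ψ G (2 * k + 1) x - 1 / 2) (ψ G (2 * k + 2) x - 1 / 2)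
          (∑ i, β (G, k, 0) i x * w i) (∑ i, β (G, k, 1) i x * w i) := by
  have hfc : ∀ (G : Fin t) (j : ℕ), Continuous fun x => ψ G j x - 1 / 2 := fun G j =>
    (ψ G j).continuous.sub continuous_const
  set U : Fin t → Fin κ → X → EuclideanSpace ℝ (Fin 3) := fun G k x =>
    eltU (nF (fun j x => ψ G j x - 1 / 2) rho k x) (ψ G (2 * k + 1) x - 1 / 2)
      (ψ G (2 * k + 2) x - 1 / 2) (rho k) with hU
  have hUc : ∀ G k, Continuous (U G k) := fun G k =>
    eltU_continuous (gh_rho_pos _) (nF_continuous (hfc G) _) (hfc G _) (hfc G _)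
  have hU1 : ∀ G k x, ‖U G k x‖ ≤ 1 := fun G k x => eltU_norm_le (gh_rho_pos _)
  set s : X → ℝ := fun x => max 0 (4 * ω x - 3) with hs
  have hsc : Continuous s :=
    continuous_const.max ((continuous_const.mul ω.continuous).sub continuous_const)
  have hs0 : ∀ x, 0 ≤ s x := fun x => le_max_left _ _
  have hs1 : ∀ x, s x ≤ 1 := fun x => max_le zero_le_one (by linarith [hω1 x])
  set P : X → Fin t → Fin κ → Matrix (Fin 2) (Fin 2) ℂ := fun x G k => betaM (U G k x) with hP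
  have hc : ∀ i j, Continuous fun x => ((s x : ℝ) : ℂ) * eltM (P x) i j := by
    intro i j
    refine (Complex.continuous_ofReal.comp hsc).mul ?_
    simp only [eltM_apply]
    by_cases hij : i.1 = j.1 ∧ i.2.1 = j.2.1
    · simp only [if_pos hij]
      exact (continuous_apply_apply i.2.2 j.2.2).comp (betaM_continuous.comp (hUc _ _))
    · simp only [if_neg hij]
      exact continuous_const
  have hmat : ∀ x, (Matrix.of fun k k' => (⟨fun x => ((s x : ℝ) : ℂ) * eltM (P x) k k', hc k k'⟩ :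
      C(X, ℂ)) x) = ((s x : ℝ) : ℂ) • eltM (P x) := fun x => rfl
  have htr : ∀ x, ∑ k, ((⟨fun x => ((s x : ℝ) : ℂ) * eltM (P x) k k, hc k k⟩ :
      C(X, ℂ)) x).re = s x * ∑ G : Fin t, ∑ k : Fin κ, (2 - ‖U G k x‖) := by
    intro x
    have h1 : ∑ k, ((⟨fun x => ((s x : ℝ) : ℂ) * eltM (P x) k k, hc k k⟩ :
      C(X, ℂ)) x).re = s x * (∑ k, eltM (P x) k k).re := by
      rw [Complex.re_sum, Finset.mul_sum]
      refine Finset.sum_congr rfl fun k _ => ?_
      exact Complex.re_ofReal_mul _ _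
    rw [h1, eltM_trace]
    congr 1
    rw [Complex.re_sum]
    refine Finset.sum_congr rfl fun G _ => ?_
    rw [Complex.re_sum]
    refine Finset.sum_congr rfl fun k _ => ?_
    rw [hP]
    change (betaM (U G k x)).trace.re = _
    rw [betaM_trace, Complex.ofReal_re]
  have hsum : ∀ x, (t * κ : ℝ) ≤ ∑ G : Fin t, ∑ k : Fin κ, (2 - ‖U G k x‖) := by
    intro x
    have h1 : ∑ _G : Fin t, ∑ _k : Fin κ, (1 : ℝ) ≤
        ∑ G : Fin t, ∑ k : Fin κ, (2 - ‖U G k x‖) :=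
      Finset.sum_le_sum fun G _ => Finset.sum_le_sum fun k _ => by linarith [hU1 G k x]
    simpa using h1
  refine ⟨fun i j => ⟨fun x => ((s x : ℝ) : ℂ) * eltM (P x) i j, hc i j⟩, ?_, ?_, ?_, ?_, ?_, ?_⟩
  · intro x
    rw [hmat]
    exact (eltM_posSemidef _ fun G k => betaM_posSemidef (hU1 G k x)).smul
      (by exact_mod_cast hs0 x)
  · intro x
    rw [hmat]
    have h2 : (1 : Matrix (Fin t × Fin κ × Fin 2) (Fin t × Fin κ × Fin 2) ℂ) -
        ((s x : ℝ) : ℂ) • eltM (P x) = ((1 - s x : ℝ) : ℂ) • 1 +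
          ((s x : ℝ) : ℂ) • (1 - eltM (P x)) := by
      rw [smul_sub, Complex.ofReal_sub, sub_smul, Complex.ofReal_one, one_smul]
      abel
    rw [h2, one_sub_eltM]
    refine (Matrix.PosSemidef.one.smul ?_).add
      ((eltM_posSemidef _ fun G k => one_sub_betaM_posSemidef _).smul ?_)
    · exact_mod_cast sub_nonneg.2 (hs1 x)
    · exact_mod_cast hs0 x
  · intro x hx
    rw [htr]
    have : s x = 1 := by
      rw [hs]
      change max 0 (4 * ω x - 3) = 1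
      rw [hx]; norm_num
    rw [this, one_mul]
    exact hsum x
  · intro x
    rw [htr]
    exact mul_nonneg (hs0 x) ((by positivity : (0 : ℝ) ≤ t * κ).trans (hsum x))
  · intro x i j hij
    by_contra hcon
    push Not at hcon
    apply hij
    change ((s x : ℝ) : ℂ) * eltM (P x) i j = 0
    have : s x = 0 := max_eq_left (by linarith)
    rw [this, Complex.ofReal_zero, zero_mul]
  · intro x w G k hk
    have hrad : rad (nF (fun j x => ψ G j x - 1 / 2) rho k)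
          (fun x => ψ G (2 * k + 1) x - 1 / 2) (fun x => ψ G (2 * k + 2) x - 1 / 2) x =
        Real.sqrt (nF (fun j x => ψ G j x - 1 / 2) rho k x ^ 2 +
          (ψ G (2 * k + 1) x - 1 / 2) ^ 2 + (ψ G (2 * k + 2) x - 1 / 2) ^ 2) := rfl
    rw [hrad] at hk
    set a := nF (fun j x => ψ G j x - 1 / 2) rho k x with ha
    set b := ψ G (2 * k + 1) x - 1 / 2 with hb
    set c := ψ G (2 * k + 2) x - 1 / 2 with hc'
    have hr : 0 < Real.sqrt (a ^ 2 + b ^ 2 + c ^ 2) :=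
      lt_of_lt_of_le (half_pos (gh_rho_pos _)) hk
    have hr0 : ((Real.sqrt (a ^ 2 + b ^ 2 + c ^ 2) : ℝ) : ℂ) ≠ 0 := by exact_mod_cast hr.ne'
    have hsumβ : ∀ e : Fin 2, ∑ i, (⟨fun x => ((s x : ℝ) : ℂ) * eltM (P x) (G, k, e) i,
        hc (G, k, e) i⟩ : C(X, ℂ)) x * w i =
        ((s x : ℝ) : ℂ) * (Matrix.mulVec (betaM (U G k x)) fun e' => w (G, k, e')) e := by
      intro e
      rw [← eltM_mulVec (P x) w G k e, Finset.mul_sum]
      refine Finset.sum_congr rfl fun i _ => ?_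
      exact mul_assoc _ _ _
    rw [hsumβ, hsumβ]
    have hnorm : ‖U G k x‖ = 1 := by
      change ‖eltU a b c (rho k)‖ = 1
      rw [eltU_norm (gh_rho_pos _), max_eq_left hk, inv_mul_cancel₀ hr.ne']
    have hu : U G k x = (Real.sqrt (a ^ 2 + b ^ 2 + c ^ 2))⁻¹ • WithLp.toLp 2 ![a, b, c] := by
      change eltU a b c (rho k) = _
      rw [eltU, max_eq_left hk]
    have hu0 : (U G k x) 0 = (Real.sqrt (a ^ 2 + b ^ 2 + c ^ 2))⁻¹ * a := by rw [hu]; rfl
    have hu1 : (U G k x) 1 = (Real.sqrt (a ^ 2 + b ^ 2 + c ^ 2))⁻¹ * b := by rw [hu]; rfl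
    have hu2 : (U G k x) 2 = (Real.sqrt (a ^ 2 + b ^ 2 + c ^ 2))⁻¹ * c := by rw [hu]; rfl
    rw [betaM_sphere hnorm]
    refine hopfRel_of hr (((s x : ℝ) : ℂ) / 2) (w (G, k, 0)) (w (G, k, 1)) _ _ ?_ ?_
    · simp only [Matrix.mulVec, dotProduct, Fin.sum_univ_two, hopf, Matrix.of_apply,
        Matrix.cons_val_zero, Matrix.cons_val_one, hu0, hu1, hu2]
      push_cast
      field_simp
    · simp only [Matrix.mulVec, dotProduct, Fin.sum_univ_two, hopf, Matrix.of_apply,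
        Matrix.cons_val_zero, Matrix.cons_val_one, hu0, hu1, hu2]
      push_cast
      field_simp

end Vale.Agent.P093.Hom
end

section

/-!
TASK HOM-H4: the nowhere vanishing multihomogeneous family.

Proof. Choose `s < s' < r'' := κ t (1-ε)/L - r'` with `r < r'` (possible by `hs`); `exists_scalar` for
`s < s'` gives `n, g, G`, `C₁`; `exists_b` gives `β` (reindex `Fin t × Fin κ × Fin 2 ≃ Fin (t*(κ*2))`,
`finProdFinEquiv`). Trace condition of `exists_core` for `N₀` large: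
`∑_{j<N₀} ∑_l G l (h^j x) + r' N₀ ≤ s' N₀ + C₁ + r' N₀ ≤ κ t ((1-ε) N₀/L - C₀)
 ≤ ∑_{j<N₀} tr β (h^j x)` (`hcount`; the trace is `≥ t κ` where `ω = 1` and `≥ 0` everywhere).
`exists_core` gives `R, K`. Given `N` and `p = 2κa` with `p + 1 ≤ s N - C` (`C = C₁ + 1`), let
`I = [0, N)`, `node j l = j n + l` (complex number, distinct for distinct `(j,l)`, `l < n`),
`φ y = max 0 (y - 3/4)`,
`z x q j l = φ (g l (h^j x)) * ∏_{i : Fin p} (q i 0 + q i 1 * node j l)`,
`u x q i κ' = ∑ l, ∑ j ∈ I, if i ∈ [j-R, j+R] then K κ' l i j x * z x q j l else 0`,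
`F (i, G) k e x q = ∑ κ', β (G,k,e) κ' (h^{i-R} x) * u x q (i-R) κ'` for `i : Fin (N + 2R)`.
Continuity, multihomogeneity (`∏ (c i q i 0 + c i q i 1 ν) = ∏ c i ∏ …`), symmetry are clear.
Nonvanishing: suppose all `F (i,G) k e x q = 0`; for times `i ∉ [-R, N+R)` `u = 0`; so by `exists_core`
`z x q j l = 0` for all `j ∈ I`, `l`. But there are at least `p + 1` pairs `(j,l)` with
`g l (h^j x) = 1`, `φ = 1/4`; for each `i : Fin p` at most one node `ν` has `q i 0 + q i 1 ν = 0`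
(`q i ≠ 0`: if `q i 1 = 0` none, else exactly one value of `ν`), so some pair has `z ≠ 0`.
-/

open Filter Topology Set
open scoped ENNReal ComplexOrder

namespace Vale.Agent.P093.Hom

/-! ### auxiliary definitions -/

/-- the nodes -/
noncomputable def famNode (n : ℕ) (j : ℤ) (l : Fin n) : ℂ := ((j * n + (l : ℕ) : ℤ) : ℂ)

theorem famNode_inj {n : ℕ} {j j' : ℤ} {l l' : Fin n} (h : famNode n j l = famNode n j' l') :
    j = j' ∧ l = l' := by
  unfold famNode at h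
  have h1 : j * n + (l : ℕ) = j' * n + (l' : ℕ) := by exact_mod_cast h
  have hl := l.2
  have hl' := l'.2
  have hn : (0 : ℤ) < n := by omega
  have h2 : j = j' := by
    have a1 : (j * n + (l : ℕ)) / n = j := by
      rw [Int.add_comm, Int.add_mul_ediv_right _ _ hn.ne',
        Int.ediv_eq_zero_of_lt (by omega) (by omega), zero_add]
    have a2 : (j' * n + (l' : ℕ)) / n = j' := by
      rw [Int.add_comm, Int.add_mul_ediv_right _ _ hn.ne',
        Int.ediv_eq_zero_of_lt (by omega) (by omega), zero_add]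
    rw [← a1, ← a2, h1]
  subst h2
  refine ⟨rfl, Fin.ext ?_⟩
  omega

section

variable {X : Type*} [TopologicalSpace X] {n m p : ℕ}

/-- the values at the nodes -/
noncomputable def famZ (h : X ≃ₜ X) (g : Fin n → C(X, ℝ)) (x : X) (q : Fin p → Fin 2 → ℂ) (j : ℤ)
    (l : Fin n) : ℂ :=
  ((max 0 (g l ((h ^ j) x) - 3 / 4) : ℝ) : ℂ) * ∏ i, (q i 0 + q i 1 * famNode n j l)

/-- the vector `u` -/
noncomputable def famU (h : X ≃ₜ X) (g : Fin n → C(X, ℝ)) (K : Fin m → Fin n → ℤ → ℤ → C(X, ℂ))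
    (R N : ℕ) (x : X) (q : Fin p → Fin 2 → ℂ) (i : ℤ) (κ' : Fin m) : ℂ :=
  ∑ l, ∑ j ∈ Finset.Ico (0 : ℤ) N,
    if i ∈ Finset.Icc (j - (R : ℤ)) (j + R) then K κ' l i j x * famZ h g x q j l else 0

theorem famZ_cont (h : X ≃ₜ X) (g : Fin n → C(X, ℝ)) (j : ℤ) (l : Fin n) :
    Continuous fun z : X × (Fin p → Fin 2 → ℂ) => famZ h g z.1 z.2 j l := by
  unfold famZ
  refine Continuous.mul ?_ ?_
  · refine Complex.continuous_ofReal.comp (continuous_const.max ?_)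
    exact (((g l).continuous.comp ((h ^ j).continuous.comp continuous_fst)).sub continuous_const)
  · refine continuous_finsetProd _ fun i _ => ?_
    fun_prop

theorem famU_cont (h : X ≃ₜ X) (g : Fin n → C(X, ℝ)) (K : Fin m → Fin n → ℤ → ℤ → C(X, ℂ))
    (R N : ℕ) (i : ℤ) (κ' : Fin m) :
    Continuous fun z : X × (Fin p → Fin 2 → ℂ) => famU h g K R N z.1 z.2 i κ' := by
  unfold famU
  refine continuous_finsetSum _ fun l _ => continuous_finsetSum _ fun j _ => ?_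
  split_ifs
  · exact ((K κ' l i j).continuous.comp continuous_fst).mul (famZ_cont h g j l)
  · exact continuous_const

theorem famZ_hom (h : X ≃ₜ X) (g : Fin n → C(X, ℝ)) (x : X) (q : Fin p → Fin 2 → ℂ)
    (c : Fin p → ℂ) (j : ℤ) (l : Fin n) :
    famZ h g x (fun j e => c j * q j e) j l = (∏ j, c j) * famZ h g x q j l := by
  unfold famZ
  have h1 : ∀ i, c i * q i 0 + c i * q i 1 * famNode n j l =
      c i * (q i 0 + q i 1 * famNode n j l) := by
    intro i; ring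
  simp only [h1, Finset.prod_mul_distrib]
  ring

theorem famU_hom (h : X ≃ₜ X) (g : Fin n → C(X, ℝ)) (K : Fin m → Fin n → ℤ → ℤ → C(X, ℂ))
    (R N : ℕ) (x : X) (q : Fin p → Fin 2 → ℂ) (c : Fin p → ℂ) (i : ℤ) (κ' : Fin m) :
    famU h g K R N x (fun j e => c j * q j e) i κ' = (∏ j, c j) * famU h g K R N x q i κ' := by
  unfold famU
  rw [Finset.mul_sum]
  refine Finset.sum_congr rfl fun l _ => ?_
  rw [Finset.mul_sum]
  refine Finset.sum_congr rfl fun j _ => ?_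
  split_ifs
  · rw [famZ_hom]; ring
  · rw [mul_zero]

theorem famZ_symm (h : X ≃ₜ X) (g : Fin n → C(X, ℝ)) (x : X) (q : Fin p → Fin 2 → ℂ)
    (σ : Equiv.Perm (Fin p)) (j : ℤ) (l : Fin n) :
    famZ h g x (fun j => q (σ j)) j l = famZ h g x q j l := by
  unfold famZ
  congr 1
  exact Equiv.prod_comp σ fun i => q i 0 + q i 1 * famNode n j l

theorem famU_symm (h : X ≃ₜ X) (g : Fin n → C(X, ℝ)) (K : Fin m → Fin n → ℤ → ℤ → C(X, ℂ))
    (R N : ℕ) (x : X) (q : Fin p → Fin 2 → ℂ) (σ : Equiv.Perm (Fin p)) (i : ℤ) (κ' : Fin m) :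
    famU h g K R N x (fun j => q (σ j)) i κ' = famU h g K R N x q i κ' := by
  unfold famU
  simp only [famZ_symm]

theorem famU_zero (h : X ≃ₜ X) (g : Fin n → C(X, ℝ)) (K : Fin m → Fin n → ℤ → ℤ → C(X, ℂ))
    (R N : ℕ) (x : X) (q : Fin p → Fin 2 → ℂ) (i : ℤ) (κ' : Fin m)
    (hi : i < -(R : ℤ) ∨ (N : ℤ) + R ≤ i) : famU h g K R N x q i κ' = 0 := by
  unfold famU
  refine Finset.sum_eq_zero fun l _ => Finset.sum_eq_zero fun j hj => ?_
  rw [if_neg]
  rw [Finset.mem_Ico] at hj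
  rw [Finset.mem_Icc]
  omega

theorem famZ_ne (h : X ≃ₜ X) (g : Fin n → C(X, ℝ)) (x : X) (q : Fin p → Fin 2 → ℂ) (j : ℤ)
    (l : Fin n) (hz : famZ h g x q j l ≠ 0) : 3 / 4 ≤ g l ((h ^ j) x) := by
  by_contra hlt
  apply hz
  unfold famZ
  rw [max_eq_left (by linarith [not_le.1 hlt])]
  simp

/-- too many nodes -/
theorem famZ_nonvanishing (h : X ≃ₜ X) (g : Fin n → C(X, ℝ)) (x : X) (q : Fin p → Fin 2 → ℂ)
    (hq : ∀ j, q j ≠ 0) (N : ℕ) (S : Finset (Fin N × Fin n))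
    (hS : ∀ a ∈ S, g a.2 ((h ^ ((a.1 : ℕ) : ℤ)) x) = 1) (hcard : p + 1 ≤ S.card)
    (hz : ∀ j ∈ Finset.Ico (0 : ℤ) N, ∀ l, famZ h g x q j l = 0) : False := by
  have h1 : ∀ a ∈ S, ∃ i : Fin p, q i 0 + q i 1 * famNode n ((a.1 : ℕ) : ℤ) a.2 = 0 := by
    intro a ha
    have h2 := hz ((a.1 : ℕ) : ℤ) (by rw [Finset.mem_Ico]; omega) a.2
    unfold famZ at h2
    rw [hS a ha, mul_eq_zero] at h2
    rcases h2 with h2 | h2
    · exfalso
      rw [max_eq_right (by norm_num)] at h2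
      norm_num at h2
    · obtain ⟨i, -, hi⟩ := Finset.prod_eq_zero_iff.1 h2
      exact ⟨i, hi⟩
  obtain ⟨a₀, ha₀⟩ : S.Nonempty := Finset.card_pos.1 (by omega)
  obtain ⟨i₀, -⟩ := h1 a₀ ha₀
  have : Nonempty (Fin p) := ⟨i₀⟩
  choose! f hf using h1
  have h3 : (Finset.univ : Finset (Fin p)).card < S.card := by
    rw [Finset.card_univ, Fintype.card_fin]; omega
  obtain ⟨a, ha, b, hb, hab, hfab⟩ := Finset.exists_ne_map_eq_of_card_lt_of_maps_to h3
    (f := f) (fun a _ => Finset.mem_univ _)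
  have e1 := hf a ha
  have e2 := hf b hb
  rw [← hfab] at e2
  have e3 : q (f a) 1 * (famNode n ((a.1 : ℕ) : ℤ) a.2 - famNode n ((b.1 : ℕ) : ℤ) b.2) = 0 := by
    linear_combination e1 - e2
  rcases mul_eq_zero.1 e3 with e4 | e4
  · rw [e4, zero_mul, add_zero] at e1
    apply hq (f a)
    funext e
    fin_cases e
    · exact e1
    · exact e4
  · obtain ⟨e5, e6⟩ := famNode_inj (sub_eq_zero.1 e4)
    apply hab
    refine Prod.ext (Fin.ext ?_) e6
    exact_mod_cast e5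

end

open scoped Classical in
theorem exists_family {X : Type*} [MetricSpace X] [CompactSpace X] [Infinite X]
    {A : Type*} [CStarAlgebra A] [PartialOrder A] [StarOrderedRing A] {h : X ≃ₜ X}
    (hmin : IsMinimalHomeo h) (hA : IsCrossedProduct h A) {r : ℝ} (hr : IsComparisonBound A r)
    {κ t L : ℕ} (hL : 0 < L) (ω : C(X, ℝ)) (hω0 : ∀ x, 0 ≤ ω x) (hω1 : ∀ x, ω x ≤ 1)
    {ε : ℝ} (hcount : ∃ C : ℝ, ∀ x (N : ℕ), (1 - ε) * N / L - C ≤
      ((Finset.range N).filter fun i : ℕ => ω ((h ^ (i : ℤ)) x) = 1).card)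
    (ψ : Fin t → ℕ → C(X, ℝ)) {s : ℝ} (hs0 : 0 ≤ s) (hs : s + r < κ * t * (1 - ε) / L) :
    ∃ (R : ℕ) (C : ℝ), ∀ (N a : ℕ), (2 * κ * a + 1 : ℝ) ≤ s * N - C →
      ∃ F : Fin (N + 2 * R) → Fin t → Fin κ → Fin 2 → X → (Fin (2 * κ * a) → Fin 2 → ℂ) → ℂ,
        (∀ i G k e, Continuous fun z : X × (Fin (2 * κ * a) → Fin 2 → ℂ) => F i G k e z.1 z.2) ∧
        (∀ i G k e x, MultiHom (F i G k e x)) ∧
        (∀ i G k e x (σ : Equiv.Perm (Fin (2 * κ * a))) q,
          F i G k e x (fun j => q (σ j)) = F i G k e x q) ∧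
        (∀ x q, (∀ j, q j ≠ 0) → ∃ i G k e, F i G k e x q ≠ 0) ∧
        (∀ (i : Fin (N + 2 * R)) G k e x q, F i G k e x q ≠ 0 → 3 / 4 < ω ((h ^ ((i : ℕ) - (R : ℤ) : ℤ)) x)) ∧
        ∀ (i : Fin (N + 2 * R)) G (k : Fin κ) x q, let x' := (h ^ ((i : ℕ) - (R : ℤ) : ℤ)) x
          rho k / 2 ≤ rad (nF (fun j x => ψ G j x - 1 / 2) rho k)
            (fun x => ψ G (2 * k + 1) x - 1 / 2) (fun x => ψ G (2 * k + 2) x - 1 / 2) x' →
          HopfRel (nF (fun j x => ψ G j x - 1 / 2) rho k x')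
            (ψ G (2 * k + 1) x' - 1 / 2) (ψ G (2 * k + 2) x' - 1 / 2)
            (F i G k 0 x q) (F i G k 1 x q) := by
  have hfree : ∀ (k : ℤ) (x : X), k ≠ 0 → (h ^ k) x ≠ x := by
    intro k x hk
    rcases lt_trichotomy k 0 with h0 | h0 | h0
    · intro hx
      refine not_periodic h hmin x (n := -k) (by omega) ?_
      have h1 : (h ^ (-k)) ((h ^ k) x) = x := by
        rw [← zpow_add_apply']; simp
      rwa [hx] at h1
    · exact absurd h0 hk
    · exact not_periodic h hmin x h0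
  obtain ⟨C₀, hC₀⟩ := hcount
  obtain ⟨M, hM⟩ : ∃ M : ℝ, M = κ * t * (1 - ε) / L := ⟨_, rfl⟩
  obtain ⟨δ, hδ⟩ : ∃ δ : ℝ, δ = (M - s - r) / 3 := ⟨_, rfl⟩
  have hδ0 : 0 < δ := by rw [hδ, hM]; linarith
  obtain ⟨n, g, G, hg0, hg1, hG0, hG, C₁, hC₁⟩ := exists_scalar h hmin hs0 (s' := s + δ) (by linarith)
  obtain ⟨β', hβ'1, hβ'2, hβ'3, hβ'4, hβ'5, hβ'6⟩ := exists_b (κ := κ) ω hω0 hω1 ψ
  obtain ⟨m, E, -⟩ : ∃ (m : ℕ) (E : Fin t × Fin κ × Fin 2 ≃ Fin m), True :=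
    ⟨_, Fintype.equivFin _, trivial⟩
  let β : Fin m → Fin m → C(X, ℂ) := fun k k' => β' (E.symm k) (E.symm k')
  obtain ⟨N₀, hN₀⟩ := exists_nat_gt ((C₁ + t * κ * C₀) / δ)
  have hN₀' : C₁ + t * κ * C₀ ≤ δ * (N₀ + 1 : ℕ) := by
    rw [div_lt_iff₀ hδ0] at hN₀
    push_cast
    nlinarith
  have b1 : ∀ x, (Matrix.of fun k k' => β k k' x).PosSemidef := fun x =>
    (hβ'1 x).submatrix E.symm
  have b2 : ∀ x, (1 - Matrix.of fun k k' => β k k' x).PosSemidef := by
    intro x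
    have h1 := (hβ'2 x).submatrix E.symm
    have h2 : (1 - Matrix.of fun k k' => β k k' x) =
        (1 - Matrix.of fun k k' => β' k k' x).submatrix E.symm E.symm := by
      ext i j
      simp [β, Matrix.one_apply]
    rw [h2]; exact h1
  have b3 : ∀ x, ∑ j ∈ Finset.range (N₀ + 1), ∑ l, G l ((h ^ (j : ℤ)) x) +
      (r + δ) * (N₀ + 1 : ℕ) ≤
      ∑ j ∈ Finset.range (N₀ + 1), ∑ k, (β k k ((h ^ (j : ℤ)) x)).re := by
    intro x
    have h1 := (hC₁ x (N₀ + 1)).1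
    have h2 := hC₀ x (N₀ + 1)
    have h3 : ∀ j : ℕ, (if ω ((h ^ (j : ℤ)) x) = 1 then (t * κ : ℝ) else 0) ≤
        ∑ k, (β k k ((h ^ (j : ℤ)) x)).re := by
      intro j
      have e : ∑ k, (β k k ((h ^ (j : ℤ)) x)).re = ∑ k, (β' k k ((h ^ (j : ℤ)) x)).re :=
        Equiv.sum_comp E.symm fun k => (β' k k ((h ^ (j : ℤ)) x)).re
      rw [e]
      split_ifs with h4
      · exact hβ'3 _ h4
      · exact hβ'4 _
    have h5 := Finset.sum_le_sum (s := Finset.range (N₀ + 1)) fun j _ => h3 j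
    rw [← Finset.sum_filter, Finset.sum_const, nsmul_eq_mul] at h5
    have h6 : (t * κ : ℝ) * ((1 - ε) * (N₀ + 1 : ℕ) / L - C₀) ≤
        (((Finset.range (N₀ + 1)).filter fun i : ℕ => ω ((h ^ (i : ℤ)) x) = 1).card : ℝ) *
          (t * κ) := by
      rw [mul_comm]
      exact mul_le_mul_of_nonneg_right h2 (by positivity)
    have h7 : (t * κ : ℝ) * ((1 - ε) * (N₀ + 1 : ℕ) / L - C₀) =
        M * (N₀ + 1 : ℕ) - t * κ * C₀ := by
      rw [hM]; ring
    have h8 : M = s + r + 3 * δ := by rw [hδ]; ring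
    rw [h7, h8] at h6
    linarith
  obtain ⟨R, K, hcore⟩ := exists_core (β := β) hfree hA hr g G (r + δ) (N₀ + 1) (Nat.succ_pos _)
    (by linarith) hg0 hg1 hG0 hG b1 b2 b3
  refine ⟨R, C₁, fun N a hNa => ?_⟩
  refine ⟨fun i G k e x q => ∑ κ', β' (G, k, e) κ' ((h ^ ((i : ℕ) - (R : ℤ) : ℤ)) x) *
    famU h g K R N x q ((i : ℕ) - (R : ℤ) : ℤ) (E κ'), ?_, ?_, ?_, ?_, ?_, ?_⟩
  · intro i G k e
    refine continuous_finsetSum _ fun κ' _ => ?_
    exact ((β' (G, k, e) κ').continuous.comp ((h ^ _).continuous.comp continuous_fst)).mul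
      (famU_cont h g K R N _ _)
  · intro i G k e x q c
    dsimp only
    rw [Finset.mul_sum]
    refine Finset.sum_congr rfl fun κ' _ => ?_
    rw [famU_hom]; ring
  · intro i G k e x σ q
    dsimp only
    refine Finset.sum_congr rfl fun κ' _ => ?_
    rw [famU_symm]
  · intro x q hq
    by_contra hcon
    push Not at hcon
    have hz := hcore x (Finset.Ico (0 : ℤ) N) (famZ h g x q)
      (fun j _ l hz => famZ_ne h g x q j l hz) ?_
    · refine famZ_nonvanishing h g x q hq N (Finset.univ.filter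
        (fun p : Fin N × Fin n => g p.2 ((h ^ ((p.1 : ℕ) : ℤ)) x) = 1)) ?_ ?_ hz
      · intro a ha
        exact (Finset.mem_filter.1 ha).2
      · have h1 := (hC₁ x N).2
        have h2 : ((2 * κ * a + 1 : ℕ) : ℝ) ≤ ((Finset.univ.filter
          (fun p : Fin N × Fin n => g p.2 ((h ^ ((p.1 : ℕ) : ℤ)) x) = 1)).card : ℝ) := by
          push_cast
          linarith
        exact_mod_cast h2
    · intro i κ₁
      change ∑ κ', β κ₁ κ' ((h ^ i) x) * famU h g K R N x q i κ' = 0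
      by_cases hi : i < -(R : ℤ) ∨ (N : ℤ) + R ≤ i
      · refine Finset.sum_eq_zero fun κ' _ => ?_
        rw [famU_zero h g K R N x q i κ' hi, mul_zero]
      · push Not at hi
        obtain ⟨i', hi'⟩ : ∃ i' : Fin (N + 2 * R), i = (i' : ℕ) - (R : ℤ) := by
          refine ⟨⟨(i + R).toNat, ?_⟩, ?_⟩
          · omega
          · dsimp only
            omega
        have h1 := hcon i' (E.symm κ₁).1 (E.symm κ₁).2.1 (E.symm κ₁).2.2
        rw [← hi'] at h1
        rw [← Equiv.sum_comp E]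
        simpa [β] using h1
  · intro i G k e x q hne
    obtain ⟨κ', -, hκ'⟩ := Finset.exists_ne_zero_of_sum_ne_zero hne
    exact hβ'5 _ _ _ (left_ne_zero_of_mul hκ')
  · intro i G k x q x' hx'
    exact hβ'6 x' (fun κ' => famU h g K R N x q ((i : ℕ) - (R : ℤ) : ℤ) (E κ')) G k hx'

end Vale.Agent.P093.Hom
end

section

/-!
TASK HOM-H5a: counting windows.

Proofs. `count_windows`: the times `i ∈ [a,b)` with `ω (h^i x) ≠ 0` are at pairwise distance `≥ L`.
`count_uncovered`: the windows `[i, i+L)`, `0 ≤ i < N - L`, `ω (h^i x) = 1`, are pairwise disjoint (distance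
`≥ L`), contained in `[0,N)`, their number is at least `(1-ε)(N-L)/L - C` (if `N ≥ L`), and no `j` in such a
window is counted (take this `i`). So the count is at most `N - L ((1-ε)(N-L)/L - C) ≤ ε N + L + L |C|`
(for `0 < ε`; distinguish `ε ≤ 1` and `ε > 1`, in the latter case it is trivial).
-/

open Set

namespace Vale.Agent.P093.Hom

open scoped Classical in
theorem count_windows {X : Type*} [TopologicalSpace X] (h : X ≃ₜ X) {L : ℕ} (hL : 0 < L)
    (ω : C(X, ℝ))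
    (hsep : ∀ x (i j : ℤ), i < j → ω ((h ^ i) x) ≠ 0 → ω ((h ^ j) x) ≠ 0 → (L : ℤ) ≤ j - i)
    (x : X) (a b : ℤ) (hab : a ≤ b) :
    (((Finset.Ico a b).filter fun i => ω ((h ^ i) x) ≠ 0).card : ℝ) ≤ (b - a : ℤ) / L + 1 := by
  have hL' : (0 : ℤ) < L := by exact_mod_cast hL
  set S := (Finset.Ico a b).filter fun i => ω ((h ^ i) x) ≠ 0 with hS
  have hinj : ∀ i ∈ S, ∀ j ∈ S, (i - a) / (L : ℤ) = (j - a) / (L : ℤ) → i = j := by
    have key : ∀ i ∈ S, ∀ j ∈ S, i < j → (i - a) / (L : ℤ) ≠ (j - a) / (L : ℤ) := by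
      intro i hi j hj hij heq
      have h1 := hsep x i j hij (Finset.mem_filter.1 hi).2 (Finset.mem_filter.1 hj).2
      have h2 : (i - a + L) / (L : ℤ) ≤ (j - a) / (L : ℤ) := Int.ediv_le_ediv hL' (by omega)
      rw [Int.add_ediv_of_dvd_right (dvd_refl _), Int.ediv_self hL'.ne'] at h2
      omega
    intro i hi j hj heq
    rcases lt_trichotomy i j with h1 | h1 | h1
    · exact absurd heq (key i hi j hj h1)
    · exact h1
    · exact absurd heq.symm (key j hj i hi h1)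
  have hmaps : ∀ i ∈ S, (i - a) / (L : ℤ) ∈ Finset.Ico (0 : ℤ) ((b - a) / (L : ℤ) + 1) := by
    intro i hi
    have h1 := Finset.mem_Ico.1 (Finset.mem_filter.1 hi).1
    rw [Finset.mem_Ico]
    refine ⟨Int.ediv_nonneg (by omega) hL'.le, ?_⟩
    have h2 : (i - a) / (L : ℤ) ≤ (b - a) / (L : ℤ) := Int.ediv_le_ediv hL' (by omega)
    omega
  have hcard := Finset.card_le_card_of_injOn (fun i => (i - a) / (L : ℤ)) hmaps
    (fun i hi j hj heq => hinj i hi j hj heq)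
  rw [Int.card_Ico] at hcard
  have h0 : 0 ≤ (b - a) / (L : ℤ) := Int.ediv_nonneg (by omega) hL'.le
  have h1 : ((b - a) / (L : ℤ)) * L ≤ b - a := Int.ediv_mul_le _ hL'.ne'
  have h2 : ((S.card : ℕ) : ℤ) ≤ (b - a) / (L : ℤ) + 1 := by omega
  have h3 : ((S.card : ℕ) : ℝ) ≤ (((b - a) / (L : ℤ) : ℤ) : ℝ) + 1 := by exact_mod_cast h2
  have h4 : ((((b - a) / (L : ℤ) : ℤ) : ℝ)) ≤ ((b - a : ℤ) : ℝ) / L := by
    rw [le_div_iff₀ (by exact_mod_cast hL)]
    exact_mod_cast h1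
  linarith

open scoped Classical in
theorem count_uncovered {X : Type*} [TopologicalSpace X] (h : X ≃ₜ X) {L : ℕ} (hL : 0 < L)
    (ω : C(X, ℝ))
    (hsep : ∀ x (i j : ℤ), i < j → ω ((h ^ i) x) ≠ 0 → ω ((h ^ j) x) ≠ 0 → (L : ℤ) ≤ j - i)
    {ε : ℝ} (hε : 0 < ε) (hcount : ∃ C : ℝ, ∀ x (N : ℕ), (1 - ε) * N / L - C ≤
        ((Finset.range N).filter fun i : ℕ => ω ((h ^ (i : ℤ)) x) = 1).card) :
    ∃ C : ℝ, ∀ x (N : ℕ), (((Finset.range N).filter fun j : ℕ =>
      ∀ i : ℤ, (j : ℤ) - L < i → i ≤ j → ω ((h ^ i) x) < 3 / 4).card : ℝ) ≤ ε * N + C := by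
  obtain ⟨C, hC⟩ := hcount
  have hL1 : (0 : ℝ) < L := by exact_mod_cast hL
  refine ⟨L + L * |C|, fun x N => ?_⟩
  set U := (Finset.range N).filter fun j : ℕ =>
      ∀ i : ℤ, (j : ℤ) - L < i → i ≤ j → ω ((h ^ i) x) < 3 / 4 with hU
  have habs : 0 ≤ (L : ℝ) * |C| := mul_nonneg hL1.le (abs_nonneg C)
  have hεN : 0 ≤ ε * (N : ℝ) := mul_nonneg hε.le (Nat.cast_nonneg N)
  have hUN : U.card ≤ N := by
    have := Finset.card_le_card (Finset.filter_subset (fun j : ℕ =>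
      ∀ i : ℤ, (j : ℤ) - L < i → i ≤ j → ω ((h ^ i) x) < 3 / 4) (Finset.range N))
    rwa [Finset.card_range] at this
  rcases Nat.lt_or_ge N L with hNL | hNL
  · have h1 : (U.card : ℝ) ≤ N := by exact_mod_cast hUN
    have h2 : (N : ℝ) ≤ L := by exact_mod_cast hNL.le
    linarith
  · set S := (Finset.range (N - L)).filter fun i : ℕ => ω ((h ^ (i : ℤ)) x) = 1 with hS
    have hdist : ∀ i ∈ S, ∀ i' ∈ S, i < i' → L ≤ i' - i := by
      intro i hi i' hi' hlt
      have h1 := hsep x (i : ℤ) (i' : ℤ) (by exact_mod_cast hlt)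
        (by rw [(Finset.mem_filter.1 hi).2]; exact one_ne_zero)
        (by rw [(Finset.mem_filter.1 hi').2]; exact one_ne_zero)
      omega
    have hinj : Set.InjOn (fun q : ℕ × ℕ => q.1 + q.2) (S ×ˢ Finset.range L : Finset (ℕ × ℕ)) := by
      rintro ⟨i, r⟩ hq ⟨i', r'⟩ hq' heq
      have hq1 := Finset.mem_product.1 (Finset.mem_coe.1 hq)
      have hq2 := Finset.mem_product.1 (Finset.mem_coe.1 hq')
      have hr := Finset.mem_range.1 hq1.2
      have hr' := Finset.mem_range.1 hq2.2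
      simp only at heq hr hr'
      rcases lt_trichotomy i i' with hlt | hlt | hlt
      · have := hdist i hq1.1 i' hq2.1 hlt
        omega
      · subst hlt
        have : r = r' := by omega
        rw [this]
      · have := hdist i' hq2.1 i hq1.1 hlt
        omega
    have hsub : (S ×ˢ Finset.range L).image (fun q : ℕ × ℕ => q.1 + q.2) ⊆
        Finset.range N \ U := by
      intro j hj
      obtain ⟨⟨i, r⟩, hq, rfl⟩ := Finset.mem_image.1 hj
      have hq1 := Finset.mem_product.1 hq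
      have hi := Finset.mem_filter.1 hq1.1
      have hi1 := Finset.mem_range.1 hi.1
      have hr := Finset.mem_range.1 hq1.2
      simp only at hi1 hr hi
      rw [Finset.mem_sdiff, Finset.mem_range]
      refine ⟨by simp only; omega, fun hu => ?_⟩
      have h1 := (Finset.mem_filter.1 hu).2 (i : ℤ) (by push_cast; omega) (by push_cast; omega)
      rw [hi.2] at h1
      norm_num at h1
    have hUsub : U ⊆ Finset.range N := Finset.filter_subset _ _
    have h1 := Finset.card_le_card hsub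
    rw [Finset.card_image_of_injOn hinj, Finset.card_product, Finset.card_range,
      Finset.card_sdiff_of_subset hUsub, Finset.card_range] at h1
    have h2 : S.card * L + U.card ≤ N := by omega
    have h3 : (S.card : ℝ) * L + U.card ≤ N := by exact_mod_cast h2
    have h4 := hC x (N - L)
    rw [Nat.cast_sub hNL] at h4
    have h5 : ((1 - ε) * ((N : ℝ) - L) / L - C) * L ≤ (S.card : ℝ) * L :=
      mul_le_mul_of_nonneg_right h4 hL1.le
    have h6 : ((1 - ε) * ((N : ℝ) - L) / L - C) * L = (1 - ε) * ((N : ℝ) - L) - C * L := by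
      rw [sub_mul, div_mul_cancel₀ _ hL1.ne']
    have h7 : C * L ≤ L * |C| := by
      rw [mul_comm]
      exact mul_le_mul_of_nonneg_left (le_abs_self C) hL1.le
    have h8 : 0 ≤ ε * (L : ℝ) := mul_nonneg hε.le hL1.le
    nlinarith

end Vale.Agent.P093.Hom
end

section

/-!
TASK HOM-H5: the homological order of the iterated covers.

Proof. `𝒱 = iterCover h 𝒰 L` is a finite open cover, `n = coverDim 𝒱`, `n₁ = coverDim 𝒰`. `exists_colours` for
`𝒱` gives `ψ, P` (on colours `c ≤ n`), for `𝒰` it gives `ψ₁, P₁` (`c ≤ n₁`). Each member `V` of `𝒱` is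
`⋂_{j<L} h^{-j} (f_V j)` with `f_V j ∈ 𝒰` (choose `f_V`). `exists_tower` for `L, ε` gives `ω`.
`exists_family` with `ψ' G k = ψ (G (2κ+1) + k)` gives `R₀, C₀`; we may replace `R₀` by `R = R₀ + L`
(put `F = 0` for the new times) or treat `R₀ < L` as well, as follows.
Coordinates: `C = (ℤ × ℕ) ⊕ (ℕ × ℕ)`,
`χ (inl (i,c)) x = θ (ω (h^i x)) * ψ c (h^i x)`, `θ u = max 0 (min 1 (4u - 1))` (`0` for `u ≤ 1/4`, `1` for
`u ≥ 1/2`); `χ (inr (j,c)) x = θ' (max_{j-L < i ≤ j} ω (h^i x)) * ψ₁ c (h^j x)`,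
`θ' u = max 0 (min 1 (3 - 4u))` (`1` for `u ≤ 1/2`, `0` for `u ≥ 3/4`).
Window starts: `i ∈ [-R, N+R)`, with `R ≥ R₀, L`; groups `γ ↔ (i, G)`, `m = (N+2R) t`
(`finProdFinEquiv`), `crd γ k = inl (i, G (2κ+1) + k)`; singles: `inl (i, c)` with
`t (2κ+1) ≤ c ≤ n`, and `inr (j, c)`, `j < N`, `c ≤ n₁`.
`actv (i,G) = {x | 1/4 < ω (h^i x)}`. `hact1`, `hact2` are clear. `hopf`: if `F i G k 0 x q` and
`F i G k 1 x q` both vanish it is trivial, otherwise `ω (h^i x) > 3/4`, `θ = 1` and `χ (crd γ j) x =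
ψ (…) (h^i x)`; use the Hopf relations of `exists_family` at `h^i x`.
`W x A = ⋂_{j<N} h^{-j} (U j)` where: if there is `inl (i,c) ∈ A` with `i ≤ j < i + L` choose one such
(depending only on `A` and `j`) and put `U j = f_V (j - i)` with `V = P c (h^i x)`; else if there is
`inr (j,c) ∈ A` choose one and put `U j = P₁ c (h^j x)`; else `U j` = a fixed member of `𝒰`.
`hW`: `δ₁` from the local constancy of `P c`, `P₁ c` with `ε = 1/8` and uniform continuity of the finitely many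
`h^i`; note `1/8 < χ (inl (i,c)) x` implies `1/8 < ψ c (h^i x)`. For admissible `A` every `j < N` is covered:
if some `i ∈ (j-L, j]` has `ω (h^i x) ≥ 1/2` then with `c ≤ n`, `ψ c (h^i x) = 1` one has
`χ (inl (i,c)) x = 1`, so `inl (i,c) ∈ A` (here `-R ≤ -L < i`, so `i` is a window start); otherwise
`χ (inr (j,c)) x = 1` for some `c ≤ n₁`. The members `U j` so obtained are in `𝒰` and contain `h^j x'`.
Count: `(2κ+1) #{γ | x ∈ actv γ}` plus the number of singles `inl (i,c)` in `(1/8, 7/8)` is at most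
`(n+1) #{i ∈ [-R,N+R) | ω (h^i x) ≠ 0} ≤ (n+1) ((N+2R)/L + 1)` by the separation property. The singles
`inr (j,c)` with `χ > 0`: `j` is not covered by a window with `ω (h^i x) ≥ 3/4`; the windows `[i, i+L)`,
`0 ≤ i < N - L`, `ω (h^i x) = 1`, are disjoint subsets of `[0,N)` and there are at least
`(1-ε)(N-L)/L - C₁` of them; so at most `(n₁+1)(N - L((1-ε)(N-L)/L - C₁)) ≤ (n₁+1)(ε N + L + L C₁)`
such singles. Choose `C'` large enough (depending on `R, L, n, n₁, C₀, C₁`).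
-/

open Set
open scoped ENNReal

namespace Vale.Agent.P093.Hom

theorem isFinOpenCover_iterCover {X : Type*} [TopologicalSpace X] (h : X ≃ₜ X)
    {𝒰 : Set (Set X)} (h𝒰 : IsFinOpenCover 𝒰) (N : ℕ) : IsFinOpenCover (iterCover h 𝒰 N) := by
  refine ⟨?_, ?_, ?_⟩
  · have := h𝒰.1.to_subtype
    refine (Set.finite_range fun g : Fin N → 𝒰 =>
      ⋂ j : Fin N, (⇑(h ^ (j : ℕ))) ⁻¹' (g j : Set X)).subset ?_
    rintro W ⟨f, hf, rfl⟩
    refine ⟨fun j => ⟨f j, hf j⟩, ?_⟩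
    ext x
    simp only [mem_iInter, mem_preimage, Finset.mem_range]
    exact ⟨fun H j hj => H ⟨j, hj⟩, fun H j => H j j.2⟩
  · rintro W ⟨f, hf, rfl⟩
    exact isOpen_biInter_finset fun j _ => (h𝒰.2.1 _ (hf j)).preimage (h ^ j).continuous
  · rw [eq_univ_iff_forall]
    intro x
    have h1 : ∀ j : ℕ, ∃ U ∈ 𝒰, (h ^ j) x ∈ U := fun j => by
      have h2 : (h ^ j) x ∈ ⋃₀ 𝒰 := by rw [h𝒰.2.2]; trivial
      exact h2
    choose f hf hfx using h1
    refine ⟨_, ⟨f, hf, rfl⟩, ?_⟩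
    simp only [mem_iInter, mem_preimage]
    exact fun j _ => hfx j

/-- cut-off: `0` for `u ≤ 1/4`, `1` for `u ≥ 1/2` -/
noncomputable def dcT (u : ℝ) : ℝ := max 0 (min 1 (4 * u - 1))

/-- cut-off: `1` for `u ≤ 1/2`, `0` for `u ≥ 3/4` -/
noncomputable def dcS (u : ℝ) : ℝ := max 0 (min 1 (3 - 4 * u))

theorem dcT_nonneg (u : ℝ) : 0 ≤ dcT u := le_max_left _ _

theorem dcT_le_one (u : ℝ) : dcT u ≤ 1 := max_le zero_le_one (min_le_left _ _)

theorem dcT_zero {u : ℝ} (h : u ≤ 1 / 4) : dcT u = 0 := by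
  unfold dcT
  exact max_eq_left ((min_le_right _ _).trans (by linarith))

theorem dcT_one {u : ℝ} (h : 1 / 2 ≤ u) : dcT u = 1 := by
  unfold dcT
  rw [min_eq_left (by linarith), max_eq_right zero_le_one]

theorem dcT_cont : Continuous dcT := by
  unfold dcT
  fun_prop

theorem dcS_nonneg (u : ℝ) : 0 ≤ dcS u := le_max_left _ _

theorem dcS_le_one (u : ℝ) : dcS u ≤ 1 := max_le zero_le_one (min_le_left _ _)

theorem dcS_zero {u : ℝ} (h : 3 / 4 ≤ u) : dcS u = 0 := by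
  unfold dcS
  exact max_eq_left ((min_le_right _ _).trans (by linarith))

theorem dcS_one {u : ℝ} (h : u ≤ 1 / 2) : dcS u = 1 := by
  unfold dcS
  rw [min_eq_left (by linarith), max_eq_right zero_le_one]

theorem dcS_cont : Continuous dcS := by
  unfold dcS
  fun_prop

section

variable {X : Type*} [TopologicalSpace X]

/-- the coordinate functions -/
noncomputable def dcChi (h : X ≃ₜ X) (L : ℕ) (ω : C(X, ℝ)) (ψ ψ₁ : ℕ → C(X, ℝ)) :
    (ℤ × ℕ) ⊕ (ℕ × ℕ) → X → ℝ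
  | Sum.inl z => fun x => dcT (ω ((h ^ z.1) x)) * ψ z.2 ((h ^ z.1) x)
  | Sum.inr z => fun x => (∏ i ∈ Finset.Ioc ((z.1 : ℤ) - L) z.1, dcS (ω ((h ^ i) x))) *
      ψ₁ z.2 ((h ^ (z.1 : ℤ)) x)

theorem dcChi_cont (h : X ≃ₜ X) (L : ℕ) (ω : C(X, ℝ)) (ψ ψ₁ : ℕ → C(X, ℝ)) (c) :
    Continuous (dcChi h L ω ψ ψ₁ c) := by
  rcases c with z | z
  · exact (dcT_cont.comp (ω.continuous.comp (h ^ z.1).continuous)).mul
      ((ψ z.2).continuous.comp (h ^ z.1).continuous)
  · exact (continuous_finsetProd _ fun i _ =>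
      dcS_cont.comp (ω.continuous.comp (h ^ i).continuous)).mul
      ((ψ₁ z.2).continuous.comp (h ^ (z.1 : ℤ)).continuous)

theorem dcChi_inl_le {h : X ≃ₜ X} {L : ℕ} {ω : C(X, ℝ)} {ψ ψ₁ : ℕ → C(X, ℝ)}
    (hψ : ∀ c x, 0 ≤ ψ c x ∧ ψ c x ≤ 1) (z : ℤ × ℕ) (x : X) :
    dcChi h L ω ψ ψ₁ (Sum.inl z) x ≤ ψ z.2 ((h ^ z.1) x) :=
  mul_le_of_le_one_left (hψ _ _).1 (dcT_le_one _)

theorem dcChi_inr_le {h : X ≃ₜ X} {L : ℕ} {ω : C(X, ℝ)} {ψ ψ₁ : ℕ → C(X, ℝ)}
    (hψ : ∀ c x, 0 ≤ ψ₁ c x ∧ ψ₁ c x ≤ 1) (z : ℕ × ℕ) (x : X) :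
    dcChi h L ω ψ ψ₁ (Sum.inr z) x ≤ ψ₁ z.2 ((h ^ (z.1 : ℤ)) x) :=
  mul_le_of_le_one_left (hψ _ _).1
    (Finset.prod_le_one (fun _ _ => dcS_nonneg _) fun _ _ => dcS_le_one _)

theorem dcChi_inl_ne {h : X ≃ₜ X} {L : ℕ} {ω : C(X, ℝ)} {ψ ψ₁ : ℕ → C(X, ℝ)}
    {z : ℤ × ℕ} {x : X} (h1 : 1 / 8 < dcChi h L ω ψ ψ₁ (Sum.inl z) x) :
    ω ((h ^ z.1) x) ≠ 0 := by
  intro h0
  have : dcChi h L ω ψ ψ₁ (Sum.inl z) x = 0 := by
    change dcT (ω ((h ^ z.1) x)) * ψ z.2 ((h ^ z.1) x) = 0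
    rw [h0, dcT_zero (by norm_num), zero_mul]
  rw [this] at h1
  norm_num at h1

theorem dcChi_inr_lt {h : X ≃ₜ X} {L : ℕ} {ω : C(X, ℝ)} {ψ ψ₁ : ℕ → C(X, ℝ)}
    {z : ℕ × ℕ} {x : X} (h1 : 1 / 8 < dcChi h L ω ψ ψ₁ (Sum.inr z) x) :
    ∀ i : ℤ, (z.1 : ℤ) - L < i → i ≤ z.1 → ω ((h ^ i) x) < 3 / 4 := by
  intro i hi1 hi2
  by_contra h0
  rw [not_lt] at h0
  have : dcChi h L ω ψ ψ₁ (Sum.inr z) x = 0 := by
    change (∏ i ∈ Finset.Ioc ((z.1 : ℤ) - L) z.1, dcS (ω ((h ^ i) x))) *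
      ψ₁ z.2 ((h ^ (z.1 : ℤ)) x) = 0
    rw [Finset.prod_eq_zero (Finset.mem_Ioc.mpr ⟨hi1, hi2⟩) (dcS_zero h0), zero_mul]
  rw [this] at h1
  norm_num at h1

open scoped Classical in
/-- the set chosen at time `j` -/
noncomputable def dcU (h : X ≃ₜ X) (L : ℕ) (P P₁ : ℕ → X → Set X) (fV : Set X → ℕ → Set X)
    (U₀ : Set X) (x : X) (A : Set ((ℤ × ℕ) ⊕ (ℕ × ℕ))) (j : ℕ) : Set X :=
  if H : ∃ z : ℤ × ℕ, Sum.inl z ∈ A ∧ z.1 ≤ j ∧ (j : ℤ) < z.1 + L then
    fV (P H.choose.2 ((h ^ H.choose.1) x)) ((j : ℤ) - H.choose.1).toNat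
  else if H' : ∃ c : ℕ, Sum.inr (j, c) ∈ A then P₁ H'.choose ((h ^ (j : ℤ)) x)
  else U₀

theorem dcU_cases (h : X ≃ₜ X) (L : ℕ) (P P₁ : ℕ → X → Set X) (fV : Set X → ℕ → Set X)
    (U₀ : Set X) (A : Set ((ℤ × ℕ) ⊕ (ℕ × ℕ))) (j : ℕ) :
    (∃ z : ℤ × ℕ, Sum.inl z ∈ A ∧ z.1 ≤ j ∧ (j : ℤ) < z.1 + L ∧
      ∀ x, dcU h L P P₁ fV U₀ x A j = fV (P z.2 ((h ^ z.1) x)) ((j : ℤ) - z.1).toNat) ∨
    (∃ c : ℕ, Sum.inr (j, c) ∈ A ∧
      ∀ x, dcU h L P P₁ fV U₀ x A j = P₁ c ((h ^ (j : ℤ)) x)) ∨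
    ((¬ ∃ z : ℤ × ℕ, Sum.inl z ∈ A ∧ z.1 ≤ j ∧ (j : ℤ) < z.1 + L) ∧
      (¬ ∃ c : ℕ, Sum.inr (j, c) ∈ A) ∧ ∀ x, dcU h L P P₁ fV U₀ x A j = U₀) := by
  classical
  by_cases H : ∃ z : ℤ × ℕ, Sum.inl z ∈ A ∧ z.1 ≤ j ∧ (j : ℤ) < z.1 + L
  · left
    refine ⟨H.choose, H.choose_spec.1, H.choose_spec.2.1, H.choose_spec.2.2, fun x => ?_⟩
    unfold dcU
    rw [dif_pos H]
  · right
    by_cases H' : ∃ c : ℕ, Sum.inr (j, c) ∈ A
    · left
      refine ⟨H'.choose, H'.choose_spec, fun x => ?_⟩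
      unfold dcU
      rw [dif_neg H, dif_pos H']
    · right
      refine ⟨H, H', fun x => ?_⟩
      unfold dcU
      rw [dif_neg H, dif_neg H']

/-- a common `δ` for finitely many conditions -/
theorem dc_finmin {ι : Type*} (s : Finset ι) (Q : ι → ℝ → Prop)
    (hQ : ∀ i δ δ', δ' ≤ δ → Q i δ → Q i δ') (h : ∀ i ∈ s, ∃ δ > 0, Q i δ) :
    ∃ δ > 0, ∀ i ∈ s, Q i δ := by
  classical
  induction s using Finset.induction_on with
  | empty => exact ⟨1, one_pos, by simp⟩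
  | insert a s _ ih =>
    obtain ⟨δ, hδ, h1⟩ := ih fun i hi => h i (Finset.mem_insert_of_mem hi)
    obtain ⟨δ', hδ', h2⟩ := h a (Finset.mem_insert_self _ _)
    refine ⟨min δ δ', lt_min hδ hδ', fun i hi => ?_⟩
    rcases Finset.mem_insert.mp hi with rfl | hi
    · exact hQ _ _ _ (min_le_right _ _) h2
    · exact hQ _ _ _ (min_le_left _ _) (h1 i hi)

end

theorem dc_nF_congr {Y Y' : Type*} (f : ℕ → Y → ℝ) (f' : ℕ → Y' → ℝ) (ρ : ℕ → ℝ) (y : Y)
    (y' : Y') (h : ∀ j, f j y = f' j y') : ∀ k, nF f ρ k y = nF f' ρ k y' := by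
  intro k
  induction k with
  | zero => exact h 0
  | succ k ih => simp only [nF, rad]; rw [ih, h, h]

theorem dc_hopf_zero (A B C : ℝ) : HopfRel A B C 0 0 := ⟨by simp, by simp⟩

/-- all conditions on the family of functions, for the window starts in `[-R, N + R)` -/
structure DcFam {X : Type*} [MetricSpace X] (h : X ≃ₜ X) {κ t : ℕ} (ω : C(X, ℝ))
    (ψ : Fin t → ℕ → C(X, ℝ)) (R N a : ℕ)
    (F : Fin (N + 2 * R) → Fin t → Fin κ → Fin 2 → X → (Fin (2 * κ * a) → Fin 2 → ℂ) → ℂ) :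
    Prop where
  cont : ∀ i G k e, Continuous fun z : X × (Fin (2 * κ * a) → Fin 2 → ℂ) => F i G k e z.1 z.2
  hom : ∀ i G k e x, MultiHom (F i G k e x)
  sym : ∀ i G k e x (σ : Equiv.Perm (Fin (2 * κ * a))) q,
    F i G k e x (fun j => q (σ j)) = F i G k e x q
  ne : ∀ x q, (∀ j, q j ≠ 0) → ∃ i G k e, F i G k e x q ≠ 0
  supp : ∀ (i : Fin (N + 2 * R)) G k e x q, F i G k e x q ≠ 0 →
    3 / 4 < ω ((h ^ ((i : ℕ) - (R : ℤ) : ℤ)) x)
  hopf : ∀ (i : Fin (N + 2 * R)) G (k : Fin κ) x q (x' : X),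
    x' = (h ^ ((i : ℕ) - (R : ℤ) : ℤ)) x →
    rho k / 2 ≤ rad (nF (fun j x => ψ G j x - 1 / 2) rho k)
      (fun x => ψ G (2 * k + 1) x - 1 / 2) (fun x => ψ G (2 * k + 2) x - 1 / 2) x' →
    HopfRel (nF (fun j x => ψ G j x - 1 / 2) rho k x')
      (ψ G (2 * k + 1) x' - 1 / 2) (ψ G (2 * k + 2) x' - 1 / 2)
      (F i G k 0 x q) (F i G k 1 x q)

open scoped Classical in
/-- more window starts -/
theorem DcFam.extend {X : Type*} [MetricSpace X] {h : X ≃ₜ X} {κ t : ℕ} {ω : C(X, ℝ)}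
    {ψ : Fin t → ℕ → C(X, ℝ)} {R N a : ℕ}
    {F : Fin (N + 2 * R) → Fin t → Fin κ → Fin 2 → X → (Fin (2 * κ * a) → Fin 2 → ℂ) → ℂ}
    (hF : DcFam h ω ψ R N a F) (L : ℕ) :
    ∃ F', DcFam (κ := κ) (t := t) h ω ψ (R + L) N a F' := by
  let F' : Fin (N + 2 * (R + L)) → Fin t → Fin κ → Fin 2 → X →
      (Fin (2 * κ * a) → Fin 2 → ℂ) → ℂ := fun i G k e x q =>
    if hi : L ≤ (i : ℕ) ∧ (i : ℕ) < L + (N + 2 * R) then
      F ⟨(i : ℕ) - L, by omega⟩ G k e x q else 0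
  have hpos : ∀ (i : Fin (N + 2 * (R + L))) (hi : L ≤ (i : ℕ) ∧ (i : ℕ) < L + (N + 2 * R)),
      ∀ G k e, F' i G k e = F ⟨(i : ℕ) - L, by omega⟩ G k e := by
    intro i hi G k e
    funext x q
    exact dif_pos hi
  have hneg : ∀ (i : Fin (N + 2 * (R + L))), ¬ (L ≤ (i : ℕ) ∧ (i : ℕ) < L + (N + 2 * R)) →
      ∀ G k e, F' i G k e = fun _ _ => 0 := by
    intro i hi G k e
    funext x q
    exact dif_neg hi
  have hexp : ∀ (i : Fin (N + 2 * (R + L))), L ≤ (i : ℕ) →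
      (((i : ℕ) - L : ℕ) : ℤ) - (R : ℤ) = ((i : ℕ) : ℤ) - ((R + L : ℕ) : ℤ) := by
    intro i hi
    omega
  refine ⟨F', ⟨?_, ?_, ?_, ?_, ?_, ?_⟩⟩
  · intro i G k e
    by_cases hi : L ≤ (i : ℕ) ∧ (i : ℕ) < L + (N + 2 * R)
    · rw [hpos i hi]
      exact hF.cont _ _ _ _
    · rw [hneg i hi]
      exact continuous_const
  · intro i G k e x
    by_cases hi : L ≤ (i : ℕ) ∧ (i : ℕ) < L + (N + 2 * R)
    · rw [hpos i hi]
      exact hF.hom _ _ _ _ _
    · rw [hneg i hi]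
      intro q c
      rw [mul_zero]
  · intro i G k e x σ q
    by_cases hi : L ≤ (i : ℕ) ∧ (i : ℕ) < L + (N + 2 * R)
    · rw [hpos i hi]
      exact hF.sym _ _ _ _ _ _ _
    · rw [hneg i hi]
  · intro x q hq
    obtain ⟨i, G, k, e, hne⟩ := hF.ne x q hq
    have hi : L ≤ (i : ℕ) + L ∧ (i : ℕ) + L < L + (N + 2 * R) := by
      have := i.2
      omega
    refine ⟨⟨(i : ℕ) + L, by omega⟩, G, k, e, ?_⟩
    rw [hpos _ hi]
    convert hne using 3
    simp
  · intro i G k e x q hne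
    by_cases hi : L ≤ (i : ℕ) ∧ (i : ℕ) < L + (N + 2 * R)
    · rw [hpos i hi] at hne
      have h1 := hF.supp _ G k e x q hne
      simp only [hexp i hi.1] at h1
      exact h1
    · rw [hneg i hi] at hne
      exact absurd rfl hne
  · intro i G k x q x' hx' hrad
    by_cases hi : L ≤ (i : ℕ) ∧ (i : ℕ) < L + (N + 2 * R)
    · rw [hpos i hi, hpos i hi]
      refine hF.hopf _ G k x q x' ?_ hrad
      rw [hx']
      simp only [hexp i hi.1]
    · rw [hneg i hi, hneg i hi]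
      exact dc_hopf_zero _ _ _

theorem dc_filter_length {α : Type*} (s : Finset α) (p : α → Prop) [DecidablePred p] :
    (s.toList.filter fun c => p c).length = (s.filter p).card := by
  have h1 : (s.filter p).card = Multiset.card (Multiset.filter p (s.toList : Multiset α)) := by
    rw [Finset.coe_toList]
    rfl
  rw [h1, Multiset.filter_coe, Multiset.coe_card]

section

variable {κ t R N n n₁ : ℕ}

/-- the coordinates of the groups -/
def dcCrd (κ t R N : ℕ) (γ : Fin ((N + 2 * R) * t)) (k : ℕ) : (ℤ × ℕ) ⊕ (ℕ × ℕ) :=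
  Sum.inl ((((finProdFinEquiv.symm γ).1 : ℕ) : ℤ) - R,
    ((finProdFinEquiv.symm γ).2 : ℕ) * (2 * κ + 1) + k)

/-- the single coordinates -/
noncomputable def dcSs (κ t R N n n₁ : ℕ) : Finset ((ℤ × ℕ) ⊕ (ℕ × ℕ)) :=
  (Finset.Ico (-(R : ℤ)) (N + R) ×ˢ Finset.Ico (t * (2 * κ + 1)) (n + 1)).disjSum
    (Finset.range N ×ˢ Finset.range (n₁ + 1))

theorem dc_mem_inl (ht : t * (2 * κ + 1) ≤ n + 1) (i : ℤ) (c : ℕ) :
    (Sum.inl (i, c) : (ℤ × ℕ) ⊕ (ℕ × ℕ)) ∈
      coords κ (dcCrd κ t R N) (dcSs κ t R N n n₁).toList ↔ -(R : ℤ) ≤ i ∧ i < N + R ∧ c ≤ n := by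
  unfold coords
  simp only [List.mem_append, List.mem_flatMap, List.mem_map, List.mem_range, List.mem_finRange,
    true_and, Finset.mem_toList, dcSs, Finset.inl_mem_disjSum, Finset.mem_product,
    Finset.mem_Ico, dcCrd, Sum.inl.injEq, Prod.mk.injEq]
  constructor
  · rintro (⟨γ, k, hk, h1, h2⟩ | h)
    · have h3 := (finProdFinEquiv.symm γ).1.2
      have h4 := (finProdFinEquiv.symm γ).2.2
      have h5 : (((finProdFinEquiv.symm γ).2 : ℕ) + 1) * (2 * κ + 1) ≤ t * (2 * κ + 1) :=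
        Nat.mul_le_mul_right _ h4
      refine ⟨by omega, by omega, ?_⟩
      rw [add_mul, one_mul] at h5
      omega
    · omega
  · rintro ⟨h1, h2, h3⟩
    by_cases hc : c < t * (2 * κ + 1)
    · left
      have hG : c / (2 * κ + 1) < t := Nat.div_lt_of_lt_mul (by rwa [mul_comm] at hc)
      refine ⟨finProdFinEquiv (⟨(i + R).toNat, by omega⟩, ⟨c / (2 * κ + 1), hG⟩),
        c % (2 * κ + 1), Nat.mod_lt _ (by omega), ?_, ?_⟩
      · rw [Equiv.symm_apply_apply]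
        simp only
        omega
      · rw [Equiv.symm_apply_apply]
        simp only
        rw [mul_comm]
        exact Nat.div_add_mod _ _
    · right
      omega

theorem dc_mem_inr (j c : ℕ) :
    (Sum.inr (j, c) : (ℤ × ℕ) ⊕ (ℕ × ℕ)) ∈
      coords κ (dcCrd κ t R N) (dcSs κ t R N n n₁).toList ↔ j < N ∧ c ≤ n₁ := by
  unfold coords
  simp only [List.mem_append, List.mem_flatMap, List.mem_map, List.mem_range, List.mem_finRange,
    Finset.mem_toList, dcSs, Finset.inr_mem_disjSum, Finset.mem_product,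
    Finset.mem_range, dcCrd, reduceCtorEq, and_false, exists_false, false_or]
  omega

end

/-- the labelling -/
theorem dc_label {X : Type*} [MetricSpace X] [CompactSpace X] (h : X ≃ₜ X)
    {𝒰 : Set (Set X)} {κ t L R N n n₁ : ℕ} (hL : 0 < L) (hLR : L ≤ R) (ω : C(X, ℝ))
    (ht : t * (2 * κ + 1) ≤ n + 1) (ψ ψ₁ : ℕ → C(X, ℝ)) (P P₁ : ℕ → X → Set X)
    (hψ01 : ∀ c x, 0 ≤ ψ c x ∧ ψ c x ≤ 1) (hψ₁01 : ∀ c x, 0 ≤ ψ₁ c x ∧ ψ₁ c x ≤ 1)
    (hψ : ∀ x, ∃ c ≤ n, ψ c x = 1) (hψ₁ : ∀ x, ∃ c ≤ n₁, ψ₁ c x = 1)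
    (hP : ∀ c x, 0 < ψ c x → P c x ∈ iterCover h 𝒰 L ∧ x ∈ P c x)
    (hP₁ : ∀ c x, 0 < ψ₁ c x → P₁ c x ∈ 𝒰 ∧ x ∈ P₁ c x)
    (hPl : ∀ c, ∀ ε > 0, ∃ δ > 0, ∀ x x', dist x x' < δ → ε ≤ ψ c x →
      P c x' = P c x ∧ x' ∈ P c x)
    (hPl₁ : ∀ c, ∀ ε > 0, ∃ δ > 0, ∀ x x', dist x x' < δ → ε ≤ ψ₁ c x →
      P₁ c x' = P₁ c x ∧ x' ∈ P₁ c x)
    (fV : Set X → ℕ → Set X) (hfV : ∀ V ∈ iterCover h 𝒰 L, (∀ j, fV V j ∈ 𝒰) ∧
      V = ⋂ j ∈ Finset.range L, (⇑(h ^ j)) ⁻¹' (fV V j))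
    (U₀ : Set X) (hU₀ : U₀ ∈ 𝒰) :
    ∃ δ₁ > 0, ∀ x x', dist x x' < δ₁ → ∀ A : Set ((ℤ × ℕ) ⊕ (ℕ × ℕ)),
      (∀ c ∈ A, c ∈ coords κ (dcCrd κ t R N) (dcSs κ t R N n n₁).toList ∧
        1 / 8 < dcChi h L ω ψ ψ₁ c x) →
      (∀ c ∈ coords κ (dcCrd κ t R N) (dcSs κ t R N n n₁).toList,
        7 / 8 < dcChi h L ω ψ ψ₁ c x → c ∈ A) →
      (⋂ j ∈ Finset.range N, (⇑(h ^ j)) ⁻¹' (dcU h L P P₁ fV U₀ x A j)) ∈ iterCover h 𝒰 N ∧
      x' ∈ (⋂ j ∈ Finset.range N, (⇑(h ^ j)) ⁻¹' (dcU h L P P₁ fV U₀ x A j)) ∧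
      (⋂ j ∈ Finset.range N, (⇑(h ^ j)) ⁻¹' (dcU h L P P₁ fV U₀ x' A j)) =
        ⋂ j ∈ Finset.range N, (⇑(h ^ j)) ⁻¹' (dcU h L P P₁ fV U₀ x A j) := by
  classical
  obtain ⟨δa, hδa, ha⟩ := dc_finmin (Finset.range (n + 1))
    (fun c δ => ∀ x x', dist x x' < δ → 1 / 8 ≤ ψ c x → P c x' = P c x ∧ x' ∈ P c x)
    (fun c δ δ' hle H x x' hd => H x x' (hd.trans_le hle))
    (fun c _ => hPl c (1 / 8) (by norm_num))
  obtain ⟨δb, hδb, hb⟩ := dc_finmin (Finset.range (n₁ + 1))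
    (fun c δ => ∀ x x', dist x x' < δ → 1 / 8 ≤ ψ₁ c x → P₁ c x' = P₁ c x ∧ x' ∈ P₁ c x)
    (fun c δ δ' hle H x x' hd => H x x' (hd.trans_le hle))
    (fun c _ => hPl₁ c (1 / 8) (by norm_num))
  obtain ⟨δ₁, hδ₁, hδ⟩ := dc_finmin (Finset.Ico (-(R : ℤ)) (N + R))
    (fun i δ => ∀ x x', dist x x' < δ → dist ((h ^ i) x) ((h ^ i) x') < min δa δb)
    (fun c δ δ' hle H x x' hd => H x x' (hd.trans_le hle))
    (fun i _ => by
      have h1 := CompactSpace.uniformContinuous_of_continuous (h ^ i).continuous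
      obtain ⟨δ, h2, h3⟩ := Metric.uniformContinuous_iff.mp h1 (min δa δb) (lt_min hδa hδb)
      exact ⟨δ, h2, fun x x' hd => h3 hd⟩)
  refine ⟨δ₁, hδ₁, fun x x' hd A hA1 hA2 => ?_⟩
  have key : ∀ j < N, dcU h L P P₁ fV U₀ x A j ∈ 𝒰 ∧ (h ^ j) x' ∈ dcU h L P P₁ fV U₀ x A j ∧
      dcU h L P P₁ fV U₀ x' A j = dcU h L P P₁ fV U₀ x A j := by
    intro j hj
    rcases dcU_cases h L P P₁ fV U₀ A j with ⟨z, hz, h1, h2, h3⟩ | ⟨c, hc, h3⟩ | ⟨h1, h2, -⟩
    · obtain ⟨i, c⟩ := z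
      simp only at h1 h2 h3
      obtain ⟨hzc, hz8⟩ := hA1 _ hz
      rw [dc_mem_inl ht] at hzc
      have h8 : 1 / 8 < ψ c ((h ^ i) x) := hz8.trans_le (dcChi_inl_le hψ01 _ _)
      have hdi := hδ i (Finset.mem_Ico.mpr ⟨hzc.1, hzc.2.1⟩) x x' hd
      obtain ⟨h4, h5⟩ := ha c (Finset.mem_range.mpr (by omega)) _ _
        (hdi.trans_le (min_le_left _ _)) h8.le
      obtain ⟨h6, -⟩ := hP c _ (lt_trans (by norm_num) h8)
      obtain ⟨h7, h9⟩ := hfV _ h6
      rw [h3 x, h3 x', h4]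
      refine ⟨h7 _, ?_, rfl⟩
      rw [h9] at h5
      have h10 := mem_iInter₂.mp h5 ((j : ℤ) - i).toNat (Finset.mem_range.mpr (by omega))
      rw [mem_preimage] at h10
      have h11 : (h ^ ((j : ℤ) - i).toNat) ((h ^ i) x') = (h ^ j) x' := by
        rw [← Homeomorph.mul_apply, ← zpow_natCast, ← zpow_add, ← zpow_natCast h j]
        congr 2
        omega
      rw [← h11]
      exact h10
    · obtain ⟨hzc, hz8⟩ := hA1 _ hc
      rw [dc_mem_inr] at hzc
      have h8 : 1 / 8 < ψ₁ c ((h ^ (j : ℤ)) x) := hz8.trans_le (dcChi_inr_le hψ₁01 _ _)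
      have hdi := hδ j (Finset.mem_Ico.mpr ⟨by omega, by omega⟩) x x' hd
      obtain ⟨h4, h5⟩ := hb c (Finset.mem_range.mpr (by omega)) _ _
        (hdi.trans_le (min_le_right _ _)) h8.le
      obtain ⟨h6, -⟩ := hP₁ c _ (lt_trans (by norm_num) h8)
      rw [h3 x, h3 x', h4]
      refine ⟨h6, ?_, rfl⟩
      rw [zpow_natCast] at h5 ⊢
      exact h5
    · exfalso
      by_cases H : ∃ i : ℤ, (j : ℤ) - L < i ∧ i ≤ j ∧ 1 / 2 ≤ ω ((h ^ i) x)
      · obtain ⟨i, hi1, hi2, hi3⟩ := H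
        obtain ⟨c, hc, hc1⟩ := hψ ((h ^ i) x)
        refine h1 ⟨(i, c), hA2 _ ((dc_mem_inl ht i c).mpr ⟨by omega, by omega, hc⟩) ?_, hi2,
          by simp only; omega⟩
        change 7 / 8 < dcT (ω ((h ^ i) x)) * ψ c ((h ^ i) x)
        rw [dcT_one hi3, hc1]
        norm_num
      · push Not at H
        obtain ⟨c, hc, hc1⟩ := hψ₁ ((h ^ (j : ℤ)) x)
        refine h2 ⟨c, hA2 _ ((dc_mem_inr j c).mpr ⟨hj, hc⟩) ?_⟩
        change 7 / 8 < (∏ i ∈ Finset.Ioc ((j : ℤ) - L) j, dcS (ω ((h ^ i) x))) *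
          ψ₁ c ((h ^ (j : ℤ)) x)
        rw [hc1, Finset.prod_eq_one]
        · norm_num
        · intro i hi
          rw [Finset.mem_Ioc] at hi
          exact dcS_one (H i hi.1 hi.2).le
  refine ⟨⟨fun j => if j < N then dcU h L P P₁ fV U₀ x A j else U₀, ?_, ?_⟩, ?_, ?_⟩
  · intro j
    by_cases hj : j < N
    · simp only [if_pos hj]
      exact (key j hj).1
    · simp only [if_neg hj]
      exact hU₀
  · refine iInter₂_congr fun j hj => ?_
    rw [Finset.mem_range] at hj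
    simp only [if_pos hj]
  · rw [mem_iInter₂]
    intro j hj
    exact (key j (Finset.mem_range.mp hj)).2.1
  · refine iInter₂_congr fun j hj => ?_
    rw [(key j (Finset.mem_range.mp hj)).2.2]

open scoped Classical in
/-- the count -/
theorem dc_count {X : Type*} [MetricSpace X] (h : X ≃ₜ X)
    {κ t L R N n n₁ E : ℕ} (ω : C(X, ℝ)) (ht : t * (2 * κ + 1) ≤ n + 1) (ψ ψ₁ : ℕ → C(X, ℝ))
    (x : X)
    (hD : (n + 1) * ((Finset.Ico (-(R : ℤ)) (N + R)).filter fun i => ω ((h ^ i) x) ≠ 0).card +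
      (n₁ + 1) * ((Finset.range N).filter fun j : ℕ => ∀ i : ℤ, (j : ℤ) - L < i → i ≤ j →
        ω ((h ^ i) x) < 3 / 4).card ≤ E) :
    (2 * κ + 1) * (Finset.univ.filter fun γ : Fin ((N + 2 * R) * t) =>
        x ∈ {x | 1 / 4 < ω ((h ^ ((((finProdFinEquiv.symm γ).1 : ℕ) : ℤ) - R)) x)}).card +
      ((dcSs κ t R N n n₁).toList.filter fun c => 1 / 8 < dcChi h L ω ψ ψ₁ c x ∧
        dcChi h L ω ψ ψ₁ c x < 7 / 8).length ≤ E := by
  set K := (Finset.Ico (-(R : ℤ)) (N + R)).filter fun i => ω ((h ^ i) x) ≠ 0 with hK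
  set M := (Finset.range N).filter fun j : ℕ => ∀ i : ℤ, (j : ℤ) - L < i → i ≤ j →
        ω ((h ^ i) x) < 3 / 4 with hM
  have h1 : (Finset.univ.filter fun γ : Fin ((N + 2 * R) * t) =>
        x ∈ {x | 1 / 4 < ω ((h ^ ((((finProdFinEquiv.symm γ).1 : ℕ) : ℤ) - R)) x)}).card ≤
      (K ×ˢ (Finset.univ : Finset (Fin t))).card := by
    refine Finset.card_le_card_of_injOn (fun γ => ((((finProdFinEquiv.symm γ).1 : ℕ) : ℤ) - R,
      (finProdFinEquiv.symm γ).2)) ?_ ?_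
    · intro γ hγ
      simp only [Finset.coe_filter, Finset.mem_univ, true_and, mem_ofPred_eq] at hγ
      simp only [Finset.coe_product, mem_prod, Finset.mem_coe, Finset.mem_univ, and_true]
      rw [hK, Finset.mem_filter, Finset.mem_Ico]
      have := (finProdFinEquiv.symm γ).1.2
      refine ⟨by omega, fun h0 => ?_⟩
      rw [h0] at hγ
      norm_num at hγ
    · intro γ _ γ' _ heq
      simp only [Prod.mk.injEq] at heq
      apply finProdFinEquiv.symm.injective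
      refine Prod.ext (Fin.ext ?_) heq.2
      omega
  have h2 : ((dcSs κ t R N n n₁).toList.filter fun c => 1 / 8 < dcChi h L ω ψ ψ₁ c x ∧
        dcChi h L ω ψ ψ₁ c x < 7 / 8).length ≤
      ((K ×ˢ Finset.Ico (t * (2 * κ + 1)) (n + 1)).disjSum
        (M ×ˢ Finset.range (n₁ + 1))).card := by
    rw [dc_filter_length]
    refine Finset.card_le_card fun c hc => ?_
    rw [Finset.mem_filter] at hc
    obtain ⟨hc1, hc2, -⟩ := hc
    rcases c with ⟨i, c⟩ | ⟨j, c⟩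
    · rw [dcSs, Finset.inl_mem_disjSum, Finset.mem_product] at hc1
      rw [Finset.inl_mem_disjSum, Finset.mem_product]
      refine ⟨?_, hc1.2⟩
      rw [hK, Finset.mem_filter]
      exact ⟨hc1.1, dcChi_inl_ne hc2⟩
    · rw [dcSs, Finset.inr_mem_disjSum, Finset.mem_product] at hc1
      rw [Finset.inr_mem_disjSum, Finset.mem_product]
      refine ⟨?_, hc1.2⟩
      rw [hM, Finset.mem_filter]
      exact ⟨hc1.1, dcChi_inr_lt hc2⟩
  rw [Finset.card_product, Finset.card_univ, Fintype.card_fin] at h1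
  rw [Finset.card_disjSum, Finset.card_product, Finset.card_product, Nat.card_Ico,
    Finset.card_range] at h2
  refine le_trans (add_le_add (Nat.mul_le_mul_left _ h1) h2) (le_trans (le_of_eq ?_) hD)
  obtain ⟨u, hu⟩ := Nat.exists_eq_add_of_le ht
  rw [hu, Nat.add_sub_cancel_left]
  ring

open scoped Classical in
/-- the homological order of an iterated cover, from a family -/
theorem dc_main {X : Type*} [MetricSpace X] [CompactSpace X] {h : X ≃ₜ X}
    {𝒰 : Set (Set X)} {κ t L R N n n₁ a D : ℕ} (hκ : 1 ≤ κ) (hL : 0 < L) (hLR : L ≤ R)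
    (ω : C(X, ℝ)) (ht : t * (2 * κ + 1) ≤ n + 1) (ψ ψ₁ : ℕ → C(X, ℝ)) (P P₁ : ℕ → X → Set X)
    (hψ01 : ∀ c x, 0 ≤ ψ c x ∧ ψ c x ≤ 1) (hψ₁01 : ∀ c x, 0 ≤ ψ₁ c x ∧ ψ₁ c x ≤ 1)
    (hψ : ∀ x, ∃ c ≤ n, ψ c x = 1) (hψ₁ : ∀ x, ∃ c ≤ n₁, ψ₁ c x = 1)
    (hP : ∀ c x, 0 < ψ c x → P c x ∈ iterCover h 𝒰 L ∧ x ∈ P c x)
    (hP₁ : ∀ c x, 0 < ψ₁ c x → P₁ c x ∈ 𝒰 ∧ x ∈ P₁ c x)
    (hPl : ∀ c, ∀ ε > 0, ∃ δ > 0, ∀ x x', dist x x' < δ → ε ≤ ψ c x →
      P c x' = P c x ∧ x' ∈ P c x)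
    (hPl₁ : ∀ c, ∀ ε > 0, ∃ δ > 0, ∀ x x', dist x x' < δ → ε ≤ ψ₁ c x →
      P₁ c x' = P₁ c x ∧ x' ∈ P₁ c x)
    (U₀ : Set X) (hU₀ : U₀ ∈ 𝒰)
    (F : Fin (N + 2 * R) → Fin t → Fin κ → Fin 2 → X → (Fin (2 * κ * a) → Fin 2 → ℂ) → ℂ)
    (hF : DcFam h ω (fun G k => ψ ((G : ℕ) * (2 * κ + 1) + k)) R N a F)
    (hD : ∀ x, (n + 1) *
        ((Finset.Ico (-(R : ℤ)) (N + R)).filter fun i => ω ((h ^ i) x) ≠ 0).card +
      (n₁ + 1) * ((Finset.range N).filter fun j : ℕ => ∀ i : ℤ, (j : ℤ) - L < i → i ≤ j →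
        ω ((h ^ i) x) < 3 / 4).card ≤ D + a + 1) :
    HomOrderLE (iterCover h 𝒰 N) D := by
  have hfV : ∀ V, ∃ f : ℕ → Set X, V ∈ iterCover h 𝒰 L → (∀ j, f j ∈ 𝒰) ∧
      V = ⋂ j ∈ Finset.range L, (⇑(h ^ j)) ⁻¹' (f j) := by
    intro V
    by_cases hV : V ∈ iterCover h 𝒰 L
    · obtain ⟨f, hf, hVf⟩ := hV
      exact ⟨f, fun _ => ⟨hf, hVf⟩⟩
    · exact ⟨fun _ => U₀, fun h => absurd h hV⟩
  choose fV hfV using hfV
  obtain ⟨δ₁, hδ₁, hW⟩ := dc_label (κ := κ) (t := t) (R := R) (N := N) h hL hLR ω ht ψ ψ₁ P P₁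
    hψ01 hψ₁01 hψ hψ₁ hP hP₁ hPl hPl₁ fV hfV U₀ hU₀
  refine static (a := a) hκ (dcChi h L ω ψ ψ₁) (dcChi_cont h L ω ψ ψ₁) (dcCrd κ t R N)
    (dcSs κ t R N n n₁).toList
    (fun γ => F (finProdFinEquiv.symm γ).1 (finProdFinEquiv.symm γ).2)
    (fun γ k e => hF.cont _ _ k e) (fun γ k e x => hF.hom _ _ k e x)
    (fun γ k e x σ q => hF.sym _ _ k e x σ q) ?_ ?_
    (fun γ => {x | 1 / 4 < ω ((h ^ ((((finProdFinEquiv.symm γ).1 : ℕ) : ℤ) - R)) x)})
    ?_ ?_ (iterCover h 𝒰 N)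
    (fun x A => ⋂ j ∈ Finset.range N, (⇑(h ^ j)) ⁻¹' (dcU h L P P₁ fV U₀ x A j)) hδ₁ hW
    (fun x => dc_count h ω ht ψ ψ₁ x (hD x))
  · intro x q hq
    obtain ⟨i, G, k, e, hne⟩ := hF.ne x q hq
    refine ⟨finProdFinEquiv (i, G), k, e, ?_⟩
    simp only [Equiv.symm_apply_apply]
    exact hne
  · intro γ k x q hrad
    by_cases h0 : F (finProdFinEquiv.symm γ).1 (finProdFinEquiv.symm γ).2 k 0 x q = 0 ∧
        F (finProdFinEquiv.symm γ).1 (finProdFinEquiv.symm γ).2 k 1 x q = 0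
    · rw [h0.1, h0.2]
      exact dc_hopf_zero _ _ _
    · have h34 : 3 / 4 < ω ((h ^ ((((finProdFinEquiv.symm γ).1 : ℕ) : ℤ) - R)) x) := by
        by_contra hcon
        refine h0 ⟨?_, ?_⟩
        · by_contra hne
          exact hcon (hF.supp _ _ _ _ _ _ hne)
        · by_contra hne
          exact hcon (hF.supp _ _ _ _ _ _ hne)
      have hχ : ∀ j, dcChi h L ω ψ ψ₁ (dcCrd κ t R N γ j) x =
          ψ (((finProdFinEquiv.symm γ).2 : ℕ) * (2 * κ + 1) + j)
            ((h ^ ((((finProdFinEquiv.symm γ).1 : ℕ) : ℤ) - R)) x) := by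
        intro j
        change dcT (ω ((h ^ ((((finProdFinEquiv.symm γ).1 : ℕ) : ℤ) - R)) x)) *
          ψ (((finProdFinEquiv.symm γ).2 : ℕ) * (2 * κ + 1) + j)
            ((h ^ ((((finProdFinEquiv.symm γ).1 : ℕ) : ℤ) - R)) x) = _
        rw [dcT_one (by linarith), one_mul]
      have hnF := dc_nF_congr (fun i x => dcChi h L ω ψ ψ₁ (dcCrd κ t R N γ i) x - 1 / 2)
        (fun j x => ψ (((finProdFinEquiv.symm γ).2 : ℕ) * (2 * κ + 1) + j) x - 1 / 2) rho x
        ((h ^ ((((finProdFinEquiv.symm γ).1 : ℕ) : ℤ) - R)) x)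
        (fun j => by simp only [hχ]) k
      have h4 := hF.hopf (finProdFinEquiv.symm γ).1 (finProdFinEquiv.symm γ).2 k x q _ rfl
      simp only [rad] at hrad h4
      rw [hnF, hχ, hχ] at hrad
      rw [hnF, hχ, hχ]
      exact h4 hrad
  · intro γ k e x q hne
    have := hF.supp _ _ _ _ _ _ hne
    rw [mem_ofPred_eq]
    linarith
  · intro γ x hx i _
    rw [mem_ofPred_eq, not_lt] at hx
    change dcT (ω ((h ^ ((((finProdFinEquiv.symm γ).1 : ℕ) : ℤ) - R)) x)) *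
      ψ (((finProdFinEquiv.symm γ).2 : ℕ) * (2 * κ + 1) + i)
        ((h ^ ((((finProdFinEquiv.symm γ).1 : ℕ) : ℤ) - R)) x) ≤ 1 / 8
    rw [dcT_zero hx, zero_mul]
    norm_num

theorem dyn_cover {X : Type*} [MetricSpace X] [CompactSpace X] [Infinite X]
    {A : Type*} [CStarAlgebra A] [PartialOrder A] [StarOrderedRing A] {h : X ≃ₜ X}
    (hmin : IsMinimalHomeo h) (hA : IsCrossedProduct h A) {r : ℝ} (hr : IsComparisonBound A r)
    {𝒰 : Set (Set X)} (h𝒰 : IsFinOpenCover 𝒰) {κ L : ℕ} (hκ : 1 ≤ κ) (hL : 0 < L) {ε : ℝ}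
    (hε : 0 < ε) {s : ℝ} (hs0 : 0 ≤ s)
    (hs : s + r < κ * ((coverDim (iterCover h 𝒰 L) + 1) / (2 * κ + 1) : ℕ) * (1 - ε) / L) :
    ∃ C' : ℝ, ∀ N a D : ℕ, (2 * κ * a + 1 : ℝ) ≤ s * N - C' →
      (coverDim (iterCover h 𝒰 L) + 1) * (N / L : ℝ) + (coverDim 𝒰 + 1) * (ε * N) + C' ≤
        D + a + 1 → HomOrderLE (iterCover h 𝒰 N) D := by
  classical
  obtain ⟨ψ, P, hψ01, hψ, hP, hPl⟩ := exists_colours _ (isFinOpenCover_iterCover h h𝒰 L)
  obtain ⟨ψ₁, P₁, hψ₁01, hψ₁, hP₁, hPl₁⟩ := exists_colours _ h𝒰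
  obtain ⟨ω, hω0, hω1, hsep, hcount⟩ := exists_tower h hmin L hL hε
  obtain ⟨R₀, C₀, hfam⟩ := exists_family (κ := κ)
    (t := (coverDim (iterCover h 𝒰 L) + 1) / (2 * κ + 1)) hmin hA hr hL ω hω0 hω1 hcount
    (fun G k => ψ ((G : ℕ) * (2 * κ + 1) + k)) hs0 hs
  obtain ⟨C₁, hC₁⟩ := count_uncovered h hL ω hsep hε hcount
  have hU₀ : ∃ U₀, U₀ ∈ 𝒰 := by
    have h1 : (Classical.arbitrary X) ∈ ⋃₀ 𝒰 := by rw [h𝒰.2.2]; trivial
    obtain ⟨U, hU, -⟩ := h1
    exact ⟨U, hU⟩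
  obtain ⟨U₀, hU₀⟩ := hU₀
  have hL' : (0 : ℝ) < L := Nat.cast_pos.mpr hL
  have e1 : (0 : ℝ) ≤ (coverDim (iterCover h 𝒰 L) + 1) * (2 * ((R₀ + L : ℕ) : ℝ) / L + 1) := by
    positivity
  have e2 : (0 : ℝ) ≤ (coverDim 𝒰 + 1) * |C₁| := by positivity
  refine ⟨|C₀| + (coverDim (iterCover h 𝒰 L) + 1) * (2 * ((R₀ + L : ℕ) : ℝ) / L + 1) +
    (coverDim 𝒰 + 1) * |C₁|, fun N a D h1 h2 => ?_⟩
  obtain ⟨F, f1, f2, f3, f4, f5, f6⟩ := hfam N a (by
    have := le_abs_self C₀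
    linarith)
  have hF : DcFam h ω (fun (G : Fin ((coverDim (iterCover h 𝒰 L) + 1) / (2 * κ + 1))) k =>
      ψ ((G : ℕ) * (2 * κ + 1) + k)) R₀ N a F :=
    ⟨f1, f2, f3, f4, f5, fun i G k x q x' hx' hrad => by
      subst hx'
      exact f6 i G k x q hrad⟩
  obtain ⟨F', hF'⟩ := hF.extend L
  refine dc_main hκ hL (Nat.le_add_left L R₀) ω (Nat.div_mul_le_self _ _) ψ ψ₁ P P₁ hψ01 hψ₁01 hψ
    hψ₁ hP hP₁ hPl hPl₁ U₀ hU₀ F' hF' fun x => ?_
  have g1 := count_windows h hL ω hsep x (-((R₀ + L : ℕ) : ℤ)) (N + ((R₀ + L : ℕ) : ℤ)) (by omega)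
  have g2 := hC₁ x N
  have g3 := mul_le_mul_of_nonneg_left g1
    (by positivity : (0 : ℝ) ≤ (coverDim (iterCover h 𝒰 L) + 1))
  have g4 := mul_le_mul_of_nonneg_left (g2.trans (add_le_add_right (le_abs_self C₁) _))
    (by positivity : (0 : ℝ) ≤ (coverDim 𝒰 + 1))
  have g5 : (((N + ((R₀ + L : ℕ) : ℤ) - -((R₀ + L : ℕ) : ℤ) : ℤ)) : ℝ) / L + 1 =
      (N : ℝ) / L + (2 * ((R₀ + L : ℕ) : ℝ) / L + 1) := by
    push_cast
    ring
  rw [g5] at g3
  have g6 := abs_nonneg C₀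
  have g7 : ((coverDim (iterCover h 𝒰 L) + 1 : ℝ) * (((Finset.Ico (-((R₀ + L : ℕ) : ℤ))
      (N + ((R₀ + L : ℕ) : ℤ))).filter fun i => ω ((h ^ i) x) ≠ 0).card : ℝ) +
      (coverDim 𝒰 + 1) * (((Finset.range N).filter fun j : ℕ => ∀ i : ℤ, (j : ℤ) - L < i → i ≤ j →
        ω ((h ^ i) x) < 3 / 4).card : ℝ)) ≤ D + a + 1 := by
    nlinarith [g3, g4, h2, g6]
  exact_mod_cast g7

end Vale.Agent.P093.Hom
end

section

/-!
The growth rate of the order of a cover is finite: `D(𝒰^{[0,N)}) ≤ N D(𝒰)`.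
-/

open Set Filter
open scoped ENNReal

namespace Vale.Agent.P093.Hom

theorem coverDim_iterCover_le_mul {X : Type*} [TopologicalSpace X] [NormalSpace X] (h : X ≃ₜ X)
    {𝒰 : Set (Set X)} (h𝒰 : IsFinOpenCover 𝒰) (N : ℕ) :
    coverDim (iterCover h 𝒰 N) ≤ N * coverDim 𝒰 := by
  classical
  set d := coverDim 𝒰 with hd
  have hne : {d : ℕ | ∃ 𝒱 : Set (Set X), IsFinOpenCover 𝒱 ∧ (∀ V ∈ 𝒱, ∃ U ∈ 𝒰, V ⊆ U) ∧
      ∀ S ⊆ 𝒱, (⋂₀ S).Nonempty → S.encard ≤ d + 1}.Nonempty := by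
    refine ⟨𝒰.ncard, 𝒰, h𝒰, fun U hU => ⟨U, hU, le_rfl⟩, fun S hS _ => ?_⟩
    calc S.encard ≤ 𝒰.encard := encard_le_encard hS
      _ = (𝒰.ncard : ℕ∞) := by rw [h𝒰.1.cast_ncard_eq]
      _ ≤ _ := le_self_add
  obtain ⟨𝒱, h𝒱, hr, ho⟩ := Nat.sInf_mem hne
  change ∀ S ⊆ 𝒱, (⋂₀ S).Nonempty → S.encard ≤ (d : ℕ∞) + 1 at ho
  obtain ⟨C, hC⟩ := exists_colored (W := 𝒰) (q := d) h𝒱 hr (fun x S hS hx => by
    have h1 := ho (S : Set (Set X)) hS ⟨x, mem_sInter.2 fun t ht => hx t ht⟩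
    rw [encard_coe_eq_coe_finsetCard] at h1
    exact_mod_cast h1) (N * d + 1)
  let V' : Set (Set X) :=
    {v | v.Nonempty ∧ ∃ (k : Fin (N * d + 1)) (s : Fin N → Set X), (∀ i, s i ∈ C k) ∧
      v = {x | ∀ i : Fin N, (h ^ (i : ℕ)) x ∈ s i}}
  apply Nat.sInf_le
  refine ⟨V', ⟨?_, ?_, ?_⟩, ?_, ?_⟩
  · have hfin : (⋃ k : Fin (N * d + 1), (fun s : Fin N → Set X =>
        {x | ∀ i : Fin N, (h ^ (i : ℕ)) x ∈ s i}) '' (Set.pi Set.univ fun _ => C k)).Finite := by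
      apply Set.finite_iUnion
      intro k
      exact (Set.Finite.pi fun _ => hC.fin k).image _
    apply hfin.subset
    rintro v ⟨_, k, s, hs, rfl⟩
    exact Set.mem_iUnion.mpr ⟨k, s, fun i _ => hs i, rfl⟩
  · rintro v ⟨_, k, s, hs, rfl⟩
    have : {x | ∀ i : Fin N, (h ^ (i : ℕ)) x ∈ s i} = ⋂ i : Fin N, (h ^ (i : ℕ)) ⁻¹' (s i) := by
      ext x
      simp
    rw [this]
    exact isOpen_iInter_of_finite fun i => (hC.op k _ (hs i)).preimage (h ^ (i : ℕ)).continuous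
  · rw [Set.eq_univ_iff_forall]
    intro x
    obtain ⟨k, hk⟩ : ∃ k : Fin (N * d + 1), ∀ i : Fin N, (h ^ (i : ℕ)) x ∈ ⋃₀ C k := by
      by_contra hcon
      push Not at hcon
      have h1 : ∀ k : Fin (N * d + 1),
          1 ≤ ∑ i : Fin N, (if (h ^ (i : ℕ)) x ∈ ⋃₀ C k then 0 else 1) := by
        intro k
        obtain ⟨i, hi⟩ := hcon k
        calc 1 = (if (h ^ (i : ℕ)) x ∈ ⋃₀ C k then 0 else 1) := by rw [if_neg hi]
          _ ≤ _ := Finset.single_le_sum (f := fun i : Fin N =>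
            if (h ^ (i : ℕ)) x ∈ ⋃₀ C k then 0 else 1) (fun _ _ => Nat.zero_le _)
            (Finset.mem_univ i)
      have h2 : N * d + 1 ≤ ∑ k : Fin (N * d + 1), ∑ i : Fin N,
          (if (h ^ (i : ℕ)) x ∈ ⋃₀ C k then 0 else 1) := by
        calc N * d + 1 = ∑ _k : Fin (N * d + 1), 1 := by simp
          _ ≤ _ := Finset.sum_le_sum fun k _ => h1 k
      rw [Finset.sum_comm] at h2
      have h3 : ∑ i : Fin N, ∑ k : Fin (N * d + 1),
          (if (h ^ (i : ℕ)) x ∈ ⋃₀ C k then 0 else 1) ≤ N * d := by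
        calc _ ≤ ∑ _i : Fin N, d := Finset.sum_le_sum fun i _ => hC.miss ((h ^ (i : ℕ)) x)
          _ = N * d := by simp
      omega
    choose s hs hxs using hk
    exact ⟨{x | ∀ i : Fin N, (h ^ (i : ℕ)) x ∈ s i}, ⟨⟨x, fun i => hxs i⟩, k, s, hs, rfl⟩,
      fun i => hxs i⟩
  · rintro v ⟨⟨x, hx⟩, k, s, hs, rfl⟩
    obtain ⟨u₀, hu₀, -⟩ : x ∈ ⋃₀ 𝒰 := by rw [h𝒰.2.2]; exact mem_univ x
    have href := fun i : Fin N => hC.ref k _ (hs i)
    choose u hu hsu using href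
    refine ⟨_, ⟨fun j => if hj : j < N then u ⟨j, hj⟩ else u₀, fun j => ?_, rfl⟩, fun y hy => ?_⟩
    · by_cases hj : j < N
      · simp only [hj, dif_pos]; exact hu _
      · simp only [hj, dif_neg, not_false_eq_true]; exact hu₀
    · simp only [mem_iInter, Finset.mem_range]
      intro j hj
      simp only [hj, dif_pos]
      exact hsu ⟨j, hj⟩ (hy ⟨j, hj⟩)
  · intro S hS hSne
    obtain ⟨x, hx⟩ := hSne
    let col : Set X → Fin (N * d + 1) := fun v =>
      if h : v ∈ V' then h.2.choose else ⟨0, Nat.succ_pos _⟩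
    have hinj : Set.InjOn col S := by
      intro v hv w hw hvw
      have hv' := hS hv
      have hw' := hS hw
      have h1 : col v = hv'.2.choose := dif_pos hv'
      have h2 : col w = hw'.2.choose := dif_pos hw'
      obtain ⟨s, hs, hvs⟩ := hv'.2.choose_spec
      obtain ⟨t, ht, hwt⟩ := hw'.2.choose_spec
      have hxv := Set.mem_sInter.mp hx v hv
      have hxw := Set.mem_sInter.mp hx w hw
      rw [hvs] at hxv
      rw [hwt] at hxw
      rw [hvs, hwt]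
      have h3 : hv'.2.choose = hw'.2.choose := by rw [← h1, ← h2, hvw]
      have h4 : s = t := by
        funext i
        apply hC.disj hw'.2.choose (s i) (by rw [← h3]; exact hs i) (t i) (ht i)
        exact ⟨(h ^ (i : ℕ)) x, hxv i, hxw i⟩
      rw [h4]
    rw [← hinj.encard_image]
    calc (col '' S).encard ≤ (Set.univ : Set (Fin (N * d + 1))).encard :=
          Set.encard_le_encard (Set.subset_univ _)
      _ = ((N * d : ℕ) : ℕ∞) + 1 := by
          rw [Set.encard_univ, ENat.card_eq_coe_fintype_card, Fintype.card_fin]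
          push_cast
          rfl

theorem limsup_coverDim_ne_top {X : Type*} [TopologicalSpace X] [NormalSpace X] (h : X ≃ₜ X)
    {𝒰 : Set (Set X)} (h𝒰 : IsFinOpenCover 𝒰) :
    limsup (fun N : ℕ => (coverDim (iterCover h 𝒰 N) : ℝ≥0∞) / N) atTop ≠ ∞ := by
  refine ne_top_of_le_ne_top (ENNReal.natCast_ne_top (coverDim 𝒰)) ?_
  refine limsup_le_of_le (by isBoundedDefault) ?_
  filter_upwards [eventually_gt_atTop 0] with N hN
  have h1 : (N : ℝ≥0∞) ≠ 0 := Nat.cast_ne_zero.2 hN.ne'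
  rw [ENNReal.div_le_iff h1 (ENNReal.natCast_ne_top _), mul_comm]
  exact_mod_cast coverDim_iterCover_le_mul h h𝒰 N

end Vale.Agent.P093.Hom
end

section

/-!
TASK HOM-H6: the final inequality.

Proof of `key_ineq` (`r` a comparison bound, `κ ≥ 1`, `m = (meanDim h).toReal`, `meanDim h ≠ ∞`): for every
finite open cover `𝒰`, with `z = limsup homOrder(𝒰^N)/N` (finite, `≤ δ = limsup coverDim(𝒰^N)/N ≤ m`, by
`homOrderLE_coverDim` and `Nat.sInf_le`), `2κ z - (2κ - κ/(2κ+1)) m ≤ r`.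
Fix `η > 0`. Choose `L` large with `δ - η ≤ coverDim (𝒰^L) / L ≤ δ + η`
(frequently `≥`, eventually `≤`). Let `n = coverDim (𝒰^L)`, `t = (n+1)/(2κ+1)` (floor), so
`t ≥ (n+1)/(2κ+1) - 1`; let `ε > 0` small.
Case A: `r < κ t (1-ε)/L`. For `0 ≤ s < κ t (1-ε)/L - r` `dyn_cover` gives `C'`. For `N` large let
`a = ⌊(s N - C' - 1)/(2κ)⌋` and `D = ⌈(n+1) N/L + (n₁+1) ε N + C' - a - 1⌉` (as a natural number; the real number
inside is positive for large `N` as `s/(2κ) < t/(2 L) ≤ n+1/(2L)`); so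
`homOrder (𝒰^N) ≤ D` and `z ≤ (n+1)/L + (n₁+1) ε - s/(2κ)`. Let `s → κ t/L (1-ε) - r`, `ε → 0`:
`z ≤ (n+1)/L - t/(2L) + r/(2κ) ≤ ((n+1)/L) (1 - 1/(2(2κ+1))) + 1/(2L) + r/(2κ)`, and
`(n+1)/L ≤ m + η + 1/L`. So `r ≥ 2κ z - (2κ - κ/(2κ+1)) (m + η + 1/L) - κ/L`.
Case B: `κ t (1-ε)/L ≤ r` for all small `ε`, so `κ t/L ≤ r`: `r ≥ κ/(2κ+1) (n+1)/L - κ/L ≥
κ/(2κ+1) (δ - η) - κ/L`, and `κ/(2κ+1) δ ≥ κ/(2κ+1) δ - 2κ (δ - z) = 2κ z - (2κ - κ/(2κ+1)) δ
≥ 2κ z - (2κ - κ/(2κ+1)) m`.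
Let `L → ∞`, `η → 0`.
`hom_ineq`: take the supremum over `𝒰` and the infimum over `r` (`radiusOfComparison` is an infimum of
`ENNReal.ofReal r`; if there is no comparison bound it is `∞`).
`hom_main`: with `homMeanDim h = meanDim h = m` finite, `hom_ineq` gives `κ/(2κ+1) m ≤ rc` for all `κ ≥ 1`;
let `κ → ∞`.
Topological version: `metrizableSpaceMetric X`.
-/

open Filter Topology Set
open scoped ENNReal

namespace Vale.Agent.P093.Hom

/-- the limit superior of a sequence with a linear upper bound -/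
theorem fi_limsup_le {f : ℕ → ℕ} {β C : ℝ} (hβ : 0 ≤ β) {N₀ : ℕ}
    (hf : ∀ N, N₀ ≤ N → (f N : ℝ) ≤ β * N + C) :
    limsup (fun N : ℕ => (f N : ℝ≥0∞) / N) atTop ≤ ENNReal.ofReal β := by
  refine ENNReal.le_of_forall_pos_le_add fun η hη _ => ?_
  refine limsup_le_of_le (by isBoundedDefault) ?_
  have hη' : (0 : ℝ) < η := hη
  obtain ⟨M, hM⟩ := exists_nat_gt (C / η)
  filter_upwards [eventually_ge_atTop N₀, eventually_ge_atTop M, eventually_gt_atTop 0]
    with N h1 h2 h0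
  have h3 : (0 : ℝ) < N := Nat.cast_pos.2 h0
  have h2' : (M : ℝ) ≤ N := Nat.cast_le.2 h2
  have h4 : (f N : ℝ) / N ≤ β + η := by
    rw [div_le_iff₀ h3]
    have h5 := hf N h1
    have h6 := (div_lt_iff₀ hη').1 (hM.trans_le h2')
    linarith
  rw [← ENNReal.ofReal_coe_nnreal (p := η), ← ENNReal.ofReal_add hβ η.coe_nonneg]
  have e : (f N : ℝ≥0∞) / N = ENNReal.ofReal ((f N : ℝ) / N) := by
    rw [ENNReal.ofReal_div_of_pos h3, ENNReal.ofReal_natCast, ENNReal.ofReal_natCast]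
  rw [e]
  exact ENNReal.ofReal_le_ofReal h4

theorem fi_homOrder_le {X : Type*} [MetricSpace X] [CompactSpace X] (h : X ≃ₜ X)
    {𝒰 : Set (Set X)} (h𝒰 : IsFinOpenCover 𝒰) (N : ℕ) :
    homOrder (iterCover h 𝒰 N) ≤ coverDim (iterCover h 𝒰 N) :=
  Nat.sInf_le (homOrderLE_coverDim _ (isFinOpenCover_iterCover h h𝒰 N))

theorem fi_limsup_le_limsup {X : Type*} [MetricSpace X] [CompactSpace X] (h : X ≃ₜ X)
    {𝒰 : Set (Set X)} (h𝒰 : IsFinOpenCover 𝒰) :
    limsup (fun N : ℕ => (homOrder (iterCover h 𝒰 N) : ℝ≥0∞) / N) atTop ≤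
      limsup (fun N : ℕ => (coverDim (iterCover h 𝒰 N) : ℝ≥0∞) / N) atTop :=
  limsup_le_limsup (Eventually.of_forall fun N =>
    ENNReal.div_le_div_right (Nat.cast_le.2 (fi_homOrder_le h h𝒰 N)) _)

theorem homMeanDim_le_meanDim {X : Type*} [MetricSpace X] [CompactSpace X] (h : X ≃ₜ X) :
    homMeanDim h ≤ meanDim h :=
  iSup_mono fun 𝒰 => fi_limsup_le_limsup h 𝒰.2

/-- The estimate for one length `L`. -/
theorem fi_step {X : Type*} [MetricSpace X] [CompactSpace X] [Infinite X]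
    {A : Type*} [CStarAlgebra A] [PartialOrder A] [StarOrderedRing A] {h : X ≃ₜ X}
    (hmin : IsMinimalHomeo h) (hA : IsCrossedProduct h A) {r : ℝ} (hr : IsComparisonBound A r)
    {𝒰 : Set (Set X)} (h𝒰 : IsFinOpenCover 𝒰) {κ L : ℕ} (hκ : 1 ≤ κ) (hL : 0 < L) {θ : ℝ}
    (hθ : 0 < θ) :
    κ * (((coverDim (iterCover h 𝒰 L) + 1) / (2 * κ + 1) : ℕ) : ℝ) / L ≤ r + θ ∨
      2 * κ * (limsup (fun N : ℕ => (homOrder (iterCover h 𝒰 N) : ℝ≥0∞) / N) atTop).toReal ≤
        2 * κ * ((coverDim (iterCover h 𝒰 L) + 1 : ℝ) / L) -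
          κ * (((coverDim (iterCover h 𝒰 L) + 1) / (2 * κ + 1) : ℕ) : ℝ) / L + r + θ := by
  set n := coverDim (iterCover h 𝒰 L) with hn
  set n₁ := coverDim 𝒰 with hn₁
  set t := (n + 1) / (2 * κ + 1) with ht
  have htn : (t : ℝ) ≤ n + 1 := by exact_mod_cast Nat.div_le_self (n + 1) (2 * κ + 1)
  have hκ' : (1 : ℝ) ≤ κ := Nat.one_le_cast.2 hκ
  have hL' : (0 : ℝ) < L := Nat.cast_pos.2 hL
  have hr0 : 0 ≤ r := hr.1
  have ht0 : (0 : ℝ) ≤ t := Nat.cast_nonneg t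
  have hn10 : (0 : ℝ) ≤ n₁ := Nat.cast_nonneg n₁
  set b : ℝ := κ * (t : ℝ) / L with hb
  have hb0 : 0 ≤ b := by positivity
  by_cases hbr : b ≤ r + θ
  · exact Or.inl hbr
  right
  push Not at hbr
  set Kc : ℝ := b + 2 * κ * (n₁ + 1) with hKc
  have hKc0 : 0 < Kc := by positivity
  set ε : ℝ := min (1 / 2) (θ / (2 * Kc)) with hε
  have hε0 : 0 < ε := lt_min (by norm_num) (by positivity)
  have hε1 : ε ≤ 1 / 2 := min_le_left _ _
  have hεK : ε * Kc ≤ θ / 2 := by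
    have h1 : ε ≤ θ / (2 * Kc) := min_le_right _ _
    rw [le_div_iff₀ (by positivity)] at h1
    linarith
  have hεb : ε * b + 2 * κ * (n₁ + 1) * ε ≤ θ / 2 := by
    rw [hKc] at hεK
    linarith
  have hεb' : 0 ≤ 2 * κ * (n₁ + 1) * ε := by positivity
  set s : ℝ := b * (1 - ε) - r - θ / 2 with hs
  have hs0 : 0 < s := by
    rw [hs]
    linarith
  have hsb : s ≤ b := by
    have : 0 ≤ ε * b := by positivity
    rw [hs]
    linarith
  have hs1 : s + r < κ * ((n + 1) / (2 * κ + 1) : ℕ) * (1 - ε) / L := by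
    have e : (κ * ((n + 1) / (2 * κ + 1) : ℕ) * (1 - ε) / L : ℝ) = b * (1 - ε) := by
      rw [hb, ht]
      ring
    rw [e, hs]
    linarith
  obtain ⟨C', hC'⟩ := dyn_cover hmin hA hr h𝒰 hκ hL hε0 hs0.le hs1
  rw [← hn, ← hn₁] at hC'
  set β : ℝ := (n + 1) / L + (n₁ + 1) * ε - s / (2 * κ) with hβ
  have hbn : b ≤ κ * ((n + 1) / L) := by
    rw [hb, mul_div_assoc]
    exact mul_le_mul_of_nonneg_left (div_le_div_of_nonneg_right htn hL'.le) (by positivity)
  have hy0 : (0 : ℝ) ≤ (n + 1) / L := by positivity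
  have hβ0 : 0 ≤ β := by
    have h1 : s / (2 * κ) ≤ (n + 1) / L := by
      rw [div_le_iff₀ (by positivity)]
      have h3 : 0 ≤ κ * ((n + 1) / L : ℝ) := by positivity
      linarith
    have h2 : 0 ≤ (n₁ + 1) * ε := by positivity
    rw [hβ]
    linarith
  have hz := fi_limsup_le (f := fun N => homOrder (iterCover h 𝒰 N)) (β := β)
    (C := 2 * |C'| + 2) hβ0 (N₀ := ⌈(|C'| + 1) / s⌉₊) fun N hN => by
      have hN1 : |C'| + 1 ≤ s * N := by
        have h1 := Nat.ceil_le.1 hN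
        rw [div_le_iff₀ hs0] at h1
        linarith
      have hC1 := le_abs_self C'
      have hC2 := neg_abs_le C'
      have hx0 : 0 ≤ (s * N - C' - 1) / (2 * κ) := div_nonneg (by linarith) (by positivity)
      have ha := Nat.floor_le hx0
      have ha' := Nat.lt_floor_add_one ((s * N - C' - 1) / (2 * κ))
      set a := ⌊(s * N - C' - 1) / (2 * κ)⌋₊
      have h2a : (2 * κ * a + 1 : ℝ) ≤ s * N - C' := by
        rw [le_div_iff₀ (by positivity)] at ha
        linarith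
      set x : ℝ := (n + 1) * (N / L : ℝ) + (n₁ + 1) * (ε * N) + C' - a - 1 with hx
      have hD := Nat.le_ceil x
      have hle : homOrder (iterCover h 𝒰 N) ≤ ⌈x⌉₊ :=
        Nat.sInf_le (hC' N a ⌈x⌉₊ h2a (by linarith))
      have hDx : (⌈x⌉₊ : ℝ) ≤ β * N + (2 * |C'| + 2) := by
        have hxb : x ≤ β * N + (2 * |C'| + 1) := by
          have e1 : (s * N - C' - 1) / (2 * κ) = s / (2 * κ) * N - (C' + 1) / (2 * κ) := by
            ring
          have e2 : (C' + 1) / (2 * κ) ≤ |C'| + 1 := by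
            rw [div_le_iff₀ (by positivity)]
            have h3 : (|C'| + 1) * 1 ≤ (|C'| + 1) * (2 * κ) :=
              mul_le_mul_of_nonneg_left (by linarith) (by positivity)
            linarith
          have e3 : (n + 1) * (N / L : ℝ) = (n + 1) / L * N := by ring
          rw [e1] at ha'
          rw [hx, e3, hβ]
          linarith
        rcases le_or_gt 0 x with h0 | h0
        · have := Nat.ceil_lt_add_one h0
          linarith
        · rw [Nat.ceil_eq_zero.2 h0.le]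
          have : 0 ≤ β * N := by positivity
          have := abs_nonneg C'
          push_cast
          linarith
      exact (Nat.cast_le.2 hle).trans hDx
  have hz' := ENNReal.toReal_le_of_le_ofReal hβ0 hz
  set z := (limsup (fun N : ℕ => (homOrder (iterCover h 𝒰 N) : ℝ≥0∞) / N) atTop).toReal
  have h1 : 2 * κ * z ≤ 2 * κ * β := mul_le_mul_of_nonneg_left hz' (by positivity)
  have h2 : 2 * κ * β = 2 * κ * ((n + 1) / L) + 2 * κ * (n₁ + 1) * ε - s := by
    rw [hβ]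
    field_simp
  rw [h2, hs] at h1
  linarith

/-- The key estimate for one cover. -/
theorem cover_key {X : Type*} [MetricSpace X] [CompactSpace X] [Infinite X]
    {A : Type*} [CStarAlgebra A] [PartialOrder A] [StarOrderedRing A] {h : X ≃ₜ X}
    (hmin : IsMinimalHomeo h) (hA : IsCrossedProduct h A) {r : ℝ} (hr : IsComparisonBound A r)
    {κ : ℕ} (hκ : 1 ≤ κ) {𝒰 : Set (Set X)} (h𝒰 : IsFinOpenCover 𝒰) :
    2 * κ * (limsup (fun N : ℕ => (homOrder (iterCover h 𝒰 N) : ℝ≥0∞) / N) atTop).toReal -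
      (2 * κ - κ / (2 * κ + 1)) *
        (limsup (fun N : ℕ => (coverDim (iterCover h 𝒰 N) : ℝ≥0∞) / N) atTop).toReal ≤ r := by
  have hzδ := fi_limsup_le_limsup h h𝒰
  set δ' := limsup (fun N : ℕ => (coverDim (iterCover h 𝒰 N) : ℝ≥0∞) / N) atTop with hδ'
  have hδfin : δ' ≠ ∞ := limsup_coverDim_ne_top h h𝒰
  have hzδ' := ENNReal.toReal_mono hδfin hzδ
  have hδe : δ' = ENNReal.ofReal δ'.toReal := (ENNReal.ofReal_toReal hδfin).symm
  have hκ' : (1 : ℝ) ≤ κ := Nat.one_le_cast.2 hκ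
  have hstep := fun (L : ℕ) (hL : 0 < L) (θ : ℝ) (hθ : 0 < θ) =>
    fi_step hmin hA hr h𝒰 hκ hL hθ
  set z := (limsup (fun N : ℕ => (homOrder (iterCover h 𝒰 N) : ℝ≥0∞) / N) atTop).toReal
  set δ := δ'.toReal
  have hδ0 : 0 ≤ δ := ENNReal.toReal_nonneg
  set c : ℝ := κ / (2 * κ + 1) with hc
  have hc0 : 0 ≤ c := by positivity
  have hc1 : c ≤ 1 := by
    rw [hc, div_le_one (by positivity)]
    linarith
  have hmain : 2 * κ * z - (2 * κ - c) * δ ≤ r := by
    refine le_of_forall_pos_le_add fun θ hθ => ?_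
    have hη : 0 < θ / (8 * κ) := by positivity
    set η : ℝ := θ / (8 * κ) with hηd
    have hη2 : 2 * κ * η = θ / 4 := by
      rw [hηd]
      field_simp
      norm_num
    have h1 : ∃ᶠ N : ℕ in atTop, δ - η ≤ (coverDim (iterCover h 𝒰 N) : ℝ) / N := by
      rcases lt_or_ge (δ - η) 0 with h0 | h0
      · exact Frequently.of_forall fun N => h0.le.trans (by positivity)
      · have hlt : ENNReal.ofReal (δ - η) < δ' := by
          rw [hδe]
          exact (ENNReal.ofReal_lt_ofReal_iff (by linarith)).2 (by linarith)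
        refine ((frequently_lt_of_lt_limsup (by isBoundedDefault) hlt).and_eventually
          (eventually_gt_atTop 0)).mono fun N hN => ?_
        have h2 := ENNReal.toReal_mono (ENNReal.div_ne_top (ENNReal.natCast_ne_top _)
          (Nat.cast_ne_zero.2 hN.2.ne')) hN.1.le
        rw [ENNReal.toReal_ofReal h0, ENNReal.toReal_div, ENNReal.toReal_natCast,
          ENNReal.toReal_natCast] at h2
        exact h2
    have h2 : ∀ᶠ N : ℕ in atTop, (coverDim (iterCover h 𝒰 N) : ℝ) / N ≤ δ + η := by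
      have hlt : δ' < ENNReal.ofReal (δ + η) := by
        rw [hδe]
        exact (ENNReal.ofReal_lt_ofReal_iff (by linarith)).2 (by linarith)
      refine (eventually_lt_of_limsup_lt hlt (by isBoundedDefault)).mono fun N hN => ?_
      have h3 := ENNReal.toReal_mono ENNReal.ofReal_ne_top hN.le
      rw [ENNReal.toReal_ofReal (by linarith), ENNReal.toReal_div, ENNReal.toReal_natCast,
        ENNReal.toReal_natCast] at h3
      exact h3
    obtain ⟨L, hL1, hL2, hL3, hL0⟩ := (h1.and_eventually (h2.and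
      ((eventually_ge_atTop ⌈12 * κ / θ⌉₊).and (eventually_gt_atTop 0)))).exists
    have hL' : (0 : ℝ) < L := Nat.cast_pos.2 hL0
    have hL4 : 12 * (κ / L : ℝ) ≤ θ := by
      have h3 := Nat.ceil_le.1 hL3
      rw [div_le_iff₀ hθ] at h3
      rw [← mul_div_assoc, div_le_iff₀ hL']
      linarith
    have hL5 : (1 / L : ℝ) * κ = κ / L := by ring
    set n := coverDim (iterCover h 𝒰 L) with hn
    set t := (n + 1) / (2 * κ + 1) with ht
    have htn : ((n + 1 : ℕ) : ℝ) < ((2 * κ + 1) * (t + 1) : ℕ) :=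
      Nat.cast_lt.2 (Nat.lt_mul_div_succ (n + 1) (by omega))
    push_cast at htn
    -- `κ t / L ≥ c (n+1)/L - κ/L`
    have hb : c * ((n + 1) / L) - κ / L ≤ κ * (t : ℝ) / L := by
      have e1 : c * ((n + 1) / L) - κ / L = κ * ((n + 1) / (2 * κ + 1) - 1) / L := by
        rw [hc]
        ring
      rw [e1]
      refine div_le_div_of_nonneg_right (mul_le_mul_of_nonneg_left ?_ (by positivity)) hL'.le
      rw [sub_le_iff_le_add, div_le_iff₀ (by positivity)]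
      linarith
    have hy : ((n : ℝ) + 1) / L = n / L + 1 / L := by ring
    have h1L : (0 : ℝ) ≤ 1 / L := by positivity
    rcases hstep L hL0 (θ / 4) (by positivity) with h3 | h3
    · have h4 : c * (δ - η) ≤ c * ((n + 1) / L) := by
        refine mul_le_mul_of_nonneg_left ?_ hc0
        rw [hy]
        linarith
      have h5 : c * η ≤ 2 * κ * η := mul_le_mul_of_nonneg_right (by linarith) hη.le
      have h6 : 2 * κ * z ≤ 2 * κ * δ := mul_le_mul_of_nonneg_left hzδ' (by positivity)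
      have h7 : 0 ≤ (κ / L : ℝ) := by positivity
      linarith
    · have h4 : (2 * κ - c) * ((n + 1) / L) ≤ (2 * κ - c) * (δ + η + 1 / L) := by
        refine mul_le_mul_of_nonneg_left ?_ (by linarith)
        rw [hy]
        linarith
      have h5 : 0 ≤ c * η := by positivity
      have h6 : 0 ≤ c * (1 / L) := by positivity
      have h7 : 0 ≤ (κ / L : ℝ) := by positivity
      linarith
  exact hmain

theorem key_ineq {X : Type*} [MetricSpace X] [CompactSpace X] [Infinite X]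
    {A : Type*} [CStarAlgebra A] [PartialOrder A] [StarOrderedRing A] {h : X ≃ₜ X}
    (hmin : IsMinimalHomeo h) (hA : IsCrossedProduct h A) {r : ℝ} (hr : IsComparisonBound A r)
    (hfin : meanDim h ≠ ∞) {κ : ℕ} (hκ : 1 ≤ κ) {𝒰 : Set (Set X)} (h𝒰 : IsFinOpenCover 𝒰) :
    2 * κ * (limsup (fun N : ℕ => (homOrder (iterCover h 𝒰 N) : ℝ≥0∞) / N) atTop).toReal -
      (2 * κ - κ / (2 * κ + 1)) * (meanDim h).toReal ≤ r := by
  have h1 := cover_key hmin hA hr hκ h𝒰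
  have hδm : limsup (fun N : ℕ => (coverDim (iterCover h 𝒰 N) : ℝ≥0∞) / N) atTop ≤ meanDim h :=
    le_iSup (fun 𝒱 : {𝒱 : Set (Set X) // IsFinOpenCover 𝒱} =>
      limsup (fun N : ℕ => (coverDim (iterCover h 𝒱.1 N) : ℝ≥0∞) / N) atTop) ⟨𝒰, h𝒰⟩
  have hδm' := ENNReal.toReal_mono hfin hδm
  have hκ' : (1 : ℝ) ≤ κ := Nat.one_le_cast.2 hκ
  have hc1 : (κ / (2 * κ + 1) : ℝ) ≤ 1 := by
    rw [div_le_one (by positivity)]
    linarith
  have h3 := mul_le_mul_of_nonneg_left hδm' (a := (2 * κ - κ / (2 * κ + 1) : ℝ)) (by linarith)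
  linarith

theorem hom_ineq {X : Type*} [TopologicalSpace X] [CompactSpace X]
    [TopologicalSpace.MetrizableSpace X] [Infinite X]
    {A : Type*} [CStarAlgebra A] [PartialOrder A] [StarOrderedRing A] {h : X ≃ₜ X}
    (hmin : IsMinimalHomeo h) (hA : IsCrossedProduct h A) (hfin : meanDim h ≠ ∞) {κ : ℕ}
    (hκ : 1 ≤ κ) :
    ENNReal.ofReal (2 * κ * (homMeanDim h).toReal -
      (2 * κ - κ / (2 * κ + 1)) * (meanDim h).toReal) ≤ radiusOfComparison A := by
  let _ := TopologicalSpace.metrizableSpaceMetric X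
  have hκ' : (1 : ℝ) ≤ κ := Nat.one_le_cast.2 hκ
  refine le_iInf fun r => ENNReal.ofReal_le_ofReal ?_
  have hkey := fun (𝒰 : {𝒰 : Set (Set X) // IsFinOpenCover 𝒰}) =>
    key_ineq hmin hA r.2 hfin hκ 𝒰.2
  set m := (meanDim h).toReal
  have hm0 : 0 ≤ m := ENNReal.toReal_nonneg
  have hc1 : (κ / (2 * κ + 1) : ℝ) ≤ 1 := by
    rw [div_le_one (by positivity)]
    linarith
  set c : ℝ := κ / (2 * κ + 1) with hc
  have hr0 : 0 ≤ r.1 := r.2.1
  have hB : 0 ≤ (r.1 + (2 * κ - c) * m) / (2 * κ) := by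
    have : 0 ≤ (2 * κ - c) * m := mul_nonneg (by linarith) hm0
    positivity
  have h1 : homMeanDim h ≤ ENNReal.ofReal ((r.1 + (2 * κ - c) * m) / (2 * κ)) := by
    refine iSup_le fun 𝒰 => ?_
    have hfin' : limsup (fun N : ℕ => (homOrder (iterCover h 𝒰.1 N) : ℝ≥0∞) / N) atTop ≠ ∞ :=
      ne_top_of_le_ne_top hfin ((le_iSup (fun 𝒱 : {𝒱 : Set (Set X) // IsFinOpenCover 𝒱} =>
        limsup (fun N : ℕ => (homOrder (iterCover h 𝒱.1 N) : ℝ≥0∞) / N) atTop) 𝒰).trans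
        (homMeanDim_le_meanDim h))
    rw [← ENNReal.ofReal_toReal hfin']
    refine ENNReal.ofReal_le_ofReal ?_
    rw [le_div_iff₀ (by positivity)]
    linarith [hkey 𝒰]
  have h2 := ENNReal.toReal_le_of_le_ofReal hB h1
  rw [le_div_iff₀ (by positivity)] at h2
  linarith

theorem hom_main {X : Type*} [TopologicalSpace X] [CompactSpace X]
    [TopologicalSpace.MetrizableSpace X] [Infinite X]
    {A : Type*} [CStarAlgebra A] [PartialOrder A] [StarOrderedRing A] {h : X ≃ₜ X}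
    (hmin : IsMinimalHomeo h) (hA : IsCrossedProduct h A) (hfin : meanDim h ≠ ∞)
    (heq : homMeanDim h = meanDim h) : meanDim h / 2 ≤ radiusOfComparison A := by
  set m := (meanDim h).toReal with hm
  have e : meanDim h / 2 = ENNReal.ofReal (1 / 2 * m) := by
    rw [one_div, ENNReal.ofReal_mul (by norm_num), hm, ENNReal.ofReal_toReal hfin,
      ENNReal.ofReal_inv_of_pos (by norm_num), mul_comm, ENNReal.ofReal_ofNat]
    rfl
  rw [e]
  have ht : Tendsto (fun κ : ℕ => ENNReal.ofReal ((κ / (2 * κ + 1) : ℝ) * m)) atTop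
      (𝓝 (ENNReal.ofReal (1 / 2 * m))) := by
    refine ENNReal.tendsto_ofReal (Tendsto.mul_const m ?_)
    have h1 : Tendsto (fun κ : ℕ => 1 / 2 - 1 / 2 * (1 / ((κ : ℝ) + 1 / 2)) * (1 / 2)) atTop
        (𝓝 (1 / 2 - 1 / 2 * 0 * (1 / 2))) := by
      refine tendsto_const_nhds.sub ((Tendsto.const_mul _ ?_).mul_const _)
      simp only [one_div]
      exact tendsto_inv_atTop_zero.comp
        (tendsto_atTop_add_const_right _ _ tendsto_natCast_atTop_atTop)
    rw [mul_zero, zero_mul, sub_zero] at h1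
    refine h1.congr fun κ => ?_
    field_simp
    ring
  refine le_of_tendsto ht ((eventually_ge_atTop 1).mono fun κ hκ => ?_)
  refine le_trans (ENNReal.ofReal_le_ofReal (le_of_eq ?_)) (hom_ineq hmin hA hfin hκ)
  rw [heq, ← hm]
  ring

end Vale.Agent.P093.Hom
end

section

/-!
The final statements.
-/

open Filter Topology Set
open scoped ENNReal

namespace Vale.Agent.P093.Hom

section Rates

variable {X : Type*} [TopologicalSpace X]

theorem coverRate_le_meanDim (h : X ≃ₜ X) {𝒰 : Set (Set X)} (h𝒰 : IsFinOpenCover 𝒰) :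
    coverRate h 𝒰 ≤ meanDim h :=
  le_iSup (fun 𝒱 : {𝒱 : Set (Set X) // IsFinOpenCover 𝒱} => coverRate h 𝒱.1) ⟨𝒰, h𝒰⟩

theorem coverRate_ne_top [NormalSpace X] (h : X ≃ₜ X) {𝒰 : Set (Set X)}
    (h𝒰 : IsFinOpenCover 𝒰) : coverRate h 𝒰 ≠ ∞ := limsup_coverDim_ne_top h h𝒰

variable [CompactSpace X] [TopologicalSpace.MetrizableSpace X]

theorem homRate_le (h : X ≃ₜ X) {𝒰 : Set (Set X)} (h𝒰 : IsFinOpenCover 𝒰) :
    homRate h 𝒰 ≤ coverRate h 𝒰 := by
  let _ := TopologicalSpace.metrizableSpaceMetric X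
  exact fi_limsup_le_limsup h h𝒰

theorem homOrder_le_coverDim {𝒲 : Set (Set X)} (h𝒲 : IsFinOpenCover 𝒲) :
    homOrder 𝒲 ≤ coverDim 𝒲 := by
  let _ := TopologicalSpace.metrizableSpaceMetric X
  exact Nat.sInf_le (homOrderLE_coverDim 𝒲 h𝒲)

theorem homMeanDim_le (h : X ≃ₜ X) : homMeanDim h ≤ meanDim h := by
  let _ := TopologicalSpace.metrizableSpaceMetric X
  exact homMeanDim_le_meanDim h

theorem homDetected_of_eq (h : X ≃ₜ X) (hfin : meanDim h ≠ ∞) (he : homMeanDim h = meanDim h) :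
    HomDetected h := by
  intro c hc η hη
  have h1 : max c (η * meanDim h) < homMeanDim h := by
    rw [he]
    refine max_lt hc ?_
    have h0 : meanDim h ≠ 0 := hc.ne_bot
    calc η * meanDim h = meanDim h * η := mul_comm _ _
      _ < meanDim h * 1 := ENNReal.mul_lt_mul_right h0 hfin hη
      _ = meanDim h := mul_one _
  obtain ⟨𝒰, h𝒰⟩ := lt_iSup_iff.1 h1
  change _ < homRate h 𝒰.1 at h𝒰
  exact ⟨𝒰.1, 𝒰.2, ((le_max_left _ _).trans_lt h𝒰).trans_le (homRate_le h 𝒰.2),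
    (mul_le_mul_right (coverRate_le_meanDim h 𝒰.2) η).trans ((le_max_right _ _).trans h𝒰.le)⟩

end Rates

section Main

variable {X : Type*} [TopologicalSpace X] [CompactSpace X] [TopologicalSpace.MetrizableSpace X]
  [Infinite X] {A : Type*} [CStarAlgebra A] [PartialOrder A] [StarOrderedRing A] {h : X ≃ₜ X}

theorem cover_bound (hmin : IsMinimalHomeo h) (hA : IsCrossedProduct h A) {𝒰 : Set (Set X)}
    (h𝒰 : IsFinOpenCover 𝒰) (κ : ℕ) :
    2 * κ * homRate h 𝒰 ≤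
      radiusOfComparison A + κ * (4 * κ + 1) / (2 * κ + 1) * coverRate h 𝒰 := by
  rcases Nat.eq_zero_or_pos κ with rfl | hκ
  · simp
  let _ := TopologicalSpace.metrizableSpaceMetric X
  have hδ := coverRate_ne_top h h𝒰
  have hz := ne_top_of_le_ne_top hδ (homRate_le h h𝒰)
  rw [← tsub_le_iff_right]
  refine le_iInf fun r => ?_
  rw [tsub_le_iff_right]
  have h1 : 2 * κ * (homRate h 𝒰).toReal - (2 * κ - κ / (2 * κ + 1)) * (coverRate h 𝒰).toReal ≤
      r.1 := cover_key hmin hA r.2 hκ h𝒰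
  have hr0 : 0 ≤ r.1 := r.2.1
  have e : (2 * κ - κ / (2 * κ + 1) : ℝ) = κ * (4 * κ + 1) / (2 * κ + 1) := by
    field_simp
    ring
  rw [e] at h1
  have h2 : 2 * κ * (homRate h 𝒰).toReal ≤
      r.1 + κ * (4 * κ + 1) / (2 * κ + 1) * (coverRate h 𝒰).toReal := by linarith
  have h3 := ENNReal.ofReal_le_ofReal h2
  rw [ENNReal.ofReal_add hr0 (by positivity), ENNReal.ofReal_mul (by positivity),
    ENNReal.ofReal_mul (by positivity), ENNReal.ofReal_mul (by positivity),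
    ENNReal.ofReal_toReal hz, ENNReal.ofReal_toReal hδ, ENNReal.ofReal_div_of_pos (by positivity),
    ENNReal.ofReal_mul (by positivity), ENNReal.ofReal_add (by positivity) zero_le_one,
    ENNReal.ofReal_add (by positivity) zero_le_one, ENNReal.ofReal_mul (by positivity),
    ENNReal.ofReal_mul (by positivity), ENNReal.ofReal_natCast, ENNReal.ofReal_one,
    ENNReal.ofReal_ofNat, ENNReal.ofReal_ofNat] at h3
  exact h3

theorem mean_bound (hmin : IsMinimalHomeo h) (hA : IsCrossedProduct h A) (κ : ℕ) :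
    2 * κ * homMeanDim h ≤
      radiusOfComparison A + κ * (4 * κ + 1) / (2 * κ + 1) * meanDim h := by
  rw [homMeanDim, ENNReal.mul_iSup]
  refine iSup_le fun 𝒰 => (cover_bound hmin hA 𝒰.2 κ).trans ?_
  gcongr
  exact coverRate_le_meanDim h 𝒰.2

theorem detected_bound (hmin : IsMinimalHomeo h) (hA : IsCrossedProduct h A)
    (hd : HomDetected h) : meanDim h / 2 ≤ radiusOfComparison A := by
  rcases eq_or_ne (radiusOfComparison A) ∞ with hR | hR
  · rw [hR]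
    exact le_top
  rw [ENNReal.div_le_iff two_ne_zero ENNReal.ofNat_ne_top]
  refine le_of_forall_lt_imp_le_of_dense fun c hc => ?_
  have hc' : c ≠ ∞ := hc.ne_top
  by_contra hcon
  push Not at hcon
  have h0 : (radiusOfComparison A).toReal * 2 < c.toReal := by
    have h1 := ENNReal.toReal_strict_mono hc' hcon
    rwa [ENNReal.toReal_mul, ENNReal.toReal_ofNat] at h1
  set R := (radiusOfComparison A).toReal with hRd
  set c' := c.toReal
  have hR0 : 0 ≤ R := ENNReal.toReal_nonneg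
  obtain ⟨κ, hκ⟩ := exists_nat_gt ((R + c') / (c' - R * 2))
  rw [div_lt_iff₀ (by linarith)] at hκ
  have hκ1 : 1 ≤ κ := by
    rcases Nat.eq_zero_or_pos κ with rfl | h1
    · simp only [Nat.cast_zero, zero_mul] at hκ
      linarith
    · exact h1
  have hκ' : (1 : ℝ) ≤ κ := Nat.one_le_cast.2 hκ1
  set θ : ℝ := 1 / (2 * κ * (2 * κ + 1)) with hθ
  have hθ0 : 0 < θ := by positivity
  have hθ1 : θ ≤ 1 := by
    rw [hθ, div_le_one (by positivity)]
    nlinarith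
  have hη : ENNReal.ofReal (1 - θ) < 1 := by
    rw [← ENNReal.ofReal_one]
    exact (ENNReal.ofReal_lt_ofReal_iff one_pos).2 (by linarith)
  obtain ⟨𝒰, h𝒰, h1, h2⟩ := hd c hc _ hη
  have hδ := coverRate_ne_top h h𝒰
  have hz := ne_top_of_le_ne_top hδ (homRate_le h h𝒰)
  have h3 := ENNReal.toReal_mono (by
    exact ENNReal.add_ne_top.2 ⟨hR, ENNReal.mul_ne_top (ENNReal.div_ne_top
      (ENNReal.mul_ne_top (ENNReal.natCast_ne_top _) (by finiteness)) (by positivity)) hδ⟩)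
    (cover_bound hmin hA h𝒰 κ)
  rw [ENNReal.toReal_add hR (ENNReal.mul_ne_top (ENNReal.div_ne_top
      (ENNReal.mul_ne_top (ENNReal.natCast_ne_top _) (by finiteness)) (by positivity)) hδ)] at h3
  have h1' := ENNReal.toReal_strict_mono hδ h1
  have h2' := ENNReal.toReal_mono hz h2
  rw [ENNReal.toReal_mul, ENNReal.toReal_ofReal (by linarith)] at h2'
  have e1 : (2 * (κ : ℝ≥0∞) * homRate h 𝒰).toReal = 2 * κ * (homRate h 𝒰).toReal := by
    rw [ENNReal.toReal_mul, ENNReal.toReal_mul, ENNReal.toReal_ofNat, ENNReal.toReal_natCast]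
  have e2 : ((κ : ℝ≥0∞) * (4 * κ + 1) / (2 * κ + 1) * coverRate h 𝒰).toReal =
      κ * (4 * κ + 1) / (2 * κ + 1) * (coverRate h 𝒰).toReal := by
    rw [ENNReal.toReal_mul, ENNReal.toReal_div, ENNReal.toReal_mul,
      ENNReal.toReal_add (by finiteness) ENNReal.one_ne_top,
      ENNReal.toReal_add (by finiteness) ENNReal.one_ne_top, ENNReal.toReal_mul,
      ENNReal.toReal_mul, ENNReal.toReal_ofNat, ENNReal.toReal_ofNat, ENNReal.toReal_natCast,
      ENNReal.toReal_one]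
  rw [e1, e2, ← hRd] at h3
  set δ := (coverRate h 𝒰).toReal
  set z := (homRate h 𝒰).toReal
  have h4 : 2 * κ * ((1 - θ) * δ) ≤ 2 * κ * z := mul_le_mul_of_nonneg_left h2' (by positivity)
  have e3 : 2 * κ * ((1 - θ) * δ) = κ * (4 * κ + 1) / (2 * κ + 1) * δ +
      (κ - 1) * δ / (2 * κ + 1) := by
    rw [hθ]
    field_simp
    ring
  have h5 : (κ - 1) * δ / (2 * κ + 1) ≤ R := by linarith
  rw [div_le_iff₀ (by positivity)] at h5
  have h6 : (κ - 1) * c' ≤ (κ - 1) * δ := mul_le_mul_of_nonneg_left h1'.le (by linarith)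
  linarith

end Main

section CubesLower

theorem cubes_bound {X : Type*} [TopologicalSpace X] [CompactSpace X]
    [TopologicalSpace.MetrizableSpace X] {h : X ≃ₜ X} {q : ℕ} {f : X → Fin q → unitInterval}
    (hf : Continuous f) {N : ℕ → ℕ} {J : ℕ → Finset (ℕ × Fin q)}
    {Ψ : ℕ → (ℕ → Fin q → unitInterval) → X} (hN : Tendsto N atTop atTop)
    (hΨ : ∀ k, Continuous (Ψ k))
    (hJ : ∀ k, ∀ p ∈ J k, p.1 < N k ∧ ∀ y, f ((h ^ p.1) (Ψ k y)) p.2 = y p.1 p.2) :
    limsup (fun k => ((J k).card : ℝ≥0∞) / N k) atTop ≤ homMeanDim h := by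
  classical
  have hcard : ∀ k, ((J k).card : ℝ≥0∞) / N k ≤ q := by
    intro k
    rcases Nat.eq_zero_or_pos (N k) with h0 | h0
    · have : J k = ∅ := by
        rw [Finset.eq_empty_iff_forall_notMem]
        intro p hp
        have := (hJ k p hp).1
        omega
      simp [this]
    · rw [ENNReal.div_le_iff (Nat.cast_ne_zero.2 h0.ne') (ENNReal.natCast_ne_top _)]
      have h1 : J k ⊆ Finset.range (N k) ×ˢ (Finset.univ : Finset (Fin q)) := by
        intro p hp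
        exact Finset.mem_product.2 ⟨Finset.mem_range.2 (hJ k p hp).1, Finset.mem_univ _⟩
      have h2 := Finset.card_le_card h1
      rw [Finset.card_product, Finset.card_range, Finset.card_univ, Fintype.card_fin,
        mul_comm] at h2
      exact_mod_cast h2
  set L := limsup (fun k => ((J k).card : ℝ≥0∞) / N k) atTop with hL
  have hLtop : L ≠ ∞ := ne_top_of_le_ne_top (ENNReal.natCast_ne_top q)
    (limsup_le_of_le (by isBoundedDefault) (Eventually.of_forall hcard))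
  rw [← ENNReal.ofReal_toReal hLtop]
  refine homMeanDim_ge (μ := L.toReal) hf (fun k p hp => (hJ k p hp).1) hΨ ?_ ?_
  · intro ε hε N₀
    rcases lt_or_ge (L.toReal - ε) 0 with h0 | h0
    · obtain ⟨k, hk⟩ := (hN.eventually_ge_atTop N₀).exists
      exact ⟨k, hk, (mul_nonpos_of_nonpos_of_nonneg h0.le (Nat.cast_nonneg _)).trans
        (Nat.cast_nonneg _)⟩
    · have hlt : ENNReal.ofReal (L.toReal - ε) < L := by
        conv_rhs => rw [← ENNReal.ofReal_toReal hLtop]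
        exact (ENNReal.ofReal_lt_ofReal_iff (by linarith)).2 (by linarith)
      obtain ⟨k, hk, hk1, hk2⟩ := ((frequently_lt_of_lt_limsup (by isBoundedDefault)
        hlt).and_eventually ((hN.eventually_ge_atTop N₀).and
          (hN.eventually_gt_atTop 0))).exists
      refine ⟨k, hk1, ?_⟩
      have h3 := ENNReal.toReal_mono (ENNReal.div_ne_top (ENNReal.natCast_ne_top _)
        (Nat.cast_ne_zero.2 hk2.ne')) hk.le
      rw [ENNReal.toReal_ofReal h0, ENNReal.toReal_div, ENNReal.toReal_natCast,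
        ENNReal.toReal_natCast, le_div_iff₀ (Nat.cast_pos.2 hk2)] at h3
      exact h3
  · intro k p hp y
    have h1 := (hJ k p hp).2 y
    rwa [pow_eq_iterate] at h1

end CubesLower

end Vale.Agent.P093.Hom
end
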