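import Vale.Agent.P093.MathlibUsed
import Vale.Agent.P093.Hom.ClassDef
import Vale.Agent.P093.HB.H3

set_option linter.all false

section

/-!
TASK HOM-J1: acyclic carriers for ordered chains.

Proof. Let `cone w c = ∑ n_s single (w :: s)` for `c = ∑ n_s single s` (an additive map, e.g.
`Finsupp.liftAddHom fun s => zmultiplesHom _ (Finsupp.single (w :: s) 1)`). For lists `s` of length `≥ 2`
`bd (single (w :: s) 1) = single s 1 - cone w (bd (single s 1))`, for `s = [w']` it is
`single [w'] 1 - single [w] 1`. Hence `bd (cone w c) = c - cone w (bd c)` if `c` is supported on lists of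
length `≥ 2`, and `bd (cone w c) = c - aug c • single [w] 1` if `c` is supported on lists of length `1`.
Define `H` by recursion on the length: `H [] = 0`, `H l = cone (v l) (Φ l - Φ' l - dl H l)`
(`dl H l` only uses the values of `H` at the lists `l.eraseIdx i`, `i < l.length`; `tr_dl_eq_sum` in
`Hom/Transfer.lean` (private, copy it) is `dl F l = ∑ i ∈ range l.length, (-1) ^ i • F (l.eraseIdx i)`; e.g.
define `Hn : ℕ → List Y → OChain V` by recursion on `n`, `Hn 0 l = 0`,
`Hn (n + 1) l = cone (v l) (Φ l - Φ' l - dl (Hn n) l)`, and `H l = Hn l.length l`).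
By induction on the length of `l`, for `l ∈ S`, `l ≠ []`: all lists in the support of
`Φ l - Φ' l - dl H l` have length `l.length` and entries in `C l` (monotone carrier), and
`bd (Φ l - Φ' l - dl H l) = 0` if `l.length ≥ 2` (`bd (dl H l) = dl (bd ∘ H) l` by `dl_map`, on nonempty
sublists `bd ∘ H = Φ - Φ' - dl H`, and `dl (dl H) l = 0`), `aug (…) = 0` if `l.length = 1`.
-/

open Finset

namespace Vale.Agent.P093.Hom

private theorem hj_dl_eq_sum {X : Type*} {M : Type*} [AddCommGroup M] (F : List X → M)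
    (l : List X) : dl F l = ∑ i ∈ Finset.range l.length, (-1 : ℤ) ^ i • F (l.eraseIdx i) := by
  induction l generalizing F with
  | nil => simp
  | cons y l ih =>
    rw [dl_cons, ih, List.length_cons, Finset.sum_range_succ', List.eraseIdx_cons_zero, pow_zero,
      one_smul, add_comm, sub_eq_add_neg, ← Finset.sum_neg_distrib]
    congr 1
    refine Finset.sum_congr rfl fun i _ => ?_
    rw [List.eraseIdx_cons_succ, pow_succ, mul_neg_one, neg_smul]

/-- the cone with apex `w` -/
noncomputable def hjCone {V : Type*} (w : V) : OChain V →+ OChain V :=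
  Finsupp.liftAddHom fun s => zmultiplesHom _ (Finsupp.single (w :: s) 1)

section cone

variable {V : Type*}

private theorem hj_cone_single (w : V) (s : List V) :
    hjCone w (Finsupp.single s 1) = Finsupp.single (w :: s) 1 := by
  simp [hjCone]

private theorem hj_ext {A : Type*} [AddCommGroup A] (f g : OChain V →+ A) (c : OChain V)
    (h : ∀ s ∈ c.support, f (Finsupp.single s 1) = g (Finsupp.single s 1)) : f c = g c := by
  have hc : c = ∑ s ∈ c.support, c s • Finsupp.single s (1 : ℤ) := by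
    conv_lhs => rw [← Finsupp.sum_single c]
    rw [Finsupp.sum]
    refine Finset.sum_congr rfl fun s _ => ?_
    rw [Finsupp.smul_single, smul_eq_mul, mul_one]
  rw [hc, map_sum, map_sum]
  refine Finset.sum_congr rfl fun s hs => ?_
  rw [map_zsmul, map_zsmul, h s hs]

private theorem hj_bd_cons (w : V) (s : List V) (hs : s ≠ []) :
    bd (Finsupp.single (w :: s) 1) = Finsupp.single s 1 -
      hjCone w (∑ i ∈ Finset.range s.length, (-1 : ℤ) ^ i • Finsupp.single (s.eraseIdx i) 1) := by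
  have h1 : ¬ (w :: s).length ≤ 1 := by
    rw [List.length_cons]
    have := List.length_pos_iff.2 hs
    omega
  rw [bd_single, simplexBoundary, if_neg h1, List.length_cons, Finset.sum_range_succ',
    List.eraseIdx_cons_zero, pow_zero, one_smul, add_comm, sub_eq_add_neg, map_sum,
    ← Finset.sum_neg_distrib]
  congr 1
  refine Finset.sum_congr rfl fun i _ => ?_
  rw [List.eraseIdx_cons_succ, pow_succ, mul_neg_one, neg_smul, map_zsmul, hj_cone_single]

private theorem hj_bd_cone (w : V) (c : OChain V) (hc : ∀ s ∈ c.support, 2 ≤ s.length) :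
    bd (hjCone w c) = c - hjCone w (bd c) := by
  have := hj_ext (bd.comp (hjCone w)) (AddMonoidHom.id _ - (hjCone w).comp bd) c ?_
  · simpa using this
  · intro s hs
    have h2 := hc s hs
    have hne : s ≠ [] := by
      rintro rfl
      simp at h2
    simp only [AddMonoidHom.coe_comp, Function.comp_apply, AddMonoidHom.sub_apply,
      AddMonoidHom.id_apply]
    rw [hj_cone_single, hj_bd_cons w s hne, bd_single, simplexBoundary, if_neg (by omega)]

private theorem hj_bd_cone_one (w : V) (c : OChain V) (hc : ∀ s ∈ c.support, s.length = 1) :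
    bd (hjCone w c) = c - aug c • Finsupp.single [w] 1 := by
  have := hj_ext (bd.comp (hjCone w)) (AddMonoidHom.id _ -
    (zmultiplesHom (OChain V) (Finsupp.single [w] 1)).comp aug) c ?_
  · simpa using this
  · intro s hs
    have h2 := hc s hs
    have hne : s ≠ [] := by
      rintro rfl
      simp at h2
    have haug : aug (Finsupp.single s 1) = 1 := by simp [aug]
    have he : s.eraseIdx 0 = [] := by
      match s, h2 with
      | [x], _ => rfl
    simp only [AddMonoidHom.coe_comp, Function.comp_apply, AddMonoidHom.sub_apply,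
      AddMonoidHom.id_apply]
    rw [hj_cone_single, hj_bd_cons w s hne, h2, haug]
    simp [he, hj_cone_single]

private theorem hj_cone_support (w : V) (c : OChain V) :
    ∀ s ∈ (hjCone w c).support, ∃ s' ∈ c.support, s = w :: s' := by
  classical
  intro s hs
  by_contra hcon
  push Not at hcon
  have h1 : (Finsupp.applyAddHom s : OChain V →+ ℤ).comp (hjCone w) c = (0 : OChain V →+ ℤ) c := by
    refine hj_ext _ _ c fun s' hs' => ?_
    simp only [AddMonoidHom.coe_comp, Function.comp_apply, AddMonoidHom.zero_apply,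
      hj_cone_single, Finsupp.applyAddHom_apply]
    rw [Finsupp.single_apply, if_neg (fun h => hcon s' hs' h.symm)]
  rw [Finsupp.mem_support_iff] at hs
  exact hs h1

end cone

/-- the homotopy, by recursion on the length -/
noncomputable def hjH {Y V : Type*} (v : List Y → V) (Φ Φ' : List Y → OChain V) :
    ℕ → List Y → OChain V
  | 0, _ => 0
  | n + 1, l => hjCone (v l) (Φ l - Φ' l - dl (hjH v Φ Φ' n) l)

theorem exists_homotopy {Y V : Type*} {S : Set (List Y)}
    (hS : ∀ l ∈ S, ∀ l' : List Y, l'.Sublist l → l' ∈ S) {C : List Y → Set V}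
    (hC : ∀ l ∈ S, ∀ l' : List Y, l'.Sublist l → l' ≠ [] → C l' ⊆ C l) (v : List Y → V)
    (hv : ∀ l ∈ S, l ≠ [] → v l ∈ C l) (Φ Φ' : List Y → OChain V) (hΦ0 : Φ [] = 0)
    (hΦ0' : Φ' [] = 0) (hΦc : ∀ l ∈ S, bd (Φ l) = dl Φ l) (hΦc' : ∀ l ∈ S, bd (Φ' l) = dl Φ' l)
    (hΦ1 : ∀ y, [y] ∈ S → aug (Φ [y]) = 1) (hΦ1' : ∀ y, [y] ∈ S → aug (Φ' [y]) = 1)
    (hΦs : ∀ l ∈ S, l ≠ [] → ∀ s ∈ (Φ l).support, s.length = l.length ∧ ∀ w ∈ s, w ∈ C l)
    (hΦs' : ∀ l ∈ S, l ≠ [] → ∀ s ∈ (Φ' l).support, s.length = l.length ∧ ∀ w ∈ s, w ∈ C l) :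
    ∃ H : List Y → OChain V, H [] = 0 ∧ ∀ l ∈ S, l ≠ [] →
      bd (H l) = Φ l - Φ' l - dl H l ∧
      ∀ s ∈ (H l).support, s.length = l.length + 1 ∧ ∀ w ∈ s, w ∈ C l := by
  classical
  let H : List Y → OChain V := fun l => hjH v Φ Φ' l.length l
  have hH0 : H [] = 0 := rfl
  have hHrec : ∀ l, l ≠ [] → H l = hjCone (v l) (Φ l - Φ' l - dl H l) := by
    intro l hl
    obtain ⟨n, hn⟩ : ∃ n, l.length = n + 1 :=
      ⟨l.length - 1, by have := List.length_pos_iff.2 hl; omega⟩
    have h1 : dl (hjH v Φ Φ' n) l = dl H l := by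
      rw [hj_dl_eq_sum, hj_dl_eq_sum]
      refine Finset.sum_congr rfl fun i hi => ?_
      have h2 : (l.eraseIdx i).length = n := by
        rw [List.length_eraseIdx_of_lt (Finset.mem_range.1 hi), hn]
        rfl
      change _ = (-1 : ℤ) ^ i • hjH v Φ Φ' (l.eraseIdx i).length (l.eraseIdx i)
      rw [h2]
    change hjH v Φ Φ' l.length l = _
    rw [hn, hjH, h1]
  refine ⟨H, hH0, ?_⟩
  have key : ∀ n : ℕ, ∀ l ∈ S, l.length = n → l ≠ [] →
      bd (H l) = Φ l - Φ' l - dl H l ∧
      ∀ s ∈ (H l).support, s.length = l.length + 1 ∧ ∀ w ∈ s, w ∈ C l := by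
    intro n
    induction n using Nat.strong_induction_on with
    | _ n ih =>
    intro l hl hn hne
    have hpos : 0 < l.length := List.length_pos_iff.2 hne
    -- sublists
    have hsub : ∀ i < l.length, l.eraseIdx i ∈ S ∧ (l.eraseIdx i).length + 1 = l.length ∧
        (l.eraseIdx i ≠ [] → C (l.eraseIdx i) ⊆ C l) := by
      intro i hi
      refine ⟨hS l hl _ (List.eraseIdx_sublist l i), ?_, fun h => hC l hl _
        (List.eraseIdx_sublist l i) h⟩
      rw [List.length_eraseIdx_of_lt hi]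
      omega
    have hIH : ∀ i < l.length, l.eraseIdx i ≠ [] →
        bd (H (l.eraseIdx i)) = Φ (l.eraseIdx i) - Φ' (l.eraseIdx i) - dl H (l.eraseIdx i) ∧
        ∀ s ∈ (H (l.eraseIdx i)).support, s.length = (l.eraseIdx i).length + 1 ∧
          ∀ w ∈ s, w ∈ C (l.eraseIdx i) := by
      intro i hi hne'
      obtain ⟨h1, h2, -⟩ := hsub i hi
      exact ih _ (by omega) _ h1 rfl hne'
    -- support of `dl H l`
    have hdl : ∀ s ∈ (dl H l).support, s.length = l.length ∧ ∀ w ∈ s, w ∈ C l := by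
      intro s hs
      rw [hj_dl_eq_sum] at hs
      have h1 := Finsupp.support_finsetSum hs
      rw [Finset.mem_biUnion] at h1
      obtain ⟨i, hi, h2⟩ := h1
      rw [Finset.mem_range] at hi
      have h3 := Finsupp.support_smul h2
      by_cases he : l.eraseIdx i = []
      · rw [he, hH0] at h3
        simp at h3
      · obtain ⟨-, h5⟩ := hIH i hi he
        obtain ⟨h6, h7, h8⟩ := hsub i hi
        obtain ⟨h9, h10⟩ := h5 s h3
        exact ⟨by omega, fun w hw => h8 he (h10 w hw)⟩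
    have hK : ∀ s ∈ (Φ l - Φ' l - dl H l).support, s.length = l.length ∧ ∀ w ∈ s, w ∈ C l := by
      intro s hs
      rcases Finset.mem_union.1 (Finsupp.support_sub hs) with h1 | h1
      · rcases Finset.mem_union.1 (Finsupp.support_sub h1) with h2 | h2
        · exact hΦs l hl hne s h2
        · exact hΦs' l hl hne s h2
      · exact hdl s h1
    refine ⟨?_, ?_⟩
    · rw [hHrec l hne]
      by_cases h2 : 2 ≤ l.length
      · rw [← hHrec l hne, hHrec l hne, hj_bd_cone _ _ fun s hs => by rw [(hK s hs).1]; exact h2]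
        have hb : bd (Φ l - Φ' l - dl H l) = 0 := by
          rw [map_sub, map_sub, hΦc l hl, hΦc' l hl]
          have h3 : bd (dl H l) = dl (fun l' => bd (H l')) l := (dl_map bd H l).symm
          have h4 : dl (fun l' => bd (H l')) l = dl (fun l' => Φ l' - Φ' l' - dl H l') l := by
            rw [hj_dl_eq_sum, hj_dl_eq_sum]
            refine Finset.sum_congr rfl fun i hi => ?_
            rw [Finset.mem_range] at hi
            obtain ⟨-, h6, -⟩ := hsub i hi
            rw [(hIH i hi (by rw [← List.length_pos_iff]; omega)).1]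
          rw [h3, h4, dl_sub (fun l' => Φ l' - Φ' l') (dl H), dl_sub Φ Φ', dl_dl]
          abel
        rw [hb, map_zero, sub_zero]
      · have h1 : l.length = 1 := by omega
        obtain ⟨y, rfl⟩ := List.length_eq_one_iff.1 h1
        rw [hj_bd_cone_one _ _ fun s hs => by rw [(hK s hs).1]; exact h1]
        rw [dl_singleton, hH0, sub_zero, map_sub, hΦ1 y hl, hΦ1' y hl, sub_self, zero_smul,
          sub_zero]
    · intro s hs
      rw [hHrec l hne] at hs
      obtain ⟨s', hs', rfl⟩ := hj_cone_support _ _ s hs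
      obtain ⟨h1, h2⟩ := hK s' hs'
      refine ⟨by rw [List.length_cons, h1], fun w hw => ?_⟩
      rcases List.mem_cons.1 hw with h | h
      · rw [h]
        exact hv l hl hne
      · exact h2 w h
  exact fun l hl hne => key l.length l hl rfl hne

end Vale.Agent.P093.Hom
end

section

/-!
A nonzero (relative) Alexander-Spanier class which is pulled back from the nerve of a cover gives a
lower bound for the homological order of the cover.
-/

open Set

namespace Vale.Agent.P093.Hom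

section

variable {Y V : Type*}

/-- the labelled simplex -/
noncomputable def lsy (w : Y → V) (L : List Y) : OChain V :=
  if L = [] then 0 else Finsupp.single (L.map w) 1

theorem lsy_ne (w : Y → V) {L : List Y} (hL : L ≠ []) :
    lsy w L = Finsupp.single (L.map w) 1 := if_neg hL

theorem bd_lsy (w : Y → V) (L : List Y) : bd (lsy w L) = dl (lsy w) L := by
  let G : List V → OChain V := fun s => if s = [] then 0 else Finsupp.single s 1
  have h1 : ∀ L : List Y, lsy w L = G (L.map w) := by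
    intro L
    simp only [G, lsy, List.map_eq_nil_iff]
  have h2 : dl (lsy w) L = dl G (L.map w) := by
    rw [← dl_comp w G L]
    congr 1
    funext L
    exact h1 L
  rw [h2, ← extend_boundary G (if_pos rfl)]
  by_cases hL : L = []
  · subst hL
    have h3 : simplexBoundary ([] : List V) = 0 := by
      unfold simplexBoundary
      exact if_pos (Nat.zero_le 1)
    rw [List.map_nil, h3, lsy, if_pos rfl, map_zero]
    simp [extend]
  · rw [lsy_ne w hL, bd_single]
    rw [extend]
    conv_lhs => rw [← Finsupp.sum_single (simplexBoundary (L.map w))]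
    refine Finsupp.sum_congr fun s hs => ?_
    have h3 : s ≠ [] := by
      rintro rfl
      exact (Finsupp.mem_support_iff.mp hs) (simplexBoundary_nil _)
    simp only [G]
    rw [if_neg h3, Finsupp.smul_single, smul_eq_mul, mul_one]

theorem extend_congr' {M : Type*} [AddCommGroup M] {F G : List V → M} {c : OChain V}
    (h : ∀ s ∈ c.support, F s = G s) : extend F c = extend G c :=
  Finsupp.sum_congr fun s hs => by rw [h s hs]

/-- `extend F` as an additive map -/
noncomputable def ext {M : Type*} [AddCommGroup M] (F : List V → M) : OChain V →+ M :=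
  Finsupp.liftAddHom fun s => zmultiplesHom M (F s)

theorem ext_eq {M : Type*} [AddCommGroup M] (F : List V → M) (c : OChain V) :
    ext F c = extend F c := by
  rw [ext, Finsupp.liftAddHom_apply, extend]
  rfl

theorem extend_single' {M : Type*} [AddCommGroup M] (F : List V → M) (s : List V) :
    extend F (Finsupp.single s 1) = F s := by
  rw [← ext_eq, ext, Finsupp.liftAddHom_apply_single]
  simp

theorem cll_dl_eq_sum {M : Type*} [AddCommGroup M] (F : List Y → M) (l : List Y) :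
    dl F l = ∑ i ∈ Finset.range l.length, (-1 : ℤ) ^ i • F (l.eraseIdx i) := by
  induction l generalizing F with
  | nil => simp
  | cons y l ih =>
    rw [dl_cons, ih, List.length_cons, Finset.sum_range_succ', List.eraseIdx_cons_zero, pow_zero,
      one_smul, add_comm, sub_eq_add_neg, ← Finset.sum_neg_distrib]
    congr 1
    refine Finset.sum_congr rfl fun i _ => ?_
    rw [List.eraseIdx_cons_succ, pow_succ, mul_neg_one, neg_smul]

theorem dl_mem_of {M : Type*} [AddCommGroup M] (H : AddSubgroup M) (F : List Y → M) (l : List Y)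
    (hF : ∀ l' : List Y, l'.Sublist l → F l' ∈ H) : dl F l ∈ H := by
  rw [cll_dl_eq_sum]
  exact H.sum_mem fun i _ => H.zsmul_mem (hF _ (List.eraseIdx_sublist l i)) _

/-- the boundary preserves chains supported in a class closed under omission of vertices -/
theorem bd_mem_of {T : Set (List V)} (hT : ∀ s ∈ T, ∀ i, s.eraseIdx i ∈ T) {c : OChain V}
    (hc : ∀ s ∈ c.support, s ∈ T) : ∀ s ∈ (bd c).support, s ∈ T := by
  classical
  let H : AddSubgroup (OChain V) := (Finsupp.supported ℤ ℤ T).toAddSubgroup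
  have hm : ∀ c : OChain V, c ∈ H ↔ ∀ s ∈ c.support, s ∈ T := by
    intro c
    change c ∈ Finsupp.supported ℤ ℤ T ↔ _
    rw [Finsupp.mem_supported]
    exact Iff.rfl
  rw [← hm]
  have h1 : bd c = c.sum fun s n => n • simplexBoundary s := by
    rw [bd_eq_extend]
    rfl
  rw [h1]
  refine H.sum_mem fun s hs => H.zsmul_mem ?_ _
  rw [simplexBoundary]
  split_ifs with h
  · exact H.zero_mem
  · refine H.sum_mem fun i _ => H.zsmul_mem ?_ _
    rw [hm]
    intro s' hs'
    rw [Finsupp.support_single _ one_ne_zero, Finset.mem_singleton] at hs'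
    rw [hs']
    exact hT s (hc s hs) i

end

/-- the vertex of the cone -/
def cvx {X : Type*} (lam : X → Set X) : List X → Set X
  | [] => ∅
  | y :: _ => lam y

theorem class_lower {X : Type*} [TopologicalSpace X] {𝒲 : Set (Set X)} {n d : ℕ}
    (e : List (Set X) → ℤ) (B : Set X) (lam : X → Set X) {𝒢₀ : Set (Set X)}
    (h𝒢₀ : IsFinOpenCover 𝒢₀) (hlam : ∀ G ∈ 𝒢₀, ∀ y ∈ G, lam y ∈ 𝒲 ∧ G ⊆ lam y)
    (he : ∀ s : List (Set X), s.length = n + 2 → (∃ y, ∀ W ∈ s, W ∈ 𝒲 ∧ y ∈ W) →
      extend e (simplexBoundary s) = 0)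
    (heB : ∀ s : List (Set X), s.length = n + 1 → (∃ y ∈ B, ∀ W ∈ s, W ∈ 𝒲 ∧ y ∈ W) → e s = 0)
    (hne : ∀ 𝒢 : Set (Set X), IsFinOpenCover 𝒢 → ∀ b : List X → ℤ,
      (∀ x, (∀ y ∈ x, y ∈ B) → b x = 0) →
      ∃ x : List X, x.length = n + 1 ∧ (∃ G ∈ 𝒢, ∀ y ∈ x, y ∈ G) ∧
        e (x.map lam) ≠ extend b (simplexBoundary x))
    (hd : HomOrderLE 𝒲 d) : n ≤ d := by
  classical
  by_contra hn
  push Not at hn
  obtain ⟨𝒢, Φ₀, h𝒢, hΦ⟩ := hd
  let Φ : List X → OChain (Set X) := fun l => if l = [] then 0 else Φ₀ l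
  have hΦe : ∀ l, l ≠ [] → Φ l = Φ₀ l := fun l hl => if_neg hl
  have hΦ0 : Φ [] = 0 := if_pos rfl
  let S : Set (List X) := {l | ∃ G ∈ 𝒢, ∃ G₀ ∈ 𝒢₀, ∀ y ∈ l, y ∈ G ∧ y ∈ G₀}
  let C : List X → Set (Set X) := fun l =>
    {W | W ∈ 𝒲 ∧ ∀ G ∈ 𝒢, ∀ G₀ ∈ 𝒢₀, (∀ y ∈ l, y ∈ G ∧ y ∈ G₀) → G ∩ G₀ ⊆ W}
  have hS : ∀ l ∈ S, ∀ l' : List X, l'.Sublist l → l' ∈ S := by
    rintro l ⟨G, hG, G₀, hG₀, h⟩ l' hl'
    exact ⟨G, hG, G₀, hG₀, fun y hy => h y (hl'.subset hy)⟩
  have hC : ∀ l ∈ S, ∀ l' : List X, l'.Sublist l → l' ≠ [] → C l' ⊆ C l := by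
    rintro l _ l' hl' _ W ⟨hW, h⟩
    exact ⟨hW, fun G hG G₀ hG₀ h1 => h G hG G₀ hG₀ fun y hy => h1 y (hl'.subset hy)⟩
  have hlamC : ∀ l ∈ S, ∀ y ∈ l, lam y ∈ C l := by
    rintro l ⟨G, hG, G₀, hG₀, h⟩ y hy
    exact ⟨(hlam G₀ hG₀ y (h y hy).2).1, fun G' hG' G₀' hG₀' h' =>
      inter_subset_right.trans (hlam G₀' hG₀' y (h' y hy).2).2⟩
  have hv : ∀ l ∈ S, l ≠ [] → cvx lam l ∈ C l := by
    rintro l hl hne
    rcases l with _ | ⟨y, l⟩
    · exact absurd rfl hne
    · exact hlamC _ hl y List.mem_cons_self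
  have hsmall : ∀ l ∈ S, ∃ G ∈ 𝒢, ∀ y ∈ l, y ∈ G := by
    rintro l ⟨G, hG, G₀, hG₀, h⟩
    exact ⟨G, hG, fun y hy => (h y hy).1⟩
  have hΦc : ∀ l ∈ S, bd (Φ l) = dl Φ l := by
    intro l hl
    by_cases hl0 : l = []
    · subst hl0
      rw [hΦ0, map_zero, dl_nil]
    · have h1 := (hΦ l hl0 (hsmall l hl)).2.1
      rw [hΦe l hl0, bd_eq_extend, h1, ← extend_boundary Φ hΦ0]
      refine extend_congr' fun s hs => ?_
      rw [hΦe]
      rintro rfl
      exact (Finsupp.mem_support_iff.mp hs) (simplexBoundary_nil _)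
  have hΦ1 : ∀ y, [y] ∈ S → aug (Φ [y]) = 1 := by
    intro y hy
    rw [hΦe [y] (by simp), aug_eq_sum]
    exact (hΦ [y] (by simp) (hsmall _ hy)).2.2.1 rfl
  have hΦs : ∀ l ∈ S, l ≠ [] → ∀ s ∈ (Φ l).support, s.length = l.length ∧ ∀ w ∈ s, w ∈ C l := by
    intro l hl hl0 s hs
    have h1 := (hΦ l hl0 (hsmall l hl)).1 s (by rwa [← hΦe l hl0])
    refine ⟨h1.1, fun W hW => ⟨(h1.2 W hW).1, fun G hG G₀ hG₀ h2 z hz => ?_⟩⟩
    -- enlarge the tuple by the point `z`
    let T : Set (List (Set X)) := {s | ∀ W ∈ s, z ∈ W}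
    let H : AddSubgroup (OChain (Set X)) := (Finsupp.supported ℤ ℤ T).toAddSubgroup
    have hm : ∀ c : OChain (Set X), c ∈ H ↔ ∀ s ∈ c.support, s ∈ T := by
      intro c
      change c ∈ Finsupp.supported ℤ ℤ T ↔ _
      rw [Finsupp.mem_supported]
      exact Iff.rfl
    have hmem : ∀ l' : List X, l'.Sublist l → z :: l' ∈ S := by
      intro l' hl'
      refine ⟨G, hG, G₀, hG₀, fun y hy => ?_⟩
      rcases List.mem_cons.1 hy with rfl | hy
      · exact hz
      · exact h2 y (hl'.subset hy)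
    have hH : ∀ l' : List X, l'.Sublist l → Φ (z :: l') ∈ H := by
      intro l' hl'
      rw [hm, hΦe _ (by simp)]
      intro s hs W hW
      exact ((hΦ (z :: l') (by simp) (hsmall _ (hmem l' hl'))).1 s hs).2 W hW |>.2 z
        List.mem_cons_self
    have h3 := hΦc (z :: l) (hmem l (List.Sublist.refl l))
    rw [dl_cons] at h3
    have h4 : Φ l = bd (Φ (z :: l)) + dl (fun l' => Φ (z :: l')) l := by rw [h3]; abel
    have h5 : Φ l ∈ H := by
      rw [h4]
      refine H.add_mem ?_ (dl_mem_of H _ l hH)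
      rw [hm]
      exact bd_mem_of (T := T) (fun s hs i W hW => hs W ((List.eraseIdx_sublist s i).subset hW))
        ((hm _).1 (hH l (List.Sublist.refl l)))
    exact (hm _).1 h5 s hs W hW
  obtain ⟨H, hH0, hH⟩ := exists_homotopy hS hC (cvx lam) hv Φ (lsy lam) hΦ0 (if_pos rfl) hΦc
    (fun l _ => bd_lsy lam l) hΦ1 (fun y _ => by
      rw [lsy_ne lam (by simp), aug_eq_sum]
      simp) hΦs (fun l hl hl0 s hs => by
      rw [lsy_ne lam hl0, Finsupp.support_single _ one_ne_zero,
        Finset.mem_singleton] at hs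
      subst hs
      refine ⟨List.length_map _, fun w hw => ?_⟩
      obtain ⟨y, hy, rfl⟩ := List.mem_map.1 hw
      exact hlamC l hl y hy)
  let b : List X → ℤ := fun x => if x ∈ S ∧ x.length = n then - extend e (H x) else 0
  -- lists carried by `C x` contain the points of `x`
  have hpt : ∀ x ∈ S, ∀ y ∈ x, ∀ W ∈ C x, W ∈ 𝒲 ∧ y ∈ W := by
    rintro x ⟨G, hG, G₀, hG₀, h⟩ y hy W ⟨hW, hW'⟩
    exact ⟨hW, hW' G hG G₀ hG₀ h (h y hy)⟩
  obtain ⟨x, hxn, ⟨G', hG', hxG⟩, hx⟩ := hne (image2 (· ∩ ·) 𝒢 𝒢₀) (by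
    refine ⟨h𝒢.1.image2 _ h𝒢₀.1, ?_, ?_⟩
    · rintro _ ⟨G, hG, G₀, hG₀, rfl⟩
      exact (h𝒢.2.1 G hG).inter (h𝒢₀.2.1 G₀ hG₀)
    · refine eq_univ_of_forall fun y => ?_
      obtain ⟨G, hG, hy⟩ := mem_sUnion.1 (h𝒢.2.2 ▸ mem_univ y)
      obtain ⟨G₀, hG₀, hy₀⟩ := mem_sUnion.1 (h𝒢₀.2.2 ▸ mem_univ y)
      exact mem_sUnion.2 ⟨_, ⟨G, hG, G₀, hG₀, rfl⟩, hy, hy₀⟩) b (by
    intro x hx
    simp only [b]
    split_ifs with h
    · obtain ⟨h1, h2⟩ := h
      rcases x with _ | ⟨y, x⟩
      · simp only [List.length_nil] at h2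
        omega
      · rw [neg_eq_zero, extend]
        refine Finset.sum_eq_zero fun s hs => ?_
        have h3 := (hH _ h1 (by simp)).2 s hs
        change (H (y :: x)) s • e s = 0
        rw [heB s (by rw [h3.1, h2]) ⟨y, hx y List.mem_cons_self, fun W hW =>
          hpt _ h1 y List.mem_cons_self W (h3.2 W hW)⟩, smul_zero]
    · rfl)
  obtain ⟨G, hG, G₀, hG₀, rfl⟩ := hG'
  have hxS : x ∈ S := ⟨G, hG, G₀, hG₀, fun y hy => hxG y hy⟩
  have hx0 : x ≠ [] := by
    rintro rfl
    simp at hxn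
  obtain ⟨y, hy⟩ : ∃ y, y ∈ x := List.exists_mem_of_ne_nil x hx0
  obtain ⟨h1, h2⟩ := hH x hxS hx0
  have h3 : Φ x = 0 := by
    rw [hΦe x hx0]
    exact (hΦ x hx0 (hsmall x hxS)).2.2.2 (by omega)
  have h4 := congrArg (ext e) h1
  rw [h3, map_sub, map_sub, map_zero, lsy_ne lam hx0, ext_eq, ext_eq, extend_single',
    ← dl_map] at h4
  have h5 : extend e (bd (H x)) = 0 := by
    have h6 : ∀ c : OChain (Set X), extend e (bd c) =
        extend (fun s => extend e (simplexBoundary s)) c := by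
      intro c
      rw [← ext_eq, bd_eq_extend, extend, extend, Finsupp.sum, Finsupp.sum, map_sum]
      refine Finset.sum_congr rfl fun s _ => ?_
      rw [map_zsmul, ext_eq]
    rw [h6, extend]
    refine Finset.sum_eq_zero fun s hs => ?_
    have h7 := h2 s hs
    change (H x) s • extend e (simplexBoundary s) = 0
    rw [he s (by rw [h7.1, hxn]) ⟨y, fun W hW => hpt x hxS y hy W (h7.2 W hW)⟩, smul_zero]
  rw [h5] at h4
  apply hx
  have hb0 : b [] = 0 := by
    simp only [b]
    split_ifs with h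
    · rw [hH0, extend]
      simp
    · rfl
  rw [extend_boundary b hb0]
  have h8 : dl b x = - dl (fun l => ext e (H l)) x := by
    rw [cll_dl_eq_sum, cll_dl_eq_sum, ← Finset.sum_neg_distrib]
    refine Finset.sum_congr rfl fun i hi => ?_
    rw [Finset.mem_range] at hi
    have h9 : x.eraseIdx i ∈ S ∧ (x.eraseIdx i).length = n := by
      refine ⟨hS x hxS _ (List.eraseIdx_sublist x i), ?_⟩
      rw [List.length_eraseIdx_of_lt hi, hxn]
      rfl
    simp only [b]
    rw [if_pos h9, ext_eq, smul_neg]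
  rw [h8]
  linarith

theorem nerveClass_le {X : Type*} [TopologicalSpace X] [CompactSpace X]
    [TopologicalSpace.MetrizableSpace X] {𝒲 : Set (Set X)} (h𝒲 : IsFinOpenCover 𝒲) {B : Set X}
    {n : ℕ} (h : NerveClass 𝒲 B n) : n ≤ homOrder 𝒲 := by
  let _ := TopologicalSpace.metrizableSpaceMetric X
  obtain ⟨e, v, ⟨𝒢₀, h𝒢₀, hv⟩, he, heB, hne⟩ := h
  exact le_csInf ⟨_, homOrderLE_coverDim 𝒲 h𝒲⟩ fun d hd =>
    class_lower e B v h𝒢₀ hv he heB hne hd

end Vale.Agent.P093.Hom
end

section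

/-!
The statements for a minimal homeomorphism, put together.
-/

open Filter TopologicalSpace
open scoped ENNReal

namespace Vale.Agent.P093.Hom

universe u v

theorem assembled (X : Type u) [TopologicalSpace X] [CompactSpace X] [MetrizableSpace X]
    [Infinite X] (h : X ≃ₜ X) (hmin : IsMinimalHomeo h) :
    (∀ (A : Type v) [CStarAlgebra A] [PartialOrder A] [StarOrderedRing A],
        IsCrossedProduct h A →
        (HomDetected h → meanDim h / 2 ≤ radiusOfComparison A) ∧
        (∀ (𝒰 : Set (Set X)) (κ : ℕ), IsFinOpenCover 𝒰 →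
          2 * κ * homRate h 𝒰 ≤
            radiusOfComparison A + κ * (4 * κ + 1) / (2 * κ + 1) * coverRate h 𝒰)) ∧
      (meanDim h ≠ ∞ → homMeanDim h = meanDim h → HomDetected h) ∧
      homMeanDim h ≤ meanDim h ∧
      (∀ 𝒲 : Set (Set X), IsFinOpenCover 𝒲 → homOrder 𝒲 ≤ coverDim 𝒲 ∧ coverRate h 𝒲 ≠ ∞ ∧
        ∀ (B : Set X) (n : ℕ), NerveClass 𝒲 B n → n ≤ homOrder 𝒲) ∧
      (∀ (q : ℕ) (f : X → Fin q → unitInterval) (N : ℕ → ℕ) (J : ℕ → Finset (ℕ × Fin q))
        (Ψ : ℕ → (ℕ → Fin q → unitInterval) → X), Continuous f → Tendsto N atTop atTop →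
        (∀ k, Continuous (Ψ k)) →
        (∀ k, ∀ p ∈ J k, p.1 < N k ∧ ∀ y, f ((h ^ p.1) (Ψ k y)) p.2 = y p.1 p.2) →
        limsup (fun k => ((J k).card : ℝ≥0∞) / N k) atTop ≤ homMeanDim h) :=
  ⟨fun _ _ _ _ hA => ⟨fun hd => detected_bound hmin hA hd,
      fun _ κ h𝒰 => cover_bound hmin hA h𝒰 κ⟩,
    homDetected_of_eq h, homMeanDim_le h,
    fun _ h𝒲 => ⟨homOrder_le_coverDim h𝒲, coverRate_ne_top h h𝒲,
      fun _ _ hn => nerveClass_le h𝒲 hn⟩,
    fun _ _ _ _ _ hf hN hΨ hJ => cubes_bound hf hN hΨ hJ⟩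

end Vale.Agent.P093.Hom
end
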