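import Vale.Agent.P093.MathlibUsed
import Vale.Agent.P093.Hom.OrderDef

set_option linter.all false

section

/-!
Generalized loops as maps on `ℝ^n` which are constant off the open unit cube, and their classes
in the homotopy group `π_n(X, x₀)` of Mathlib, written additively (`n ≥ 2`).
-/

open Topology.Homotopy
open scoped unitInterval Topology

namespace Vale.Agent.P093.T

variable {n : ℕ} {X : Type*} [TopologicalSpace X] {x₀ : X}

/-- the open unit cube -/
def openCube (n : ℕ) : Set (Fin n → ℝ) := {y | ∀ i, 0 < y i ∧ y i < 1}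

/-- an `n`-loop: a continuous map `ℝ^n → X` equal to `x₀` off the open unit cube -/
structure ELoop (n : ℕ) (X : Type*) [TopologicalSpace X] (x₀ : X) where
  /-- the map -/
  toFun : (Fin n → ℝ) → X
  cont : Continuous toFun
  off : ∀ y, y ∉ openCube n → toFun y = x₀

instance : CoeFun (ELoop n X x₀) (fun _ => (Fin n → ℝ) → X) := ⟨ELoop.toFun⟩

/-- constant loop -/
def ELoop.const (n : ℕ) (x₀ : X) : ELoop n X x₀ := ⟨fun _ => x₀, continuous_const, fun _ _ => rfl⟩

/-- two loops are homotopic -/
def ELoop.Homotopic (p q : ELoop n X x₀) : Prop :=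
  ∃ H : ℝ → (Fin n → ℝ) → X, Continuous (fun z : ℝ × (Fin n → ℝ) => H z.1 z.2) ∧
    (∀ y, H 0 y = p y) ∧ (∀ y, H 1 y = q y) ∧ ∀ t y, y ∉ openCube n → H t y = x₀

/-- restriction of a loop to the cube, as a `GenLoop` -/
def ELoop.toGen (p : ELoop n X x₀) : Ω^ (Fin n) X x₀ :=
  ⟨⟨fun y => p (fun i => (y i : ℝ)), p.cont.comp (by fun_prop)⟩, by
    rintro y ⟨i, hi⟩
    apply p.off
    intro h
    have := h i
    rcases hi with hi | hi <;> simp [hi] at this⟩

/-- `π_{m+2}(X, x₀)`, additively -/
abbrev PiGrp (m : ℕ) (X : Type*) [TopologicalSpace X] (x₀ : X) : Type _ :=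
  Additive (HomotopyGroup (Fin (m + 2)) X x₀)

/-- the class of a loop -/
def ELoop.cls {m : ℕ} (p : ELoop (m + 2) X x₀) : PiGrp m X x₀ :=
  Additive.ofMul (⟦p.toGen⟧ : HomotopyGroup (Fin (m + 2)) X x₀)

variable {m : ℕ}

/-! ### The clamping map from `ℝ^n` to the cube -/

/-- clamping of every coordinate to the unit interval -/
noncomputable def clampI (y : Fin n → ℝ) : Fin n → I := fun i => Set.projIcc 0 1 zero_le_one (y i)

theorem continuous_clampI : Continuous (clampI : (Fin n → ℝ) → (Fin n → I)) :=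
  continuous_pi fun i => continuous_projIcc.comp (continuous_apply i)

theorem clampI_coe (y : Fin n → I) : clampI (fun i => (y i : ℝ)) = y := by
  funext i
  simp [clampI]

theorem coe_clampI_of_mem {y : Fin n → ℝ} (hy : y ∈ openCube n) :
    (fun i => ((clampI y i : I) : ℝ)) = y := by
  funext i
  have h := hy i
  have : y i ∈ Set.Icc (0 : ℝ) 1 := ⟨h.1.le, h.2.le⟩
  simp [clampI, Set.projIcc_of_mem zero_le_one this]

theorem clampI_mem_boundary {y : Fin n → ℝ} (hy : y ∉ openCube n) :
    clampI y ∈ Cube.boundary (Fin n) := by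
  have : ∃ i, ¬ (0 < y i ∧ y i < 1) := by
    by_contra h
    push Not at h
    exact hy fun i => h i
  obtain ⟨i, hi⟩ := this
  refine ⟨i, ?_⟩
  by_cases h0 : y i ≤ 0
  · left
    exact Set.projIcc_of_le_left zero_le_one h0
  · right
    refine Set.projIcc_of_right_le zero_le_one ?_
    by_contra h1
    exact hi ⟨not_le.mp h0, not_le.mp h1⟩

theorem not_mem_openCube_of_mem_boundary {y : Fin n → I} (hy : y ∈ Cube.boundary (Fin n)) :
    (fun i => (y i : ℝ)) ∉ openCube n := by
  obtain ⟨i, hi⟩ := hy
  intro h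
  have := h i
  rcases hi with hi | hi <;> simp [hi] at this

theorem ELoop.toGen_apply (p : ELoop n X x₀) (y : Fin n → I) :
    p.toGen y = p (fun i => (y i : ℝ)) := rfl

theorem ELoop.toGen_clampI (p : ELoop n X x₀) (y : Fin n → ℝ) : p.toGen (clampI y) = p y := by
  by_cases hy : y ∈ openCube n
  · rw [ELoop.toGen_apply, coe_clampI_of_mem hy]
  · rw [p.off y hy]
    exact GenLoop.boundary _ _ (clampI_mem_boundary hy)

/-- the extension of a `GenLoop` by clamping -/
noncomputable def extGen (g : Ω^ (Fin n) X x₀) : ELoop n X x₀ where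
  toFun := fun y => g (clampI y)
  cont := (map_continuous g.1).comp continuous_clampI
  off := fun _ hy => GenLoop.boundary _ _ (clampI_mem_boundary hy)

theorem toGen_extGen (g : Ω^ (Fin n) X x₀) : (extGen g).toGen = g := by
  apply GenLoop.ext
  intro y
  change g (clampI fun i => (y i : ℝ)) = g y
  rw [clampI_coe]

theorem ELoop.homotopic_iff (p q : ELoop n X x₀) :
    GenLoop.Homotopic p.toGen q.toGen ↔ p.Homotopic q := by
  constructor
  · rintro ⟨H⟩
    refine ⟨fun t y => H (Set.projIcc 0 1 zero_le_one t, clampI y), ?_, ?_, ?_, ?_⟩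
    · exact (map_continuous H).comp
        ((continuous_projIcc.comp continuous_fst).prodMk (continuous_clampI.comp continuous_snd))
    · intro y
      have h0 : Set.projIcc (0 : ℝ) 1 zero_le_one 0 = 0 := Set.projIcc_left zero_le_one
      change H (Set.projIcc (0 : ℝ) 1 zero_le_one 0, clampI y) = p y
      rw [h0, H.apply_zero]
      exact p.toGen_clampI y
    · intro y
      have h0 : Set.projIcc (0 : ℝ) 1 zero_le_one 1 = 1 := Set.projIcc_right zero_le_one
      change H (Set.projIcc (0 : ℝ) 1 zero_le_one 1, clampI y) = q y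
      rw [h0, H.apply_one]
      exact q.toGen_clampI y
    · intro t y hy
      have hb := clampI_mem_boundary hy
      change H (Set.projIcc (0 : ℝ) 1 zero_le_one t, clampI y) = x₀
      rw [H.eq_fst _ hb]
      exact GenLoop.boundary p.toGen _ hb
  · rintro ⟨H, hc, h0, h1, hoff⟩
    refine ⟨⟨⟨⟨fun z => H (z.1 : ℝ) (fun i => (z.2 i : ℝ)), ?_⟩, ?_, ?_⟩, ?_⟩⟩
    · have : Continuous (fun z : I × (Fin n → I) => ((z.1 : ℝ), fun i => (z.2 i : ℝ))) := by
        fun_prop
      exact hc.comp this
    · intro y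
      change H ((0 : I) : ℝ) (fun i => (y i : ℝ)) = p.toGen y
      rw [Set.Icc.coe_zero, h0, ELoop.toGen_apply]
    · intro y
      change H ((1 : I) : ℝ) (fun i => (y i : ℝ)) = q.toGen y
      rw [Set.Icc.coe_one, h1, ELoop.toGen_apply]
    · intro t y hy
      change H (t : ℝ) (fun i => (y i : ℝ)) = p.toGen y
      rw [hoff _ _ (not_mem_openCube_of_mem_boundary hy)]
      exact (GenLoop.boundary p.toGen _ hy).symm

/-- Classes agree iff the loops are homotopic. -/
theorem cls_eq_iff (p q : ELoop (m + 2) X x₀) : p.cls = q.cls ↔ p.Homotopic q := by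
  rw [← ELoop.homotopic_iff]
  constructor
  · intro h
    exact Quotient.exact h
  · intro h
    exact Quotient.sound h

/-- every element of the homotopy group is the class of a loop -/
theorem cls_surj (c : PiGrp m X x₀) : ∃ p : ELoop (m + 2) X x₀, p.cls = c := by
  obtain ⟨g, hg⟩ := Quotient.exists_rep (Additive.toMul c)
  refine ⟨extGen g, ?_⟩
  unfold ELoop.cls
  rw [toGen_extGen]
  exact congrArg Additive.ofMul hg

theorem cls_const : (ELoop.const (m + 2) x₀).cls = 0 := by
  have : (ELoop.const (m + 2) x₀).toGen = GenLoop.const := rfl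
  unfold ELoop.cls
  rw [this]
  rfl

/-- the function underlying the concatenation along the `i`-th coordinate -/
noncomputable def catFun (i : Fin n) (p q : (Fin n → ℝ) → X) (y : Fin n → ℝ) : X :=
  if y i ≤ 1 / 2 then p (Function.update y i (2 * y i)) else q (Function.update y i (2 * y i - 1))

theorem update_not_mem_openCube {y : Fin n → ℝ} (i : Fin n) {a : ℝ} (ha : ¬ (0 < a ∧ a < 1)) :
    Function.update y i a ∉ openCube n := by
  intro h
  have := h i
  rw [Function.update_self] at this
  exact ha this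

theorem catFun_continuous (i : Fin n) (p q : ELoop n X x₀) : Continuous (catFun i p q) := by
  have h1 : Continuous fun y : Fin n → ℝ => p (Function.update y i (2 * y i)) :=
    p.cont.comp (continuous_id.update i (continuous_const.mul (continuous_apply i)))
  have h2 : Continuous fun y : Fin n → ℝ => q (Function.update y i (2 * y i - 1)) :=
    q.cont.comp (continuous_id.update i
      ((continuous_const.mul (continuous_apply i)).sub continuous_const))
  refine Continuous.if_le h1 h2 (continuous_apply i) continuous_const ?_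
  intro y hy
  rw [p.off _ (update_not_mem_openCube i _), q.off _ (update_not_mem_openCube i _)]
  · rw [hy]
    norm_num
  · rw [hy]
    norm_num

theorem catFun_off (i : Fin n) (p q : ELoop n X x₀) (y : Fin n → ℝ) (hy : y ∉ openCube n) :
    catFun i p q y = x₀ := by
  have : ∃ j, ¬ (0 < y j ∧ y j < 1) := by
    by_contra h
    push Not at h
    exact hy fun j => h j
  obtain ⟨j, hj⟩ := this
  have key : ∀ a : ℝ, (j = i → ¬ (0 < a ∧ a < 1)) → Function.update y i a ∉ openCube n := by
    intro a ha h
    have h' := h j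
    by_cases hji : j = i
    · subst hji
      rw [Function.update_self] at h'
      exact ha rfl h'
    · rw [Function.update_of_ne hji] at h'
      exact hj h'
  unfold catFun
  split_ifs with hc
  · apply p.off
    apply key
    rintro rfl ⟨h1, h2⟩
    exact hj ⟨by linarith, by linarith⟩
  · apply q.off
    apply key
    rintro rfl ⟨h1, h2⟩
    exact hj ⟨by linarith, by linarith⟩

/-- concatenation along the `i`-th coordinate -/
noncomputable def ELoop.cat (i : Fin n) (p q : ELoop n X x₀) : ELoop n X x₀ where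
  toFun := catFun i p q
  cont := catFun_continuous i p q
  off := catFun_off i p q

theorem toGen_cat (i : Fin n) (p q : ELoop n X x₀) :
    (ELoop.cat i p q).toGen = GenLoop.transAt i p.toGen q.toGen := by
  apply GenLoop.ext
  intro y
  change catFun i p q (fun j => (y j : ℝ)) =
    if (y i : ℝ) ≤ 1 / 2 then p.toGen (Function.update y i (Set.projIcc 0 1 zero_le_one (2 * y i)))
      else q.toGen (Function.update y i (Set.projIcc 0 1 zero_le_one (2 * y i - 1)))
  have key : ∀ a : ℝ, a ∈ Set.Icc (0 : ℝ) 1 →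
      (fun j => ((Function.update y i (Set.projIcc 0 1 zero_le_one a) j : I) : ℝ)) =
        Function.update (fun j => (y j : ℝ)) i a := by
    intro a ha
    funext j
    by_cases hji : j = i
    · subst hji
      rw [Function.update_self, Function.update_self, Set.projIcc_of_mem zero_le_one ha]
    · rw [Function.update_of_ne hji, Function.update_of_ne hji]
  have hy := (y i).2
  unfold catFun
  by_cases hc : (y i : ℝ) ≤ 1 / 2
  · rw [if_pos hc, if_pos hc, ELoop.toGen_apply, key _ ⟨by linarith [hy.1], by linarith⟩]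
  · rw [if_neg hc, if_neg hc, ELoop.toGen_apply]
    have hc' := not_le.mp hc
    rw [key _ ⟨by linarith, by linarith [hy.2]⟩]

/-- the class of a concatenation is the sum of the classes -/
theorem cls_cat (i : Fin (m + 2)) (p q : ELoop (m + 2) X x₀) :
    (ELoop.cat i p q).cls = p.cls + q.cls := by
  rw [add_comm p.cls q.cls]
  unfold ELoop.cls
  rw [toGen_cat]
  exact congrArg Additive.ofMul
    (HomotopyGroup.mul_spec (i := i) (p := q.toGen) (q := p.toGen)).symm

/-- precomposition with a continuous map preserving the complement of the open cube -/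
def ELoop.pre (p : ELoop n X x₀) (A : (Fin n → ℝ) → (Fin n → ℝ)) (hA : Continuous A)
    (h : ∀ y, y ∉ openCube n → A y ∉ openCube n) : ELoop n X x₀ :=
  ⟨fun y => p (A y), p.cont.comp hA, fun y hy => p.off _ (h y hy)⟩

/-- homotopic reparametrisations give the same class -/
theorem cls_pre_congr (p : ELoop (m + 2) X x₀) (A : ℝ → (Fin (m + 2) → ℝ) → (Fin (m + 2) → ℝ))
    (hA : Continuous (fun z : ℝ × (Fin (m + 2) → ℝ) => A z.1 z.2))
    (h : ∀ t y, y ∉ openCube (m + 2) → A t y ∉ openCube (m + 2)) :
    (p.pre (A 0) (hA.comp (by fun_prop : Continuous fun y => ((0 : ℝ), y))) (h 0)).cls =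
      (p.pre (A 1) (hA.comp (by fun_prop : Continuous fun y => ((1 : ℝ), y))) (h 1)).cls := by
  rw [cls_eq_iff]
  exact ⟨fun t y => p (A t y), p.cont.comp hA, fun _ => rfl, fun _ => rfl,
    fun t y hy => p.off _ (h t y hy)⟩

end Vale.Agent.P093.T
end

section

/-!
Reflections, dilations and permutations of the coordinates of loops.
-/

open Topology.Homotopy
open scoped unitInterval Topology

namespace Vale.Agent.P093.T

variable {X : Type*} [TopologicalSpace X] {x₀ : X} {m : ℕ}

/-- loops with the same values have the same class -/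
theorem cls_congr_fun (p r : ELoop (m + 2) X x₀) (h : ∀ y, r y = p y) : r.cls = p.cls := by
  have h1 : r.toGen = p.toGen := by
    apply GenLoop.ext
    intro y
    exact h _
  unfold ELoop.cls
  rw [h1]

/-- reflection of the `i`-th coordinate changes the sign of the class -/
theorem cls_refl (i : Fin (m + 2)) (p : ELoop (m + 2) X x₀)
    (r : ELoop (m + 2) X x₀) (hr : ∀ y, r y = p (Function.update y i (1 - y i))) :
    r.cls = - p.cls := by
  have h1 : r.toGen = GenLoop.symmAt i p.toGen := by
    apply GenLoop.ext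
    intro y
    change r (fun j => (y j : ℝ)) =
      p (fun j => ((if j = i then σ (y i) else y j : I) : ℝ))
    rw [hr]
    congr 1
    funext j
    by_cases hj : j = i
    · subst hj
      simp
    · simp [hj]
  have h2 : ((⟦p.toGen⟧ : HomotopyGroup (Fin (m + 2)) X x₀)⁻¹ :
      HomotopyGroup (Fin (m + 2)) X x₀) =
      ⟦GenLoop.symmAt i p.toGen⟧ := HomotopyGroup.inv_spec
  have h3 : r.cls = Additive.ofMul
      ((⟦p.toGen⟧ : HomotopyGroup (Fin (m + 2)) X x₀)⁻¹ : HomotopyGroup (Fin (m + 2)) X x₀) := by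
    rw [h2, ← h1]
    rfl
  rw [h3]
  rfl

theorem not_openCube_iff {n : ℕ} (y : Fin n → ℝ) :
    y ∉ openCube n ↔ ∃ k, 1 / 2 ≤ |y k - 1 / 2| := by
  have h0 : y ∉ openCube n ↔ ¬ ∀ k, 0 < y k ∧ y k < 1 := Iff.rfl
  rw [h0, not_forall]
  refine exists_congr fun k => ?_
  rw [le_abs]
  constructor
  · intro h
    by_cases h0 : 0 < y k
    · left
      by_contra h1
      exact h ⟨h0, by linarith⟩
    · right
      linarith
  · rintro (h | h) ⟨h0, h1⟩
    · linarith
    · linarith

/-- the form of `cls_pre_congr` for loops given by their values -/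
theorem cls_pre_congr_fun (p r0 r1 : ELoop (m + 2) X x₀)
    (A : ℝ → (Fin (m + 2) → ℝ) → (Fin (m + 2) → ℝ))
    (hA : Continuous (fun z : ℝ × (Fin (m + 2) → ℝ) => A z.1 z.2))
    (h : ∀ t y, y ∉ openCube (m + 2) → A t y ∉ openCube (m + 2))
    (h0 : ∀ y, r0 y = p (A 0 y)) (h1 : ∀ y, r1 y = p (A 1 y)) : r0.cls = r1.cls := by
  have e0 := cls_congr_fun (p.pre (A 0) (hA.comp (by fun_prop : Continuous fun y => ((0 : ℝ), y)))
    (h 0)) r0 (fun y => h0 y)
  have e1 := cls_congr_fun (p.pre (A 1) (hA.comp (by fun_prop : Continuous fun y => ((1 : ℝ), y)))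
    (h 1)) r1 (fun y => h1 y)
  rw [e0, e1]
  exact cls_pre_congr p A hA h

/-- the loop obtained by shrinking a loop to the inner cube `[1/4, 3/4]^n` has the same class -/
theorem cls_scale (p r : ELoop (m + 2) X x₀)
    (hr : ∀ y, r y = p (fun i => 1 / 2 + 2 * (y i - 1 / 2))) : r.cls = p.cls := by
  symm
  apply cls_pre_congr_fun p p r (fun t y k => 1 / 2 + (1 + |t|) * (y k - 1 / 2))
  · fun_prop
  · intro t y hy
    rw [not_openCube_iff] at hy ⊢
    obtain ⟨k, hk⟩ := hy
    refine ⟨k, ?_⟩
    have e1 : 1 / 2 + (1 + |t|) * (y k - 1 / 2) - 1 / 2 = (1 + |t|) * (y k - 1 / 2) := by ring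
    simp only [e1]
    rw [abs_mul]
    have h1 : 1 ≤ abs (1 + |t|) := by
      rw [abs_of_nonneg (by positivity)]
      linarith [abs_nonneg t]
    nlinarith [abs_nonneg (y k - 1 / 2)]
  · intro y
    congr 1
    funext k
    simp
  · intro y
    rw [hr]
    congr 1
    funext k
    rw [abs_one]
    ring

/-- the rotation of the coordinates `i`, `j` used in `cls_swap` -/
noncomputable def rotRefl (i j : Fin (m + 2)) (t : ℝ) (y : Fin (m + 2) → ℝ) (k : Fin (m + 2)) : ℝ :=
  if k = i then 1 / 2 + 2 * (-Real.cos (t * (Real.pi / 2)) * (y i - 1 / 2)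
      + Real.sin (t * (Real.pi / 2)) * (y j - 1 / 2))
  else if k = j then 1 / 2 + 2 * (Real.sin (t * (Real.pi / 2)) * (y i - 1 / 2)
      + Real.cos (t * (Real.pi / 2)) * (y j - 1 / 2))
  else 1 / 2 + 2 * (y k - 1 / 2)

theorem rotRefl_cont (i j : Fin (m + 2)) :
    Continuous (fun z : ℝ × (Fin (m + 2) → ℝ) => rotRefl i j z.1 z.2) := by
  refine continuous_pi fun k => ?_
  unfold rotRefl
  by_cases h1 : k = i
  · simp only [if_pos h1]
    fun_prop
  · by_cases h2 : k = j
    · simp only [if_neg h1, if_pos h2]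
      fun_prop
    · simp only [if_neg h1, if_neg h2]
      fun_prop

theorem rot_aux (c s u v : ℝ) (hcs : c ^ 2 + s ^ 2 = 1) (huv : 1 / 4 ≤ u ^ 2 + v ^ 2) :
    1 / 2 ≤ |2 * (-c * u + s * v)| ∨ 1 / 2 ≤ |2 * (s * u + c * v)| := by
  by_contra hcon
  push Not at hcon
  obtain ⟨h1, h2⟩ := hcon
  have h1' : (2 * (-c * u + s * v)) ^ 2 < (1 / 2) ^ 2 := by
    rw [← sq_abs]
    exact pow_lt_pow_left₀ h1 (abs_nonneg _) (by norm_num)
  have h2' : (2 * (s * u + c * v)) ^ 2 < (1 / 2) ^ 2 := by
    rw [← sq_abs]
    exact pow_lt_pow_left₀ h2 (abs_nonneg _) (by norm_num)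
  have e : (2 * (-c * u + s * v)) ^ 2 + (2 * (s * u + c * v)) ^ 2 =
      4 * (c ^ 2 + s ^ 2) * (u ^ 2 + v ^ 2) := by ring
  rw [hcs] at e
  nlinarith

theorem rotRefl_off (i j : Fin (m + 2)) (hij : i ≠ j) (t : ℝ) (y : Fin (m + 2) → ℝ)
    (hy : y ∉ openCube (m + 2)) : rotRefl i j t y ∉ openCube (m + 2) := by
  rw [not_openCube_iff] at hy ⊢
  obtain ⟨k, hk⟩ := hy
  have main : 1 / 4 ≤ (y i - 1 / 2) ^ 2 + (y j - 1 / 2) ^ 2 →
      ∃ k, 1 / 2 ≤ |rotRefl i j t y k - 1 / 2| := by
    intro hs
    have hcs : Real.cos (t * (Real.pi / 2)) ^ 2 + Real.sin (t * (Real.pi / 2)) ^ 2 = 1 :=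
      Real.cos_sq_add_sin_sq _
    rcases rot_aux _ _ _ _ hcs hs with h | h
    · refine ⟨i, ?_⟩
      unfold rotRefl
      rw [if_pos rfl, add_sub_cancel_left]
      exact h
    · refine ⟨j, ?_⟩
      unfold rotRefl
      rw [if_neg (Ne.symm hij), if_pos rfl, add_sub_cancel_left]
      exact h
  have hsq : 1 / 4 ≤ (y k - 1 / 2) ^ 2 := by
    rw [← sq_abs]
    nlinarith
  by_cases h1 : k = i
  · subst h1
    exact main (by nlinarith [sq_nonneg (y j - 1 / 2)])
  · by_cases h2 : k = j
    · subst h2
      exact main (by nlinarith [sq_nonneg (y i - 1 / 2)])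
    · refine ⟨k, ?_⟩
      unfold rotRefl
      rw [if_neg h1, if_neg h2, add_sub_cancel_left, abs_mul, abs_of_pos (by norm_num : (0 : ℝ) < 2)]
      linarith [abs_nonneg (y k - 1 / 2)]

theorem comp_perm_off {n : ℕ} (e : Equiv.Perm (Fin n)) (y : Fin n → ℝ) (hy : y ∉ openCube n) :
    y ∘ e ∉ openCube n := by
  intro h
  apply hy
  intro k
  have := h (e.symm k)
  simpa using this

/-- a loop precomposed with a permutation of the coordinates -/
def ELoop.perm {n : ℕ} (p : ELoop n X x₀) (e : Equiv.Perm (Fin n)) : ELoop n X x₀ :=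
  p.pre (fun y => y ∘ e) (by fun_prop) (fun y hy => comp_perm_off e y hy)

/-- exchanging two coordinates changes the sign of the class: the matrices
`[[-cos a, sin a], [sin a, cos a]]` join the reflection to the exchange; multiplied by `2` (and
centred at `1/2`) they preserve the complement of the open cube; use `cls_pre_congr`, `cls_scale`,
`cls_refl`. -/
theorem cls_swap (i j : Fin (m + 2)) (hij : i ≠ j) (p r : ELoop (m + 2) X x₀)
    (hr : ∀ y, r y = p (y ∘ Equiv.swap i j)) : r.cls = - p.cls := by
  have hdil : ∀ y : Fin (m + 2) → ℝ, y ∉ openCube (m + 2) →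
      (fun k => 1 / 2 + 2 * (y k - 1 / 2)) ∉ openCube (m + 2) := by
    intro y hy
    rw [not_openCube_iff] at hy ⊢
    obtain ⟨k, hk⟩ := hy
    refine ⟨k, ?_⟩
    rw [add_sub_cancel_left, abs_mul, abs_of_pos (by norm_num : (0 : ℝ) < 2)]
    linarith [abs_nonneg (y k - 1 / 2)]
  have href : ∀ y : Fin (m + 2) → ℝ, y ∉ openCube (m + 2) →
      (Function.update y i (1 - y i)) ∉ openCube (m + 2) := by
    intro y hy
    rw [not_openCube_iff] at hy ⊢
    obtain ⟨k, hk⟩ := hy
    refine ⟨k, ?_⟩
    by_cases h : k = i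
    · subst h
      rw [Function.update_self]
      have e : 1 - y k - 1 / 2 = - (y k - 1 / 2) := by ring
      rw [e, abs_neg]
      exact hk
    · rw [Function.update_of_ne h]
      exact hk
  have hrefc : Continuous (fun y : Fin (m + 2) → ℝ => Function.update y i (1 - y i)) := by
    fun_prop
  let s : ELoop (m + 2) X x₀ := p.pre (fun y => Function.update y i (1 - y i)) hrefc href
  let s' : ELoop (m + 2) X x₀ := s.pre (fun y k => 1 / 2 + 2 * (y k - 1 / 2)) (by fun_prop) hdil
  let r' : ELoop (m + 2) X x₀ := r.pre (fun y k => 1 / 2 + 2 * (y k - 1 / 2)) (by fun_prop) hdil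
  have h1 : s.cls = - p.cls := cls_refl i p s (fun y => rfl)
  have h2 : s'.cls = s.cls := cls_scale s s' (fun y => rfl)
  have h3 : r'.cls = r.cls := cls_scale r r' (fun y => rfl)
  have h4 : s'.cls = r'.cls := by
    apply cls_pre_congr_fun p s' r' (rotRefl i j) (rotRefl_cont i j)
      (fun t y hy => rotRefl_off i j hij t y hy)
    · intro y
      change p (Function.update (fun k => 1 / 2 + 2 * (y k - 1 / 2)) i
        (1 - (1 / 2 + 2 * (y i - 1 / 2)))) = _
      congr 1
      funext k
      unfold rotRefl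
      rw [zero_mul, Real.cos_zero, Real.sin_zero]
      by_cases h : k = i
      · subst h
        rw [Function.update_self, if_pos rfl]
        ring
      · rw [Function.update_of_ne h, if_neg h]
        by_cases h' : k = j
        · subst h'
          rw [if_pos rfl]
          ring
        · rw [if_neg h']
    · intro y
      change r (fun k => 1 / 2 + 2 * (y k - 1 / 2)) = _
      rw [hr]
      congr 1
      funext k
      unfold rotRefl
      rw [one_mul, Real.cos_pi_div_two, Real.sin_pi_div_two]
      simp only [Function.comp_apply]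
      by_cases h : k = i
      · subst h
        rw [Equiv.swap_apply_left, if_pos rfl]
        ring
      · rw [if_neg h]
        by_cases h' : k = j
        · subst h'
          rw [Equiv.swap_apply_right, if_pos rfl]
          ring
        · rw [if_neg h', Equiv.swap_apply_of_ne_of_ne h h']
  rw [← h3, ← h4, h2, h1]

/-- permuting the coordinates multiplies the class by the sign -/
theorem cls_perm (e : Equiv.Perm (Fin (m + 2))) (p r : ELoop (m + 2) X x₀)
    (hr : ∀ y, r y = p (y ∘ e)) : r.cls = (Equiv.Perm.sign e : ℤ) • p.cls := by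
  induction e using Equiv.Perm.swap_induction_on generalizing r with
  | one =>
    rw [Equiv.Perm.sign_one, Units.val_one, one_smul]
    exact cls_congr_fun p r (fun y => by rw [hr]; rfl)
  | swap_mul f i j hij ih =>
    have h1 := ih (p.perm f) (fun y => rfl)
    have h2 : r.cls = - (p.perm f).cls := by
      apply cls_swap i j hij (p.perm f) r
      intro y
      rw [hr]
      change p _ = p _
      congr 1
    rw [h2, h1, Equiv.Perm.sign_mul, Equiv.Perm.sign_swap hij]
    simp
end Vale.Agent.P093.T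
end

section

/-!
The homotopy addition theorem for the boundary of an `(m+3)`-dimensional cube.

`Bdry X x₀ m` : families of loops `g i ε` (`i : Fin (m+3)` an axis, `ε : Bool` a side); the loop
`g i ε` is the prescribed value on the face `x_i = ε` of the cube `[0,1]^(m+3)`, which is
parametrised by `Fin (m+2) → ℝ` through `Fin.insertNth i ε`.

`Ext g` : the family extends over the cube. `ExtH g`: a family homotopic to `g` extends.

PROOF PLAN of `hat`. (E1) `ExtH g → Ext g` (collar). All other steps are done with `ExtH`.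
(E2) gluing of two cubes along the axis `k`. (E3) the turn cube, (E4) the straight cube,
(E5) reflection of a cube. (BOX) given all `g i ε` except the top face `(last, true)`, there is a
loop `t` such that `ExtH` holds with top face `t` and the signed sum is `0`: start with the
constant family, add the bottom face by (E4), then the side faces one at a time: the face
`(i, false)` is added by gluing (E2, along the axis `i`) the turn cube of (E3) in front of the
cube constructed so far (whose face `(i, false)` is still constant), similarly `(i, true)`.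
Gluing along `i` changes the other faces into concatenations, i.e. adds classes; faces
concatenated with a constant loop keep their class. Then `hat` (⇐): by (BOX) the top face
has the right class, so `ExtH g`, so `Ext g`. (⇒): two cubes with the same faces up to the top one:
reflect the second in the last axis, glue along the last axis: the side faces become
`cat last (reflected g) g`, null-homotopic, so `ExtH` with only bottom and top faces nontrivial,
which is a homotopy between the two top faces.
-/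

open Topology.Homotopy
open scoped unitInterval Topology

namespace Vale.Agent.P093.T

variable {m : ℕ} {X : Type*} [TopologicalSpace X] {x₀ : X}

/-- `0` or `1` -/
def side (ε : Bool) : ℝ := if ε then 1 else 0

/-- The family `g` of loops on the faces of the cube `[0,1]^(m+3)` extends over the cube. -/
def Ext (g : Fin (m + 3) → Bool → ELoop (m + 2) X x₀) : Prop :=
  ∃ G : (Fin (m + 3) → ℝ) → X, Continuous G ∧
    ∀ i ε (y : Fin (m + 2) → ℝ), G (Fin.insertNth i (side ε) y) = g i ε y

/-- some family with the same classes extends -/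
def ExtH (g : Fin (m + 3) → Bool → ELoop (m + 2) X x₀) : Prop :=
  ∃ g' : Fin (m + 3) → Bool → ELoop (m + 2) X x₀, (∀ i ε, (g' i ε).cls = (g i ε).cls) ∧ Ext g'

/-- the signed sum of the classes of the faces -/
noncomputable def faceSum (g : Fin (m + 3) → Bool → ELoop (m + 2) X x₀) : PiGrp m X x₀ :=
  ∑ i : Fin (m + 3), ((-1 : ℤ) ^ (i : ℕ)) • ((g i true).cls - (g i false).cls)

end Vale.Agent.P093.T
end

section

/-!
Collars: `ExtH g → Ext g`.
-/

open Topology.Homotopy
open scoped unitInterval Topology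

namespace Vale.Agent.P093.T

variable {m : ℕ} {X : Type*} [TopologicalSpace X] {x₀ : X}

namespace Collar

/-- the centre of the cube -/
noncomputable def hc (n : ℕ) : Fin n → ℝ := fun _ => 1 / 2

/-- sup-norm distance to the centre -/
noncomputable def rr {n : ℕ} (x : Fin n → ℝ) : ℝ := ‖x - hc n‖

theorem rr_cont {n : ℕ} : Continuous (rr : (Fin n → ℝ) → ℝ) :=
  (continuous_id.sub continuous_const).norm

/-- sign of a side -/
def sg (ε : Bool) : ℝ := if ε then 1 else -1

theorem side_eq (ε : Bool) : side ε = 1 / 2 + sg ε * (1 / 2) := by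
  cases ε <;> norm_num [side, sg]

theorem abs_le_rr {n : ℕ} (x : Fin n → ℝ) (i : Fin n) : |x i - 1 / 2| ≤ rr x := by
  have := norm_le_pi_norm (x - hc n) i
  simpa [rr, hc, Real.norm_eq_abs] using this

theorem exists_face {n : ℕ} (x : Fin n → ℝ) (h : 0 < rr x) :
    ∃ p : Fin n × Bool, x p.1 = 1 / 2 + sg p.2 * rr x := by
  have h1 : ∃ i, rr x ≤ |x i - 1 / 2| := by
    by_contra hcon
    push Not at hcon
    have : ‖x - hc n‖ < rr x := by
      rw [pi_norm_lt_iff h]
      intro i
      have := hcon i
      simpa [hc, Real.norm_eq_abs] using this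
    exact lt_irrefl _ this
  obtain ⟨i, hi⟩ := h1
  have h2 : |x i - 1 / 2| = rr x := le_antisymm (abs_le_rr x i) hi
  rcases abs_choice (x i - 1 / 2) with h3 | h3
  · refine ⟨(i, true), ?_⟩
    simp only [sg, if_true]
    rw [h3] at h2
    linarith
  · refine ⟨(i, false), ?_⟩
    have : sg false = -1 := rfl
    simp only [this]
    rw [h3] at h2
    linarith

/-- projection to the face `i` -/
noncomputable def pr (i : Fin (m + 3)) (x : Fin (m + 3) → ℝ) : Fin (m + 2) → ℝ :=
  fun j => 1 / 2 + (x (i.succAbove j) - 1 / 2) / (2 * max (rr x) (1 / 4))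

theorem pr_cont (i : Fin (m + 3)) : Continuous (pr i : (Fin (m + 3) → ℝ) → Fin (m + 2) → ℝ) := by
  refine continuous_pi fun j => ?_
  refine continuous_const.add (((continuous_apply _).sub continuous_const).div ?_ fun x => ?_)
  · exact continuous_const.mul (rr_cont.max continuous_const)
  · have : (1 / 4 : ℝ) ≤ max (rr x) (1 / 4) := le_max_right _ _
    intro h
    linarith

/-- if `x` lies on two faces the projection is not in the open cube -/
theorem pr_off {i i' : Fin (m + 3)} (hi : i' ≠ i) (ε : Bool) (x : Fin (m + 3) → ℝ) (hr : 1 / 4 ≤ rr x)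
    (hx : x i' = 1 / 2 + sg ε * rr x) : pr i x ∉ openCube (m + 2) := by
  obtain ⟨j, hj⟩ := Fin.exists_succAbove_eq hi
  intro h
  have h1 := h j
  have h2 : pr i x j = 1 / 2 + sg ε * (1 / 2) := by
    unfold pr
    rw [hj, hx, max_eq_left hr]
    have : rr x ≠ 0 := by
      intro h
      rw [h] at hr
      norm_num at hr
    field_simp
    ring
  rw [h2] at h1
  cases ε
  · have : sg false = -1 := rfl
    rw [this] at h1
    linarith [h1.1]
  · have : sg true = 1 := rfl
    rw [this] at h1
    linarith [h1.2]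

/-- clamping to the cube -/
noncomputable def clp {n : ℕ} (x : Fin n → ℝ) : Fin n → ℝ := fun i => max 0 (min 1 (x i))

theorem clp_cont {n : ℕ} : Continuous (clp : (Fin n → ℝ) → Fin n → ℝ) :=
  continuous_pi fun i => continuous_const.max (continuous_const.min (continuous_apply i))

theorem clp_val (p : ELoop (m + 2) X x₀) (y : Fin (m + 2) → ℝ) : p (clp y) = p y := by
  by_cases h : y ∈ openCube (m + 2)
  · have : clp y = y := by
      funext i
      obtain ⟨h0, h1⟩ := h i
      unfold clp
      rw [min_eq_right h1.le, max_eq_right h0.le]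
    rw [this]
  · rw [p.off y h, p.off]
    intro h'
    apply h
    intro i
    obtain ⟨h0, h1⟩ := h' i
    unfold clp at h0 h1
    constructor
    · by_contra hc
      push Not at hc
      have : min 1 (y i) ≤ 0 := (min_le_right _ _).trans hc
      rw [max_eq_left this] at h0
      exact lt_irrefl _ h0
    · by_contra hc
      push Not at hc
      rw [min_eq_left hc] at h1
      norm_num at h1

end Collar

open Collar in
/-- (E1) collar: replace the faces of an extendable family by homotopic ones. The new cube map is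
the old one on the inner cube `[1/4,3/4]^(m+3)` (rescaled); a point of the collar at height
`N = 2 max_i |x_i - 1/2| ∈ [1/2, 1]` is sent to the value at time `2N - 1` of the homotopy of the
face(s) on which its radial projection `1/2 + (x - 1/2)/N` lies. -/
theorem ext_of_extH (g : Fin (m + 3) → Bool → ELoop (m + 2) X x₀) (h : ExtH g) : Ext g := by
  obtain ⟨g', hcls, G, hG, hGf⟩ := h
  have hH : ∀ i ε, ∃ H : ℝ → (Fin (m + 2) → ℝ) → X,
      Continuous (fun z : ℝ × (Fin (m + 2) → ℝ) => H z.1 z.2) ∧
      (∀ y, H 0 y = g' i ε y) ∧ (∀ y, H 1 y = g i ε y) ∧ ∀ t y, y ∉ openCube (m + 2) → H t y = x₀ :=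
    fun i ε => (cls_eq_iff _ _).1 (hcls i ε)
  choose H Hc H0 H1 Hoff using hH
  classical
  -- the value of the piece `(i, ε)`
  let P : Fin (m + 3) × Bool → (Fin (m + 3) → ℝ) → X := fun p x => H p.1 p.2 (4 * rr x - 1) (pr p.1 x)
  have Pc : ∀ p, Continuous (P p) := fun p =>
    (Hc p.1 p.2).comp (((continuous_const.mul rr_cont).sub continuous_const).prodMk (pr_cont p.1))
  let S : (Fin (m + 3) → ℝ) → (Fin (m + 3) → ℝ) := fun x i => 1 / 2 + 2 * (x i - 1 / 2)
  have Sc : Continuous S := continuous_pi fun i =>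
    continuous_const.add (continuous_const.mul ((continuous_apply i).sub continuous_const))
  let C : Option (Fin (m + 3) × Bool) → Set (Fin (m + 3) → ℝ) := fun o =>
    match o with
    | none => {x | rr x ≤ 1 / 4}
    | some p => {x | 1 / 4 ≤ rr x ∧ x p.1 = 1 / 2 + sg p.2 * rr x}
  have Pcomp : ∀ (p q : Fin (m + 3) × Bool) x, x ∈ C (some p) → x ∈ C (some q) → P p x = P q x := by
    rintro ⟨i, ε⟩ ⟨i', ε'⟩ x ⟨hr, hx⟩ ⟨-, hx'⟩
    by_cases hi : i' = i
    · subst hi
      have : ε = ε' := by
        simp only at hx hx'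
        have h1 : sg ε * rr x = sg ε' * rr x := by linarith
        have h2 : rr x ≠ 0 := by
          intro h
          rw [h] at hr
          norm_num at hr
        have h3 := mul_right_cancel₀ h2 h1
        cases ε <;> cases ε' <;> first | rfl | (norm_num [sg] at h3)
      rw [this]
    · have e1 : P (i, ε) x = x₀ := Hoff _ _ _ _ (pr_off hi ε' x hr hx')
      have e2 : P (i', ε') x = x₀ := Hoff _ _ _ _ (pr_off (Ne.symm hi) ε x hr hx)
      rw [e1, e2]
  have hex : ∀ x, ¬ rr x ≤ 1 / 4 → ∃ p, x ∈ C (some p) := by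
    intro x hx
    push Not at hx
    obtain ⟨p, hp⟩ := exists_face x (by linarith)
    exact ⟨p, hx.le, hp⟩
  let G2 : (Fin (m + 3) → ℝ) → X := fun x =>
    if hx : rr x ≤ 1 / 4 then G (S x) else P (hex x hx).choose x
  have hin : ∀ p x, x ∈ C (some p) → rr x ≤ 1 / 4 → P p x = G (S x) := by
    rintro ⟨i, ε⟩ x ⟨hr, hx⟩ hr'
    have h1 : rr x = 1 / 4 := le_antisymm hr' hr
    have h2 : P (i, ε) x = H i ε 0 (pr i x) := by
      show H i ε (4 * rr x - 1) (pr i x) = _
      rw [h1]
      norm_num
    rw [h2, H0, ← hGf]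
    congr 1
    funext k
    refine Fin.succAboveCases i ?_ (fun j => ?_) k
    · rw [Fin.insertNth_apply_same]
      show side ε = 1 / 2 + 2 * (x i - 1 / 2)
      simp only at hx
      rw [side_eq, hx, h1]
      ring
    · rw [Fin.insertNth_apply_succAbove]
      show 1 / 2 + (x (i.succAbove j) - 1 / 2) / (2 * max (rr x) (1 / 4)) =
        1 / 2 + 2 * (x (i.succAbove j) - 1 / 2)
      rw [h1, max_self]
      ring
  have hG2 : ∀ p x, x ∈ C (some p) → G2 x = P p x := by
    intro p x hx
    by_cases hr : rr x ≤ 1 / 4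
    · have : G2 x = G (S x) := dif_pos hr
      rw [this, hin p x hx hr]
    · have : G2 x = P (hex x hr).choose x := dif_neg hr
      rw [this]
      exact Pcomp _ _ x (hex x hr).choose_spec hx
  have hcov : (⋃ o, C o) = Set.univ := by
    refine Set.eq_univ_of_forall fun x => ?_
    rw [Set.mem_iUnion]
    by_cases hr : rr x ≤ 1 / 4
    · exact ⟨none, hr⟩
    · obtain ⟨p, hp⟩ := hex x hr
      exact ⟨some p, hp⟩
  have hcl : ∀ o, IsClosed (C o) := by
    intro o
    cases o with
    | none => exact isClosed_le rr_cont continuous_const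
    | some p =>
      exact (isClosed_le continuous_const rr_cont).inter
        (isClosed_eq (continuous_apply _) (continuous_const.add (continuous_const.mul rr_cont)))
  have hcon : ∀ o, ContinuousOn G2 (C o) := by
    intro o
    cases o with
    | none =>
      refine ((hG.comp Sc).continuousOn (s := C none)).congr fun x hx => ?_
      exact dif_pos hx
    | some p =>
      exact ((Pc p).continuousOn (s := C (some p))).congr fun x hx => hG2 p x hx
  have hG2c : Continuous G2 := (locallyFinite_of_finite C).continuous hcov hcl hcon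
  refine ⟨fun x => G2 (clp x), hG2c.comp clp_cont, fun i ε y => ?_⟩
  have e1 : clp (Fin.insertNth i (side ε) y : Fin (m + 3) → ℝ) = (Fin.insertNth i (side ε) (clp y) : Fin (m + 3) → ℝ) := by
    funext k
    refine Fin.succAboveCases i ?_ (fun j => ?_) k
    · unfold clp
      rw [Fin.insertNth_apply_same, Fin.insertNth_apply_same]
      cases ε <;> norm_num [side]
    · unfold clp
      rw [Fin.insertNth_apply_succAbove, Fin.insertNth_apply_succAbove]
  have hle : ∀ t : ℝ, |max 0 (min 1 t) - 1 / 2| ≤ 1 / 2 := by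
    intro t
    rw [abs_le]
    constructor
    · have := le_max_left 0 (min 1 t)
      linarith
    · have : max 0 (min 1 t) ≤ 1 := max_le zero_le_one (min_le_left _ _)
      linarith
  have e2 : rr (clp (Fin.insertNth i (side ε) y : Fin (m + 3) → ℝ)) = 1 / 2 := by
    refine le_antisymm ?_ ?_
    · unfold rr
      rw [pi_norm_le_iff_of_nonneg (by norm_num)]
      intro k
      exact hle _
    · have := abs_le_rr (clp (Fin.insertNth i (side ε) y : Fin (m + 3) → ℝ)) i
      rw [e1, Fin.insertNth_apply_same] at this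
      rw [e1]
      refine le_trans ?_ this
      cases ε <;> norm_num [side, abs_of_nonneg]
  have e3 : clp (Fin.insertNth i (side ε) y : Fin (m + 3) → ℝ) ∈ C (some (i, ε)) := by
    refine ⟨by rw [e2]; norm_num, ?_⟩
    simp only
    rw [e2, ← side_eq, e1, Fin.insertNth_apply_same]
  show G2 (clp (Fin.insertNth i (side ε) y : Fin (m + 3) → ℝ)) = g i ε y
  rw [hG2 (i, ε) _ e3]
  show H i ε (4 * rr (clp (Fin.insertNth i (side ε) y : Fin (m + 3) → ℝ)) - 1)
    (pr i (clp (Fin.insertNth i (side ε) y : Fin (m + 3) → ℝ))) = g i ε y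
  have e4 : pr i (clp (Fin.insertNth i (side ε) y : Fin (m + 3) → ℝ)) = clp y := by
    funext j
    unfold pr
    rw [e2, e1, Fin.insertNth_apply_succAbove]
    have : max (1 / 2 : ℝ) (1 / 4) = 1 / 2 := max_eq_left (by norm_num)
    rw [this]
    ring
  rw [e2, e4]
  have e5 : (4 * (1 / 2) - 1 : ℝ) = 1 := by norm_num
  rw [e5, H1]
  exact clp_val _ _

end Vale.Agent.P093.T
end

section

/-!
Gluing and reflecting cubes.
-/

open Topology.Homotopy
open scoped unitInterval Topology

namespace Vale.Agent.P093.T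

variable {m : ℕ} {X : Type*} [TopologicalSpace X] {x₀ : X}

theorem hgl_update (i : Fin (m + 3)) (k' : Fin (m + 2)) (s t : ℝ) (y : Fin (m + 2) → ℝ) :
    Function.update (Fin.insertNth i s y : Fin (m + 3) → ℝ) (i.succAbove k') t =
      Fin.insertNth i s (Function.update y k' t) := by
  funext j
  refine Fin.succAboveCases i ?_ (fun j' => ?_) j
  · rw [Function.update_of_ne (Fin.succAbove_ne i k').symm]
    simp
  · by_cases hj : j' = k'
    · subst hj
      simp
    · rw [Function.update_of_ne (fun e => hj (Fin.succAbove_right_injective e))]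
      simp [hj]

theorem hgl_face (k : Fin (m + 3)) (s : ℝ) (x : Fin (m + 3) → ℝ) :
    Function.update x k s = Fin.insertNth k s (Fin.removeNth k x) := by
  rw [Fin.insertNth_removeNth]

/-- exact gluing -/
theorem hgl_exact (k : Fin (m + 3)) (g₁ g₂ : Fin (m + 3) → Bool → ELoop (m + 2) X x₀)
    (h₁ : Ext g₁) (h₂ : Ext g₂) (hk : ∀ y, g₁ k true y = g₂ k false y) :
    ∃ g₃ : Fin (m + 3) → Bool → ELoop (m + 2) X x₀, Ext g₃ ∧ g₃ k false = g₁ k false ∧
      g₃ k true = g₂ k true ∧ ∀ i ε, i ≠ k → (g₃ i ε).cls = (g₁ i ε).cls + (g₂ i ε).cls := by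
  classical
  obtain ⟨G₁, hG₁, hf₁⟩ := h₁
  obtain ⟨G₂, hG₂, hf₂⟩ := h₂
  have hex : ∀ i : Fin (m + 3), i ≠ k → ∃ k' : Fin (m + 2), i.succAbove k' = k := fun i hi =>
    Fin.exists_succAbove_eq (Ne.symm hi)
  refine ⟨fun i ε => if hi : i = k then (if ε then g₂ k true else g₁ k false)
    else ELoop.cat (hex i hi).choose (g₁ i ε) (g₂ i ε), ?_, by simp, by simp, ?_⟩
  · refine ⟨fun x => if x k ≤ 1 / 2 then G₁ (Function.update x k (2 * x k))
      else G₂ (Function.update x k (2 * x k - 1)), ?_, ?_⟩
    · refine Continuous.if_le ?_ ?_ (continuous_apply k) continuous_const ?_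
      · exact hG₁.comp (continuous_id.update k (continuous_const.mul (continuous_apply k)))
      · exact hG₂.comp (continuous_id.update k
          ((continuous_const.mul (continuous_apply k)).sub continuous_const))
      · intro x hx
        rw [hx]
        norm_num
        have e1 : G₁ (Function.update x k 1) = g₁ k true (Fin.removeNth k x) := by
          rw [hgl_face, ← hf₁ k true]
          simp [side]
        have e2 : G₂ (Function.update x k 0) = g₂ k false (Fin.removeNth k x) := by
          rw [hgl_face, ← hf₂ k false]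
          simp [side]
        rw [e1, e2, hk]
    · intro i ε y
      by_cases hi : i = k
      · subst hi
        cases ε
        · have e := hf₁ i false y
          simp only [side] at e ⊢
          simp only [Bool.false_eq_true, if_false, Fin.insertNth_apply_same, dite_true] at e ⊢
          rw [if_pos (by norm_num)]
          rw [hgl_face, Fin.removeNth_insertNth, mul_zero]
          exact e
        · have e := hf₂ i true y
          simp only [side] at e ⊢
          simp only [if_true, Fin.insertNth_apply_same, dite_true] at e ⊢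
          rw [if_neg (by norm_num)]
          rw [hgl_face, Fin.removeNth_insertNth]
          norm_num
          exact e
      · have hc := (hex i hi).choose_spec
        simp only [dif_neg hi]
        generalize (hex i hi).choose = k' at hc
        subst hc
        simp only [hgl_update, Fin.insertNth_apply_succAbove, hf₁, hf₂]
        rfl
  · intro i ε hi
    simp only [dif_neg hi]
    exact cls_cat _ _ _

/-- the cube of a homotopy -/
theorem hgl_homotopy (k : Fin (m + 3)) (p q : ELoop (m + 2) X x₀) (h : p.Homotopic q) :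
    ∃ g : Fin (m + 3) → Bool → ELoop (m + 2) X x₀, Ext g ∧ g k false = p ∧ g k true = q ∧
      ∀ i ε, i ≠ k → (g i ε).cls = 0 := by
  classical
  obtain ⟨H, hH, h0, h1, hoff⟩ := h
  refine ⟨fun i ε => if i = k then (if ε then q else p) else ELoop.const (m + 2) x₀, ?_, by simp,
    by simp, ?_⟩
  · refine ⟨fun x => H (x k) (Fin.removeNth k x), ?_, ?_⟩
    · have hc : Continuous (fun x : Fin (m + 3) → ℝ =>
          ((x k, Fin.removeNth k x) : ℝ × (Fin (m + 2) → ℝ))) :=
        (continuous_apply k).prodMk (continuous_pi fun j => continuous_apply (k.succAbove j))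
      exact hH.comp hc
    · intro i ε y
      by_cases hi : i = k
      · subst hi
        cases ε
        · simp [side, h0]
        · simp [side, h1]
      · obtain ⟨i', hi'⟩ := Fin.exists_succAbove_eq hi
        have hn : Fin.removeNth k (Fin.insertNth i (side ε) y : Fin (m + 3) → ℝ) ∉
            openCube (m + 2) := by
          intro hc
          have := hc i'
          simp only [Fin.removeNth, hi', Fin.insertNth_apply_same] at this
          cases ε <;> simp [side] at this
        simp only [if_neg hi]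
        rw [hoff _ _ hn]
        rfl
  · intro i ε hi
    simp only [if_neg hi]
    exact cls_const

/-- (E2) gluing along the axis `k` -/
theorem extH_glue (k : Fin (m + 3)) (g g' g'' : Fin (m + 3) → Bool → ELoop (m + 2) X x₀)
    (h : ExtH g) (h' : ExtH g') (hk : (g k true).cls = (g' k false).cls)
    (h0 : (g'' k false).cls = (g k false).cls) (h1 : (g'' k true).cls = (g' k true).cls)
    (hs : ∀ i ε, i ≠ k → (g'' i ε).cls = (g i ε).cls + (g' i ε).cls) : ExtH g'' := by
  obtain ⟨g₁, hc₁, he₁⟩ := h
  obtain ⟨g₂, hc₂, he₂⟩ := h'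
  have hhom : (g₁ k true).Homotopic (g₂ k false) := by
    rw [← cls_eq_iff, hc₁, hc₂, hk]
  obtain ⟨g₃, he₃, h3f, h3t, h3s⟩ := hgl_homotopy k _ _ hhom
  obtain ⟨g₄, he₄, h4f, h4t, h4s⟩ := hgl_exact k g₁ g₃ he₁ he₃ (fun y => by rw [h3f])
  obtain ⟨g₅, he₅, h5f, h5t, h5s⟩ := hgl_exact k g₄ g₂ he₄ he₂ (fun y => by rw [h4t, h3t])
  refine ⟨g₅, fun i ε => ?_, he₅⟩
  by_cases hi : i = k
  · subst hi
    cases ε
    · rw [h5f, h4f, h0, hc₁]
    · rw [h5t, h1, hc₂]
  · rw [h5s i ε hi, h4s i ε hi, h3s i ε hi, add_zero, hs i ε hi, hc₁, hc₂]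

/-- (E5) reflection in the axis `k` -/
theorem extH_reflect (k : Fin (m + 3)) (g g' : Fin (m + 3) → Bool → ELoop (m + 2) X x₀)
    (h : ExtH g) (h0 : (g' k false).cls = (g k true).cls) (h1 : (g' k true).cls = (g k false).cls)
    (hs : ∀ i ε, i ≠ k → (g' i ε).cls = - (g i ε).cls) : ExtH g' := by
  classical
  obtain ⟨g₁, hc₁, G, hG, hf⟩ := h
  have hex : ∀ i : Fin (m + 3), i ≠ k → ∃ k' : Fin (m + 2), i.succAbove k' = k := fun i hi =>
    Fin.exists_succAbove_eq (Ne.symm hi)
  have hoff : ∀ (k' : Fin (m + 2)) (y : Fin (m + 2) → ℝ), y ∉ openCube (m + 2) →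
      Function.update y k' (1 - y k') ∉ openCube (m + 2) := by
    intro k' y hy hc
    apply hy
    intro j
    have hj := hc j
    by_cases e : j = k'
    · subst e
      simp only [Function.update_self] at hj
      constructor <;> linarith [hj.1, hj.2]
    · rw [Function.update_of_ne e] at hj
      exact hj
  have hcont : ∀ k' : Fin (m + 2), Continuous fun y : Fin (m + 2) → ℝ =>
      Function.update y k' (1 - y k') := fun k' =>
    continuous_id.update k' (continuous_const.sub (continuous_apply k'))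
  refine ⟨fun i ε => if hi : i = k then g₁ k (!ε)
    else (g₁ i ε).pre (fun y => Function.update y (hex i hi).choose (1 - y (hex i hi).choose))
      (hcont _) (hoff _), ?_, ?_⟩
  · intro i ε
    by_cases hi : i = k
    · subst hi
      cases ε
      · simp [h0, hc₁]
      · simp [h1, hc₁]
    · simp only [dif_neg hi]
      rw [hs i ε hi, ← hc₁]
      exact cls_refl _ _ _ fun y => rfl
  · refine ⟨fun x => G (Function.update x k (1 - x k)), ?_, ?_⟩
    · exact hG.comp (continuous_id.update k (continuous_const.sub (continuous_apply k)))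
    · intro i ε y
      by_cases hi : i = k
      · subst hi
        have e := hf i (!ε) y
        simp only [dif_pos]
        rw [← e, hgl_face, Fin.removeNth_insertNth, Fin.insertNth_apply_same]
        cases ε <;> simp [side]
      · have hc := (hex i hi).choose_spec
        simp only [dif_neg hi]
        generalize (hex i hi).choose = k' at hc
        subst hc
        simp only [hgl_update, Fin.insertNth_apply_succAbove, hf]
        rfl

end Vale.Agent.P093.T
end

section

/-!
The straight cube and the turn cube.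
-/

open Topology.Homotopy
open scoped unitInterval Topology

namespace Vale.Agent.P093.T

variable {m : ℕ} {X : Type*} [TopologicalSpace X] {x₀ : X}

theorem htu_off {n : ℕ} (p : ELoop n X x₀) (y : Fin n → ℝ) (j : Fin n) (h : y j ≤ 0 ∨ 1 ≤ y j) :
    p y = x₀ := by
  apply p.off
  intro hc
  have := hc j
  rcases h with h | h
  · exact absurd this.1 (not_lt.2 h)
  · exact absurd this.2 (not_lt.2 h)

theorem htu_side (ε : Bool) : side ε ≤ 0 ∨ 1 ≤ side ε := by
  cases ε
  · left; simp [side]
  · right; simp [side]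

/-- (E4) the straight cube `G x = p (x₀,…,x_{m+1})` -/
theorem extH_straight (p : ELoop (m + 2) X x₀) (g : Fin (m + 3) → Bool → ELoop (m + 2) X x₀)
    (h0 : (g (Fin.last _) false).cls = p.cls) (h1 : (g (Fin.last _) true).cls = p.cls)
    (hs : ∀ i ε, i ≠ Fin.last _ → (g i ε).cls = 0) : ExtH g := by
  classical
  refine ⟨fun i _ => if i = Fin.last _ then p else ELoop.const (m + 2) x₀, ?_, ?_⟩
  · intro i ε
    by_cases hi : i = Fin.last _
    · subst hi
      simp only [if_true]
      cases ε
      · exact h0.symm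
      · exact h1.symm
    · simp only [if_neg hi]
      rw [cls_const, hs i ε hi]
  · refine ⟨fun x => p (Fin.removeNth (Fin.last _) x), ?_, ?_⟩
    · exact p.cont.comp (continuous_pi fun j => continuous_apply ((Fin.last _).succAbove j))
    · intro i ε y
      by_cases hi : i = Fin.last _
      · subst hi
        simp only [if_true, Fin.removeNth_insertNth]
      · simp only [if_neg hi]
        obtain ⟨i', hi'⟩ := Fin.exists_succAbove_eq hi
        refine htu_off p _ i' ?_
        simp only [Fin.removeNth, hi', Fin.insertNth_apply_same]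
        exact htu_side ε

/-- the last coordinate of the turn cube -/
noncomputable def htuU (s t : ℝ) : ℝ := max 0 (min t 1 - max s 0)

/-- the turn cube -/
noncomputable def htuG (i : Fin (m + 2)) (p : ELoop (m + 2) X x₀) (x : Fin (m + 3) → ℝ) : X :=
  p (Function.update (Fin.removeNth i.castSucc x) (Fin.last (m + 1))
    (htuU (x i.castSucc) (x (Fin.last _))))

theorem htuG_cont (i : Fin (m + 2)) (p : ELoop (m + 2) X x₀) : Continuous (htuG i p) := by
  refine p.cont.comp (Continuous.update ?_ _ ?_)
  · exact continuous_pi fun j => continuous_apply (i.castSucc.succAbove j)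
  · unfold htuU
    exact continuous_const.max (((continuous_apply _).min continuous_const).sub
      ((continuous_apply _).max continuous_const))

/-- the reflected loop -/
noncomputable def htuQ (p : ELoop (m + 2) X x₀) : ELoop (m + 2) X x₀ :=
  p.pre (fun y => Function.update y (Fin.last _) (1 - y (Fin.last _)))
    (continuous_id.update _ (continuous_const.sub (continuous_apply _))) (by
      intro y hy hc
      apply hy
      intro j
      have hj := hc j
      by_cases e : j = Fin.last _
      · subst e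
        simp only [Function.update_self] at hj
        constructor <;> linarith [hj.1, hj.2]
      · rw [Function.update_of_ne e] at hj
        exact hj)

/-- the top face of the turn cube -/
noncomputable def htuR (i : Fin (m + 2)) (p : ELoop (m + 2) X x₀) : ELoop (m + 2) X x₀ :=
  (htuQ p).pre (fun y => y ∘ Fin.cycleIcc i (Fin.last _))
    (continuous_pi fun j => continuous_apply _) (by
      intro y hy hc
      apply hy
      intro j
      have hj := hc ((Fin.cycleIcc i (Fin.last _)).symm j)
      simpa using hj)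

theorem htuR_cls (i : Fin (m + 2)) (p : ELoop (m + 2) X x₀) :
    (htuR i p).cls = ((-1 : ℤ) ^ (m + 2 - (i : ℕ))) • p.cls := by
  rw [cls_perm (Fin.cycleIcc i (Fin.last _)) (htuQ p) (htuR i p) (fun y => rfl),
    cls_refl (Fin.last _) p (htuQ p) (fun y => rfl), Fin.sign_cycleIcc_of_le (Fin.le_last _)]
  have h1 : m + 2 - (i : ℕ) = (m + 1 - (i : ℕ)) + 1 := by
    have := i.2
    omega
  rw [h1, pow_succ, mul_neg_one, neg_smul, smul_neg]
  congr 1

theorem htuG_face_false (i : Fin (m + 2)) (p : ELoop (m + 2) X x₀) (y : Fin (m + 2) → ℝ) :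
    htuG i p (Fin.insertNth i.castSucc 0 y) = p y := by
  have hl : (Fin.insertNth i.castSucc 0 y : Fin (m + 3) → ℝ) (Fin.last _) = y (Fin.last _) := by
    rw [← Fin.succAbove_ne_last_last (Fin.castSucc_lt_last i).ne, Fin.insertNth_apply_succAbove]
  unfold htuG
  rw [Fin.removeNth_insertNth, Fin.insertNth_apply_same, hl]
  by_cases h : 0 ≤ y (Fin.last _) ∧ y (Fin.last _) ≤ 1
  · have hu : htuU 0 (y (Fin.last _)) = y (Fin.last _) := by
      unfold htuU
      rw [min_eq_left h.2, max_self, sub_zero, max_eq_right h.1]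
    rw [hu, Function.update_eq_self]
  · have h' : y (Fin.last _) ≤ 0 ∨ 1 ≤ y (Fin.last _) := by
      by_contra hc
      push Not at hc
      exact h ⟨hc.1.le, hc.2.le⟩
    rw [htu_off p y (Fin.last _) h']
    refine htu_off p _ (Fin.last _) ?_
    rw [Function.update_self]
    unfold htuU
    rcases h' with h' | h'
    · left
      rw [max_self, sub_zero, min_eq_left (h'.trans zero_le_one), max_eq_left h']
    · right
      rw [max_self, sub_zero, min_eq_right h']
      exact le_max_right _ _

theorem htuG_face_true (i : Fin (m + 2)) (p : ELoop (m + 2) X x₀) (y : Fin (m + 2) → ℝ) :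
    htuG i p (Fin.insertNth i.castSucc 1 y) = x₀ := by
  unfold htuG
  refine htu_off p _ (Fin.last _) (Or.inl ?_)
  rw [Function.update_self, Fin.insertNth_apply_same]
  unfold htuU
  refine max_le le_rfl ?_
  have h1 : min ((Fin.insertNth i.castSucc 1 y : Fin (m + 3) → ℝ) (Fin.last _)) 1 ≤ 1 :=
    min_le_right _ _
  have h2 : (1 : ℝ) ≤ max 1 0 := le_max_left _ _
  linarith

theorem htuG_last_false (i : Fin (m + 2)) (p : ELoop (m + 2) X x₀) (y : Fin (m + 2) → ℝ) :
    htuG i p (Fin.insertNth (Fin.last _) 0 y) = x₀ := by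
  unfold htuG
  refine htu_off p _ (Fin.last _) (Or.inl ?_)
  rw [Function.update_self, Fin.insertNth_apply_same]
  unfold htuU
  refine max_le le_rfl ?_
  have h1 : min (0 : ℝ) 1 ≤ 0 := min_le_left _ _
  have h2 := le_max_right ((Fin.insertNth (Fin.last _) 0 y : Fin (m + 3) → ℝ) i.castSucc) 0
  linarith

theorem htuG_last_true (i : Fin (m + 2)) (p : ELoop (m + 2) X x₀) (y : Fin (m + 2) → ℝ) :
    htuG i p (Fin.insertNth (Fin.last _) 1 y) = htuR i p y := by
  have hr : htuR i p y = p (Function.update (y ∘ Fin.cycleIcc i (Fin.last _)) (Fin.last _)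
      (1 - (y ∘ Fin.cycleIcc i (Fin.last _)) (Fin.last _))) := rfl
  have he : (y ∘ Fin.cycleIcc i (Fin.last (m + 1))) (Fin.last _) = y i := by
    rw [Function.comp_apply, Fin.cycleIcc_of_last (Fin.le_last _)]
  have hi : (Fin.insertNth (Fin.last _) 1 y : Fin (m + 3) → ℝ) i.castSucc = y i := by
    rw [← Fin.succAbove_last_apply, Fin.insertNth_apply_succAbove]
  rw [hr, he]
  unfold htuG
  rw [hi, Fin.insertNth_apply_same]
  by_cases h : 0 ≤ y i ∧ y i ≤ 1
  · have hu : htuU (y i) 1 = 1 - y i := by
      unfold htuU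
      rw [min_self, max_eq_left h.1, max_eq_right (by linarith [h.2])]
    rw [hu]
    congr 1
    funext k
    by_cases hk : k = Fin.last _
    · subst hk
      rw [Function.update_self, Function.update_self]
    · rw [Function.update_of_ne hk, Function.update_of_ne hk]
      obtain ⟨k', rfl⟩ := Fin.exists_castSucc_eq.2 hk
      have h1 : Fin.cycleIcc i (Fin.last (m + 1)) k'.castSucc = i.succAbove k' := by
        have := congrFun (Fin.cycleIcc_comp_succAbove i (Fin.last (m + 1)) (Fin.le_last _)) k'
        rwa [Function.comp_apply, Fin.succAbove_last_apply] at this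
      rw [Function.comp_apply, h1, Fin.removeNth_apply, Fin.castSucc_succAbove_castSucc,
        ← Fin.succAbove_last_apply, Fin.insertNth_apply_succAbove]
  · have h' : y i ≤ 0 ∨ 1 ≤ y i := by
      by_contra hc
      push Not at hc
      exact h ⟨hc.1.le, hc.2.le⟩
    rw [htu_off p _ (Fin.last _), htu_off p _ (Fin.last _)]
    · rw [Function.update_self]
      rcases h' with h' | h'
      · right; linarith
      · left; linarith
    · rw [Function.update_self]
      unfold htuU
      rcases h' with h' | h'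
      · right
        rw [min_self, max_eq_right h', sub_zero]
        exact le_max_right _ _
      · left
        rw [min_self]
        refine max_le le_rfl ?_
        have := le_max_left (y i) 0
        linarith

theorem htuG_other (i : Fin (m + 2)) (p : ELoop (m + 2) X x₀) (j : Fin (m + 3))
    (hj : j ≠ i.castSucc) (hl : j ≠ Fin.last _) (ε : Bool) (y : Fin (m + 2) → ℝ) :
    htuG i p (Fin.insertNth j (side ε) y) = x₀ := by
  obtain ⟨j', rfl⟩ := Fin.exists_succAbove_eq hj
  have hj' : j' ≠ Fin.last _ := by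
    rintro rfl
    exact hl (Fin.succAbove_ne_last_last (Fin.castSucc_lt_last i).ne)
  unfold htuG
  refine htu_off p _ j' ?_
  rw [Function.update_of_ne hj', Fin.removeNth_apply, Fin.insertNth_apply_same]
  exact htu_side ε

/-- (E3) the turn cube: `G x = p (x_j (j ≠ i, last), u)`, `u = max (0, x_last - x_i)` in the last
coordinate of `p`. Its face `x_i = 0` is `p`, its face `x_last = 1` is `p` after the cyclic
permutation of the coordinates and one reflection, of class `(-1)^(m+2-i) [p]`; all other faces are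
constant. Use `cls_perm` and `cls_refl`. -/
theorem extH_turn (i : Fin (m + 3)) (hi : i ≠ Fin.last _) (p : ELoop (m + 2) X x₀)
    (g : Fin (m + 3) → Bool → ELoop (m + 2) X x₀)
    (h0 : (g i false).cls = p.cls)
    (h1 : (g (Fin.last _) true).cls = ((-1 : ℤ) ^ (m + 2 - (i : ℕ))) • p.cls)
    (hs : ∀ j ε, (j, ε) ≠ (i, false) → (j, ε) ≠ (Fin.last _, true) → (g j ε).cls = 0) :
    ExtH g := by
  classical
  obtain ⟨i, rfl⟩ := Fin.exists_castSucc_eq.2 hi
  refine ⟨fun j ε => if (j, ε) = (i.castSucc, false) then p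
    else if (j, ε) = (Fin.last _, true) then htuR i p else ELoop.const (m + 2) x₀, ?_,
    htuG i p, htuG_cont i p, ?_⟩
  · intro j ε
    by_cases e1 : (j, ε) = (i.castSucc, false)
    · simp only [if_pos e1]
      obtain ⟨rfl, rfl⟩ := Prod.mk.injEq .. ▸ e1
      exact h0.symm
    · by_cases e2 : (j, ε) = (Fin.last _, true)
      · simp only [if_neg e1, if_pos e2]
        obtain ⟨rfl, rfl⟩ := Prod.mk.injEq .. ▸ e2
        rw [h1, htuR_cls, Fin.val_castSucc]
      · simp only [if_neg e1, if_neg e2]
        rw [cls_const, hs j ε e1 e2]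
  · intro j ε y
    by_cases e1 : (j, ε) = (i.castSucc, false)
    · simp only [if_pos e1]
      obtain ⟨rfl, rfl⟩ := Prod.mk.injEq .. ▸ e1
      have := htuG_face_false i p y
      simpa [side] using this
    · by_cases e2 : (j, ε) = (Fin.last _, true)
      · simp only [if_neg e1, if_pos e2]
        obtain ⟨rfl, rfl⟩ := Prod.mk.injEq .. ▸ e2
        have := htuG_last_true i p y
        simpa [side] using this
      · simp only [if_neg e1, if_neg e2]
        show _ = x₀
        by_cases hj : j = i.castSucc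
        · subst hj
          cases ε
          · exact absurd rfl e1
          · have := htuG_face_true i p y
            simpa [side] using this
        · by_cases hl : j = Fin.last _
          · subst hl
            cases ε
            · have := htuG_last_false i p y
              simpa [side] using this
            · exact absurd rfl e2
          · exact htuG_other i p j hj hl ε y

end Vale.Agent.P093.T
end

section

/-!
The homotopy addition theorem (see the plan in `HatDef`).
-/

open Topology.Homotopy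
open scoped unitInterval Topology

namespace Vale.Agent.P093.T

variable {m : ℕ} {X : Type*} [TopologicalSpace X] {x₀ : X}

/-- some family with the given classes extends -/
def hatEC (c : Fin (m + 3) → Bool → PiGrp m X x₀) : Prop :=
  ∃ g : Fin (m + 3) → Bool → ELoop (m + 2) X x₀, (∀ i ε, (g i ε).cls = c i ε) ∧ Ext g

/-- the signed sum of a family of classes -/
noncomputable def hatSum (c : Fin (m + 3) → Bool → PiGrp m X x₀) : PiGrp m X x₀ :=
  ∑ i : Fin (m + 3), ((-1 : ℤ) ^ (i : ℕ)) • (c i true - c i false)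

theorem hatEC_of (c : Fin (m + 3) → Bool → PiGrp m X x₀)
    (h : ∀ g : Fin (m + 3) → Bool → ELoop (m + 2) X x₀, (∀ i ε, (g i ε).cls = c i ε) → ExtH g) :
    hatEC c := by
  choose p hp using fun x : Fin (m + 3) × Bool => cls_surj (x₀ := x₀) (c x.1 x.2)
  obtain ⟨g', h1, h2⟩ := h (fun i ε => p (i, ε)) (fun i ε => hp (i, ε))
  exact ⟨g', fun i ε => (h1 i ε).trans (hp (i, ε)), h2⟩

theorem hatEC_glue (k : Fin (m + 3)) (c c' c'' : Fin (m + 3) → Bool → PiGrp m X x₀)
    (h : hatEC c) (h' : hatEC c') (hk : c k true = c' k false)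
    (h0 : c'' k false = c k false) (h1 : c'' k true = c' k true)
    (hs : ∀ i ε, i ≠ k → c'' i ε = c i ε + c' i ε) : hatEC c'' := by
  obtain ⟨g, hg, he⟩ := h
  obtain ⟨g', hg', he'⟩ := h'
  refine hatEC_of _ fun g'' hg'' => ?_
  exact extH_glue k g g' g'' ⟨g, fun _ _ => rfl, he⟩ ⟨g', fun _ _ => rfl, he'⟩
    (by rw [hg, hg', hk]) (by rw [hg'', h0, hg]) (by rw [hg'', h1, hg'])
    (fun i ε hi => by rw [hg'', hs i ε hi, hg, hg'])

theorem hatEC_reflect (k : Fin (m + 3)) (c c' : Fin (m + 3) → Bool → PiGrp m X x₀)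
    (h : hatEC c) (h0 : c' k false = c k true) (h1 : c' k true = c k false)
    (hs : ∀ i ε, i ≠ k → c' i ε = - c i ε) : hatEC c' := by
  obtain ⟨g, hg, he⟩ := h
  refine hatEC_of _ fun g' hg' => ?_
  exact extH_reflect k g g' ⟨g, fun _ _ => rfl, he⟩ (by rw [hg', h0, hg]) (by rw [hg', h1, hg])
    (fun i ε hi => by rw [hg', hs i ε hi, hg])

/-- the classes of the turn cube -/
noncomputable def hatTurn (i : Fin (m + 3)) (a b : PiGrp m X x₀) (j : Fin (m + 3)) (ε : Bool) : PiGrp m X x₀ :=
  if (j, ε) = (i, false) then a else if (j, ε) = (Fin.last _, true) then b else 0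

theorem hatEC_turn (i : Fin (m + 3)) (hi : i ≠ Fin.last _) (a : PiGrp m X x₀) :
    hatEC (hatTurn i a (((-1 : ℤ) ^ (m + 2 - (i : ℕ))) • a)) := by
  refine hatEC_of _ fun g hg => ?_
  obtain ⟨p, hp⟩ := cls_surj (x₀ := x₀) a
  refine extH_turn i hi p g ?_ ?_ ?_
  · rw [hg, hp]
    simp [hatTurn]
  · rw [hg, hp]
    have : (Fin.last (m + 2), true) ≠ (i, false) := by simp
    simp [hatTurn]
  · intro j ε h1 h2
    rw [hg]
    unfold hatTurn
    rw [if_neg h1, if_neg h2]

/-- adding the two faces of an axis -/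
theorem hatEC_add (i : Fin (m + 3)) (hi : i ≠ Fin.last _)
    (c c' : Fin (m + 3) → Bool → PiGrp m X x₀)
    (h : hatEC c) (hc : ∀ ε, c i ε = 0)
    (htop : c' (Fin.last _) true = c (Fin.last _) true +
      (((-1 : ℤ) ^ (m + 2 - (i : ℕ))) • (c' i false) -
        ((-1 : ℤ) ^ (m + 2 - (i : ℕ))) • (c' i true)))
    (hs : ∀ j ε, j ≠ i → (j, ε) ≠ (Fin.last _, true) → c' j ε = c j ε) : hatEC c' := by
  classical
  have hil : Fin.last (m + 2) ≠ i := fun e => hi e.symm
  -- first face
  obtain ⟨c1, hc1⟩ : ∃ c1 : Fin (m + 3) → Bool → PiGrp m X x₀, ∀ j ε, c1 j ε =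
      hatTurn i (c' i false) (((-1 : ℤ) ^ (m + 2 - (i : ℕ))) • (c' i false)) j ε + c j ε :=
    ⟨_, fun _ _ => rfl⟩
  have h1 : hatEC c1 := by
    refine hatEC_glue i _ c c1 (hatEC_turn i hi (c' i false)) h ?_ ?_ ?_ fun j ε _ => hc1 j ε
    · rw [hc]
      simp [hatTurn, hi]
    · rw [hc1, hc, add_zero]
    · rw [hc1]
      simp [hatTurn, hi]
  -- second face
  obtain ⟨d, hd⟩ : ∃ d : Fin (m + 3) → Bool → PiGrp m X x₀, ∀ j ε, d j ε =
      if j = i then (if ε = true then c' i true else 0) else
        - hatTurn i (c' i true) (((-1 : ℤ) ^ (m + 2 - (i : ℕ))) • (c' i true)) j ε :=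
    ⟨_, fun _ _ => rfl⟩
  have h2 : hatEC d := by
    refine hatEC_reflect i _ d (hatEC_turn i hi (c' i true)) ?_ ?_ fun j ε hj => ?_
    · rw [hd]
      simp [hatTurn, hi]
    · rw [hd]
      simp [hatTurn]
    · rw [hd, if_neg hj]
  refine hatEC_glue i c1 d c' h1 h2 ?_ ?_ ?_ ?_
  · rw [hc1, hd, hc]
    simp [hatTurn, hi]
  · rw [hc1, hc]
    simp [hatTurn]
  · rw [hd]
    simp
  · intro j ε hj
    rw [hc1, hd, if_neg hj]
    by_cases hje : (j, ε) = (Fin.last _, true)
    · obtain ⟨e1, e2⟩ := Prod.mk.injEq _ _ _ _ ▸ hje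
      subst e1 e2
      rw [htop]
      simp only [hatTurn, Prod.mk.injEq, Bool.true_eq_false, and_false, if_false, if_true]
      abel
    · rw [hs j ε hj hje]
      have h3 : (j, ε) ≠ (i, false) := fun e => hj (Prod.mk.inj e).1
      simp [hatTurn, h3, hje]

theorem hatSum_last (c : Fin (m + 3) → Bool → PiGrp m X x₀)
    (hc : ∀ i ε, i ≠ Fin.last _ → c i ε = 0) (h : hatSum c = 0) :
    c (Fin.last _) false = c (Fin.last _) true := by
  unfold hatSum at h
  rw [Finset.sum_eq_single (Fin.last (m + 2))] at h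
  · rcases neg_one_pow_eq_or ℤ ((Fin.last (m + 2) : Fin (m + 3)) : ℕ) with e | e
    · rw [e, one_smul, sub_eq_zero] at h
      exact h.symm
    · rw [e, neg_smul, one_smul, neg_eq_zero, sub_eq_zero] at h
      exact h.symm
  · intro j _ hj
    rw [hc j true hj, hc j false hj, sub_zero, smul_zero]
  · intro hh
    exact absurd (Finset.mem_univ _) hh

theorem hatEC_box (s : Finset (Fin (m + 3))) (hl : Fin.last _ ∉ s) :
    ∀ c : Fin (m + 3) → Bool → PiGrp m X x₀,
      (∀ i ε, i ≠ Fin.last _ → i ∉ s → c i ε = 0) → hatSum c = 0 → hatEC c := by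
  classical
  induction s using Finset.induction_on with
  | empty =>
    intro c hc hsum
    have hc' : ∀ i ε, i ≠ Fin.last _ → c i ε = 0 := fun i ε hi => hc i ε hi (by simp)
    have he := hatSum_last c hc' hsum
    refine hatEC_of _ fun g hg => ?_
    obtain ⟨p, hp⟩ := cls_surj (x₀ := x₀) (c (Fin.last _) false)
    refine extH_straight p g (by rw [hg, hp]) (by rw [hg, hp, he]) fun i ε hi => ?_
    rw [hg, hc' i ε hi]
  | insert i s hi ih =>
    intro c hc hsum
    have hil : i ≠ Fin.last _ := by
      rintro rfl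
      exact hl (Finset.mem_insert_self _ _)
    have hl' : Fin.last _ ∉ s := fun h => hl (Finset.mem_insert_of_mem h)
    obtain ⟨e, he⟩ : ∃ e : PiGrp m X x₀, e = ((-1 : ℤ) ^ (m + 2 - (i : ℕ))) • (c i false) -
        ((-1 : ℤ) ^ (m + 2 - (i : ℕ))) • (c i true) := ⟨_, rfl⟩
    obtain ⟨c1, hc1⟩ : ∃ c1 : Fin (m + 3) → Bool → PiGrp m X x₀, ∀ j ε, c1 j ε =
        c j ε - ((if j = i then c i ε else 0) +
          (if j = Fin.last _ then (if ε = true then e else 0) else 0)) := ⟨_, fun _ _ => rfl⟩
    have hli : Fin.last (m + 2) ≠ i := fun e => hil e.symm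
    refine hatEC_add i hil c1 c (ih hl' c1 ?_ ?_) ?_ ?_ ?_
    · intro j ε hj hjs
      rw [hc1]
      by_cases hji : j = i
      · subst hji
        simp [hj]
      · rw [hc j ε hj (by simp [hji, hjs])]
        simp [hji, hj]
    · have h1 : hatSum c1 = hatSum c - ∑ j : Fin (m + 3), ((-1 : ℤ) ^ (j : ℕ)) •
          ((if j = i then c i true - c i false else 0) + (if j = Fin.last _ then e else 0)) := by
        unfold hatSum
        rw [← Finset.sum_sub_distrib]
        refine Finset.sum_congr rfl fun j _ => ?_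
        rw [← smul_sub]
        congr 1
        rw [hc1, hc1]
        split_ifs <;> simp_all
        all_goals abel
      rw [h1, hsum]
      have h2 : ∑ j : Fin (m + 3), ((-1 : ℤ) ^ (j : ℕ)) •
          ((if j = i then c i true - c i false else 0) + (if j = Fin.last _ then e else 0)) =
          ((-1 : ℤ) ^ (i : ℕ)) • (c i true - c i false) + ((-1 : ℤ) ^ (m + 2)) • e := by
        simp only [smul_add, Finset.sum_add_distrib, smul_ite, smul_zero,
          Finset.sum_ite_eq', Finset.mem_univ, if_true, Fin.val_last]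
      rw [h2, he]
      have h3 : (i : ℕ) ≤ m + 2 := by omega
      have h4 : ((-1 : ℤ) ^ (m + 2)) * (-1) ^ (m + 2 - (i : ℕ)) = (-1) ^ (i : ℕ) := by
        rw [← pow_add]
        have : m + 2 + (m + 2 - (i : ℕ)) = (i : ℕ) + 2 * (m + 2 - (i : ℕ)) := by omega
        rw [this, pow_add, pow_mul]
        simp
      rw [smul_sub, smul_sub, smul_smul, smul_smul, h4]
      abel
    · intro ε
      rw [hc1]
      simp [hil]
    · rw [hc1]
      simp [hli, he]
    · intro j ε hj hje
      rw [hc1]
      by_cases hjl : j = Fin.last _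
      · subst hjl
        have : ε ≠ true := fun h => hje (by rw [h])
        simp [hj, this]
      · simp [hj, hjl]

/-- (BOX) -/
theorem extH_box (g : Fin (m + 3) → Bool → ELoop (m + 2) X x₀) (hg : faceSum g = 0) : ExtH g := by
  classical
  refine hatEC_box (Finset.univ.erase (Fin.last _)) (by simp) (fun i ε => (g i ε).cls) ?_ hg
  intro i ε h1 h2
  simp [h1] at h2

/-- clamp to the closed cube -/
def hatClamp (t : ℝ) : ℝ := max 0 (min 1 t)

theorem hatClamp_cont : Continuous hatClamp := by
  unfold hatClamp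
  fun_prop

theorem hatClamp_of_le {t : ℝ} (h : t ≤ 0) : hatClamp t = 0 := by
  unfold hatClamp
  rw [min_eq_right (by linarith), max_eq_left h]

theorem hatClamp_of_ge {t : ℝ} (h : 1 ≤ t) : hatClamp t = 1 := by
  unfold hatClamp
  rw [min_eq_left h, max_eq_right (by norm_num)]

theorem hatClamp_of_mem {t : ℝ} (h0 : 0 ≤ t) (h1 : t ≤ 1) : hatClamp t = t := by
  unfold hatClamp
  rw [min_eq_right h1, max_eq_right h0]

theorem hatClamp_off (y : Fin (m + 2) → ℝ) (hy : y ∉ openCube (m + 2)) :
    ∃ (i : Fin (m + 2)) (ε : Bool), hatClamp (y i) = side ε := by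
  unfold openCube at hy
  rw [Set.mem_ofPred_eq, not_forall] at hy
  obtain ⟨i, hi⟩ := hy
  rcases le_or_gt (y i) 0 with h | h
  · exact ⟨i, false, by rw [hatClamp_of_le h]; simp [side]⟩
  · have h2 : 1 ≤ y i := by
      by_contra hc
      exact hi ⟨h, not_le.1 hc⟩
    exact ⟨i, true, by rw [hatClamp_of_ge h2]; simp [side]⟩

theorem hatClamp_loop (p : ELoop (m + 2) X x₀) (y : Fin (m + 2) → ℝ) :
    p (fun i => hatClamp (y i)) = p y := by
  by_cases hy : y ∈ openCube (m + 2)
  · congr 1
    funext i
    exact hatClamp_of_mem (hy i).1.le (hy i).2.le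
  · rw [p.off y hy]
    apply p.off
    intro h
    obtain ⟨i, ε, hi⟩ := hatClamp_off y hy
    have h1 : 0 < hatClamp (y i) ∧ hatClamp (y i) < 1 := h i
    rw [hi] at h1
    cases ε <;> simp [side] at h1

/-- only bottom and top faces nontrivial: they are homotopic -/
theorem cls_eq_of_extH (g : Fin (m + 3) → Bool → ELoop (m + 2) X x₀) (h : ExtH g)
    (hs : ∀ i ε, i ≠ Fin.last _ → (g i ε).cls = 0) :
    (g (Fin.last _) false).cls = (g (Fin.last _) true).cls := by
  classical
  obtain ⟨g2, hg2⟩ : ∃ g2 : Fin (m + 3) → Bool → ELoop (m + 2) X x₀, ∀ i ε, g2 i ε =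
      if i = Fin.last _ then g i ε else ELoop.const (m + 2) x₀ := ⟨_, fun _ _ => rfl⟩
  have hcl : ∀ i ε, (g2 i ε).cls = (g i ε).cls := by
    intro i ε
    rw [hg2]
    split_ifs with h1
    · rfl
    · rw [cls_const, hs i ε h1]
  have h2 : ExtH g2 := by
    obtain ⟨g', h3, h4⟩ := h
    exact ⟨g', fun i ε => (h3 i ε).trans (hcl i ε).symm, h4⟩
  obtain ⟨G, hG, hf⟩ := ext_of_extH g2 h2
  rw [cls_eq_iff]
  refine ⟨fun t y => G (Fin.insertNth (Fin.last _) (hatClamp t) fun i => hatClamp (y i)),
    ?_, ?_, ?_, ?_⟩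
  · refine hG.comp ?_
    refine continuous_pi fun j => ?_
    refine Fin.succAboveCases (Fin.last (m + 2)) ?_ (fun j' => ?_) j
    · simp only [Fin.insertNth_apply_same]
      exact hatClamp_cont.comp continuous_fst
    · simp only [Fin.insertNth_apply_succAbove]
      exact hatClamp_cont.comp ((continuous_apply j').comp continuous_snd)
  · intro y
    have h3 := hf (Fin.last _) false (fun i => hatClamp (y i))
    have h4 : side false = hatClamp 0 := by
      rw [hatClamp_of_le le_rfl]
      simp [side]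
    rw [h4] at h3
    show G (Fin.insertNth (Fin.last _) (hatClamp 0) fun i => hatClamp (y i)) = _
    rw [h3, hg2, if_pos rfl, hatClamp_loop]
  · intro y
    have h3 := hf (Fin.last _) true (fun i => hatClamp (y i))
    have h4 : side true = hatClamp 1 := by
      rw [hatClamp_of_ge le_rfl]
      simp [side]
    rw [h4] at h3
    show G (Fin.insertNth (Fin.last _) (hatClamp 1) fun i => hatClamp (y i)) = _
    rw [h3, hg2, if_pos rfl, hatClamp_loop]
  · intro t y hy
    obtain ⟨i, ε, hi⟩ := hatClamp_off y hy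
    obtain ⟨z, hz⟩ : ∃ z : Fin (m + 3) → ℝ, z =
        Fin.insertNth (Fin.last (m + 2)) (hatClamp t) fun i => hatClamp (y i) := ⟨_, rfl⟩
    have h3 := hf (Fin.castSucc i) ε (Fin.removeNth (Fin.castSucc i) z)
    have h4 : z (Fin.castSucc i) = side ε := by
      rw [hz, ← Fin.succAbove_last, Fin.insertNth_apply_succAbove, hi]
    rw [← h4, Fin.insertNth_self_removeNth, hg2, if_neg (Fin.castSucc_ne_last i)] at h3
    show G (Fin.insertNth (Fin.last (m + 2)) (hatClamp t) fun i => hatClamp (y i)) = x₀
    rw [← hz, h3]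
    rfl

/-- The homotopy addition theorem. -/
theorem hat (g : Fin (m + 3) → Bool → ELoop (m + 2) X x₀) : Ext g ↔ faceSum g = 0 := by
  classical
  refine ⟨fun h => ?_, fun h => ext_of_extH g (extH_box g h)⟩
  -- the right class of the top face
  obtain ⟨S, hS⟩ : ∃ S : PiGrp m X x₀, S = faceSum g := ⟨_, rfl⟩
  obtain ⟨t, ht⟩ := cls_surj (x₀ := x₀)
    ((g (Fin.last _) true).cls - ((-1 : ℤ) ^ (m + 2)) • S)
  obtain ⟨g1, hg1⟩ : ∃ g1 : Fin (m + 3) → Bool → ELoop (m + 2) X x₀, ∀ i ε, g1 i ε =
      if i = Fin.last _ then (if ε = true then t else g i ε) else g i ε := ⟨_, fun _ _ => rfl⟩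
  have h1 : faceSum g1 = 0 := by
    have h2 : faceSum g1 = faceSum g - ∑ j : Fin (m + 3), ((-1 : ℤ) ^ (j : ℕ)) •
        (if j = Fin.last _ then ((-1 : ℤ) ^ (m + 2)) • S else 0) := by
      unfold faceSum
      rw [← Finset.sum_sub_distrib]
      refine Finset.sum_congr rfl fun j _ => ?_
      rw [← smul_sub]
      congr 1
      rw [hg1, hg1]
      by_cases hj : j = Fin.last _
      · subst hj
        simp only [if_true, Bool.false_eq_true, if_false]
        rw [ht]
        abel
      · simp [hj]
    rw [h2, ← hS]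
    simp only [smul_ite, smul_zero, Finset.sum_ite_eq', Finset.mem_univ, if_true, Fin.val_last]
    rw [smul_smul, ← pow_add, ← two_mul, pow_mul]
    simp
  have h3 : ExtH g1 := extH_box g1 h1
  -- reflect and glue
  obtain ⟨c, hc⟩ : ∃ c : Fin (m + 3) → Bool → PiGrp m X x₀, ∀ i ε, c i ε =
      if i = Fin.last _ then (g1 i (!ε)).cls else - (g1 i ε).cls := ⟨_, fun _ _ => rfl⟩
  have h4 : hatEC c := by
    refine hatEC_reflect (Fin.last _) (fun i ε => (g1 i ε).cls) c h3 ?_ ?_ fun i ε hi => ?_
    · rw [hc]; simp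
    · rw [hc]; simp
    · rw [hc, if_neg hi]
  obtain ⟨d, hd⟩ : ∃ d : Fin (m + 3) → Bool → PiGrp m X x₀, ∀ i ε, d i ε =
      if i = Fin.last _ then (if ε = true then (g i true).cls else t.cls) else 0 :=
    ⟨_, fun _ _ => rfl⟩
  have h5 : hatEC d := by
    refine hatEC_glue (Fin.last _) c (fun i ε => (g i ε).cls) d h4 ⟨g, fun _ _ => rfl, h⟩
      ?_ ?_ ?_ fun i ε hi => ?_
    · rw [hc, hg1]; simp
    · rw [hc, hd, hg1]; simp
    · rw [hd]; simp
    · rw [hc, hd, if_neg hi, if_neg hi, hg1, if_neg hi]
      abel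
  obtain ⟨g2, hg2, he2⟩ := h5
  have h6 := cls_eq_of_extH g2 ⟨g2, fun _ _ => rfl, he2⟩ (fun i ε hi => by
    rw [hg2, hd, if_neg hi])
  rw [hg2, hg2, hd, hd] at h6
  simp only [if_true, Bool.false_eq_true, if_false] at h6
  rw [ht, sub_eq_self] at h6
  rw [← hS]
  have h7 : ((-1 : ℤ) ^ (m + 2)) • (((-1 : ℤ) ^ (m + 2)) • S) = 0 := by rw [h6, smul_zero]
  rw [smul_smul, ← pow_add, ← two_mul, pow_mul] at h7
  simpa using h7

end Vale.Agent.P093.T
end

section

/-!
Skeleta of a simplex, the collapse of the lower skeleton, and the map from the cube to the simplex.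
-/

open Topology.Homotopy Set
open scoped unitInterval Topology

namespace Vale.Agent.P093.T

/-- support of a point of `W → ℝ` -/
noncomputable def spt {W : Type*} [Fintype W] (y : W → ℝ) : Finset W :=
  open Classical in Finset.univ.filter fun w => y w ≠ 0

/-- the `d`-skeleton of the simplex with vertex set `W` -/
def Sk (W : Type*) [Fintype W] (d : ℕ) : Set (W → ℝ) :=
  {y | y ∈ stdSimplex ℝ W ∧ (spt y).card ≤ d + 1}

/-- vertex of the simplex -/
noncomputable def vtx {W : Type*} (w : W) : W → ℝ := open Classical in Pi.single w 1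

theorem vtx_self {W : Type*} (w : W) : vtx w w = 1 := by
  simp [vtx]

theorem vtx_of_ne {W : Type*} {w v : W} (h : v ≠ w) : vtx w v = 0 := by
  simp [vtx, h]

theorem vtx_mem_Sk {W : Type*} [Fintype W] (w : W) (d : ℕ) : vtx w ∈ Sk W d := by
  classical
  refine ⟨⟨?_, ?_⟩, ?_⟩
  · intro v
    by_cases h : v = w
    · rw [h, vtx_self]; exact zero_le_one
    · rw [vtx_of_ne h]
  · rw [Finset.sum_eq_single w]
    · exact vtx_self w
    · intro v _ h
      exact vtx_of_ne h
    · intro h
      exact absurd (Finset.mem_univ w) h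
  · have h1 : spt (vtx w) ⊆ {w} := by
      intro v hv
      rw [Finset.mem_singleton]
      by_contra h
      have h2 : vtx w v ≠ 0 := (Finset.mem_filter.1 hv).2
      exact h2 (vtx_of_ne h)
    have h2 := Finset.card_le_card h1
    rw [Finset.card_singleton] at h2
    omega

variable {W : Type*} [Fintype W]

end Vale.Agent.P093.T
end

section

/-!
The collapse of the lower skeleton.
-/

open Topology.Homotopy Set
open scoped unitInterval Topology

namespace Vale.Agent.P093.T

variable {W : Type*} [Fintype W]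

/-! ### auxiliary functions for the collapse -/

/-- minimum of `1` and the coordinates in `T` -/
noncomputable def colMin (T : Finset W) (y : W → ℝ) : ℝ := T.fold min 1 y

/-- for `y` in the `(d+1)`-skeleton: the smallest of the `d+2` nonzero coordinates, `0` if there
are fewer of them -/
noncomputable def colNu (d : ℕ) (y : W → ℝ) : ℝ :=
  ∑ T ∈ (Finset.univ : Finset W).powersetCard (d + 2), colMin T y

theorem continuous_colMin (T : Finset W) : Continuous (fun y : W → ℝ => colMin T y) := by
  classical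
  induction T using Finset.induction_on with
  | empty =>
    simp only [colMin, Finset.fold_empty]
    exact continuous_const
  | insert a T ha ih =>
    simp only [colMin, Finset.fold_insert ha]
    exact (continuous_apply a).min ih

theorem continuous_colNu (d : ℕ) : Continuous (fun y : W → ℝ => colNu d y) :=
  continuous_finsetSum _ fun T _ => continuous_colMin T

theorem colMin_nonneg {T : Finset W} {y : W → ℝ} (h : ∀ w, 0 ≤ y w) : 0 ≤ colMin T y :=
  Finset.le_fold_min (c := 0) |>.2 ⟨zero_le_one, fun w _ => h w⟩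

theorem colMin_eq_zero {T : Finset W} {y : W → ℝ} (h : ∀ w, 0 ≤ y w) {w : W} (hw : w ∈ T)
    (h0 : y w = 0) : colMin T y = 0 :=
  le_antisymm (Finset.fold_min_le (c := 0) |>.2 (Or.inr ⟨w, hw, h0.le⟩)) (colMin_nonneg h)

theorem colMin_le {T : Finset W} {y : W → ℝ} {w : W} (hw : w ∈ T) : colMin T y ≤ y w :=
  Finset.fold_min_le _ |>.2 (Or.inr ⟨w, hw, le_rfl⟩)

theorem exists_colMin {T : Finset W} {y : W → ℝ} (h1 : ∀ w, y w ≤ 1) (hT : T.Nonempty) :
    ∃ w ∈ T, y w = colMin T y := by
  rcases Finset.fold_min_le (colMin T y) |>.1 (le_refl (colMin T y)) with h | ⟨w, hw, h⟩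
  · obtain ⟨w, hw⟩ := hT
    exact ⟨w, hw, le_antisymm ((h1 w).trans h) (colMin_le hw)⟩
  · exact ⟨w, hw, le_antisymm h (colMin_le hw)⟩

theorem mem_spt {y : W → ℝ} {w : W} : w ∈ spt y ↔ y w ≠ 0 := by
  simp [spt]

theorem colNu_nonneg (d : ℕ) {y : W → ℝ} (h : ∀ w, 0 ≤ y w) : 0 ≤ colNu d y :=
  Finset.sum_nonneg fun _ _ => colMin_nonneg h

theorem le_one_of_mem {y : W → ℝ} (h : y ∈ stdSimplex ℝ W) (w : W) : y w ≤ 1 := by
  rw [← h.2]
  exact Finset.single_le_sum (fun v _ => h.1 v) (Finset.mem_univ w)

theorem colNu_eq_zero {d : ℕ} {y : W → ℝ} (h : ∀ w, 0 ≤ y w) (hc : (spt y).card ≤ d + 1) :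
    colNu d y = 0 := by
  classical
  refine Finset.sum_eq_zero fun T hT => ?_
  have hT2 := (Finset.mem_powersetCard.1 hT).2
  obtain ⟨w, hw, hw2⟩ : ∃ w ∈ T, w ∉ spt y := by
    by_contra hno
    push Not at hno
    have := Finset.card_le_card (show T ⊆ spt y from hno)
    omega
  refine colMin_eq_zero h hw ?_
  by_contra h0
  exact hw2 (mem_spt.2 h0)

theorem colNu_eq {d : ℕ} {y : W → ℝ} (h : ∀ w, 0 ≤ y w) (hc : (spt y).card = d + 2) :
    colNu d y = colMin (spt y) y := by
  classical
  refine Finset.sum_eq_single (spt y) ?_ ?_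
  · intro T hT hne
    have hT2 := (Finset.mem_powersetCard.1 hT).2
    obtain ⟨w, hw, hw2⟩ : ∃ w ∈ T, w ∉ spt y := by
      by_contra hno
      push Not at hno
      exact hne (Finset.eq_of_subset_of_card_le hno (by omega))
    refine colMin_eq_zero h hw ?_
    by_contra h0
    exact hw2 (mem_spt.2 h0)
  · intro hno
    exact absurd (Finset.mem_powersetCard.2 ⟨Finset.subset_univ _, hc⟩) hno

/-- truncation -/
theorem sum_trunc {d : ℕ} {y : W → ℝ} (hy : y ∈ Sk W (d + 1)) {l : ℝ} (h0 : 0 ≤ l)
    (hl : l ≤ colNu d y) : ∑ w, max 0 (y w - l) = 1 - (d + 2) * l := by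
  classical
  obtain ⟨hy1, hc⟩ := hy
  rcases Nat.lt_or_ge (spt y).card (d + 2) with hlt | hge
  · rw [colNu_eq_zero hy1.1 (by omega)] at hl
    have hl0 : l = 0 := le_antisymm hl h0
    subst hl0
    rw [mul_zero, sub_zero, ← hy1.2]
    refine Finset.sum_congr rfl fun w _ => ?_
    rw [sub_zero, max_eq_right (hy1.1 w)]
  · have hceq : (spt y).card = d + 2 := by omega
    rw [colNu_eq hy1.1 hceq] at hl
    have h1 : ∀ w, max 0 (y w - l) = if w ∈ spt y then y w - l else 0 := by
      intro w
      split_ifs with hw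
      · exact max_eq_right (sub_nonneg.2 (hl.trans (colMin_le hw)))
      · have hw0 : y w = 0 := by
          by_contra h0
          exact hw (mem_spt.2 h0)
        rw [hw0]
        exact max_eq_left (by linarith)
    have h2 : ∑ w ∈ spt y, y w = 1 := by
      rw [← hy1.2]
      refine Finset.sum_subset (Finset.subset_univ _) fun w _ hw => ?_
      by_contra h0
      exact hw (mem_spt.2 h0)
    rw [Finset.sum_congr rfl fun w _ => h1 w, Finset.sum_ite_mem, Finset.univ_inter,
      Finset.sum_sub_distrib, h2, Finset.sum_const, hceq, nsmul_eq_mul]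
    push_cast
    ring

theorem spt_trunc_subset {y : W → ℝ} {l : ℝ} (h0 : 0 ≤ l) (c : ℝ) :
    spt (fun w => max 0 (y w - l) / c) ⊆ spt (fun w => max 0 (y w)) := by
  intro w hw
  rw [mem_spt] at hw ⊢
  intro h
  apply hw
  have h1 : y w ≤ 0 := by
    have := le_max_right 0 (y w)
    rw [h] at this
    exact this
  have h2 : max 0 (y w - l) = 0 := max_eq_left (by linarith)
  simp only [h2, zero_div]

theorem card_spt_trunc {d : ℕ} {y : W → ℝ} (hy : y ∈ Sk W (d + 1)) {l : ℝ} (h0 : 0 ≤ l) (c : ℝ) :
    spt (fun w => max 0 (y w - l) / c) ⊆ spt y := by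
  intro w hw
  have h1 := spt_trunc_subset h0 c hw
  rw [mem_spt] at h1 ⊢
  intro h
  apply h1
  simp only [h, max_self]

theorem card_spt_trunc_lt {d : ℕ} {y : W → ℝ} (hy : y ∈ Sk W (d + 1)) (c : ℝ) :
    (spt (fun w => max 0 (y w - colNu d y) / c)).card ≤ d + 1 := by
  classical
  have hsub := card_spt_trunc hy (colNu_nonneg d hy.1.1) c
  rcases Nat.lt_or_ge (spt y).card (d + 2) with hlt | hge
  · have := Finset.card_le_card hsub
    omega
  · have hceq : (spt y).card = d + 2 := by
      have := hy.2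
      omega
    obtain ⟨w, hw, hw2⟩ := exists_colMin (T := spt y) (y := y) (le_one_of_mem hy.1)
      (Finset.card_pos.1 (by omega))
    rw [← colNu_eq hy.1.1 hceq] at hw2
    have h1 : w ∉ spt (fun w => max 0 (y w - colNu d y) / c) := by
      rw [mem_spt, not_not]
      simp only [hw2, sub_self, max_self, zero_div]
    have h2 : spt (fun w => max 0 (y w - colNu d y) / c) ⊆ (spt y).erase w := by
      intro v hv
      rw [Finset.mem_erase]
      refine ⟨?_, hsub hv⟩
      rintro rfl
      exact h1 hv
    have h3 := Finset.card_le_card h2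
    rw [Finset.card_erase_of_mem hw] at h3
    omega

/-- clamped time -/
noncomputable def colT (t : ℝ) : ℝ := max 0 (min 1 t)

/-- the truncation level -/
noncomputable def colL (d : ℕ) (t : ℝ) (y : W → ℝ) : ℝ :=
  min (colNu d y) (colT t * (1 / (2 * ((d : ℝ) + 2))))

/-- the weight -/
noncomputable def colTh (d : ℕ) (t : ℝ) (y : W → ℝ) : ℝ :=
  1 - colT t + colL d t y * (2 * ((d : ℝ) + 2))

/-- the deformation, as a function to `W → ℝ` -/
noncomputable def colR (d : ℕ) (w₀ : W) (t : ℝ) (y : W → ℝ) : W → ℝ := fun w =>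
  colTh d t y * (max 0 (y w - colL d t y) / (1 - ((d : ℝ) + 2) * colL d t y)) +
    (1 - colTh d t y) * vtx w₀ w

theorem colT_nonneg (t : ℝ) : 0 ≤ colT t := le_max_left _ _

theorem colT_le_one (t : ℝ) : colT t ≤ 1 := max_le zero_le_one (min_le_left _ _)

theorem continuous_colT : Continuous colT := continuous_const.max (continuous_const.min continuous_id)

theorem colL_le (d : ℕ) (t : ℝ) (y : W → ℝ) : colL d t y * (2 * ((d : ℝ) + 2)) ≤ colT t := by
  have hd : (0 : ℝ) < 2 * ((d : ℝ) + 2) := by positivity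
  have h1 : colL d t y ≤ colT t * (1 / (2 * ((d : ℝ) + 2))) := min_le_right _ _
  have h2 := mul_le_mul_of_nonneg_right h1 hd.le
  have h3 : colT t * (1 / (2 * ((d : ℝ) + 2))) * (2 * ((d : ℝ) + 2)) = colT t := by
    field_simp
  linarith

theorem colL_nonneg (d : ℕ) (t : ℝ) {y : W → ℝ} (h : ∀ w, 0 ≤ y w) : 0 ≤ colL d t y :=
  le_min (colNu_nonneg d h) (mul_nonneg (colT_nonneg t) (by positivity))

theorem colDen_pos (d : ℕ) (t : ℝ) (y : W → ℝ) : 0 < 1 - ((d : ℝ) + 2) * colL d t y := by
  have h1 := colL_le d t y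
  have h2 := colT_le_one t
  nlinarith

theorem colTh_nonneg (d : ℕ) (t : ℝ) {y : W → ℝ} (h : ∀ w, 0 ≤ y w) : 0 ≤ colTh d t y := by
  have h1 := colT_le_one t
  have h2 : 0 ≤ colL d t y * (2 * ((d : ℝ) + 2)) := mul_nonneg (colL_nonneg d t h) (by positivity)
  unfold colTh
  linarith

theorem colTh_le_one (d : ℕ) (t : ℝ) (y : W → ℝ) : colTh d t y ≤ 1 := by
  have h1 := colL_le d t y
  unfold colTh
  linarith

theorem colR_mem (d : ℕ) (w₀ : W) (t : ℝ) {y : W → ℝ} (hy : y ∈ Sk W (d + 1)) :
    colR d w₀ t y ∈ Sk W (d + 1) := by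
  classical
  have hl0 := colL_nonneg d t hy.1.1
  have hlν : colL d t y ≤ colNu d y := min_le_left _ _
  have hden := colDen_pos d t y
  have hth0 := colTh_nonneg d t hy.1.1
  have hth1 := colTh_le_one d t y
  have hsum := sum_trunc hy hl0 hlν
  have hv := vtx_mem_Sk w₀ d
  have hg : (fun w => max 0 (y w - colL d t y) / (1 - ((d : ℝ) + 2) * colL d t y)) ∈
      stdSimplex ℝ W := by
    refine ⟨fun w => div_nonneg (le_max_left _ _) hden.le, ?_⟩
    rw [← Finset.sum_div, hsum, div_self hden.ne']
  refine ⟨⟨?_, ?_⟩, ?_⟩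
  · intro w
    exact add_nonneg (mul_nonneg hth0 (hg.1 w)) (mul_nonneg (by linarith) (hv.1.1 w))
  · simp only [colR]
    rw [Finset.sum_add_distrib, ← Finset.mul_sum, ← Finset.mul_sum, hg.2, hv.1.2]
    ring
  · by_cases hth : colTh d t y = 1
    · have h1 : spt (colR d w₀ t y) ⊆ spt y := by
        intro w hw
        have h2 : w ∈ spt (fun w => max 0 (y w - colL d t y) /
            (1 - ((d : ℝ) + 2) * colL d t y)) := by
          rw [mem_spt] at hw ⊢
          intro h3
          apply hw
          simp only [colR, h3, hth, sub_self, zero_mul, mul_zero, add_zero]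
        exact card_spt_trunc hy hl0 _ h2
      exact (Finset.card_le_card h1).trans hy.2
    · have hlt : colTh d t y < 1 := lt_of_le_of_ne hth1 hth
      have hlam : colL d t y = colNu d y := by
        rcases min_choice (colNu d y) (colT t * (1 / (2 * ((d : ℝ) + 2)))) with h | h
        · exact h
        · exfalso
          have h1 : colL d t y = colT t * (1 / (2 * ((d : ℝ) + 2))) := h
          have hd : (0 : ℝ) < 2 * ((d : ℝ) + 2) := by positivity
          have h3 : colT t * (1 / (2 * ((d : ℝ) + 2))) * (2 * ((d : ℝ) + 2)) = colT t := by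
            field_simp
          apply hth
          unfold colTh
          rw [h1, h3]
          ring
      have h1 : spt (colR d w₀ t y) ⊆ insert w₀ (spt (fun w => max 0 (y w - colNu d y) /
            (1 - ((d : ℝ) + 2) * colL d t y))) := by
        intro w hw
        rw [Finset.mem_insert]
        by_cases hw0 : w = w₀
        · exact Or.inl hw0
        · right
          rw [mem_spt] at hw ⊢
          intro h3
          apply hw
          simp only [colR]
          rw [hlam] at h3 ⊢
          rw [h3, vtx_of_ne hw0]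
          ring
      have h2 := Finset.card_le_card h1
      have h3 := Finset.card_insert_le w₀ (spt (fun w => max 0 (y w - colNu d y) /
            (1 - ((d : ℝ) + 2) * colL d t y)))
      have h4 := card_spt_trunc_lt hy (1 - ((d : ℝ) + 2) * colL d t y)
      omega

theorem continuous_colL (d : ℕ) : Continuous fun z : ℝ × (W → ℝ) => colL d z.1 z.2 :=
  ((continuous_colNu d).comp continuous_snd).min
    ((continuous_colT.comp continuous_fst).mul continuous_const)

theorem continuous_colR (d : ℕ) (w₀ : W) :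
    Continuous fun z : ℝ × (W → ℝ) => colR d w₀ z.1 z.2 := by
  have hL := continuous_colL (W := W) d
  have hTh : Continuous fun z : ℝ × (W → ℝ) => colTh d z.1 z.2 :=
    (continuous_const.sub (continuous_colT.comp continuous_fst)).add (hL.mul continuous_const)
  refine continuous_pi fun w => ?_
  refine (hTh.mul ?_).add ((continuous_const.sub hTh).mul continuous_const)
  refine Continuous.div ?_ (continuous_const.sub (continuous_const.mul hL)) ?_
  · exact continuous_const.max (((continuous_apply w).comp continuous_snd).sub hL)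
  · intro z
    exact (colDen_pos d z.1 z.2).ne'

/-- The `d`-skeleton inside the `(d+1)`-skeleton can be deformed to the vertex `w₀`, by a
deformation `R` of the `(d+1)`-skeleton. With `s = 1/(2(d+2))`, `ν y` = the `(d+2)`-nd largest
coordinate of `y` (maximum over the `(d+2)`-subsets of the minimum over the subset, `0` if there is
none), `t` clamped to `[0,1]`, `λ = min (ν y) (t s)`, `θ = 1 - t + λ / s`:
`R t y = θ • (fun w => max 0 (y w - λ)) / (1 - (d+2) λ) + (1 - θ) • vtx w₀`. -/
theorem exists_collapse (d : ℕ) (w₀ : W) :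
    ∃ R : ℝ → Sk W (d + 1) → Sk W (d + 1), Continuous (fun z : ℝ × Sk W (d + 1) => R z.1 z.2) ∧
      (∀ y, R 0 y = y) ∧
      ∀ y : Sk W (d + 1), (y : W → ℝ) ∈ Sk W d → ((R 1 y : Sk W (d + 1)) : W → ℝ) = vtx w₀ := by
  refine ⟨fun t y => ⟨colR d w₀ t y, colR_mem d w₀ t y.2⟩, ?_, ?_, ?_⟩
  · refine Continuous.subtype_mk ?_ _
    exact (continuous_colR d w₀).comp
      (continuous_fst.prodMk (continuous_subtype_val.comp continuous_snd))
  · intro y
    apply Subtype.ext
    funext w
    have hT : colT 0 = 0 := by simp [colT]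
    have hν := colNu_nonneg d y.2.1.1
    have hL : colL d 0 (y : W → ℝ) = 0 := by
      simp only [colL, hT, zero_mul]
      exact min_eq_right hν
    have hyw : 0 ≤ (y : W → ℝ) w := y.2.1.1 w
    simp only [colR, colTh, hL, hT, sub_zero, zero_mul, mul_zero, add_zero, sub_self, one_mul,
      div_one, max_eq_right hyw]
  · intro y hy
    funext w
    have hT : colT 1 = 1 := by simp [colT]
    have hL : colL d 1 (y : W → ℝ) = 0 := by
      simp only [colL, colNu_eq_zero y.2.1.1 hy.2]
      exact min_eq_left (mul_nonneg (colT_nonneg 1) (by positivity))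
    simp only [colR, colTh, hL, hT, sub_self, zero_mul, add_zero, sub_zero, one_mul, zero_add]

/-- the chosen deformation -/
noncomputable def collapse (d : ℕ) (w₀ : W) : ℝ → Sk W (d + 1) → Sk W (d + 1) :=
  (exists_collapse d w₀).choose

end Vale.Agent.P093.T
end

section

/-!
The map from the cube to the simplex.
-/

open Topology.Homotopy Set
open scoped unitInterval Topology

namespace Vale.Agent.P093.T

/-- clamping to `[0,1]` -/
noncomputable def clamp (t : ℝ) : ℝ := max 0 (min 1 t)

/-- the map from the cube `[0,1]^k` onto the simplex with vertices `0,…,k` -/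
noncomputable def qmap (k : ℕ) (x : Fin k → ℝ) (j : Fin (k + 1)) : ℝ :=
  (∏ i : Fin k, if i.val < j.val then clamp (x i) else 1) *
    (if h : j.val < k then 1 - clamp (x ⟨j.val, h⟩) else 1)

theorem clamp_nonneg (t : ℝ) : 0 ≤ clamp t := le_max_left _ _

theorem clamp_le_one (t : ℝ) : clamp t ≤ 1 := max_le zero_le_one (min_le_left _ _)

theorem clamp_of_nonpos {t : ℝ} (h : t ≤ 0) : clamp t = 0 :=
  max_eq_left ((min_le_right _ _).trans h)

theorem clamp_of_one_le {t : ℝ} (h : 1 ≤ t) : clamp t = 1 := by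
  unfold clamp
  rw [min_eq_left h]
  exact max_eq_right zero_le_one

theorem clamp_of_mem {t : ℝ} (h0 : 0 ≤ t) (h1 : t ≤ 1) : clamp t = t := by
  unfold clamp
  rw [min_eq_right h1]
  exact max_eq_right h0

theorem continuous_clamp : Continuous clamp :=
  continuous_const.max (continuous_const.min continuous_id)

/-- the clamped coordinates as a sequence, continued by zero -/
noncomputable def qext (k : ℕ) (x : Fin k → ℝ) (i : ℕ) : ℝ :=
  if h : i < k then clamp (x ⟨i, h⟩) else 0

theorem qext_lt {k : ℕ} (x : Fin k → ℝ) {i : ℕ} (h : i < k) : qext k x i = clamp (x ⟨i, h⟩) := by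
  unfold qext
  rw [dif_pos h]

theorem qext_ge {k : ℕ} (x : Fin k → ℝ) {i : ℕ} (h : k ≤ i) : qext k x i = 0 := by
  unfold qext
  rw [dif_neg (not_lt.2 h)]

theorem qext_nonneg {k : ℕ} (x : Fin k → ℝ) (i : ℕ) : 0 ≤ qext k x i := by
  unfold qext
  split_ifs
  · exact clamp_nonneg _
  · exact le_rfl

theorem qext_le_one {k : ℕ} (x : Fin k → ℝ) (i : ℕ) : qext k x i ≤ 1 := by
  unfold qext
  split_ifs
  · exact clamp_le_one _
  · exact zero_le_one

theorem qmap_eq (k : ℕ) (x : Fin k → ℝ) (j : Fin (k + 1)) :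
    qmap k x j = (∏ i ∈ Finset.range j.val, qext k x i) * (1 - qext k x j.val) := by
  unfold qmap
  congr 1
  · have h1 : (∏ i : Fin k, if i.val < j.val then clamp (x i) else 1) =
        ∏ i : Fin k, (fun n : ℕ => if n < j.val then qext k x n else 1) i.val := by
      apply Finset.prod_congr rfl
      intro i _
      simp only []
      rw [qext_lt x i.isLt]
    rw [h1, Fin.prod_univ_eq_prod_range (fun n : ℕ => if n < j.val then qext k x n else 1) k]
    rw [← Finset.prod_filter]
    apply Finset.prod_congr _ (fun _ _ => rfl)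
    ext n
    simp only [Finset.mem_filter, Finset.mem_range]
    have := j.isLt
    omega
  · split_ifs with h
    · rw [qext_lt x h]
    · rw [qext_ge x (not_lt.1 h), sub_zero]

theorem qmap_mem (k : ℕ) (x : Fin k → ℝ) : qmap k x ∈ stdSimplex ℝ (Fin (k + 1)) := by
  constructor
  · intro j
    rw [qmap_eq]
    apply mul_nonneg
    · exact Finset.prod_nonneg (fun i _ => qext_nonneg x i)
    · have := qext_le_one x j.val
      linarith
  · have h1 : ∑ j : Fin (k + 1), qmap k x j = ∑ j : Fin (k + 1),
        (fun n : ℕ => (∏ i ∈ Finset.range n, qext k x i) -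
          ∏ i ∈ Finset.range (n + 1), qext k x i) j.val := by
      apply Finset.sum_congr rfl
      intro j _
      rw [qmap_eq]
      simp only []
      rw [Finset.prod_range_succ]
      ring
    rw [h1, Fin.sum_univ_eq_sum_range (fun n : ℕ => (∏ i ∈ Finset.range n, qext k x i) -
          ∏ i ∈ Finset.range (n + 1), qext k x i) (k + 1),
      Finset.sum_range_sub' (fun n : ℕ => ∏ i ∈ Finset.range n, qext k x i)]
    rw [Finset.prod_range_zero, Finset.prod_range_succ, qext_ge x le_rfl]
    ring

theorem continuous_qmap (k : ℕ) : Continuous (qmap k) := by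
  apply continuous_pi
  intro j
  unfold qmap
  apply Continuous.mul
  · apply continuous_finsetProd
    intro i _
    split_ifs
    · exact continuous_clamp.comp (continuous_apply i)
    · exact continuous_const
  · split_ifs with h
    · exact continuous_const.sub (continuous_clamp.comp (continuous_apply _))
    · exact continuous_const

/-- points off the open cube go to the boundary of the simplex -/
theorem qmap_bdry (k : ℕ) (x : Fin k → ℝ) (hx : x ∉ openCube k) (hk : 1 ≤ k) :
    ∃ j, qmap k x j = 0 := by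
  have h1 : ∃ i, ¬ (0 < x i ∧ x i < 1) := by
    by_contra hcon
    push Not at hcon
    apply hx
    intro i
    by_contra h
    exact absurd (hcon i) (fun h' => h h')
  obtain ⟨i, hi⟩ := h1
  rcases lt_or_ge 0 (x i) with h0 | h0
  · have h1 : 1 ≤ x i := by
      by_contra h
      exact hi ⟨h0, not_le.1 h⟩
    refine ⟨i.castSucc, ?_⟩
    rw [qmap_eq]
    have : qext k x (i.castSucc).val = 1 := by
      rw [Fin.val_castSucc, qext_lt x i.isLt]
      exact clamp_of_one_le h1
    rw [this]
    ring
  · refine ⟨Fin.last k, ?_⟩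
    rw [qmap_eq]
    have : ∏ n ∈ Finset.range (Fin.last k).val, qext k x n = 0 := by
      apply Finset.prod_eq_zero (i := i.val)
      · rw [Finset.mem_range, Fin.val_last]
        exact i.isLt
      · rw [qext_lt x i.isLt]
        exact clamp_of_nonpos h0
    rw [this, zero_mul]

/-- `qmap` is onto -/
theorem qmap_surj (k : ℕ) (z : Fin (k + 1) → ℝ) (hz : z ∈ stdSimplex ℝ (Fin (k + 1))) :
    ∃ x : Fin k → ℝ, (∀ i, 0 ≤ x i ∧ x i ≤ 1) ∧ qmap k x = z := by
  classical
  -- the sequence version of `z` and its tails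
  set w : ℕ → ℝ := fun n => if h : n < k + 1 then z ⟨n, h⟩ else 0 with hw
  have hwnn : ∀ n, 0 ≤ w n := by
    intro n
    simp only [hw]
    split_ifs
    · exact hz.1 _
    · exact le_rfl
  have hwsum : ∑ n ∈ Finset.range (k + 1), w n = 1 := by
    rw [← Fin.sum_univ_eq_sum_range, ← hz.2]
    apply Finset.sum_congr rfl
    intro j _
    simp only [hw, j.isLt, dif_pos]
  set R : ℕ → ℝ := fun n => 1 - ∑ i ∈ Finset.range n, w i with hR
  have hRs : ∀ n, R (n + 1) = R n - w n := by
    intro n
    simp only [hR, Finset.sum_range_succ]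
    ring
  have hR0 : R 0 = 1 := by simp [hR]
  have hRk : R (k + 1) = 0 := by
    simp only [hR]
    rw [hwsum]
    ring
  have hRnn : ∀ n, n ≤ k + 1 → 0 ≤ R n := by
    intro n hn
    simp only [hR]
    have : ∑ i ∈ Finset.range n, w i ≤ ∑ i ∈ Finset.range (k + 1), w i :=
      Finset.sum_le_sum_of_subset_of_nonneg (Finset.range_mono hn) (fun i _ _ => hwnn i)
    linarith
  set c : ℕ → ℝ := fun n => R (n + 1) / R n with hc
  have hcb : ∀ n, n ≤ k → 0 ≤ c n ∧ c n ≤ 1 := by
    intro n hn
    have h1 := hRnn n (by omega)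
    have h2 := hRnn (n + 1) (by omega)
    have h3 := hRs n
    have h4 := hwnn n
    refine ⟨div_nonneg h2 h1, div_le_one_of_le₀ (by linarith) h1⟩
  have hRc : ∀ n, n ≤ k → R n * c n = R (n + 1) := by
    intro n hn
    simp only [hc]
    by_cases h : R n = 0
    · have h2 := hRnn (n + 1) (by omega)
      have h3 := hRs n
      have h4 := hwnn n
      rw [h]
      have : R (n + 1) = 0 := by
        rw [h] at h3
        linarith
      rw [this]
      ring
    · field_simp
  have hx : ∀ n, n ≤ k → qext k (fun i : Fin k => c i.val) n = c n := by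
    intro n hn
    rcases lt_or_eq_of_le hn with h | h
    · rw [qext_lt _ h]
      exact clamp_of_mem (hcb n hn).1 (hcb n hn).2
    · subst h
      rw [qext_ge _ le_rfl]
      simp only [hc]
      rw [hRk, zero_div]
  have hP : ∀ n, n ≤ k + 1 →
      ∏ i ∈ Finset.range n, qext k (fun i : Fin k => c i.val) i = R n := by
    intro n
    induction n with
    | zero => intro _; rw [Finset.prod_range_zero, hR0]
    | succ n ih =>
      intro hn
      rw [Finset.prod_range_succ, ih (by omega), hx n (by omega), hRc n (by omega)]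
  refine ⟨fun i => c i.val, fun i => hcb i.val (by omega), ?_⟩
  funext j
  have hj : j.val ≤ k := by
    have := j.isLt
    omega
  rw [qmap_eq, hP j.val (by omega), hx j.val hj, mul_sub, mul_one, hRc j.val hj, hRs]
  simp only [hw, j.isLt, dif_pos]
  ring

theorem qext_insert_lt {k : ℕ} (i : Fin (k + 1)) (t : ℝ) (y : Fin k → ℝ) {n : ℕ}
    (hn : n < i.val) : qext (k + 1) (Fin.insertNth i t y) n = qext k y n := by
  have h1 : n < k + 1 := by
    have := i.isLt
    omega
  have h2 : n < k := by
    have := i.isLt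
    omega
  rw [qext_lt _ h1, qext_lt _ h2]
  have h3 : (⟨n, h1⟩ : Fin (k + 1)) = i.succAbove ⟨n, h2⟩ := by
    rw [Fin.succAbove_of_castSucc_lt]
    · rfl
    · rw [Fin.lt_def]
      exact hn
  rw [h3, Fin.insertNth_apply_succAbove]

theorem qext_insert_same {k : ℕ} (i : Fin (k + 1)) (t : ℝ) (y : Fin k → ℝ) :
    qext (k + 1) (Fin.insertNth i t y) i.val = clamp t := by
  rw [qext_lt _ i.isLt]
  have h3 : (⟨i.val, i.isLt⟩ : Fin (k + 1)) = i := rfl
  rw [h3, Fin.insertNth_apply_same]

theorem qext_insert_gt {k : ℕ} (i : Fin (k + 1)) (t : ℝ) (y : Fin k → ℝ) {n : ℕ}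
    (hn : i.val ≤ n) : qext (k + 1) (Fin.insertNth i t y) (n + 1) = qext k y n := by
  rcases lt_or_ge n k with h | h
  · have h1 : n + 1 < k + 1 := by omega
    rw [qext_lt _ h1, qext_lt _ h]
    have h3 : (⟨n + 1, h1⟩ : Fin (k + 1)) = i.succAbove ⟨n, h⟩ := by
      rw [Fin.succAbove_of_le_castSucc]
      · rfl
      · rw [Fin.le_def]
        exact hn
    rw [h3, Fin.insertNth_apply_succAbove]
  · rw [qext_ge _ h, qext_ge _ (by omega)]

theorem qprod_insert_le {k : ℕ} (i : Fin (k + 1)) (t : ℝ) (y : Fin k → ℝ) {n : ℕ}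
    (hn : n ≤ i.val) : ∏ m ∈ Finset.range n, qext (k + 1) (Fin.insertNth i t y) m =
      ∏ m ∈ Finset.range n, qext k y m := by
  apply Finset.prod_congr rfl
  intro m hm
  rw [Finset.mem_range] at hm
  exact qext_insert_lt i t y (by omega)

theorem qprod_insert_gt {k : ℕ} (i : Fin (k + 1)) (t : ℝ) (y : Fin k → ℝ) {n : ℕ}
    (hn : i.val ≤ n) : ∏ m ∈ Finset.range (n + 1), qext (k + 1) (Fin.insertNth i t y) m =
      clamp t * ∏ m ∈ Finset.range n, qext k y m := by
  induction n with
  | zero =>
    have h0 : i.val = 0 := by omega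
    rw [Finset.prod_range_succ, Finset.prod_range_zero, Finset.prod_range_zero]
    have := qext_insert_same i t y
    rw [h0] at this
    rw [this]
    ring
  | succ n ih =>
    rcases Nat.lt_or_ge n i.val with h | h
    · have h0 : i.val = n + 1 := by omega
      rw [Finset.prod_range_succ, qprod_insert_le i t y (by omega)]
      have := qext_insert_same i t y
      rw [h0] at this
      rw [this]
      ring
    · rw [Finset.prod_range_succ, ih h, qext_insert_gt i t y h, Finset.prod_range_succ]
      ring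

/-- the face `x_i = 1` of the cube goes to the face `i` of the simplex -/
theorem qmap_one (k : ℕ) (i : Fin (k + 1)) (y : Fin k → ℝ) :
    qmap (k + 1) (Fin.insertNth i 1 y) = Fin.insertNth (Fin.castSucc i) 0 (qmap k y) := by
  have h1 : clamp 1 = 1 := clamp_of_one_le le_rfl
  funext j
  rcases Fin.eq_self_or_eq_succAbove (Fin.castSucc i) j with rfl | ⟨j', rfl⟩
  · rw [Fin.insertNth_apply_same, qmap_eq, Fin.val_castSucc, qext_insert_same, h1]
    ring
  · rw [Fin.insertNth_apply_succAbove, qmap_eq, qmap_eq]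
    rcases lt_or_ge j'.val i.val with h | h
    · rw [Fin.succAbove_of_castSucc_lt _ _ (by rw [Fin.lt_def]; exact h), Fin.val_castSucc,
        qprod_insert_le i 1 y h.le, qext_insert_lt i 1 y h]
    · rw [Fin.succAbove_of_le_castSucc _ _ (by rw [Fin.le_def]; exact h), Fin.val_succ,
        qprod_insert_gt i 1 y h, qext_insert_gt i 1 y h, h1, one_mul]

/-- the last face `x_k = 0` of the cube goes to the last face of the simplex -/
theorem qmap_last (k : ℕ) (y : Fin k → ℝ) :
    qmap (k + 1) (Fin.insertNth (Fin.last k) 0 y) =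
      Fin.insertNth (Fin.last (k + 1)) 0 (qmap k y) := by
  have h1 : clamp 0 = 0 := clamp_of_nonpos le_rfl
  funext j
  rcases Fin.eq_self_or_eq_succAbove (Fin.last (k + 1)) j with rfl | ⟨j', rfl⟩
  · rw [Fin.insertNth_apply_same, qmap_eq, Fin.val_last,
      qprod_insert_gt (Fin.last k) 0 y (by rw [Fin.val_last]), h1]
    ring
  · rw [Fin.insertNth_apply_succAbove, qmap_eq, qmap_eq, Fin.succAbove_last, Fin.val_castSucc]
    have hj : j'.val ≤ k := by
      have := j'.isLt
      omega
    rw [qprod_insert_le (Fin.last k) 0 y (by rw [Fin.val_last]; exact hj)]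
    rcases lt_or_eq_of_le hj with h | h
    · rw [qext_insert_lt (Fin.last k) 0 y (by rw [Fin.val_last]; exact h)]
    · have h2 := qext_insert_same (Fin.last k) 0 y
      rw [Fin.val_last] at h2
      rw [h, h2, h1, qext_ge y le_rfl]

/-- the other faces `x_i = 0` go to faces of codimension two -/
theorem qmap_zero (k : ℕ) (i : Fin (k + 1)) (hi : i ≠ Fin.last k) (y : Fin k → ℝ) :
    qmap (k + 1) (Fin.insertNth i 0 y) (Fin.last (k + 1)) = 0 ∧
      qmap (k + 1) (Fin.insertNth i 0 y) (Fin.castSucc (Fin.last k)) = 0 := by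
  have h1 : clamp 0 = 0 := clamp_of_nonpos le_rfl
  have hik : i.val < k := by
    rcases lt_or_eq_of_le (Nat.lt_succ_iff.1 i.isLt) with h | h
    · exact h
    · exact absurd (Fin.ext (by rw [h, Fin.val_last])) hi
  constructor
  · rw [qmap_eq, Fin.val_last, Finset.prod_eq_zero (i := i.val), zero_mul]
    · rw [Finset.mem_range]
      exact i.isLt
    · rw [qext_insert_same, h1]
  · rw [qmap_eq, Fin.val_castSucc, Fin.val_last, Finset.prod_eq_zero (i := i.val), zero_mul]
    · rw [Finset.mem_range]
      exact hik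
    · rw [qext_insert_same, h1]

end Vale.Agent.P093.T
end

section

/-!
Maps on the cube descend to the simplex.
-/

open Topology.Homotopy Set
open scoped unitInterval Topology

namespace Vale.Agent.P093.T

theorem clamp_of_mem_descend {t : ℝ} (h0 : 0 ≤ t) (h1 : t ≤ 1) : clamp t = t := by
  unfold clamp
  rw [min_eq_right h1, max_eq_right h0]

/-- a point of the cube with positive coordinates is determined by its image under `qmap` -/
theorem qmap_inj_pos_descend (k : ℕ) (x x' : Fin k → ℝ) (hx : ∀ i, 0 ≤ x i ∧ x i ≤ 1)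
    (hx' : ∀ i, 0 ≤ x' i ∧ x' i ≤ 1) (hpos : ∀ i, 0 < x i) (h : qmap k x = qmap k x') :
    x = x' := by
  have key : ∀ n : ℕ, ∀ hn : n < k, x ⟨n, hn⟩ = x' ⟨n, hn⟩ := by
    intro n
    induction n using Nat.strong_induction_on with
    | _ n ih =>
      intro hn
      have h1 : qmap k x ⟨n, by omega⟩ = qmap k x' ⟨n, by omega⟩ := by rw [h]
      unfold qmap at h1
      simp only [hn, dite_true] at h1
      have hprod : (∏ i : Fin k, if i.val < n then clamp (x' i) else 1) =
          ∏ i : Fin k, if i.val < n then clamp (x i) else 1 := by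
        apply Finset.prod_congr rfl
        intro i _
        by_cases hi : i.val < n
        · rw [if_pos hi, if_pos hi]
          have := ih i.val hi i.isLt
          rw [show x' i = x i from this.symm]
        · rw [if_neg hi, if_neg hi]
      have hP : 0 < ∏ i : Fin k, if i.val < n then clamp (x i) else 1 := by
        apply Finset.prod_pos
        intro i _
        by_cases hi : i.val < n
        · rw [if_pos hi, clamp_of_mem_descend (hx i).1 (hx i).2]
          exact hpos i
        · rw [if_neg hi]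
          exact one_pos
      rw [hprod] at h1
      have h2 := mul_left_cancel₀ hP.ne' h1
      rw [clamp_of_mem_descend (hx _).1 (hx _).2, clamp_of_mem_descend (hx' _).1 (hx' _).2] at h2
      linarith
  funext i
  exact key i.val i.isLt

/-- A continuous map on the cube which is constant on the part of the fibres of `qmap` in the
boundary descends to the simplex (`qmap` is a quotient map, injective over the interior). -/
theorem descend {Y : Type*} [TopologicalSpace Y] (k : ℕ) (F : (Fin k → ℝ) → Y)
    (hF : Continuous F)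
    (hfib : ∀ x x' : Fin k → ℝ, (∀ i, 0 ≤ x i ∧ x i ≤ 1) → (∀ i, 0 ≤ x' i ∧ x' i ≤ 1) →
      x ∉ openCube k → x' ∉ openCube k → qmap k x = qmap k x' → F x = F x') :
    ∃ f : stdSimplex ℝ (Fin (k + 1)) → Y, Continuous f ∧
      ∀ x : Fin k → ℝ, (∀ i, 0 ≤ x i ∧ x i ≤ 1) → f ⟨qmap k x, qmap_mem k x⟩ = F x := by
  classical
  have hfib' : ∀ x x' : Fin k → ℝ, (∀ i, 0 ≤ x i ∧ x i ≤ 1) → (∀ i, 0 ≤ x' i ∧ x' i ≤ 1) →
      qmap k x = qmap k x' → F x = F x' := by
    intro x x' hx hx' h
    by_cases h1 : x ∈ openCube k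
    · rw [qmap_inj_pos_descend k x x' hx hx' (fun i => (h1 i).1) h]
    · by_cases h2 : x' ∈ openCube k
      · rw [qmap_inj_pos_descend k x' x hx' hx (fun i => (h2 i).1) h.symm]
      · exact hfib x x' hx hx' h1 h2 h
  let K : Set (Fin k → ℝ) := Set.Icc 0 1
  have hK : ∀ x : Fin k → ℝ, x ∈ K ↔ ∀ i, 0 ≤ x i ∧ x i ≤ 1 := by
    intro x
    constructor
    · intro h i
      exact ⟨h.1 i, h.2 i⟩
    · intro h
      exact ⟨fun i => (h i).1, fun i => (h i).2⟩
  have : CompactSpace K := isCompact_iff_compactSpace.mp isCompact_Icc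
  let q : K → stdSimplex ℝ (Fin (k + 1)) := fun x => ⟨qmap k x.1, qmap_mem k x.1⟩
  have hq : Continuous q :=
    Continuous.subtype_mk ((continuous_qmap k).comp continuous_subtype_val) _
  have hsurj : ∀ z : stdSimplex ℝ (Fin (k + 1)), ∃ x : K, q x = z := by
    intro z
    obtain ⟨x, hx, hxz⟩ := qmap_surj k z.1 z.2
    exact ⟨⟨x, (hK x).2 hx⟩, Subtype.ext hxz⟩
  have hquot := IsClosedMap.isQuotientMap hq.isClosedMap hq hsurj
  choose s hs using hsurj
  have hcomp : ∀ x : K, F (s (q x)).1 = F x.1 := by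
    intro x
    apply hfib' _ _ ((hK _).1 (s (q x)).2) ((hK _).1 x.2)
    exact congrArg Subtype.val (hs (q x))
  refine ⟨fun z => F (s z).1, ?_, ?_⟩
  · rw [hquot.continuous_iff]
    have : ((fun z => F (s z).1) ∘ q) = fun x : K => F x.1 := by
      funext x
      exact hcomp x
    rw [this]
    exact hF.comp continuous_subtype_val
  · intro x hx
    exact hcomp ⟨x, (hK x).2 hx⟩

end Vale.Agent.P093.T
end

section

/-!
Maps of a disk (the simplex with `m + 3` vertices) to the `(m+2)`-skeleton of the simplex with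
vertex set `W`, their classes in `π_{m+2}`, the filling criterion and the insertion of spheres.
-/

open Topology.Homotopy Set
open scoped unitInterval Topology

namespace Vale.Agent.P093.T

variable {W : Type*} [Fintype W] {m : ℕ}

/-- A continuous map from the simplex with `m + 3` vertices to the `(m+2)`-skeleton of the simplex
on `W`, the boundary going to the `(m+1)`-skeleton. -/
structure DiskMap (m : ℕ) (W : Type*) [Fintype W] where
  /-- the map -/
  toFun : stdSimplex ℝ (Fin (m + 3)) → Sk W (m + 2)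
  cont : Continuous toFun
  bdry : ∀ z : stdSimplex ℝ (Fin (m + 3)), (∃ i, z.1 i = 0) → (toFun z : W → ℝ) ∈ Sk W (m + 1)

/-- the base point -/
noncomputable def base (m : ℕ) (w₀ : W) : Sk W (m + 2) := ⟨vtx w₀, vtx_mem_Sk w₀ _⟩

/-- the loop of a disk map -/
noncomputable def DiskMap.loop (a : DiskMap m W) (w₀ : W) : ELoop (m + 2) (Sk W (m + 2)) (base m w₀)
    where
  toFun := fun y => collapse (m + 1) w₀ 1 (a.toFun ⟨qmap (m + 2) y, qmap_mem _ y⟩)
  cont := by
    have h1 : Continuous (fun z : ℝ × Sk W (m + 1 + 1) => collapse (m + 1) w₀ z.1 z.2) :=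
      (exists_collapse (m + 1) w₀).choose_spec.1
    have h2 : Continuous (fun y : Fin (m + 2) → ℝ =>
        (⟨qmap (m + 2) y, qmap_mem _ y⟩ : stdSimplex ℝ (Fin (m + 3)))) :=
      Continuous.subtype_mk (continuous_qmap (m + 2)) _
    have h3 : Continuous (fun y : Fin (m + 2) → ℝ =>
        (((1 : ℝ), a.toFun ⟨qmap (m + 2) y, qmap_mem _ y⟩) : ℝ × Sk W (m + 1 + 1))) :=
      continuous_const.prodMk (a.cont.comp h2)
    exact h1.comp h3
  off := by
    intro y hy
    have h1 := (exists_collapse (m + 1) w₀).choose_spec.2.2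
    obtain ⟨j, hj⟩ := qmap_bdry (m + 2) y hy (by omega)
    have h2 := a.bdry ⟨qmap (m + 2) y, qmap_mem _ y⟩ ⟨j, hj⟩
    exact Subtype.ext (h1 _ h2)

/-- the class of a disk map -/
noncomputable def DiskMap.cl (a : DiskMap m W) (w₀ : W) : PiGrp m (Sk W (m + 2)) (base m w₀) :=
  (a.loop w₀).cls

omit [Fintype W] in
private theorem vtx_apply_self (w : W) : vtx w w = 1 := by
  classical
  unfold vtx
  simp

omit [Fintype W] in
private theorem vtx_apply_ne (w w' : W) (h : w' ≠ w) : vtx w w' = 0 := by
  classical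
  unfold vtx
  simp [h]

omit [Fintype W] in
private theorem vtx_nonneg (w w' : W) : 0 ≤ vtx w w' := by
  classical
  by_cases h : w' = w
  · subst h
    rw [vtx_apply_self]
    exact zero_le_one
  · rw [vtx_apply_ne w w' h]

private theorem vtx_sum (w : W) : ∑ w', vtx w w' = 1 := by
  classical
  rw [Finset.sum_eq_single w]
  · exact vtx_apply_self w
  · intro b _ hb
    exact vtx_apply_ne w b hb
  · intro h
    exact absurd (Finset.mem_univ w) h

/-- an affine combination of vertices lies in the simplex -/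
private theorem aff_simplex {n : ℕ} (s : Fin n → W) (z : Fin n → ℝ)
    (hz : z ∈ stdSimplex ℝ (Fin n)) :
    (fun w => ∑ i, z i * vtx (s i) w) ∈ stdSimplex ℝ W := by
  refine ⟨fun w => Finset.sum_nonneg fun i _ => mul_nonneg (hz.1 i) (vtx_nonneg _ _), ?_⟩
  rw [Finset.sum_comm]
  rw [← hz.2]
  refine Finset.sum_congr rfl fun i _ => ?_
  rw [← Finset.mul_sum, vtx_sum, mul_one]

/-- the support of an affine combination of vertices -/
private theorem aff_spt {n : ℕ} (s : Fin n → W) (z : Fin n → ℝ) (T : Finset (Fin n))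
    (hT : ∀ i, i ∉ T → z i = 0) :
    (spt (fun w => ∑ i, z i * vtx (s i) w)).card ≤ T.card := by
  classical
  refine le_trans (Finset.card_le_card ?_) (Finset.card_image_le (s := T) (f := s))
  intro w hw
  unfold spt at hw
  rw [Finset.mem_filter] at hw
  by_contra hcon
  apply hw.2
  refine Finset.sum_eq_zero fun i _ => ?_
  by_cases hi : i ∈ T
  · have hne : w ≠ s i := by
      rintro rfl
      exact hcon (Finset.mem_image_of_mem s hi)
    rw [vtx_apply_ne _ _ hne, mul_zero]
  · rw [hT i hi, zero_mul]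

/-- the affine disk map given by vertices `s 0, …, s (m+2)` -/
noncomputable def aff (s : Fin (m + 3) → W) : DiskMap m W where
  toFun := fun z => ⟨fun w => ∑ i, z.1 i * vtx (s i) w, by
    refine ⟨aff_simplex s z.1 z.2, ?_⟩
    have h := aff_spt s z.1 Finset.univ (fun i hi => absurd (Finset.mem_univ i) hi)
    simpa using h⟩
  cont := by
    refine Continuous.subtype_mk ?_ _
    refine continuous_pi fun w => ?_
    refine continuous_finsetSum _ fun i _ => ?_
    exact ((continuous_apply i).comp continuous_subtype_val).mul continuous_const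
  bdry := by
    rintro z ⟨i, hi⟩
    refine ⟨aff_simplex s z.1 z.2, ?_⟩
    have h := aff_spt s z.1 (Finset.univ.erase i) (fun j hj => by
      rw [Finset.mem_erase] at hj
      have : j = i := by
        by_contra hne
        exact hj ⟨hne, Finset.mem_univ j⟩
      rw [this]
      exact hi)
    rw [Finset.card_erase_of_mem (Finset.mem_univ i), Finset.card_univ, Fintype.card_fin] at h
    exact h

/-- the class of an ordered simplex (a list of `m + 3` vertices) -/
noncomputable def thetaList (w₀ : W) (s : List W) : PiGrp m (Sk W (m + 2)) (base m w₀) :=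
  if h : s.length = m + 3 then (aff (fun i => s.get (i.cast h.symm))).cl w₀ else 0

/-- the class of an ordered chain -/
noncomputable def theta (w₀ : W) (c : OChain W) : PiGrp m (Sk W (m + 2)) (base m w₀) :=
  extend (thetaList w₀) c

theorem theta_add (w₀ : W) (c c' : OChain W) :
    (theta w₀ (c + c') : PiGrp m (Sk W (m + 2)) (base m w₀)) = theta w₀ c + theta w₀ c' := by
  classical
  unfold theta extend
  exact Finsupp.sum_add_index' (fun s => zero_smul ℤ _) (fun s a b => add_smul a b _)

theorem theta_smul (w₀ : W) (k : ℤ) (c : OChain W) :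
    (theta w₀ (k • c) : PiGrp m (Sk W (m + 2)) (base m w₀)) = k • theta w₀ c := by
  classical
  unfold theta extend
  have h : (k • c).sum (fun s n => n • (thetaList w₀ s : PiGrp m (Sk W (m + 2)) (base m w₀))) =
      c.sum (fun s n => (k * n) • (thetaList w₀ s : PiGrp m (Sk W (m + 2)) (base m w₀))) :=
    Finsupp.sum_smul_index (fun s => zero_smul ℤ _)
  rw [h, Finsupp.smul_sum]
  exact Finsupp.sum_congr fun s _ => mul_smul _ _ _

/-- the boundary of the simplex with `m + 4` vertices -/
abbrev BdSimplex (m : ℕ) : Type := {z : Fin (m + 4) → ℝ // z ∈ stdSimplex ℝ (Fin (m + 4)) ∧ ∃ i, z i = 0}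

/-- inclusion of the `j`-th face -/
noncomputable def faceIn (j : Fin (m + 4)) (z : stdSimplex ℝ (Fin (m + 3))) : BdSimplex m :=
  ⟨Fin.insertNth j 0 z.1, by
    refine ⟨⟨fun i => ?_, ?_⟩, ⟨j, by rw [Fin.insertNth_apply_same]⟩⟩
    · refine Fin.succAboveCases j ?_ (fun i => ?_) i
      · rw [Fin.insertNth_apply_same]
      · rw [Fin.insertNth_apply_succAbove]
        exact z.2.1 i
    · rw [Fin.sum_univ_succAbove _ j, Fin.insertNth_apply_same, zero_add, ← z.2.2]
      refine Finset.sum_congr rfl fun i _ => ?_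
      rw [Fin.insertNth_apply_succAbove]⟩

end Vale.Agent.P093.T
end

section

/-!
Filling of spheres.
-/

open Topology.Homotopy Set
open scoped unitInterval Topology

namespace Vale.Agent.P093.T

variable {W : Type*} [Fintype W] {m : ℕ}

theorem fill_collapse_cont (d : ℕ) (w₀ : W) :
    Continuous fun z : ℝ × Sk W (d + 1) => collapse d w₀ z.1 z.2 :=
  (exists_collapse d w₀).choose_spec.1

theorem fill_collapse_zero (d : ℕ) (w₀ : W) (y : Sk W (d + 1)) : collapse d w₀ 0 y = y :=
  (exists_collapse d w₀).choose_spec.2.1 y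

theorem fill_collapse_one (d : ℕ) (w₀ : W) (y : Sk W (d + 1)) (hy : (y : W → ℝ) ∈ Sk W d) :
    ((collapse d w₀ 1 y : Sk W (d + 1)) : W → ℝ) = vtx w₀ :=
  (exists_collapse d w₀).choose_spec.2.2 y hy

theorem fill_qmap_pos (k : ℕ) (x : Fin k → ℝ) (hx : x ∈ openCube k) (j : Fin (k + 1)) :
    0 < qmap k x j := by
  have hc : ∀ i, clamp (x i) = x i := fun i => by
    have := hx i
    unfold clamp
    rw [min_eq_right this.2.le, max_eq_right this.1.le]
  unfold qmap
  refine mul_pos (Finset.prod_pos fun i _ => ?_) ?_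
  · split_ifs
    · rw [hc]; exact (hx i).1
    · exact one_pos
  · split_ifs with h
    · rw [hc]; linarith [(hx ⟨j.val, h⟩).2]
    · exact one_pos

/-- a map of the boundary of the simplex extends if its collapse extends -/
theorem fill_collar (w₀ : W) (b : BdSimplex m → Sk W (m + 2)) (hb : Continuous b)
    (f' : stdSimplex ℝ (Fin (m + 4)) → Sk W (m + 2)) (hf' : Continuous f')
    (h1 : ∀ z : BdSimplex m, f' ⟨z.1, z.2.1⟩ = collapse (m + 1) w₀ 1 (b z)) :
    ∃ B : stdSimplex ℝ (Fin (m + 4)) → Sk W (m + 2), Continuous B ∧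
      ∀ z : BdSimplex m, B ⟨z.1, z.2.1⟩ = b z := by
  classical
  set N : ℝ := (m : ℝ) + 4 with hN
  have hNpos : 0 < N := by positivity
  have hN2 : 0 < 1 / (2 * N) := by positivity
  let S : Set (Fin (m + 4) → ℝ) := {z | z ∈ stdSimplex ℝ (Fin (m + 4)) ∧ ∃ i, z i = 0}
  let P : (Fin (m + 4) → ℝ) → Sk W (m + 2) :=
    Function.extend (Subtype.val : BdSimplex m → _) b (fun _ => base m w₀)
  have hP : ∀ z : BdSimplex m, P z.1 = b z := fun z => Subtype.val_injective.extend_apply b _ z
  have hPc : ContinuousOn P S := by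
    rw [continuousOn_iff_continuous_domRestrict]
    have : S.domRestrict P = fun z : S => b z := by funext z; exact hP z
    rw [this]
    exact hb
  let Q : (Fin (m + 4) → ℝ) → Sk W (m + 2) :=
    Function.extend (Subtype.val : stdSimplex ℝ (Fin (m + 4)) → _) f' (fun _ => base m w₀)
  have hQ : ∀ z : stdSimplex ℝ (Fin (m + 4)), Q z.1 = f' z :=
    fun z => Subtype.val_injective.extend_apply f' _ z
  have hQc : ContinuousOn Q (stdSimplex ℝ (Fin (m + 4))) := by
    rw [continuousOn_iff_continuous_domRestrict]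
    have : (stdSimplex ℝ (Fin (m + 4))).domRestrict Q = fun z => f' z := by funext z; exact hQ z
    rw [this]
    exact hf'
  let ν : (Fin (m + 4) → ℝ) → ℝ := fun z => Finset.univ.inf' Finset.univ_nonempty fun i => z i
  have hνc : Continuous ν :=
    Continuous.finset_inf'_apply Finset.univ_nonempty (fun i _ => continuous_apply i)
  have hνle : ∀ z i, ν z ≤ z i := fun z i => Finset.inf'_le _ (Finset.mem_univ i)
  have hνex : ∀ z, ∃ i, z i = ν z := fun z => by
    obtain ⟨i, _, hi⟩ := Finset.exists_mem_eq_inf' Finset.univ_nonempty z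
    exact ⟨i, hi.symm⟩
  have hsum : ∀ c : ℝ, ∑ _i : Fin (m + 4), c = N * c := fun c => by
    simp [hN]
  have hν0 : ∀ z ∈ stdSimplex ℝ (Fin (m + 4)), 0 ≤ ν z := fun z hz => by
    obtain ⟨i, hi⟩ := hνex z
    rw [← hi]
    exact hz.1 i
  let rad : (Fin (m + 4) → ℝ) → (Fin (m + 4) → ℝ) := fun z i => (z i - ν z) / (1 - N * ν z)
  have hden : ∀ z, ν z ≤ 1 / (2 * N) → 1 / 2 ≤ 1 - N * ν z := fun z hz => by
    have : N * ν z ≤ N * (1 / (2 * N)) := mul_le_mul_of_nonneg_left hz hNpos.le
    have h2 : N * (1 / (2 * N)) = 1 / 2 := by field_simp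
    linarith
  have hrad : ∀ z ∈ stdSimplex ℝ (Fin (m + 4)), ν z ≤ 1 / (2 * N) → rad z ∈ S := by
    intro z hz hle
    have hd := hden z hle
    refine ⟨⟨fun i => div_nonneg (sub_nonneg.2 (hνle z i)) (by linarith), ?_⟩, ?_⟩
    · simp only [rad]
      rw [← Finset.sum_div, Finset.sum_sub_distrib, hz.2, hsum]
      exact div_self (by linarith)
    · obtain ⟨i, hi⟩ := hνex z
      exact ⟨i, by simp only [rad]; rw [hi, sub_self, zero_div]⟩
  let dbl : (Fin (m + 4) → ℝ) → (Fin (m + 4) → ℝ) := fun z i => 2 * z i - 1 / N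
  have hdbl : ∀ z ∈ stdSimplex ℝ (Fin (m + 4)), 1 / (2 * N) ≤ ν z →
      dbl z ∈ stdSimplex ℝ (Fin (m + 4)) := by
    intro z hz hle
    refine ⟨fun i => ?_, ?_⟩
    · have h2 := hνle z i
      have h3 : 1 / N = 2 * (1 / (2 * N)) := by field_simp
      simp only [dbl]
      linarith
    · simp only [dbl]
      rw [Finset.sum_sub_distrib, ← Finset.mul_sum, hz.2, hsum]
      field_simp
      norm_num
  let B : stdSimplex ℝ (Fin (m + 4)) → Sk W (m + 2) := fun z =>
    if ν z.1 ≤ 1 / (2 * N) then collapse (m + 1) w₀ (2 * N * ν z.1) (P (rad z.1))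
    else Q (dbl z.1)
  refine ⟨B, ?_, ?_⟩
  · let A : Set (stdSimplex ℝ (Fin (m + 4))) := {z | ν z.1 ≤ 1 / (2 * N)}
    let A' : Set (stdSimplex ℝ (Fin (m + 4))) := {z | 1 / (2 * N) ≤ ν z.1}
    have hcν : Continuous fun z : stdSimplex ℝ (Fin (m + 4)) => ν z.1 :=
      hνc.comp continuous_subtype_val
    have hAc : IsClosed A := isClosed_le hcν continuous_const
    have hA'c : IsClosed A' := isClosed_le continuous_const hcν
    have hU : (univ : Set (stdSimplex ℝ (Fin (m + 4)))) = A ∪ A' := by
      symm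
      rw [eq_univ_iff_forall]
      intro z
      exact le_total (ν z.1) (1 / (2 * N))
    rw [← continuousOn_univ, hU]
    refine ContinuousOn.union_of_isClosed ?_ ?_ hAc hA'c
    · have e : EqOn B (fun z => collapse (m + 1) w₀ (2 * N * ν z.1) (P (rad z.1))) A :=
        fun z hz => if_pos hz
      refine ContinuousOn.congr ?_ e
      refine (fill_collapse_cont (m + 1) w₀).comp_continuousOn (ContinuousOn.prodMk ?_ ?_)
      · exact (continuous_const.mul hcν).continuousOn
      · refine hPc.comp ?_ (fun z hz => hrad z.1 z.2 hz)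
        rw [continuousOn_pi]
        intro i
        refine ContinuousOn.div ?_ ?_ ?_
        · exact (((continuous_apply i).comp continuous_subtype_val).sub hcν).continuousOn
        · exact (continuous_const.sub (continuous_const.mul hcν)).continuousOn
        · intro z hz
          have := hden z.1 hz
          linarith
    · have e : EqOn B (fun z => Q (dbl z.1)) A' := by
        intro z hz
        by_cases h : ν z.1 ≤ 1 / (2 * N)
        · have heq : ν z.1 = 1 / (2 * N) := le_antisymm h hz
          have hr : rad z.1 = dbl z.1 := by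
            funext i
            simp only [rad, dbl]
            rw [heq]
            field_simp
            ring
          have hS := hrad z.1 z.2 h
          have h2 : 2 * N * ν z.1 = 1 := by rw [heq]; field_simp
          simp only [B]
          rw [if_pos h, h2]
          have e1 : P (rad z.1) = b ⟨rad z.1, hS⟩ := hP ⟨rad z.1, hS⟩
          rw [e1, ← h1 ⟨rad z.1, hS⟩, ← hQ, ← hr]
        · simp only [B]
          rw [if_neg h]
      refine ContinuousOn.congr ?_ e
      refine hQc.comp ?_ (fun z hz => hdbl z.1 z.2 hz)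
      refine Continuous.continuousOn ?_
      refine continuous_pi fun i => ?_
      exact (continuous_const.mul ((continuous_apply i).comp continuous_subtype_val)).sub
        continuous_const
  · intro z
    obtain ⟨i, hi⟩ := z.2.2
    have h0 : ν z.1 = 0 := le_antisymm ((hνle z.1 i).trans_eq hi) (hν0 z.1 z.2.1)
    have hr : rad z.1 = z.1 := by
      funext j
      simp only [rad]
      rw [h0]
      simp
    simp only [B]
    rw [if_pos (by rw [h0]; exact hN2.le), h0, mul_zero, hr, fill_collapse_zero]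
    exact hP z

/-- (C2) FILLING. A map `b` of the boundary of the simplex with `m + 4` vertices to the
`(m+2)`-skeleton, whose faces are the disk maps `f j`, extends over the simplex if the alternating
sum of the classes of its faces is zero. Proof: `collapse 1 ∘ b ∘ qmap` on the boundary of the
`(m+3)`-cube has the faces `(f i).loop` on `x_i = 1`, `(f last).loop` on `x_last = 0`, constants on
the other faces `x_i = 0` (`qmap_one`, `qmap_last`, `qmap_zero`); so it extends by `hat`; the
extension descends to the simplex (`descend`); so `collapse 1 ∘ b` extends over the simplex, and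
`b` extends by the collar `collapse t ∘ b`, `t ∈ [0,1]`. -/
theorem fill (w₀ : W) (b : BdSimplex m → Sk W (m + 2)) (hb : Continuous b)
    (f : Fin (m + 4) → DiskMap m W) (hf : ∀ j z, b (faceIn j z) = (f j).toFun z)
    (hsum : ∑ j : Fin (m + 4), ((-1 : ℤ) ^ (j : ℕ)) • (f j).cl w₀ = 0) :
    ∃ B : stdSimplex ℝ (Fin (m + 4)) → Sk W (m + 2), Continuous B ∧
      ∀ z : BdSimplex m, B ⟨z.1, z.2.1⟩ = b z := by
  classical
  let P : (Fin (m + 4) → ℝ) → Sk W (m + 2) :=
    Function.extend (Subtype.val : BdSimplex m → _) b (fun _ => base m w₀)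
  have hP : ∀ z : BdSimplex m, P z.1 = b z := fun z => Subtype.val_injective.extend_apply b _ z
  let g : Fin (m + 3) → Bool → ELoop (m + 2) (Sk W (m + 2)) (base m w₀) := fun i ε =>
    if ε = true then (f (Fin.castSucc i)).loop w₀
    else if i = Fin.last (m + 2) then (f (Fin.last (m + 3))).loop w₀
    else ELoop.const (m + 2) (base m w₀)
  have hgs : faceSum g = 0 := by
    rw [← hsum, Fin.sum_univ_castSucc, faceSum]
    have e1 : ∀ i : Fin (m + 3), ((-1 : ℤ) ^ (i : ℕ)) • ((g i true).cls - (g i false).cls) =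
        ((-1 : ℤ) ^ (i : ℕ)) • (f (Fin.castSucc i)).cl w₀ +
          (if i = Fin.last (m + 2) then ((-1 : ℤ) ^ (m + 3)) • (f (Fin.last (m + 3))).cl w₀
            else 0) := by
      intro i
      by_cases hi : i = Fin.last (m + 2)
      · subst hi
        simp only [g, if_true, Bool.false_eq_true, if_false, DiskMap.cl, Fin.val_last]
        rw [smul_sub, sub_eq_add_neg, pow_succ (-1 : ℤ) (m + 2), mul_neg_one, neg_smul]
      · simp only [g, if_true, Bool.false_eq_true, if_false, hi, DiskMap.cl, cls_const, sub_zero,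
          add_zero]
    rw [Finset.sum_congr rfl fun i _ => e1 i, Finset.sum_add_distrib, Finset.sum_ite_eq']
    simp
  obtain ⟨G, hG, hGf⟩ := (hat g).2 hgs
  have hloop : ∀ (j : Fin (m + 4)) (y : Fin (m + 2) → ℝ), ((f j).loop w₀) y =
      collapse (m + 1) w₀ 1 (P (Fin.insertNth j 0 (qmap (m + 2) y))) := by
    intro j y
    have : P (Fin.insertNth j 0 (qmap (m + 2) y)) =
        b (faceIn j ⟨qmap (m + 2) y, qmap_mem _ y⟩) := hP (faceIn j ⟨qmap (m + 2) y, qmap_mem _ y⟩)
    rw [this, hf]
    rfl
  have key : ∀ x : Fin (m + 3) → ℝ, (∀ i, 0 ≤ x i ∧ x i ≤ 1) → x ∉ openCube (m + 3) →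
      G x = collapse (m + 1) w₀ 1 (P (qmap (m + 3) x)) := by
    intro x hx hxo
    have : ∃ i, x i = 0 ∨ x i = 1 := by
      by_contra hcon
      push Not at hcon
      exact hxo fun i => ⟨lt_of_le_of_ne (hx i).1 (Ne.symm (hcon i).1),
        lt_of_le_of_ne (hx i).2 (hcon i).2⟩
    obtain ⟨i, hi⟩ := this
    have hxe : Fin.insertNth i (x i) (Fin.removeNth i x) = x := Fin.insertNth_self_removeNth i x
    rcases hi with hi | hi
    · by_cases hl : i = Fin.last (m + 2)
      · subst hl
        have e2 := hGf (Fin.last (m + 2)) false (Fin.removeNth (Fin.last (m + 2)) x)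
        have e3 := qmap_last (m + 2) (Fin.removeNth (Fin.last (m + 2)) x)
        rw [hi] at hxe
        rw [side, if_neg (by simp), hxe] at e2
        rw [hxe] at e3
        rw [e2, e3]
        simp only [g, if_true, Bool.false_eq_true, if_false]
        exact hloop _ _
      · have e2 := hGf i false (Fin.removeNth i x)
        have e3 := qmap_zero (m + 2) i hl (Fin.removeNth i x)
        rw [hi] at hxe
        rw [side, if_neg (by simp), hxe] at e2
        rw [hxe] at e3
        rw [e2]
        simp only [g, Bool.false_eq_true, if_false, hl]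
        -- the point of the simplex
        have hz := qmap_mem (m + 3) x
        set z := qmap (m + 3) x with hzdef
        have hz' : Fin.init z ∈ stdSimplex ℝ (Fin (m + 3)) := by
          refine ⟨fun j => hz.1 _, ?_⟩
          have := hz.2
          rw [Fin.sum_univ_castSucc, e3.1, add_zero] at this
          exact this
        have hzz : (faceIn (Fin.last (m + 3)) ⟨Fin.init z, hz'⟩ : BdSimplex m).1 = z := by
          show Fin.insertNth (Fin.last (m + 3)) 0 (Fin.init z) = z
          rw [Fin.insertNth_last']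
          have := Fin.snoc_init_self z
          rw [e3.1] at this
          exact this
        have hPz : P z = (f (Fin.last (m + 3))).toFun ⟨Fin.init z, hz'⟩ := by
          rw [← hf, ← hP, hzz]
        rw [hPz]
        apply Subtype.ext
        rw [fill_collapse_one]
        · rfl
        · exact (f (Fin.last (m + 3))).bdry _ ⟨Fin.last (m + 2), e3.2⟩
    · have e2 := hGf i true (Fin.removeNth i x)
      have e3 := qmap_one (m + 2) i (Fin.removeNth i x)
      rw [hi] at hxe
      rw [side, if_pos rfl, hxe] at e2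
      rw [hxe] at e3
      rw [e2, e3]
      simp only [g, if_true]
      exact hloop _ _
  obtain ⟨f', hf', hff⟩ := descend (m + 3) G hG (by
    intro x x' hx hx' hxo hxo' he
    rw [key x hx hxo, key x' hx' hxo', he])
  refine fill_collar w₀ b hb f' hf' ?_
  intro z
  obtain ⟨x, hx, hxz⟩ := qmap_surj (m + 3) z.1 z.2.1
  have hxo : x ∉ openCube (m + 3) := by
    intro ho
    obtain ⟨i, hi⟩ := z.2.2
    have := fill_qmap_pos (m + 3) x ho i
    rw [hxz, hi] at this
    exact lt_irrefl _ this
  have e1 : (⟨z.1, z.2.1⟩ : stdSimplex ℝ (Fin (m + 4))) = ⟨qmap (m + 3) x, qmap_mem (m + 3) x⟩ :=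
    Subtype.ext hxz.symm
  rw [e1, hff x hx, key x hx hxo, hxz, hP]

end Vale.Agent.P093.T
end

section

/-!
The boundary of a simplex as a loop.
-/

open Topology.Homotopy Set
open scoped unitInterval Topology

namespace Vale.Agent.P093.T

variable {W : Type*} [Fintype W] {m : ℕ}

/-! ### The affine map -/

/-- the point of the simplex on `W` with barycentric coordinates `z` in the list `c` -/
noncomputable def dsAff {N : ℕ} (c : Fin N → W) (z : Fin N → ℝ) : W → ℝ :=
  fun w => ∑ i, z i * vtx (c i) w

omit [Fintype W] in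
theorem ds_vtx_eq (v : W) : (vtx v : W → ℝ) v = 1 := by
  classical
  unfold vtx
  simp

omit [Fintype W] in
theorem ds_vtx_ne {v w : W} (h : w ≠ v) : (vtx v : W → ℝ) w = 0 := by
  classical
  unfold vtx
  simp [h]

omit [Fintype W] in
theorem ds_vtx_nonneg (v w : W) : 0 ≤ (vtx v : W → ℝ) w := by
  by_cases h : w = v
  · subst h
    rw [ds_vtx_eq]
    exact zero_le_one
  · rw [ds_vtx_ne h]

theorem ds_vtx_sum (v : W) : ∑ w, (vtx v : W → ℝ) w = 1 := by
  classical
  unfold vtx
  simp

omit [Fintype W] in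
theorem dsAff_continuous {N : ℕ} (c : Fin N → W) : Continuous (dsAff c) := by
  unfold dsAff
  fun_prop

omit [Fintype W] in
theorem dsAff_insertNth {N : ℕ} (c : Fin (N + 1) → W) (j : Fin (N + 1)) (z : Fin N → ℝ) :
    dsAff c (Fin.insertNth j (0 : ℝ) z) = dsAff (c ∘ Fin.succAbove j) z := by
  funext w
  unfold dsAff
  rw [Fin.sum_univ_succAbove _ j]
  simp

theorem dsAff_mem {N : ℕ} (c : Fin N → W) {z : Fin N → ℝ} (hz : z ∈ stdSimplex ℝ (Fin N)) :
    dsAff c z ∈ stdSimplex ℝ W := by
  refine ⟨fun w => Finset.sum_nonneg fun i _ => mul_nonneg (hz.1 i) (ds_vtx_nonneg _ _), ?_⟩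
  unfold dsAff
  rw [Finset.sum_comm]
  simp_rw [← Finset.mul_sum, ds_vtx_sum, mul_one]
  exact hz.2

theorem ds_mem_spt {N : ℕ} (c : Fin N → W) (z : Fin N → ℝ) {w : W} (hw : w ∈ spt (dsAff c z)) :
    ∃ i, z i ≠ 0 ∧ c i = w := by
  classical
  unfold spt at hw
  rw [Finset.mem_filter] at hw
  by_contra hcon
  push Not at hcon
  apply hw.2
  unfold dsAff
  refine Finset.sum_eq_zero fun i _ => ?_
  by_cases hi : z i = 0
  · rw [hi, zero_mul]
  · rw [ds_vtx_ne (hcon i hi).symm, mul_zero]

theorem ds_card_spt {N : ℕ} (c : Fin N → W) (z : Fin N → ℝ) (J : Finset (Fin N))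
    (hJ : ∀ j ∈ J, z j = 0) : (spt (dsAff c z)).card ≤ N - J.card := by
  classical
  have h1 : spt (dsAff c z) ⊆ (Finset.univ \ J).image c := by
    intro w hw
    obtain ⟨i, hi, rfl⟩ := ds_mem_spt c z hw
    refine Finset.mem_image_of_mem c ?_
    rw [Finset.mem_sdiff]
    exact ⟨Finset.mem_univ _, fun h => hi (hJ i h)⟩
  refine (Finset.card_le_card h1).trans (Finset.card_image_le.trans ?_)
  rw [Finset.card_sdiff_of_subset (Finset.subset_univ J), Finset.card_univ, Fintype.card_fin]

theorem dsAff_mem_one (c : Fin (m + 4) → W) {z : Fin (m + 4) → ℝ}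
    (hz : z ∈ stdSimplex ℝ (Fin (m + 4))) (h : ∃ j, z j = 0) : dsAff c z ∈ Sk W (m + 2) := by
  obtain ⟨j, hj⟩ := h
  refine ⟨dsAff_mem c hz, ?_⟩
  have := ds_card_spt c z {j} (by simpa using hj)
  rw [Finset.card_singleton] at this
  omega

theorem dsAff_mem_two (c : Fin (m + 4) → W) {z : Fin (m + 4) → ℝ}
    (hz : z ∈ stdSimplex ℝ (Fin (m + 4))) {j j' : Fin (m + 4)} (hjj : j ≠ j') (hj : z j = 0)
    (hj' : z j' = 0) : dsAff c z ∈ Sk W (m + 1) := by
  refine ⟨dsAff_mem c hz, ?_⟩
  have := ds_card_spt c z {j, j'} (by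
    intro i hi
    rw [Finset.mem_insert, Finset.mem_singleton] at hi
    rcases hi with rfl | rfl <;> assumption)
  rw [Finset.card_pair hjj] at this
  omega

/-! ### Clamping -/

theorem ds_clamp_mem (t : ℝ) : 0 ≤ clamp t ∧ clamp t ≤ 1 := by
  unfold clamp
  refine ⟨le_max_left _ _, max_le zero_le_one (min_le_left _ _)⟩

theorem ds_clamp_of_mem {t : ℝ} (h0 : 0 ≤ t) (h1 : t ≤ 1) : clamp t = t := by
  unfold clamp
  rw [min_eq_right h1, max_eq_right h0]

theorem ds_clamp_of_le {t : ℝ} (h0 : t ≤ 0) : clamp t = 0 := by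
  unfold clamp
  rw [min_eq_right (h0.trans zero_le_one), max_eq_left h0]

theorem ds_clamp_of_ge {t : ℝ} (h0 : 1 ≤ t) : clamp t = 1 := by
  unfold clamp
  rw [min_eq_left h0, max_eq_right zero_le_one]

theorem ds_clamp_clamp (t : ℝ) : clamp (clamp t) = clamp t :=
  ds_clamp_of_mem (ds_clamp_mem t).1 (ds_clamp_mem t).2

theorem ds_clamp_continuous : Continuous clamp := by
  unfold clamp
  fun_prop

/-- clamping all coordinates -/
noncomputable def dsCl {k : ℕ} (x : Fin k → ℝ) : Fin k → ℝ := fun i => clamp (x i)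

theorem dsCl_continuous {k : ℕ} : Continuous (dsCl (k := k)) :=
  continuous_pi fun i => ds_clamp_continuous.comp (continuous_apply i)

theorem ds_qmap_cl (k : ℕ) (x : Fin k → ℝ) : qmap k (dsCl x) = qmap k x := by
  funext j
  unfold qmap dsCl
  simp only [ds_clamp_clamp]

theorem dsCl_not_mem {k : ℕ} {x : Fin k → ℝ} (hx : x ∉ openCube k) : dsCl x ∉ openCube k := by
  intro h
  apply hx
  intro i
  have hi := h i
  unfold dsCl at hi
  constructor
  · by_contra hcon
    rw [ds_clamp_of_le (not_lt.1 hcon)] at hi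
    exact lt_irrefl _ hi.1
  · by_contra hcon
    rw [ds_clamp_of_ge (not_lt.1 hcon)] at hi
    exact lt_irrefl _ hi.2

theorem dsCl_of_mem {k : ℕ} {x : Fin k → ℝ} (hx : x ∈ openCube k) : dsCl x = x := by
  funext i
  exact ds_clamp_of_mem (hx i).1.le (hx i).2.le

theorem ds_side_clamp (ε : Bool) : clamp (side ε) = side ε := by
  cases ε
  · exact ds_clamp_of_le (by simp [side])
  · exact ds_clamp_of_ge (by simp [side])

theorem dsCl_insertNth {k : ℕ} (i : Fin (k + 1)) (ε : Bool) (y : Fin k → ℝ) :
    dsCl (Fin.insertNth i (side ε) y : Fin (k + 1) → ℝ) = Fin.insertNth i (side ε) (dsCl y) := by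
  funext j
  refine Fin.succAboveCases i ?_ (fun l => ?_) j
  · unfold dsCl
    rw [Fin.insertNth_apply_same, Fin.insertNth_apply_same, ds_side_clamp]
  · unfold dsCl
    rw [Fin.insertNth_apply_succAbove, Fin.insertNth_apply_succAbove]

/-- on the face `x_0 = 0` the map `qmap` is constant -/
theorem ds_qmap_zero (k : ℕ) (x : Fin (k + 1) → ℝ) (h : clamp (x 0) = 0) :
    qmap (k + 1) x = Pi.single 0 1 := by
  funext j
  unfold qmap
  by_cases hj : j = 0
  · subst hj
    rw [Pi.single_eq_same]
    have h1 : ∏ i : Fin (k + 1), (if i.val < (0 : Fin (k + 1 + 1)).val then clamp (x i) else 1) = 1 := by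
      refine Finset.prod_eq_one fun i _ => ?_
      simp
    rw [h1, one_mul]
    have h2 : (0 : Fin (k + 1 + 1)).val < k + 1 := by simp
    rw [dif_pos h2]
    have h3 : (⟨(0 : Fin (k + 1 + 1)).val, h2⟩ : Fin (k + 1)) = 0 := rfl
    rw [h3, h, sub_zero]
  · rw [Pi.single_eq_of_ne hj]
    have h1 : ∏ i : Fin (k + 1), (if i.val < j.val then clamp (x i) else 1) = 0 := by
      refine Finset.prod_eq_zero (Finset.mem_univ 0) ?_
      have h2 : (0 : Fin (k + 1)).val < j.val := by
        have : j.val ≠ 0 := fun h => hj (Fin.ext h)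
        show 0 < j.val
        omega
      rw [if_pos h2, h]
    rw [h1, zero_mul]

/-! ### The radial retraction -/

/-- the gauge of the retraction -/
noncomputable def dsM (x : Fin (m + 3) → ℝ) : ℝ :=
  max ((1 + x 0) / 2) (2 * ‖fun i : Fin (m + 2) => x i.succ - 1 / 2‖)

/-- the retraction of the cube to the boundary without the face `x_0 = 0` -/
noncomputable def dsR (x : Fin (m + 3) → ℝ) : Fin (m + 3) → ℝ :=
  Fin.cons ((1 + x 0) / dsM x - 1) fun i : Fin (m + 2) => 1 / 2 + (x i.succ - 1 / 2) / dsM x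

theorem dsM_pos {x : Fin (m + 3) → ℝ} (h : 0 ≤ x 0) : 0 < dsM x := by
  unfold dsM
  exact lt_max_of_lt_left (by linarith)

theorem dsM_continuous : Continuous (dsM (m := m)) := by
  unfold dsM
  fun_prop

theorem dsR_not_mem {x : Fin (m + 3) → ℝ} (h : 0 ≤ x 0) : dsR x ∉ openCube (m + 3) := by
  intro hR
  have hM := dsM_pos h
  have h1 : (1 + x 0) / 2 < dsM x := by
    have h2 := (hR 0).2
    unfold dsR at h2
    rw [Fin.cons_zero] at h2
    have h3 : (1 + x 0) / dsM x < 2 := by linarith
    rw [div_lt_iff₀ hM] at h3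
    linarith
  have h2 : 2 * ‖fun i : Fin (m + 2) => x i.succ - 1 / 2‖ < dsM x := by
    have h3 : ‖fun i : Fin (m + 2) => x i.succ - 1 / 2‖ < dsM x / 2 := by
      rw [pi_norm_lt_iff (by linarith)]
      intro i
      have h4 := hR i.succ
      unfold dsR at h4
      rw [Fin.cons_succ] at h4
      rw [Real.norm_eq_abs, abs_lt]
      have h5 : -(1 / 2) < (x i.succ - 1 / 2) / dsM x := by linarith [h4.1]
      have h6 : (x i.succ - 1 / 2) / dsM x < 1 / 2 := by linarith [h4.2]
      rw [lt_div_iff₀ hM] at h5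
      rw [div_lt_iff₀ hM] at h6
      constructor <;> linarith
    linarith
  exact lt_irrefl _ (max_lt h1 h2)

theorem dsM_eq_one {x : Fin (m + 3) → ℝ} (hx : ∀ i, 0 ≤ x i ∧ x i ≤ 1)
    (h : x 0 = 1 ∨ ∃ i : Fin (m + 2), x i.succ = 0 ∨ x i.succ = 1) : dsM x = 1 := by
  have hle : ‖fun i : Fin (m + 2) => x i.succ - 1 / 2‖ ≤ 1 / 2 := by
    rw [pi_norm_le_iff_of_nonneg (by norm_num)]
    intro i
    have := hx i.succ
    rw [Real.norm_eq_abs, abs_le]
    constructor <;> linarith [this.1, this.2]
  unfold dsM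
  refine le_antisymm (max_le ?_ (by linarith)) ?_
  · linarith [(hx 0).2]
  · rcases h with h | ⟨i, hi⟩
    · refine le_max_of_le_left ?_
      rw [h]
      norm_num
    · refine le_max_of_le_right ?_
      have h1 := norm_le_pi_norm (fun i : Fin (m + 2) => x i.succ - 1 / 2) i
      have h2 : ‖x i.succ - 1 / 2‖ = 1 / 2 := by
        rw [Real.norm_eq_abs]
        rcases hi with hi | hi <;> rw [hi] <;> norm_num
      have h3 : ‖x i.succ - 1 / 2‖ ≤ ‖fun i : Fin (m + 2) => x i.succ - 1 / 2‖ := h1
      rw [h2] at h3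
      linarith

theorem dsR_fix {x : Fin (m + 3) → ℝ} (hx : ∀ i, 0 ≤ x i ∧ x i ≤ 1)
    (h : x 0 = 1 ∨ ∃ i : Fin (m + 2), x i.succ = 0 ∨ x i.succ = 1) : dsR x = x := by
  unfold dsR
  rw [dsM_eq_one hx h]
  funext j
  refine Fin.cases ?_ (fun l => ?_) j
  · rw [Fin.cons_zero]
    ring
  · rw [Fin.cons_succ]
    ring

theorem dsR_zero_of_not_mem {y : Fin (m + 2) → ℝ} (hy : y ∉ openCube (m + 2)) :
    clamp (dsR (Fin.cons 0 y : Fin (m + 3) → ℝ) 0) = 0 := by
  have hM : 1 ≤ dsM (Fin.cons 0 y : Fin (m + 3) → ℝ) := by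
    unfold dsM
    refine le_max_of_le_right ?_
    simp only [Fin.cons_succ]
    unfold openCube at hy
    rw [Set.mem_ofPred_eq] at hy
    push Not at hy
    obtain ⟨i, hi⟩ := hy
    have h1 : ‖y i - 1 / 2‖ ≤ ‖fun i : Fin (m + 2) => y i - 1 / 2‖ :=
      norm_le_pi_norm (fun i : Fin (m + 2) => y i - 1 / 2) i
    have h2 : 1 / 2 ≤ ‖y i - 1 / 2‖ := by
      rw [Real.norm_eq_abs]
      by_cases h0 : 0 < y i
      · have := hi h0
        exact le_trans (by linarith) (le_abs_self _)
      · exact le_trans (by linarith [not_lt.1 h0]) (neg_le_abs _)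
    linarith
  apply ds_clamp_of_le
  unfold dsR
  rw [Fin.cons_zero, Fin.cons_zero]
  have h1 : (1 + 0) / dsM (Fin.cons 0 y : Fin (m + 3) → ℝ) ≤ 1 := by
    rw [div_le_one (by linarith)]
    linarith
  linarith

theorem dsR_cl_continuous : Continuous fun x : Fin (m + 3) → ℝ => dsR (dsCl x) := by
  have hM : Continuous fun x : Fin (m + 3) → ℝ => dsM (dsCl x) :=
    dsM_continuous.comp dsCl_continuous
  have hM0 : ∀ x : Fin (m + 3) → ℝ, dsM (dsCl x) ≠ 0 := fun x =>
    (dsM_pos (ds_clamp_mem (x 0)).1).ne'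
  refine continuous_pi fun j => ?_
  refine Fin.cases ?_ (fun l => ?_) j
  · unfold dsR
    simp only [Fin.cons_zero]
    exact ((continuous_const.add ((continuous_apply 0).comp dsCl_continuous)).div hM hM0).sub
      continuous_const
  · unfold dsR
    simp only [Fin.cons_succ]
    exact continuous_const.add ((((continuous_apply l.succ).comp dsCl_continuous).sub
      continuous_const).div hM hM0)

/-! ### The map of the cube -/

/-- The map of the cube to the `(m+2)`-skeleton. -/
noncomputable def dsB (c : Fin (m + 4) → W) (x : Fin (m + 3) → ℝ) : Sk W (m + 2) :=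
  ⟨dsAff c (qmap (m + 3) (dsR (dsCl x))), dsAff_mem_one c (qmap_mem _ _)
    (qmap_bdry _ _ (dsR_not_mem (ds_clamp_mem (x 0)).1) (by omega))⟩

theorem dsB_continuous (c : Fin (m + 4) → W) : Continuous (dsB c) :=
  Continuous.subtype_mk ((dsAff_continuous c).comp
    ((continuous_qmap _).comp dsR_cl_continuous)) _

theorem dsB_off (c : Fin (m + 4) → W) {y : Fin (m + 2) → ℝ} (hy : y ∉ openCube (m + 2)) :
    (dsB c (Fin.cons 0 y) : W → ℝ) = vtx (c 0) := by
  have h1 : dsCl (Fin.cons 0 y : Fin (m + 3) → ℝ) = Fin.cons 0 (dsCl y) := by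
    funext j
    refine Fin.cases ?_ (fun l => ?_) j
    · unfold dsCl
      rw [Fin.cons_zero, Fin.cons_zero]
      exact ds_clamp_of_le le_rfl
    · unfold dsCl
      rw [Fin.cons_succ, Fin.cons_succ]
  show dsAff c (qmap (m + 3) (dsR (dsCl (Fin.cons 0 y : Fin (m + 3) → ℝ)))) = vtx (c 0)
  rw [h1, ds_qmap_zero _ _ (dsR_zero_of_not_mem (dsCl_not_mem hy))]
  funext w
  unfold dsAff
  rw [Finset.sum_eq_single 0]
  · simp
  · intro i _ hi
    rw [Pi.single_eq_of_ne hi, zero_mul]
  · intro h
    exact absurd (Finset.mem_univ _) h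

theorem dsB_cons_cl (c : Fin (m + 4) → W) (y : Fin (m + 2) → ℝ) :
    dsB c (Fin.cons 0 (dsCl y)) = dsB c (Fin.cons 0 y) := by
  apply Subtype.ext
  by_cases hy : y ∈ openCube (m + 2)
  · rw [dsCl_of_mem hy]
  · rw [dsB_off c hy, dsB_off c (dsCl_not_mem hy)]

theorem dsB_face (c : Fin (m + 4) → W) (x : Fin (m + 3) → ℝ)
    (h : dsCl x 0 = 1 ∨ ∃ i : Fin (m + 2), dsCl x i.succ = 0 ∨ dsCl x i.succ = 1) :
    (dsB c x : W → ℝ) = dsAff c (qmap (m + 3) x) := by
  show dsAff c (qmap (m + 3) (dsR (dsCl x))) = _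
  rw [dsR_fix (x := dsCl x) (fun i => ds_clamp_mem (x i)) h, ds_qmap_cl]

theorem aff_toFun_val (s : Fin (m + 3) → W) (z : stdSimplex ℝ (Fin (m + 3))) :
    ((aff s).toFun z : W → ℝ) = dsAff s z.1 := rfl

theorem dsB_one (c : Fin (m + 4) → W) (i : Fin (m + 3)) (y : Fin (m + 2) → ℝ) :
    dsB c (Fin.insertNth i 1 y) =
      (aff (c ∘ Fin.succAbove i.castSucc)).toFun ⟨qmap (m + 2) y, qmap_mem _ y⟩ := by
  apply Subtype.ext
  rw [aff_toFun_val, dsB_face, qmap_one, dsAff_insertNth]
  have h1 : clamp 1 = 1 := ds_clamp_of_ge le_rfl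
  refine Fin.cases ?_ (fun l => ?_) i
  · left
    unfold dsCl
    rw [Fin.insertNth_apply_same, h1]
  · right
    refine ⟨l, Or.inr ?_⟩
    unfold dsCl
    rw [Fin.insertNth_apply_same, h1]

theorem dsB_last (c : Fin (m + 4) → W) (y : Fin (m + 2) → ℝ) :
    dsB c (Fin.insertNth (Fin.last (m + 2)) 0 y) =
      (aff (c ∘ Fin.succAbove (Fin.last (m + 3)))).toFun ⟨qmap (m + 2) y, qmap_mem _ y⟩ := by
  apply Subtype.ext
  rw [aff_toFun_val, dsB_face, qmap_last, dsAff_insertNth]
  have h1 : clamp 0 = 0 := ds_clamp_of_le le_rfl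
  right
  refine ⟨Fin.last (m + 1), Or.inl ?_⟩
  rw [Fin.succ_last]
  unfold dsCl
  rw [Fin.insertNth_apply_same, h1]

theorem dsB_zero (c : Fin (m + 4) → W) (i : Fin (m + 3)) (h0 : i ≠ 0) (hl : i ≠ Fin.last _)
    (y : Fin (m + 2) → ℝ) : (dsB c (Fin.insertNth i 0 y) : W → ℝ) ∈ Sk W (m + 1) := by
  obtain ⟨l, rfl⟩ := Fin.exists_succ_eq.2 h0
  rw [dsB_face]
  · have h1 := qmap_zero (m + 2) l.succ hl y
    refine dsAff_mem_two c (qmap_mem _ _) (j := Fin.last (m + 3))
      (j' := Fin.castSucc (Fin.last (m + 2))) ?_ h1.1 h1.2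
    intro h
    have := congrArg Fin.val h
    simp at this
  · right
    refine ⟨l, Or.inl ?_⟩
    unfold dsCl
    rw [Fin.insertNth_apply_same]
    exact ds_clamp_of_le le_rfl

/-- the faces of the cube map after the collapse -/
noncomputable def dsG (w₀ : W) (c : Fin (m + 4) → W)
    (ℓ : ELoop (m + 2) (Sk W (m + 2)) (base m w₀)) (i : Fin (m + 3)) (ε : Bool) :
    ELoop (m + 2) (Sk W (m + 2)) (base m w₀) :=
  if ε = true then (aff (c ∘ Fin.succAbove i.castSucc)).loop w₀ else
    if i = 0 then ℓ else if i = Fin.last _ then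
      (aff (c ∘ Fin.succAbove (Fin.last (m + 3)))).loop w₀ else ELoop.const _ _

theorem dsG_true (w₀ : W) (c : Fin (m + 4) → W) (ℓ : ELoop (m + 2) (Sk W (m + 2)) (base m w₀))
    (i : Fin (m + 3)) : dsG w₀ c ℓ i true = (aff (c ∘ Fin.succAbove i.castSucc)).loop w₀ := by
  unfold dsG
  rw [if_pos rfl]

theorem dsG_zero (w₀ : W) (c : Fin (m + 4) → W) (ℓ : ELoop (m + 2) (Sk W (m + 2)) (base m w₀)) :
    dsG w₀ c ℓ 0 false = ℓ := by
  unfold dsG
  rw [if_neg Bool.false_ne_true, if_pos rfl]

theorem dsG_last (w₀ : W) (c : Fin (m + 4) → W) (ℓ : ELoop (m + 2) (Sk W (m + 2)) (base m w₀)) :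
    dsG w₀ c ℓ (Fin.last _) false = (aff (c ∘ Fin.succAbove (Fin.last (m + 3)))).loop w₀ := by
  have h : (Fin.last (m + 2) : Fin (m + 3)) ≠ 0 := by
    intro h
    have := congrArg Fin.val h
    simp at this
  unfold dsG
  rw [if_neg Bool.false_ne_true, if_neg h, if_pos rfl]

theorem dsG_other (w₀ : W) (c : Fin (m + 4) → W) (ℓ : ELoop (m + 2) (Sk W (m + 2)) (base m w₀))
    {i : Fin (m + 3)} (h0 : i ≠ 0) (hl : i ≠ Fin.last _) :
    dsG w₀ c ℓ i false = ELoop.const _ _ := by
  unfold dsG
  rw [if_neg Bool.false_ne_true, if_neg h0, if_neg hl]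

theorem dsG_ext (w₀ : W) (c : Fin (m + 4) → W) (ℓ : ELoop (m + 2) (Sk W (m + 2)) (base m w₀))
    (hℓ : ∀ y, ℓ y = collapse (m + 1) w₀ 1 (dsB c (Fin.cons 0 y))) : Ext (dsG w₀ c ℓ) := by
  obtain ⟨hcc, -, hc1⟩ := (exists_collapse (m + 1) w₀).choose_spec
  have hc1' : ∀ y : Sk W (m + 2), (y : W → ℝ) ∈ Sk W (m + 1) →
      collapse (m + 1) w₀ 1 y = base m w₀ := fun y hy => Subtype.ext (hc1 y hy)
  have hcont : Continuous (collapse (m + 1) w₀ 1 : Sk W (m + 2) → Sk W (m + 2)) :=
    hcc.comp (by fun_prop : Continuous fun y : Sk W (m + 2) => ((1 : ℝ), y))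
  have ef : side false = 0 := by simp [side]
  have et : side true = 1 := by simp [side]
  refine ⟨fun x => collapse (m + 1) w₀ 1 (dsB c x), hcont.comp (dsB_continuous c), ?_⟩
  intro i ε y
  cases ε
  · by_cases h0 : i = 0
    · subst h0
      rw [dsG_zero, hℓ y]
      show collapse (m + 1) w₀ 1 (dsB c (Fin.insertNth 0 (side false) y)) = _
      rw [ef, Fin.insertNth_zero']
    · by_cases hl : i = Fin.last _
      · subst hl
        rw [dsG_last]
        show collapse (m + 1) w₀ 1 (dsB c (Fin.insertNth (Fin.last (m + 2)) (side false) y)) =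
          collapse (m + 1) w₀ 1 _
        rw [ef, dsB_last]
      · rw [dsG_other w₀ c ℓ h0 hl]
        show collapse (m + 1) w₀ 1 (dsB c (Fin.insertNth i (side false) y)) = base m w₀
        rw [ef]
        exact hc1' _ (dsB_zero c i h0 hl y)
  · rw [dsG_true]
    show collapse (m + 1) w₀ 1 (dsB c (Fin.insertNth i (side true) y)) =
          collapse (m + 1) w₀ 1 _
    rw [et, dsB_one]

/-- A sphere as a loop: for a list `c` of `m + 4` vertices in `S` there is a continuous map of the
cube to the `(m+2)`-skeleton of `S`, equal to the vertex `c 0` off the open cube, which after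
`collapse 1` has the class of the boundary of `c`. Proof: `B = (affine map of c) ∘ qmap` on the
boundary of the `(m+3)`-cube without the face `x_0 = 0`, pulled back by the retraction
`r(x_0, x') = ((1+x_0)/M - 1, 1/2 + (x' - 1/2)/M)`, `M = max ((1+x_0)/2) (2 |x' - 1/2|_∞)`, and
restricted to `x_0 = 0`; class by `hat` applied to `collapse 1 ∘ B ∘ r`. -/
theorem exists_sphere (w₀ : W) (c : Fin (m + 4) → W) :
    ∃ L : (Fin (m + 2) → ℝ) → Sk W (m + 2), Continuous L ∧
      (∀ y, y ∉ openCube (m + 2) → (L y : W → ℝ) = vtx (c 0)) ∧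
      (∀ y, ∀ w ∈ spt (L y : W → ℝ), ∃ i, c i = w) ∧
      ∀ ℓ : ELoop (m + 2) (Sk W (m + 2)) (base m w₀), (∀ y, ℓ y = collapse (m + 1) w₀ 1 (L y)) →
        ℓ.cls = ∑ j : Fin (m + 4), ((-1 : ℤ) ^ (j : ℕ)) • (aff (c ∘ Fin.succAbove j)).cl w₀ := by
  have hcons : Continuous fun y : Fin (m + 2) → ℝ => (Fin.cons 0 y : Fin (m + 3) → ℝ) := by
    refine continuous_pi fun j => ?_
    refine Fin.cases ?_ (fun l => ?_) j
    · simp only [Fin.cons_zero]
      exact continuous_const
    · simp only [Fin.cons_succ]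
      exact continuous_apply l
  refine ⟨fun y => dsB c (Fin.cons 0 y), (dsB_continuous c).comp hcons,
    fun y hy => dsB_off c hy, fun y w hw => ?_, fun ℓ hℓ => ?_⟩
  · obtain ⟨i, -, hi⟩ := ds_mem_spt c _ hw
    exact ⟨i, hi⟩
  · have hsum := (hat (dsG w₀ c ℓ)).1 (dsG_ext w₀ c ℓ hℓ)
    have hne : (0 : Fin (m + 3)) ≠ Fin.last (m + 2) := by
      intro h
      have := congrArg Fin.val h
      simp at this
    have h1 : ∑ i : Fin (m + 3), ((-1 : ℤ) ^ (i : ℕ)) • (dsG w₀ c ℓ i false).cls =
        ℓ.cls + ((-1 : ℤ) ^ (m + 2)) • (aff (c ∘ Fin.succAbove (Fin.last (m + 3)))).cl w₀ := by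
      rw [Finset.sum_eq_add (0 : Fin (m + 3)) (Fin.last (m + 2)) hne]
      · rw [dsG_zero, dsG_last, Fin.val_zero, pow_zero, one_smul, Fin.val_last]
        rfl
      · intro i _ hi
        rw [dsG_other w₀ c ℓ hi.1 hi.2, cls_const, smul_zero]
      · intro h
        exact absurd (Finset.mem_univ _) h
      · intro h
        exact absurd (Finset.mem_univ _) h
    have h2 : ∑ i : Fin (m + 3), ((-1 : ℤ) ^ (i : ℕ)) • (dsG w₀ c ℓ i true).cls =
        ∑ i : Fin (m + 3), ((-1 : ℤ) ^ (i : ℕ)) •
          (aff (c ∘ Fin.succAbove i.castSucc)).cl w₀ := by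
      refine Finset.sum_congr rfl fun i _ => ?_
      rw [dsG_true]
      rfl
    unfold faceSum at hsum
    simp_rw [smul_sub] at hsum
    rw [Finset.sum_sub_distrib, h1, h2] at hsum
    rw [Fin.sum_univ_castSucc]
    simp only [Fin.val_castSucc, Fin.val_last]
    have h3 : ((-1 : ℤ) ^ (m + 3)) = -((-1 : ℤ) ^ (m + 2)) := by ring
    rw [h3, neg_smul]
    rw [sub_eq_zero] at hsum
    rw [hsum]
    abel

end Vale.Agent.P093.T
end

section

/-!
Insertion of one sphere in a disk map.
-/

open Topology.Homotopy Set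
open scoped unitInterval Topology

namespace Vale.Agent.P093.T

variable {W : Type*} [Fintype W] {m : ℕ}

/-! ### the cube -/

/-- dilation by `2` about the centre of the cube -/
private noncomputable def dscale {k : ℕ} (y : Fin k → ℝ) : Fin k → ℝ :=
  fun i => 1 / 2 + 2 * (y i - 1 / 2)

/-- twice the distance to the centre -/
private noncomputable def dnorm {k : ℕ} (y : Fin k → ℝ) : ℝ := 2 * ‖fun i => y i - 1 / 2‖

private theorem dscale_cont {k : ℕ} : Continuous (dscale (k := k)) := by
  unfold dscale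
  fun_prop

private theorem dnorm_cont {k : ℕ} : Continuous (dnorm (k := k)) := by
  unfold dnorm
  fun_prop

private theorem dnorm_ge {k : ℕ} (y : Fin k → ℝ) (i : Fin k) : 2 * |y i - 1 / 2| ≤ dnorm y := by
  unfold dnorm
  have := norm_le_pi_norm (fun i => y i - 1 / 2) i
  rw [Real.norm_eq_abs] at this
  linarith

private theorem dnorm_lt {k : ℕ} (y : Fin k → ℝ) {r : ℝ} (hr : 0 < r)
    (h : ∀ i, 2 * |y i - 1 / 2| < r) : dnorm y < r := by
  unfold dnorm
  have : ‖fun i => y i - 1 / 2‖ < r / 2 := by
    rw [pi_norm_lt_iff (by linarith)]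
    intro i
    rw [Real.norm_eq_abs]
    linarith [h i]
  linarith

/-- off the inner cube the dilated point is not in the open cube -/
private theorem dscale_off {k : ℕ} (y : Fin k → ℝ) (h : 1 / 2 ≤ dnorm y) :
    dscale y ∉ openCube k := by
  intro hy
  refine absurd (dnorm_lt y (r := 1 / 2) (by norm_num) fun i => ?_) (not_lt.2 h)
  have := hy i
  unfold dscale at this
  have h1 : |y i - 1 / 2| < 1 / 4 := by
    rw [abs_lt]
    constructor <;> linarith [this.1, this.2]
  linarith

private theorem dclamp_cont : Continuous clamp := by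
  unfold clamp
  fun_prop

private theorem dclamp_nonneg (t : ℝ) : 0 ≤ clamp t := le_max_left _ _

private theorem dclamp_le_one (t : ℝ) : clamp t ≤ 1 := by
  unfold clamp
  exact max_le zero_le_one (min_le_left _ _)

/-! ### the sphere with a sign, attached to the vertex `v` -/

private theorem collapse_low (w₀ : W) (y : Sk W (m + 2)) (hy : (y : W → ℝ) ∈ Sk W (m + 1)) :
    collapse (m + 1) w₀ 1 y = base m w₀ :=
  Subtype.ext ((exists_collapse (m + 1) w₀).choose_spec.2.2 y hy)

private theorem collapse_cont (w₀ : W) :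
    Continuous fun y : Sk W (m + 2) => collapse (m + 1) w₀ 1 y := by
  have h1 : Continuous (fun z : ℝ × Sk W (m + 1 + 1) => collapse (m + 1) w₀ z.1 z.2) :=
    (exists_collapse (m + 1) w₀).choose_spec.1
  exact h1.comp (by fun_prop : Continuous fun y : Sk W (m + 1 + 1) => ((1 : ℝ), y))

/-- sphere with sign -/
private theorem sphere_sign (w₀ : W) (c : Fin (m + 4) → W) (ε : ℤ) (hε : ε = 1 ∨ ε = -1) :
    ∃ L : (Fin (m + 2) → ℝ) → Sk W (m + 2), Continuous L ∧
      (∀ y, y ∉ openCube (m + 2) → (L y : W → ℝ) = vtx (c 0)) ∧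
      (∀ y, ∀ w ∈ spt (L y : W → ℝ), ∃ i, c i = w) ∧
      ∀ ℓ : ELoop (m + 2) (Sk W (m + 2)) (base m w₀), (∀ y, ℓ y = collapse (m + 1) w₀ 1 (L y)) →
        ℓ.cls = ε • ∑ j : Fin (m + 4), ((-1 : ℤ) ^ (j : ℕ)) •
          (aff (c ∘ Fin.succAbove j)).cl w₀ := by
  obtain ⟨L, h1, h2, h3, h4⟩ := exists_sphere w₀ c
  rcases hε with rfl | rfl
  · refine ⟨L, h1, h2, h3, fun ℓ hℓ => ?_⟩
    rw [one_smul]
    exact h4 ℓ hℓ
  · have hc : Continuous fun y : Fin (m + 2) → ℝ => Function.update y 0 (1 - y 0) := by
      fun_prop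
    have ho : ∀ y : Fin (m + 2) → ℝ, y ∉ openCube (m + 2) →
        Function.update y 0 (1 - y 0) ∉ openCube (m + 2) := by
      intro y hy hu
      apply hy
      intro i
      have := hu i
      by_cases hi : i = 0
      · subst hi
        rw [Function.update_self] at this
        constructor <;> linarith [this.1, this.2]
      · rwa [Function.update_of_ne hi] at this
    refine ⟨fun y => L (Function.update y 0 (1 - y 0)), h1.comp hc, fun y hy => h2 _ (ho y hy),
      fun y => h3 _, fun ℓ hℓ => ?_⟩
    have e1 : ∀ y : Fin (m + 2) → ℝ, Function.update (Function.update y 0 (1 - y 0)) 0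
        (1 - Function.update y 0 (1 - y 0) 0) = y := by
      intro y
      rw [Function.update_self, Function.update_idem]
      rw [show (1 : ℝ) - (1 - y 0) = y 0 by ring, Function.update_eq_self]
    have e2 := h4 (ℓ.pre _ hc ho) (fun y => by
      show ℓ (Function.update y 0 (1 - y 0)) = _
      rw [hℓ]
      show collapse (m + 1) w₀ 1 (L (Function.update (Function.update y 0 (1 - y 0)) 0
        (1 - Function.update y 0 (1 - y 0) 0))) = _
      rw [e1])
    have e3 := cls_refl 0 ℓ (ℓ.pre _ hc ho) (fun y => rfl)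
    rw [e2] at e3
    rw [neg_smul, one_smul, e3, neg_neg]

omit [Fintype W] in
private theorem dvtx_self (w : W) : vtx w w = 1 := by
  classical
  unfold vtx
  simp

omit [Fintype W] in
private theorem dvtx_ne (w w' : W) (h : w' ≠ w) : vtx w w' = 0 := by
  classical
  unfold vtx
  simp [h]

omit [Fintype W] in
private theorem dvtx_nonneg (w w' : W) : 0 ≤ vtx w w' := by
  classical
  by_cases h : w' = w
  · subst h
    rw [dvtx_self]
    exact zero_le_one
  · rw [dvtx_ne w w' h]

private theorem dvtx_sum (w : W) : ∑ w', vtx w w' = 1 := by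
  classical
  rw [Finset.sum_eq_single w]
  · exact dvtx_self w
  · intro b _ hb
    exact dvtx_ne w b hb
  · intro h
    exact absurd (Finset.mem_univ w) h

/-- a point of the edge between two vertices -/
private noncomputable def edgeP (u v : W) (t : ℝ) : W → ℝ :=
  fun w => (1 - clamp t) * vtx u w + clamp t * vtx v w

private theorem edgeP_spt (u v : W) (t : ℝ) : ∀ w ∈ spt (edgeP u v t), w = u ∨ w = v := by
  intro w hw
  unfold spt at hw
  rw [Finset.mem_filter] at hw
  by_contra hcon
  push Not at hcon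
  apply hw.2
  unfold edgeP
  rw [dvtx_ne u w hcon.1, dvtx_ne v w hcon.2, mul_zero, mul_zero, add_zero]

private theorem edgeP_mem (u v : W) (t : ℝ) (d : ℕ) (hd : 1 ≤ d) : edgeP u v t ∈ Sk W d := by
  classical
  refine ⟨⟨fun w => ?_, ?_⟩, ?_⟩
  · have h1 := dclamp_nonneg t
    have h2 := dclamp_le_one t
    exact add_nonneg (mul_nonneg (by linarith) (dvtx_nonneg _ _))
      (mul_nonneg h1 (dvtx_nonneg _ _))
  · unfold edgeP
    rw [Finset.sum_add_distrib, ← Finset.mul_sum, ← Finset.mul_sum, dvtx_sum, dvtx_sum]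
    ring
  · have h : spt (edgeP u v t) ⊆ {u, v} := by
      intro w hw
      rw [Finset.mem_insert, Finset.mem_singleton]
      exact edgeP_spt u v t w hw
    have := Finset.card_le_card h
    have := Finset.card_le_two (a := u) (b := v)
    omega

omit [Fintype W] in
private theorem edgeP_zero (u v : W) {t : ℝ} (ht : t ≤ 0) : edgeP u v t = vtx u := by
  have h : clamp t = 0 := by
    unfold clamp
    rw [min_eq_right (by linarith), max_eq_left ht]
  funext w
  unfold edgeP
  rw [h]
  ring

omit [Fintype W] in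
private theorem edgeP_one (u v : W) {t : ℝ} (ht : 1 ≤ t) : edgeP u v t = vtx v := by
  have h : clamp t = 1 := by
    unfold clamp
    rw [min_eq_left ht, max_eq_right zero_le_one]
  funext w
  unfold edgeP
  rw [h]
  ring

/-- the sphere with sign, connected to `v` -/
private theorem sphere_conn (w₀ : W) (c : Fin (m + 4) → W) (ε : ℤ) (hε : ε = 1 ∨ ε = -1)
    (v : W) :
    ∃ L : (Fin (m + 2) → ℝ) → Sk W (m + 2), Continuous L ∧
      (∀ y, y ∉ openCube (m + 2) → (L y : W → ℝ) = vtx v) ∧
      (∀ y, ∀ w ∈ spt (L y : W → ℝ), (∃ i, c i = w) ∨ w = v) ∧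
      ∀ ℓ : ELoop (m + 2) (Sk W (m + 2)) (base m w₀), (∀ y, ℓ y = collapse (m + 1) w₀ 1 (L y)) →
        ℓ.cls = ε • ∑ j : Fin (m + 4), ((-1 : ℤ) ^ (j : ℕ)) •
          (aff (c ∘ Fin.succAbove j)).cl w₀ := by
  obtain ⟨L, h1, h2, h3, h4⟩ := sphere_sign w₀ c ε hε
  have hE : Continuous fun y : Fin (m + 2) → ℝ =>
      (⟨edgeP (c 0) v (2 * dnorm y - 1), edgeP_mem _ _ _ _ (by omega)⟩ : Sk W (m + 2)) := by
    refine Continuous.subtype_mk ?_ _
    have h5 : Continuous fun y : Fin (m + 2) → ℝ => clamp (2 * dnorm y - 1) :=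
      dclamp_cont.comp (by have := dnorm_cont (k := m + 2); fun_prop)
    unfold edgeP
    fun_prop
  have hS : Continuous fun y : Fin (m + 2) → ℝ => L (dscale y) := h1.comp dscale_cont
  refine ⟨fun y => if dnorm y ≤ 1 / 2 then L (dscale y) else
      ⟨edgeP (c 0) v (2 * dnorm y - 1), edgeP_mem _ _ _ _ (by omega)⟩, ?_, ?_, ?_, ?_⟩
  · refine Continuous.if_le hS hE dnorm_cont continuous_const fun y hy => ?_
    refine Subtype.ext ?_
    rw [h2 _ (dscale_off y hy.ge)]
    exact (edgeP_zero _ _ (by rw [hy]; norm_num)).symm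
  · intro y hy
    have h5 : 1 ≤ dnorm y := by
      by_contra hcon
      push Not at hcon
      apply hy
      intro i
      have h6 := dnorm_ge y i
      have h7 : |y i - 1 / 2| < 1 / 2 := by linarith
      rw [abs_lt] at h7
      constructor <;> linarith [h7.1, h7.2]
    simp only
    rw [if_neg (by linarith)]
    exact edgeP_one _ _ (by linarith)
  · intro y w hw
    simp only at hw
    split_ifs at hw with h5
    · exact Or.inl (h3 _ w hw)
    · rcases edgeP_spt _ _ _ w hw with h | h
      · exact Or.inl ⟨0, h.symm⟩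
      · exact Or.inr h
  · intro ℓ hℓ
    have hlo : ∀ y, y ∉ openCube (m + 2) → collapse (m + 1) w₀ 1 (L y) = base m w₀ := by
      intro y hy
      apply collapse_low
      rw [h2 y hy]
      exact vtx_mem_Sk _ _
    let ℓ' : ELoop (m + 2) (Sk W (m + 2)) (base m w₀) :=
      ⟨fun y => collapse (m + 1) w₀ 1 (L y), (collapse_cont w₀).comp h1, hlo⟩
    rw [← h4 ℓ' fun y => rfl]
    refine cls_scale ℓ' ℓ fun y => ?_
    show ℓ y = collapse (m + 1) w₀ 1 (L (dscale y))
    rw [hℓ]
    by_cases h5 : dnorm y ≤ 1 / 2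
    · simp only
      rw [if_pos h5]
    · simp only
      rw [if_neg h5, hlo _ (dscale_off y (not_le.1 h5).le)]
      exact collapse_low w₀ _ (edgeP_mem _ _ _ _ (by omega))

/-! ### the collar -/

/-- radial projection to the boundary of the cube -/
private noncomputable def bpt {k : ℕ} (y : Fin k → ℝ) : Fin k → ℝ :=
  fun i => 1 / 2 + (y i - 1 / 2) / max (dnorm y) (1 / 2)

/-- the time -/
private noncomputable def btime {k : ℕ} (y : Fin k → ℝ) : ℝ := clamp (2 - 2 * dnorm y)

/-- the point whose value is taken on the collar -/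
private noncomputable def cpt {k : ℕ} (y : Fin (k + 1) → ℝ) : Fin (k + 1) → ℝ :=
  Function.update (bpt y) 0 ((1 - btime y) * bpt y 0 + btime y * max 0 (2 * bpt y 0 - 1))

private theorem bpt_cont {k : ℕ} : Continuous (bpt (k := k)) := by
  refine continuous_pi fun i => ?_
  refine continuous_const.add (Continuous.div (by fun_prop)
    (dnorm_cont.max continuous_const) fun y => ?_)
  have : (1 : ℝ) / 2 ≤ max (dnorm y) (1 / 2) := le_max_right _ _
  linarith

private theorem btime_cont {k : ℕ} : Continuous (btime (k := k)) := by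
  unfold btime
  exact dclamp_cont.comp (by have := dnorm_cont (k := k); fun_prop)

private theorem cpt_cont {k : ℕ} : Continuous (cpt (k := k)) := by
  unfold cpt
  have h1 := bpt_cont (k := k + 1)
  have h2 := btime_cont (k := k + 1)
  fun_prop

private theorem bpt_abs {k : ℕ} (y : Fin k → ℝ) (i : Fin k) : |bpt y i - 1 / 2| ≤ 1 / 2 := by
  have h1 := dnorm_ge y i
  have h2 : (0 : ℝ) < max (dnorm y) (1 / 2) := lt_of_lt_of_le (by norm_num) (le_max_right _ _)
  have h3 : bpt y i - 1 / 2 = (y i - 1 / 2) / max (dnorm y) (1 / 2) := by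
    unfold bpt
    ring
  rw [h3, abs_div, abs_of_pos h2, div_le_iff₀ h2]
  have := le_max_left (dnorm y) (1 / 2)
  linarith

private theorem bpt_off {k : ℕ} (y : Fin k → ℝ) (hy : 1 / 2 ≤ dnorm y) :
    bpt y ∉ openCube k := by
  intro h
  have h2 : 0 < dnorm y := by linarith
  refine absurd (dnorm_lt y h2 fun i => ?_) (lt_irrefl _)
  have h3 := h i
  have h4 : bpt y i - 1 / 2 = (y i - 1 / 2) / dnorm y := by
    unfold bpt
    rw [max_eq_left hy]
    ring
  have h5 : |bpt y i - 1 / 2| < 1 / 2 := by
    rw [abs_lt]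
    constructor <;> linarith [h3.1, h3.2]
  rw [h4, abs_div, abs_of_pos h2, div_lt_iff₀ h2] at h5
  linarith

private theorem cpt_off {k : ℕ} (y : Fin (k + 1) → ℝ) (hy : 1 / 2 ≤ dnorm y) :
    cpt y ∉ openCube (k + 1) := by
  intro h
  apply bpt_off y hy
  intro i
  have h1 := h i
  unfold cpt at h1
  by_cases hi : i = 0
  · subst hi
    rw [Function.update_self] at h1
    have h2 := bpt_abs y 0
    rw [abs_le] at h2
    have h3 : 0 ≤ btime y := dclamp_nonneg _
    have h4 : btime y ≤ 1 := dclamp_le_one _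
    constructor
    · by_contra hcon
      have h5 : bpt y 0 = 0 := by linarith [h2.1]
      rw [h5] at h1
      norm_num at h1
    · by_contra hcon
      have h5 : bpt y 0 = 1 := by linarith [h2.2]
      rw [h5] at h1
      norm_num at h1
  · rwa [Function.update_of_ne hi] at h1

/-- on the boundary of the cube nothing changes -/
private theorem cpt_bdry {k : ℕ} (y : Fin (k + 1) → ℝ) (h : dnorm y = 1) : cpt y = y := by
  have h1 : bpt y = y := by
    funext i
    unfold bpt
    rw [h, max_eq_left (by norm_num)]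
    ring
  have h2 : btime y = 0 := by
    unfold btime clamp
    rw [h]
    norm_num
  unfold cpt
  rw [h1, h2, Function.update_eq_iff]
  refine ⟨by ring, fun x _ => rfl⟩

/-- on the boundary of the inner cube -/
private theorem cpt_inner {k : ℕ} (y : Fin (k + 1) → ℝ) (h : dnorm y = 1 / 2) :
    cpt y = Function.update (dscale y) 0 (max 0 (2 * dscale y 0 - 1)) := by
  have h1 : bpt y = dscale y := by
    funext i
    unfold bpt dscale
    rw [h, max_eq_left le_rfl]
    ring
  have h2 : btime y = 1 := by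
    unfold btime clamp
    rw [h]
    norm_num
  unfold cpt
  rw [h1, h2]
  congr 1
  ring

private theorem dnorm_cube {k : ℕ} (y : Fin k → ℝ) (hy : ∀ i, 0 ≤ y i ∧ y i ≤ 1)
    (ho : y ∉ openCube k) : dnorm y = 1 := by
  apply le_antisymm
  · unfold dnorm
    have : ‖fun i => y i - 1 / 2‖ ≤ 1 / 2 := by
      rw [pi_norm_le_iff_of_nonneg (by norm_num)]
      intro i
      rw [Real.norm_eq_abs, abs_le]
      constructor <;> linarith [(hy i).1, (hy i).2]
    linarith
  · by_contra hcon
    push Not at hcon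
    apply ho
    intro i
    have h6 := dnorm_ge y i
    have h7 : |y i - 1 / 2| < 1 / 2 := by linarith
    rw [abs_lt] at h7
    constructor <;> linarith [h7.1, h7.2]

/-- clamping the coordinates -/
private theorem dqmap_clamp (k : ℕ) (y : Fin k → ℝ) : qmap k (fun i => clamp (y i)) = qmap k y := by
  have h : ∀ t : ℝ, clamp (clamp t) = clamp t := fun t =>
    clamp_of_mem_descend (dclamp_nonneg t) (dclamp_le_one t)
  funext j
  unfold qmap
  simp only [h]

private theorem dqmap_first (k : ℕ) (y : Fin (k + 1) → ℝ) (h : clamp (y 0) = 0) :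
    qmap (k + 1) y 0 = 1 := by
  have h0 : ((0 : Fin (k + 1 + 1)) : ℕ) < k + 1 := by simp
  have h1 : (⟨((0 : Fin (k + 1 + 1)) : ℕ), h0⟩ : Fin (k + 1)) = 0 := by
    ext
    simp
  unfold qmap
  rw [Finset.prod_eq_one fun i _ => if_neg (by simp), dif_pos h0, h1, h]
  norm_num

/-! ### the insertion -/

/-- (C3) INSERTION of the sphere `∂c` in a disk map. First connect the vertex `v` to `c 0` by an
edge: `L'' y = L (1/2 + 2 (y - 1/2))` in the inner cube, the edge in the collar (`collapse 1`
sends the edge to the base point). Put `F = catFun 0 L'' (a ∘ qmap)` (the face `y_0 = 0` of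
`a ∘ qmap` is constant `v`), correct the boundary values by a collar
(`F' y = F (1/2 + 2 (y - 1/2))` in the inner cube `[1/4,3/4]^(m+2)`, and on the collar at height
`N ∈ [1/2,1]` over the boundary point `b` the value `a (qmap (b with b_0 replaced by
(1-s) b_0 + s max 0 (2 b_0 - 1)))`, `s = 2 - 2N`), and descend by `descend`. For `ε = -1` reflect
`L''` in one coordinate. -/
theorem insert_sphere (w₀ : W) (S : Finset W) (a : DiskMap m W) (v : W) (hv : v ∈ S)
    (ha0 : ∀ z : stdSimplex ℝ (Fin (m + 3)), z.1 0 = 1 → (a.toFun z : W → ℝ) = vtx v)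
    (haS : ∀ z, spt (a.toFun z : W → ℝ) ⊆ S)
    (c : Fin (m + 4) → W) (hc : ∀ i, c i ∈ S) (ε : ℤ) (hε : ε = 1 ∨ ε = -1) :
    ∃ a' : DiskMap m W, (∀ z : stdSimplex ℝ (Fin (m + 3)), (∃ i, z.1 i = 0) →
        a'.toFun z = a.toFun z) ∧
      (∀ z, spt (a'.toFun z : W → ℝ) ⊆ S) ∧
      a'.cl w₀ = a.cl w₀ + ε • ∑ j : Fin (m + 4), ((-1 : ℤ) ^ (j : ℕ)) •
        (aff (c ∘ Fin.succAbove j)).cl w₀ := by
  classical
  obtain ⟨L, h1, h2, h3, h4⟩ := sphere_conn w₀ c ε hε v
  -- the disk map on the cube
  let A : (Fin (m + 2) → ℝ) → Sk W (m + 2) := fun y => a.toFun ⟨qmap (m + 2) y, qmap_mem _ y⟩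
  have hA : Continuous A := a.cont.comp (Continuous.subtype_mk (continuous_qmap (m + 2)) _)
  have hA0 : ∀ y : Fin (m + 2) → ℝ, y 0 ≤ 0 → (A y : W → ℝ) = vtx v := by
    intro y hy
    apply ha0
    show qmap (m + 2) y 0 = 1
    have h5 : clamp (y 0) = 0 := by
      unfold clamp
      rw [min_eq_right (by linarith), max_eq_left hy]
    exact dqmap_first (m + 1) y h5
  have hAb : ∀ y : Fin (m + 2) → ℝ, y ∉ openCube (m + 2) → (A y : W → ℝ) ∈ Sk W (m + 1) :=
    fun y hy => a.bdry _ (qmap_bdry (m + 2) y hy (by omega))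
  -- the concatenation
  have hF0 : Continuous (catFun 0 L A) := by
    unfold catFun
    refine Continuous.if_le (h1.comp (by fun_prop)) (hA.comp (by fun_prop)) (by fun_prop)
      continuous_const fun y hy => ?_
    refine Subtype.ext ?_
    rw [h2, hA0]
    · rw [Function.update_self, hy]
      norm_num
    · intro h
      have := (h 0).2
      rw [Function.update_self, hy] at this
      norm_num at this
  -- with the collar
  let F : (Fin (m + 2) → ℝ) → Sk W (m + 2) := fun y =>
    if dnorm y ≤ 1 / 2 then catFun 0 L A (dscale y) else A (cpt y)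
  have hF : Continuous F := by
    refine Continuous.if_le (hF0.comp dscale_cont) (hA.comp cpt_cont) dnorm_cont
      continuous_const fun y hy => ?_
    rw [cpt_inner y hy]
    have h5 := dscale_off y hy.ge
    unfold catFun
    split_ifs with h6
    · refine Subtype.ext ?_
      rw [max_eq_left (by linarith), hA0 _ (by rw [Function.update_self]), h2]
      intro h
      apply h5
      intro i
      have h7 := h i
      by_cases hi : i = 0
      · subst hi
        rw [Function.update_self] at h7
        constructor <;> linarith [h7.1, h7.2]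
      · rwa [Function.update_of_ne hi] at h7
    · rw [max_eq_right (by linarith)]
  have hFb : ∀ y : Fin (m + 2) → ℝ, (∀ i, 0 ≤ y i ∧ y i ≤ 1) → y ∉ openCube (m + 2) →
      F y = A y := by
    intro y hy ho
    have h5 := dnorm_cube y hy ho
    show (if dnorm y ≤ 1 / 2 then catFun 0 L A (dscale y) else A (cpt y)) = A y
    rw [if_neg (by rw [h5]; norm_num), cpt_bdry y h5]
  have hAq : ∀ y y' : Fin (m + 2) → ℝ, qmap (m + 2) y = qmap (m + 2) y' → A y = A y' := by
    intro y y' h
    show a.toFun ⟨qmap (m + 2) y, qmap_mem _ y⟩ = a.toFun ⟨qmap (m + 2) y', qmap_mem _ y'⟩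
    congr 1
    exact Subtype.ext h
  obtain ⟨f, hf, hfF⟩ := descend (m + 2) F hF fun x x' hx hx' ho ho' h => by
    rw [hFb x hx ho, hFb x' hx' ho']
    exact hAq _ _ h
  have hbd : ∀ z : stdSimplex ℝ (Fin (m + 3)), (∃ i, z.1 i = 0) → f z = a.toFun z := by
    rintro z ⟨i, hi⟩
    obtain ⟨x, hx, hxz⟩ := qmap_surj (m + 2) z.1 z.2
    have hz : (⟨qmap (m + 2) x, qmap_mem _ x⟩ : stdSimplex ℝ (Fin (m + 3))) = z :=
      Subtype.ext hxz
    have ho : x ∉ openCube (m + 2) := by
      intro h
      have h5 : 0 < qmap (m + 2) x i := by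
        unfold qmap
        refine mul_pos (Finset.prod_pos fun j _ => ?_) ?_
        · split_ifs
          · rw [clamp_of_mem_descend (h j).1.le (h j).2.le]
            exact (h j).1
          · exact one_pos
        · split_ifs with h6
          · rw [clamp_of_mem_descend (h _).1.le (h _).2.le]
            linarith [(h ⟨i.val, h6⟩).2]
          · exact one_pos
      rw [hxz, hi] at h5
      exact lt_irrefl _ h5
    rw [← hz, hfF x hx, hFb x hx ho]
  refine ⟨⟨f, hf, fun z hz => ?_⟩, hbd, fun z => ?_, ?_⟩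
  · rw [hbd z hz]
    exact a.bdry z hz
  · obtain ⟨x, hx, hxz⟩ := qmap_surj (m + 2) z.1 z.2
    have hz : (⟨qmap (m + 2) x, qmap_mem _ x⟩ : stdSimplex ℝ (Fin (m + 3))) = z :=
      Subtype.ext hxz
    show spt (f z : W → ℝ) ⊆ S
    rw [← hz, hfF x hx]
    have hL : ∀ y, spt (L y : W → ℝ) ⊆ S := by
      intro y w hw
      rcases h3 y w hw with ⟨i, hi⟩ | hi
      · rw [← hi]
        exact hc i
      · rw [hi]
        exact hv
    show spt ((if dnorm x ≤ 1 / 2 then catFun 0 L A (dscale x) else A (cpt x) :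
      Sk W (m + 2)) : W → ℝ) ⊆ S
    unfold catFun
    split_ifs
    · exact hL _
    · exact haS _
    · exact haS _
  · -- the class
    have hlo : ∀ y, y ∉ openCube (m + 2) → collapse (m + 1) w₀ 1 (L y) = base m w₀ := by
      intro y hy
      apply collapse_low
      rw [h2 y hy]
      exact vtx_mem_Sk _ _
    let ℓ : ELoop (m + 2) (Sk W (m + 2)) (base m w₀) :=
      ⟨fun y => collapse (m + 1) w₀ 1 (L y), (collapse_cont w₀).comp h1, hlo⟩
    have e1 : ℓ.cls = ε • ∑ j : Fin (m + 4), ((-1 : ℤ) ^ (j : ℕ)) •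
        (aff (c ∘ Fin.succAbove j)).cl w₀ := h4 ℓ fun y => rfl
    have e2 := cls_cat 0 ℓ (a.loop w₀)
    rw [← e1]
    refine ((cls_scale (ELoop.cat 0 ℓ (a.loop w₀)) _ fun y => ?_).trans e2).trans (add_comm _ _)
    show collapse (m + 1) w₀ 1 (f ⟨qmap (m + 2) y, qmap_mem _ y⟩) =
      ELoop.cat 0 ℓ (a.loop w₀) (dscale y)
    have e3 : f ⟨qmap (m + 2) y, qmap_mem _ y⟩ = F fun i => clamp (y i) := by
      rw [← hfF _ fun i => ⟨dclamp_nonneg _, dclamp_le_one _⟩]
      congr 1
      exact Subtype.ext (dqmap_clamp _ y).symm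
    rw [e3]
    by_cases h5 : dnorm (fun i => clamp (y i)) ≤ 1 / 2
    · have h6 : (fun i => clamp (y i)) = y := by
        funext i
        have h7 := dnorm_ge (fun i => clamp (y i)) i
        have h8 : |clamp (y i) - 1 / 2| ≤ 1 / 4 := by linarith
        rw [abs_le] at h8
        rcases le_or_gt (y i) 0 with h9 | h9
        · exfalso
          have : clamp (y i) = 0 := by
            unfold clamp
            rw [min_eq_right (by linarith), max_eq_left h9]
          linarith [h8.1]
        · rcases le_or_gt (y i) 1 with h10 | h10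
          · exact clamp_of_mem_descend h9.le h10
          · exfalso
            have : clamp (y i) = 1 := by
              unfold clamp
              rw [min_eq_left h10.le, max_eq_right zero_le_one]
            linarith [h8.2]
      rw [h6] at h5 ⊢
      show collapse (m + 1) w₀ 1
        (if dnorm y ≤ 1 / 2 then catFun 0 L A (dscale y) else A (cpt y)) = _
      rw [if_pos h5]
      show _ = catFun 0 ℓ (a.loop w₀) (dscale y)
      unfold catFun
      split_ifs
      · rfl
      · rfl
    · show collapse (m + 1) w₀ 1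
        (if dnorm (fun i => clamp (y i)) ≤ 1 / 2 then catFun 0 L A (dscale fun i => clamp (y i))
          else A (cpt fun i => clamp (y i))) = _
      rw [if_neg h5, (ELoop.cat 0 ℓ (a.loop w₀)).off]
      · exact collapse_low w₀ _ (hAb _ (cpt_off _ (not_le.1 h5).le))
      · intro h
        apply h5
        have h6 : (fun i => clamp (y i)) = y := by
          funext i
          have := h i
          unfold dscale at this
          exact clamp_of_mem_descend (by linarith [this.1]) (by linarith [this.2])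
        rw [h6]
        refine (dnorm_lt y (r := 1 / 2) (by norm_num) fun i => ?_).le
        have := h i
        unfold dscale at this
        have h7 : |y i - 1 / 2| < 1 / 4 := by
          rw [abs_lt]
          constructor <;> linarith [this.1, this.2]
        linarith

end Vale.Agent.P093.T
end

section

/-!
Insertion of spheres in disk maps.
-/

open Topology.Homotopy Set
open scoped unitInterval Topology

namespace Vale.Agent.P093.T

variable {W : Type*} [Fintype W] {m : ℕ}

/-- the class of the boundary of an ordered simplex, in terms of affine disk maps -/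
theorem sum_faces_eq_theta (w₀ : W) (c : Fin (m + 4) → W) :
    (∑ j : Fin (m + 4), ((-1 : ℤ) ^ (j : ℕ)) • (aff (c ∘ Fin.succAbove j)).cl w₀ :
      PiGrp m (Sk W (m + 2)) (base m w₀)) = theta w₀ (simplexBoundary (List.ofFn c)) := by
  classical
  have hlen : ¬ (List.ofFn c).length ≤ 1 := by
    rw [List.length_ofFn]
    omega
  have hadd : ∀ (T : Finset ℕ) (f : ℕ → OChain W),
      (theta w₀ (∑ i ∈ T, f i) : PiGrp m (Sk W (m + 2)) (base m w₀)) =
        ∑ i ∈ T, theta w₀ (f i) := by
    intro T f
    induction T using Finset.induction_on with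
    | empty =>
      rw [Finset.sum_empty, Finset.sum_empty]
      unfold theta extend
      exact Finsupp.sum_zero_index
    | insert i T hi ih => rw [Finset.sum_insert hi, Finset.sum_insert hi, theta_add, ih]
  unfold simplexBoundary
  rw [if_neg hlen, hadd, List.length_ofFn, Finset.sum_range]
  refine Finset.sum_congr rfl fun j _ => ?_
  rw [theta_smul]
  congr 1
  unfold theta extend
  rw [Finsupp.sum_single_index (h := fun s n => n • (thetaList w₀ s :
    PiGrp m (Sk W (m + 2)) (base m w₀))) (zero_smul ℤ _), one_smul]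
  unfold thetaList
  have hl : ((List.ofFn c).eraseIdx (j : ℕ)).length = m + 3 := by
    rw [List.length_eraseIdx_of_lt (by rw [List.length_ofFn]; exact j.2), List.length_ofFn]
    rfl
  rw [dif_pos hl]
  congr 2
  funext i
  rw [List.get_eq_getElem, List.getElem_eraseIdx]
  simp only [Fin.val_cast, Function.comp_apply]
  by_cases hij : (i : ℕ) < (j : ℕ)
  · rw [dif_pos hij, List.getElem_ofFn]
    congr 1
    apply Fin.ext
    rw [Fin.succAbove_of_castSucc_lt j i (by rw [Fin.lt_def]; exact hij)]
    rfl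
  · rw [dif_neg hij, List.getElem_ofFn]
    congr 1
    apply Fin.ext
    rw [Fin.succAbove_of_le_castSucc j i (by rw [Fin.le_def]; exact not_lt.mp hij)]
    rfl

/-- the property of being a modification of `a` off the boundary inside `S` with class shift
`x` -/
def Ins (w₀ : W) (S : Finset W) (a : DiskMap m W)
    (x : PiGrp m (Sk W (m + 2)) (base m w₀)) : Prop :=
  ∃ a' : DiskMap m W, (∀ z : stdSimplex ℝ (Fin (m + 3)), (∃ i, z.1 i = 0) →
        a'.toFun z = a.toFun z) ∧
      (∀ z, spt (a'.toFun z : W → ℝ) ⊆ S) ∧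
      a'.cl w₀ = a.cl w₀ + x

theorem exists_zero_coord (z : stdSimplex ℝ (Fin (m + 3))) (h : z.1 0 = 1) :
    ∃ i, z.1 i = 0 := by
  refine ⟨1, ?_⟩
  have h2 := z.2.2
  have h3 : (∑ i, z.1 i) = z.1 0 + ∑ i ∈ Finset.univ.erase (0 : Fin (m + 3)), z.1 i :=
    (Finset.add_sum_erase _ _ (Finset.mem_univ _)).symm
  have h4 : z.1 1 ≤ ∑ i ∈ Finset.univ.erase (0 : Fin (m + 3)), z.1 i := by
    refine Finset.single_le_sum (f := fun i => z.1 i) (fun i _ => z.2.1 i) ?_
    rw [Finset.mem_erase]
    exact ⟨by simp, Finset.mem_univ _⟩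
  have h5 := z.2.1 1
  linarith

/-- insertion of `n` copies of a sphere with sign `ε` -/
theorem insert_sphere_iter (w₀ : W) (S : Finset W) (a : DiskMap m W) (v : W) (hv : v ∈ S)
    (ha0 : ∀ z : stdSimplex ℝ (Fin (m + 3)), z.1 0 = 1 → (a.toFun z : W → ℝ) = vtx v)
    (haS : ∀ z, spt (a.toFun z : W → ℝ) ⊆ S)
    (c : Fin (m + 4) → W) (hc : ∀ i, c i ∈ S) (ε : ℤ) (hε : ε = 1 ∨ ε = -1) (n : ℕ) :
    Ins w₀ S a (((n : ℤ) * ε) • ∑ j : Fin (m + 4), ((-1 : ℤ) ^ (j : ℕ)) •
        (aff (c ∘ Fin.succAbove j)).cl w₀) := by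
  induction n with
  | zero =>
    refine ⟨a, fun z _ => rfl, haS, ?_⟩
    rw [Nat.cast_zero, zero_mul, zero_smul, add_zero]
  | succ n ih =>
    obtain ⟨a1, h1, h2, h3⟩ := ih
    obtain ⟨a2, h4, h5, h6⟩ := insert_sphere w₀ S a1 v hv (fun z hz => by
      rw [h1 z (exists_zero_coord z hz)]
      exact ha0 z hz) h2 c hc ε hε
    refine ⟨a2, fun z hz => (h4 z hz).trans (h1 z hz), h5, ?_⟩
    rw [h6, h3, add_assoc, ← add_smul]
    congr 2
    push_cast
    ring

/-- insertion of an integer multiple of the boundary of an ordered simplex -/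
theorem insert_sphere_int (w₀ : W) (S : Finset W) (a : DiskMap m W) (v : W) (hv : v ∈ S)
    (ha0 : ∀ z : stdSimplex ℝ (Fin (m + 3)), z.1 0 = 1 → (a.toFun z : W → ℝ) = vtx v)
    (haS : ∀ z, spt (a.toFun z : W → ℝ) ⊆ S)
    (s : List W) (hs : s.length = m + 4) (hsS : ∀ w ∈ s, w ∈ S) (k : ℤ) :
    Ins w₀ S a (k • theta w₀ (simplexBoundary s)) := by
  obtain ⟨c, rfl⟩ : ∃ c : Fin (m + 4) → W, s = List.ofFn c := by
    refine ⟨fun i => s.get (i.cast hs.symm), ?_⟩
    refine List.ext_get (by rw [List.length_ofFn, hs]) fun n h1 h2 => ?_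
    rw [List.get_ofFn]
    rfl
  have hc : ∀ i, c i ∈ S := fun i => hsS _ ((List.mem_ofFn' c (c i)).mpr ⟨i, rfl⟩)
  rw [← sum_faces_eq_theta]
  rcases le_or_gt 0 k with hk | hk
  · obtain ⟨n, rfl⟩ := Int.eq_ofNat_of_zero_le hk
    have := insert_sphere_iter w₀ S a v hv ha0 haS c hc 1 (Or.inl rfl) n
    rwa [mul_one] at this
  · obtain ⟨n, hn⟩ := Int.eq_ofNat_of_zero_le (a := -k) (by omega)
    have h := insert_sphere_iter w₀ S a v hv ha0 haS c hc (-1) (Or.inr rfl) n
    have hk2 : (n : ℤ) * (-1) = k := by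
      have : (n : ℤ) = -k := hn.symm
      rw [this]
      ring
    rwa [hk2] at h

/-- insertion of a chain of spheres -/
theorem insert_chain (w₀ : W) (S : Finset W) (a : DiskMap m W) (v : W) (hv : v ∈ S)
    (ha0 : ∀ z : stdSimplex ℝ (Fin (m + 3)), z.1 0 = 1 → (a.toFun z : W → ℝ) = vtx v)
    (haS : ∀ z, spt (a.toFun z : W → ℝ) ⊆ S)
    (c : OChain W) (hc : ∀ s ∈ c.support, s.length = m + 4 ∧ ∀ w ∈ s, w ∈ S) :
    ∃ a' : DiskMap m W, (∀ z : stdSimplex ℝ (Fin (m + 3)), (∃ i, z.1 i = 0) →
        a'.toFun z = a.toFun z) ∧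
      (∀ z, spt (a'.toFun z : W → ℝ) ⊆ S) ∧
      a'.cl w₀ = a.cl w₀ + theta w₀ (extend simplexBoundary c) := by
  classical
  have hext : extend simplexBoundary c = ∑ s ∈ c.support, c s • simplexBoundary s := rfl
  rw [hext]
  have key : ∀ T : Finset (List W), (∀ s ∈ T, s.length = m + 4 ∧ ∀ w ∈ s, w ∈ S) →
      Ins w₀ S a (theta w₀ (∑ s ∈ T, c s • simplexBoundary s)) := by
    intro T
    induction T using Finset.induction_on with
    | empty =>
      intro _
      refine ⟨a, fun z _ => rfl, haS, ?_⟩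
      have h0 : (theta w₀ (0 : OChain W) : PiGrp m (Sk W (m + 2)) (base m w₀)) = 0 := by
        unfold theta extend
        exact Finsupp.sum_zero_index
      rw [Finset.sum_empty, h0, add_zero]
    | insert s T hi ih =>
      intro hT
      obtain ⟨a1, h1, h2, h3⟩ := ih fun t ht => hT t (Finset.mem_insert_of_mem ht)
      have hs := hT s (Finset.mem_insert_self s T)
      obtain ⟨a2, h4, h5, h6⟩ := insert_sphere_int w₀ S a1 v hv (fun z hz => by
        rw [h1 z (exists_zero_coord z hz)]
        exact ha0 z hz) h2 s hs.1 hs.2 (c s)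
      refine ⟨a2, fun z hz => (h4 z hz).trans (h1 z hz), h5, ?_⟩
      rw [h6, h3, Finset.sum_insert hi, theta_add, theta_smul, add_assoc,
        add_comm (theta w₀ (∑ s ∈ T, c s • simplexBoundary s))]
  exact key c.support hc

end Vale.Agent.P093.T
end
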