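import Vale.Agent.P093.MathlibUsed
import Vale.Agent.P093.HB.H4
import Vale.Agent.P093.HB.H5

set_option linter.all false

section

open Set Filter Topology
open scoped ENNReal

namespace Vale.Agent.P093

variable {X : Type*} [TopologicalSpace X]

theorem isFinCover_coverJoin (h : X ≃ₜ X) {U : Set (Set X)} (hU : IsFinCover U) (N : ℕ) :
    IsFinCover (coverJoin h U N) := by
  refine ⟨?_, ?_, ?_⟩
  · have : coverJoin h U N = Set.range (fun f : Fin N → U =>
        ⋂ j : Fin N, (⇑h)^[(j : ℕ)] ⁻¹' (f j : Set X)) := by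
      ext s
      constructor
      · rintro ⟨f, hf, rfl⟩
        exact ⟨fun j => ⟨f j, hf j⟩, rfl⟩
      · rintro ⟨f, rfl⟩
        exact ⟨fun j => f j, fun j => (f j).2, rfl⟩
    rw [this]
    have : Finite U := hU.1
    exact Set.finite_range _
  · rintro _ ⟨f, hf, rfl⟩
    exact isOpen_iInter_of_finite fun j => (hU.2.1 _ (hf j)).preimage (h.continuous.iterate _)
  · rw [Set.eq_univ_iff_forall]
    intro x
    have hx : ∀ j : Fin N, ∃ u ∈ U, (⇑h)^[(j : ℕ)] x ∈ u := by
      intro j
      have : (⇑h)^[(j : ℕ)] x ∈ ⋃₀ U := by rw [hU.2.2]; exact Set.mem_univ _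
      exact this
    choose f hf hxf using hx
    exact ⟨_, ⟨f, hf, rfl⟩, Set.mem_iInter.mpr fun j => hxf j⟩

theorem iterCover_eq_coverJoin (h : X ≃ₜ X) {U : Set (Set X)} (hU : U.Nonempty) (N : ℕ) :
    iterCover h U N = coverJoin h U N := by
  obtain ⟨u₀, hu₀⟩ := hU
  ext s
  constructor
  · rintro ⟨f, hf, rfl⟩
    refine ⟨fun j => f j, fun j => hf j, ?_⟩
    ext x
    simp only [Set.mem_iInter, Finset.mem_range, pow_eq_iterate]
    exact ⟨fun hx j => hx j j.2, fun hx j hj => hx ⟨j, hj⟩⟩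
  · rintro ⟨f, hf, rfl⟩
    refine ⟨fun j => if hj : j < N then f ⟨j, hj⟩ else u₀, ?_, ?_⟩
    · intro j
      by_cases hj : j < N
      · simp only [hj, dif_pos]; exact hf _
      · simp only [hj, dif_neg, not_false_eq_true]; exact hu₀
    · ext x
      simp only [Set.mem_iInter, Finset.mem_range, pow_eq_iterate]
      constructor
      · intro hx j hj
        have := hx ⟨j, hj⟩
        simpa [hj] using this
      · intro hx j
        have := hx j j.2
        simpa using this

end Vale.Agent.P093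
end

section

/-!
Realisation of a finite simplicial complex: definitions.
-/

open Set

namespace Vale.Agent.P093.T

variable {U W : Type*} [Fintype U] [Fintype W]

/-- the part of the realisation of the complex `K` with supports of at most `k` vertices -/
def Rlz (K : Set (Finset U)) (k : ℕ) : Set (U → ℝ) :=
  {z | z ∈ stdSimplex ℝ U ∧ spt z ∈ K ∧ (spt z).card ≤ k}

/-- the closed face `σ` -/
def Face (s : Finset U) : Set (U → ℝ) := {z | z ∈ stdSimplex ℝ U ∧ spt z ⊆ s}

end Vale.Agent.P093.T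
end

section

/-!
Gluing of maps on a finite simplicial complex: one skeleton to the next.
-/

open Set

namespace Vale.Agent.P093.T

variable {U W : Type*} [Fintype U] [Fintype W]

theorem isClosed_Face (s : Finset U) : IsClosed (Face s) := by
  have h : Face s = stdSimplex ℝ U ∩ ⋂ u ∈ {u : U | u ∉ s}, {z : U → ℝ | z u = 0} := by
    ext z
    simp only [Face, mem_ofPred_eq, mem_inter_iff, mem_iInter]
    refine and_congr_right fun _ => ⟨fun hz u hu => ?_, fun hz u hu => ?_⟩
    · by_contra hne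
      exact hu (hz (by simp [spt, hne]))
    · by_contra hns
      have h0 := hz u hns
      simp only [spt, Finset.mem_filter, Finset.mem_univ, true_and] at hu
      exact hu h0
  rw [h]
  refine (isClosed_stdSimplex ℝ U).inter (isClosed_biInter fun u _ => ?_)
  exact isClosed_eq (continuous_apply u) continuous_const

theorem spt_nonempty_of_mem {z : U → ℝ} (hz : z ∈ stdSimplex ℝ U) : (spt z).Nonempty := by
  by_contra hne
  rw [Finset.not_nonempty_iff_eq_empty] at hne
  have h0 : ∀ u, z u = 0 := by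
    intro u
    by_contra hu
    have : u ∈ spt z := by simp [spt, hu]
    rw [hne] at this
    simp at this
  have h1 := hz.2
  simp [h0] at h1

theorem Rlz_eq_iUnion (K : Set (Finset U)) (hK : ∀ s ∈ K, ∀ t ⊆ s, t.Nonempty → t ∈ K) (k : ℕ) :
    Rlz K k = ⋃ s ∈ {s : Finset U | s ∈ K ∧ s.card ≤ k}, Face s := by
  ext z
  simp only [Rlz, Face, mem_ofPred_eq, mem_iUnion, exists_prop]
  constructor
  · rintro ⟨h1, h2, h3⟩
    exact ⟨spt z, ⟨h2, h3⟩, h1, Finset.Subset.refl _⟩
  · rintro ⟨s, ⟨h1, h2⟩, h3, h4⟩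
    exact ⟨h3, hK s h1 _ h4 (spt_nonempty_of_mem h3), (Finset.card_le_card h4).trans h2⟩

theorem isClosed_Rlz (K : Set (Finset U)) (hK : ∀ s ∈ K, ∀ t ⊆ s, t.Nonempty → t ∈ K) (k : ℕ) :
    IsClosed (Rlz K k) := by
  rw [Rlz_eq_iUnion K hK k]
  exact (Set.toFinite _).isClosed_biUnion fun s _ => isClosed_Face s

open Classical in
/-- gluing: extension from the supports of size `≤ k` to size `≤ k + 1` -/
theorem glue_step (K : Set (Finset U)) (hK : ∀ s ∈ K, ∀ t ⊆ s, t.Nonempty → t ∈ K) (k : ℕ)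
    (f : (U → ℝ) → (W → ℝ)) (hf : ContinuousOn f (Rlz K k))
    (g : Finset U → (U → ℝ) → (W → ℝ))
    (hg : ∀ s ∈ K, s.card = k + 1 → ContinuousOn (g s) (Face s) ∧
      ∀ z ∈ Face s, spt z ≠ s → g s z = f z) :
    ContinuousOn (fun z => if (spt z).card = k + 1 then g (spt z) z else f z) (Rlz K (k + 1)) := by
  let C : Option {s : Finset U // s ∈ K ∧ s.card = k + 1} → Set (U → ℝ) := fun i =>
    match i with
    | none => Rlz K k
    | some s => Face s.1
  have hC : ⋃ i, C i = Rlz K (k + 1) := by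
    ext z
    rw [mem_iUnion]
    constructor
    · rintro ⟨i, hi⟩
      match i, hi with
      | none, hi => exact ⟨hi.1, hi.2.1, hi.2.2.trans (Nat.le_succ k)⟩
      | some s, hi =>
        exact ⟨hi.1, hK s.1 s.2.1 _ hi.2 (spt_nonempty_of_mem hi.1),
          (Finset.card_le_card hi.2).trans s.2.2.le⟩
    · intro hz
      by_cases hk : (spt z).card = k + 1
      · exact ⟨some ⟨spt z, hz.2.1, hk⟩, hz.1, Finset.Subset.refl _⟩
      · exact ⟨none, hz.1, hz.2.1, by have := hz.2.2; omega⟩
  rw [← hC]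
  refine (locallyFinite_of_finite C).continuousOn_iUnion ?_ ?_
  · intro i
    match i with
    | none => exact isClosed_Rlz K hK k
    | some s => exact isClosed_Face s.1
  · intro i
    match i with
    | none =>
      refine hf.congr fun z hz => ?_
      have : (spt z).card ≠ k + 1 := by have := hz.2.2; omega
      simp only [this, if_false]
    | some s =>
      refine (hg s.1 s.2.1 s.2.2).1.congr fun z hz => ?_
      by_cases hs : spt z = s.1
      · simp only [hs, s.2.2, if_true]
      · have hlt : (spt z).card < s.1.card :=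
          Finset.card_lt_card (lt_of_le_of_ne hz.2 hs)
        have : (spt z).card ≠ k + 1 := by have := s.2.2; omega
        simp only [this, if_false]
        exact ((hg s.1 s.2.1 s.2.2).2 z hz hs).symm

end Vale.Agent.P093.T
end

section

/-!
Maps on the realisation of a finite simplicial complex, built skeleton by skeleton.
-/

open Set

namespace Vale.Agent.P093.T

variable {U W : Type*} [Fintype U] [Fintype W]

theorem coneMemSpt (y : W → ℝ) (w : W) : w ∈ spt y ↔ y w ≠ 0 := by
  simp [spt]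

omit [Fintype W] in
theorem coneVtxSelf (v : W) : (vtx v : W → ℝ) v = 1 := by
  simp [vtx]

omit [Fintype W] in
theorem coneVtxNe {v w : W} (h : w ≠ v) : (vtx v : W → ℝ) w = 0 := by
  simp [vtx, h]

theorem coneVtxMem (v : W) : (vtx v : W → ℝ) ∈ stdSimplex ℝ W := by
  classical
  have : (vtx v : W → ℝ) = Pi.single v 1 := by
    ext w
    by_cases h : w = v
    · subst h; simp [vtx]
    · simp [vtx, h]
  rw [this]
  exact single_mem_stdSimplex ℝ v

theorem coneSptNonempty {z : U → ℝ} (hz : z ∈ stdSimplex ℝ U) : (spt z).Nonempty := by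
  by_contra h
  rw [Finset.not_nonempty_iff_eq_empty] at h
  have h0 : ∀ u, z u = 0 := by
    intro u
    by_contra hu
    have : u ∈ spt z := (coneMemSpt z u).2 hu
    rw [h] at this
    simp at this
  have h1 := hz.2
  simp [h0] at h1

theorem coneLeOne {y : W → ℝ} (hy : y ∈ stdSimplex ℝ W) (w : W) : y w ≤ 1 := by
  rw [← hy.2]
  exact Finset.single_le_sum (fun i _ => hy.1 i) (Finset.mem_univ w)

/-- minimum of the coordinates over `s` -/
noncomputable def coneMin (s : Finset U) (hne : s.Nonempty) (z : U → ℝ) : ℝ := s.inf' hne z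

/-- weight of the barycentre -/
noncomputable def coneMu (s : Finset U) (hne : s.Nonempty) (z : U → ℝ) : ℝ :=
  (s.card : ℝ) * coneMin s hne z

open Classical in
/-- barycentre -/
noncomputable def coneBar (s : Finset U) : U → ℝ := fun u => if u ∈ s then 1 / (s.card : ℝ) else 0

/-- radial projection to the boundary -/
noncomputable def conePr (s : Finset U) (hne : s.Nonempty) (z : U → ℝ) : U → ℝ :=
  (1 - coneMu s hne z)⁻¹ • (z - coneMu s hne z • coneBar s)

/-- the cone map -/
noncomputable def coneMap (s : Finset U) (hne : s.Nonempty) (f : (U → ℝ) → (W → ℝ)) (v : W)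
    (z : U → ℝ) : W → ℝ :=
  (1 - coneMu s hne z) • f (conePr s hne z) + coneMu s hne z • vtx v

section

variable (s : Finset U) (hne : s.Nonempty)

omit [Fintype U] in
theorem coneMu_continuous : Continuous (coneMu s hne) :=
  continuous_const.mul (Continuous.finset_inf'_apply hne fun u _ => continuous_apply u)

omit [Fintype U] in
theorem coneMin_le {z : U → ℝ} {u : U} (hu : u ∈ s) : coneMin s hne z ≤ z u :=
  Finset.inf'_le z hu

omit [Fintype U] in
theorem coneMin_exists (z : U → ℝ) : ∃ u ∈ s, coneMin s hne z = z u :=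
  Finset.exists_mem_eq_inf' hne z

theorem coneFace_zero {z : U → ℝ} (hz : z ∈ Face s) {u : U} (hu : u ∉ s) : z u = 0 := by
  by_contra h
  exact hu (hz.2 ((coneMemSpt z u).2 h))

theorem coneFace_sum {z : U → ℝ} (hz : z ∈ Face s) : ∑ u ∈ s, z u = 1 := by
  rw [← hz.1.2]
  exact Finset.sum_subset (Finset.subset_univ s) fun u _ hu => coneFace_zero s hz hu

theorem coneMin_nonneg {z : U → ℝ} (hz : z ∈ Face s) : 0 ≤ coneMin s hne z := by
  obtain ⟨u, _, hu⟩ := coneMin_exists s hne z
  rw [hu]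
  exact hz.1.1 u

theorem coneMu_nonneg {z : U → ℝ} (hz : z ∈ Face s) : 0 ≤ coneMu s hne z :=
  mul_nonneg (Nat.cast_nonneg _) (coneMin_nonneg s hne hz)

theorem coneMu_le {z : U → ℝ} (hz : z ∈ Face s) : coneMu s hne z ≤ 1 := by
  rw [← coneFace_sum s hz, coneMu, ← nsmul_eq_mul]
  exact Finset.card_nsmul_le_sum s z _ fun u hu => coneMin_le s hne hu

include hne in
omit [Fintype U] in
theorem coneCard_pos : (0 : ℝ) < s.card := by exact_mod_cast Finset.card_pos.2 hne

theorem conePr_mem {z : U → ℝ} (hz : z ∈ Face s) (h : coneMu s hne z < 1) :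
    conePr s hne z ∈ {z | z ∈ Face s ∧ spt z ≠ s} := by
  have hc := coneCard_pos s hne
  have h1 : 0 < 1 - coneMu s hne z := by linarith
  have hb : ∀ u ∈ s, coneMu s hne z * coneBar s u = coneMin s hne z := by
    intro u hu
    rw [coneBar, if_pos hu, coneMu]
    field_simp
  have hb0 : ∀ u, u ∉ s → coneBar s u = 0 := by
    intro u hu
    rw [coneBar, if_neg hu]
  have hp : ∀ u, conePr s hne z u =
      (1 - coneMu s hne z)⁻¹ * (z u - coneMu s hne z * coneBar s u) := by
    intro u
    simp [conePr]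
  have hout : ∀ u, u ∉ s → conePr s hne z u = 0 := by
    intro u hu
    rw [hp, hb0 u hu, coneFace_zero s hz hu]
    simp
  refine ⟨⟨⟨fun u => ?_, ?_⟩, fun u hu => ?_⟩, fun h2 => ?_⟩
  · by_cases hu : u ∈ s
    · rw [hp, hb u hu]
      exact mul_nonneg (inv_nonneg.2 h1.le) (by linarith [coneMin_le s hne (z := z) hu])
    · rw [hout u hu]
  · rw [← Finset.sum_subset (Finset.subset_univ s) fun u _ hu => hout u hu]
    have : ∀ u ∈ s, conePr s hne z u = (1 - coneMu s hne z)⁻¹ * (z u - coneMin s hne z) := by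
      intro u hu
      rw [hp, hb u hu]
    rw [Finset.sum_congr rfl this, ← Finset.mul_sum, Finset.sum_sub_distrib, coneFace_sum s hz,
      Finset.sum_const, nsmul_eq_mul]
    exact inv_mul_cancel₀ h1.ne'
  · by_contra h3
    exact (coneMemSpt _ u).1 hu (hout u h3)
  · obtain ⟨u, hu, hu'⟩ := coneMin_exists s hne z
    have h3 : u ∈ spt (conePr s hne z) := by
      rw [h2]
      exact hu
    rw [coneMemSpt, hp, hb u hu, hu'] at h3
    simp at h3

omit [Fintype U] in
theorem conePr_continuousAt {z : U → ℝ} (h : coneMu s hne z < 1) :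
    ContinuousAt (conePr s hne) z := by
  have h1 : (1 - coneMu s hne z) ≠ 0 := by linarith
  have hm := (coneMu_continuous s hne).continuousAt (x := z)
  exact ((continuousAt_const.sub hm).inv₀ h1).smul
    (continuousAt_id.sub (hm.smul continuousAt_const))

end

/-- cone extension over one simplex: `z = (1 - μ) z' + μ • barycentre`, `z'` in the boundary,
goes to `(1 - μ) f z' + μ • vtx v` (`μ = card s * min_{u ∈ s} z u`). -/
theorem cone_ext (s : Finset U) (hs : 2 ≤ s.card) (f : (U → ℝ) → (W → ℝ))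
    (hf : ContinuousOn f {z | z ∈ Face s ∧ spt z ≠ s}) (v : W) (S : Finset W) (hv : v ∈ S) (N : ℕ)
    (hfm : ∀ z ∈ Face s, spt z ≠ s → f z ∈ stdSimplex ℝ W ∧ spt (f z) ⊆ S ∧
      (spt (f z)).card ≤ N) :
    ∃ g : (U → ℝ) → (W → ℝ), ContinuousOn g (Face s) ∧
      (∀ z ∈ Face s, spt z ≠ s → g z = f z) ∧
      ∀ z ∈ Face s, g z ∈ stdSimplex ℝ W ∧ spt (g z) ⊆ S ∧ (spt (g z)).card ≤ N + 1 := by
  classical
  have hne : s.Nonempty := Finset.card_pos.1 (by omega)
  have hg1 : ∀ z, coneMu s hne z = 1 → coneMap s hne f v z = vtx v := by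
    intro z h
    simp [coneMap, h]
  refine ⟨coneMap s hne f v, ?_, ?_, ?_⟩
  · intro z hz
    have hm := (coneMu_continuous s hne).continuousAt (x := z)
    rcases lt_or_eq_of_le (coneMu_le s hne hz) with h | h
    · have h1 : Filter.Tendsto (conePr s hne) (nhdsWithin z (Face s))
          (nhdsWithin (conePr s hne z) {z | z ∈ Face s ∧ spt z ≠ s}) := by
        rw [tendsto_nhdsWithin_iff]
        refine ⟨(conePr_continuousAt s hne h).continuousWithinAt, ?_⟩
        have h2 : ∀ᶠ y in nhdsWithin z (Face s), coneMu s hne y < 1 :=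
          (hm.eventually_lt continuousAt_const h).filter_mono nhdsWithin_le_nhds
        filter_upwards [h2, self_mem_nhdsWithin] with y hy hy'
        exact conePr_mem s hne hy' hy
      have h2 : Filter.Tendsto (fun y => f (conePr s hne y)) (nhdsWithin z (Face s))
          (nhds (f (conePr s hne z))) := (hf _ (conePr_mem s hne hz h)).tendsto.comp h1
      have h3 : Filter.Tendsto (coneMu s hne) (nhdsWithin z (Face s)) (nhds (coneMu s hne z)) :=
        hm.continuousWithinAt
      exact ((tendsto_const_nhds.sub h3).smul h2).add (h3.smul tendsto_const_nhds)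
    · have h3 : Filter.Tendsto (coneMu s hne) (nhdsWithin z (Face s)) (nhds 1) := by
        rw [← h]
        exact hm.continuousWithinAt
      rw [ContinuousWithinAt, hg1 z h, tendsto_pi_nhds]
      intro w
      have h4 : Filter.Tendsto (fun y => 1 - coneMu s hne y) (nhdsWithin z (Face s)) (nhds 0) := by
        simpa using (tendsto_const_nhds (x := (1 : ℝ))).sub h3
      rw [tendsto_iff_dist_tendsto_zero]
      refine squeeze_zero' (Filter.Eventually.of_forall fun y => dist_nonneg) ?_ h4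
      filter_upwards [self_mem_nhdsWithin] with y hy
      rcases lt_or_eq_of_le (coneMu_le s hne hy) with h5 | h5
      · have h6 := hfm _ (conePr_mem s hne hy h5).1 (conePr_mem s hne hy h5).2
        have e : coneMap s hne f v y w - (vtx v : W → ℝ) w =
            (1 - coneMu s hne y) * (f (conePr s hne y) w - (vtx v : W → ℝ) w) := by
          simp only [coneMap, Pi.add_apply, Pi.smul_apply, smul_eq_mul]
          ring
        rw [Real.dist_eq, e, abs_mul, abs_of_pos (by linarith : 0 < 1 - coneMu s hne y)]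
        have a1 := h6.1.1 w
        have a2 := coneLeOne h6.1 w
        have a3 := (coneVtxMem v).1 w
        have a4 := coneLeOne (coneVtxMem v) w
        have a5 : |f (conePr s hne y) w - (vtx v : W → ℝ) w| ≤ 1 := by
          rw [abs_le]
          constructor <;> linarith
        nlinarith
      · rw [hg1 y h5, dist_self, h5]
        simp
  · intro z hz hzs
    have h0 : coneMu s hne z = 0 := by
      have : ∃ u ∈ s, z u = 0 := by
        by_contra hcon
        push Not at hcon
        exact hzs (Finset.Subset.antisymm hz.2 fun u hu => (coneMemSpt z u).2 (hcon u hu))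
      obtain ⟨u, hu, hu0⟩ := this
      have h1 := coneMin_le s hne (z := z) hu
      have h2 := coneMin_nonneg s hne hz
      have : coneMin s hne z = 0 := by linarith
      rw [coneMu, this, mul_zero]
    simp [coneMap, conePr, h0]
  · intro z hz
    rcases lt_or_eq_of_le (coneMu_le s hne hz) with h | h
    · have h6 := hfm _ (conePr_mem s hne hz h).1 (conePr_mem s hne hz h).2
      have hsub : spt (coneMap s hne f v z) ⊆ insert v (spt (f (conePr s hne z))) := by
        intro w hw
        rw [coneMemSpt] at hw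
        rw [Finset.mem_insert]
        by_cases hwv : w = v
        · exact Or.inl hwv
        · right
          rw [coneMemSpt]
          intro h7
          apply hw
          simp [coneMap, h7, coneVtxNe hwv]
      refine ⟨?_, ?_, ?_⟩
      · exact convex_stdSimplex ℝ W h6.1 (coneVtxMem v) (by linarith) (coneMu_nonneg s hne hz)
          (by ring)
      · refine hsub.trans ?_
        intro w hw
        rcases Finset.mem_insert.1 hw with rfl | hw
        · exact hv
        · exact h6.2.1 hw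
      · calc _ ≤ _ := Finset.card_le_card hsub
          _ ≤ _ := Finset.card_insert_le _ _
          _ ≤ N + 1 := by have := h6.2.2; omega
    · rw [hg1 z h]
      have hsub : spt (vtx v : W → ℝ) ⊆ {v} := by
        intro w hw
        rw [coneMemSpt] at hw
        rw [Finset.mem_singleton]
        by_contra hwv
        exact hw (coneVtxNe hwv)
      refine ⟨coneVtxMem v, ?_, ?_⟩
      · intro w hw
        rw [Finset.mem_singleton.1 (hsub hw)]
        exact hv
      · calc _ ≤ _ := Finset.card_le_card hsub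
          _ = 1 := Finset.card_singleton v
          _ ≤ N + 1 := by omega

open Classical in
/-- all higher simplices by cones: if `ψ` is defined on `Rlz K k₀` and on it the supports have
at most `k₀ - 1` vertices, then it extends to the whole complex with supports of at most
`card (spt z) - 1` vertices over the simplices with more than `k₀` vertices. -/
theorem cone_all (K : Set (Finset U)) (hK : ∀ s ∈ K, ∀ t ⊆ s, t.Nonempty → t ∈ K)
    (S : U → Finset W) (hS : ∀ u, (S u).Nonempty) (k₀ : ℕ) (hk : 2 ≤ k₀)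
    (ψ : (U → ℝ) → (W → ℝ)) (hψ : ContinuousOn ψ (Rlz K k₀))
    (hm : ∀ z ∈ Rlz K k₀, ψ z ∈ stdSimplex ℝ W ∧ spt (ψ z) ⊆ (spt z).biUnion S ∧
      (spt (ψ z)).card ≤ k₀ - 1) :
    ∃ ψ' : (U → ℝ) → (W → ℝ), ContinuousOn ψ' {z | z ∈ stdSimplex ℝ U ∧ spt z ∈ K} ∧
      (∀ z ∈ Rlz K k₀, ψ' z = ψ z) ∧
      ∀ z, z ∈ stdSimplex ℝ U → spt z ∈ K → k₀ < (spt z).card →
        ψ' z ∈ stdSimplex ℝ W ∧ spt (ψ' z) ⊆ (spt z).biUnion S ∧
          (spt (ψ' z)).card ≤ (spt z).card - 1 := by
  have main : ∀ k, k₀ ≤ k → ∃ ψ' : (U → ℝ) → (W → ℝ), ContinuousOn ψ' (Rlz K k) ∧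
      (∀ z ∈ Rlz K k₀, ψ' z = ψ z) ∧
      ∀ z ∈ Rlz K k, k₀ < (spt z).card →
        ψ' z ∈ stdSimplex ℝ W ∧ spt (ψ' z) ⊆ (spt z).biUnion S ∧
          (spt (ψ' z)).card ≤ (spt z).card - 1 := by
    intro k hk0
    induction k, hk0 using Nat.le_induction with
    | base =>
      refine ⟨ψ, hψ, fun _ _ => rfl, fun z hz h => ?_⟩
      have := hz.2.2
      omega
    | succ k hk0 ih =>
      obtain ⟨φ, hφc, hφe, hφm⟩ := ih
      have hbd : ∀ s ∈ K, s.card = k + 1 → ∀ z ∈ Face s, spt z ≠ s →
          z ∈ Rlz K k ∧ φ z ∈ stdSimplex ℝ W ∧ spt (φ z) ⊆ s.biUnion S ∧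
            (spt (φ z)).card ≤ k - 1 := by
        intro s hs hsc z hz hzs
        have hlt : (spt z).card < s.card :=
          Finset.card_lt_card (Finset.ssubset_iff_subset_ne.2 ⟨hz.2, hzs⟩)
        have hzK : z ∈ Rlz K k :=
          ⟨hz.1, hK s hs _ hz.2 (coneSptNonempty hz.1), by omega⟩
        have hbi : (spt z).biUnion S ⊆ s.biUnion S := Finset.biUnion_subset_biUnion_of_subset_left _ hz.2
        refine ⟨hzK, ?_⟩
        by_cases h : k₀ < (spt z).card
        · obtain ⟨h1, h2, h3⟩ := hφm z hzK h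
          exact ⟨h1, h2.trans hbi, by omega⟩
        · have hz0 : z ∈ Rlz K k₀ := ⟨hz.1, hzK.2.1, by omega⟩
          rw [hφe z hz0]
          obtain ⟨h1, h2, h3⟩ := hm z hz0
          exact ⟨h1, h2.trans hbi, by omega⟩
      have hex : ∀ s : Finset U, ∃ g : (U → ℝ) → (W → ℝ), s ∈ K → s.card = k + 1 →
          ContinuousOn g (Face s) ∧ (∀ z ∈ Face s, spt z ≠ s → g z = φ z) ∧
          ∀ z ∈ Face s, g z ∈ stdSimplex ℝ W ∧ spt (g z) ⊆ s.biUnion S ∧
            (spt (g z)).card ≤ (k - 1) + 1 := by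
        intro s
        by_cases hs : s ∈ K ∧ s.card = k + 1
        · obtain ⟨hs, hsc⟩ := hs
          have hne : s.Nonempty := Finset.card_pos.1 (by omega)
          obtain ⟨u, hu⟩ := hne
          obtain ⟨v, hv⟩ := hS u
          obtain ⟨g, hg1, hg2, hg3⟩ := cone_ext s (by omega) φ
            (hφc.mono fun z hz => (hbd s hs hsc z hz.1 hz.2).1) v (s.biUnion S)
            (Finset.mem_biUnion.2 ⟨u, hu, hv⟩) (k - 1)
            (fun z hz hzs => (hbd s hs hsc z hz hzs).2)
          exact ⟨g, fun _ _ => ⟨hg1, hg2, hg3⟩⟩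
        · exact ⟨φ, fun h1 h2 => absurd ⟨h1, h2⟩ hs⟩
      choose g hg using hex
      refine ⟨fun z => if (spt z).card = k + 1 then g (spt z) z else φ z,
        glue_step K hK k φ hφc g fun s hs hsc => ⟨(hg s hs hsc).1, (hg s hs hsc).2.1⟩, ?_, ?_⟩
      · intro z hz
        have : ¬ (spt z).card = k + 1 := by
          have := hz.2.2
          omega
        simp only [this, if_false]
        exact hφe z hz
      · intro z hz hkz
        by_cases h : (spt z).card = k + 1
        · simp only [h, if_true]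
          obtain ⟨h1, h2, h3⟩ := (hg (spt z) hz.2.1 h).2.2 z ⟨hz.1, subset_rfl⟩
          exact ⟨h1, h2, by omega⟩
        · simp only [h, if_false]
          exact hφm z ⟨hz.1, hz.2.1, by have := hz.2.2; omega⟩ hkz
  obtain ⟨φ, h1, h2, h3⟩ := main (max k₀ (Fintype.card U)) (le_max_left _ _)
  have hle : ∀ z : U → ℝ, (spt z).card ≤ max k₀ (Fintype.card U) := fun z =>
    (Finset.card_le_univ _).trans (le_max_right _ _)
  refine ⟨φ, h1.mono fun z hz => ⟨hz.1, hz.2, hle z⟩, h2, fun z hz hzK hkz => ?_⟩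
  exact h3 z ⟨hz, hzK, hle z⟩ hkz

end Vale.Agent.P093.T
end

section

/-!
Chains on finite simplices: data of a carried chain map and of a carried chain homotopy.
-/

namespace Vale.Agent.P093.T

variable {U W : Type*} [LinearOrder U]

/-- the `j`-th face of a finite set: remove its `j`-th element in increasing order -/
noncomputable def faceF (s : Finset U) (j : ℕ) : Finset U :=
  ((s.sort (· ≤ ·)).eraseIdx j).toFinset

/-- the ordered simplex `φ(s)` -/
noncomputable def imgList (φ : U → W) (s : Finset U) : List W := (s.sort (· ≤ ·)).map φ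

open Classical in
/-- A chain map from the complex `K` (sorted simplices) to ordered chains on `W`, carried by
`S`, vanishing on simplices with more than `D` vertices. -/
structure ChainData (K : Set (Finset U)) (S : U → Finset W) (D : ℕ) (F : Finset U → OChain W) :
    Prop where
  supp : ∀ s ∈ K, ∀ l ∈ (F s).support, l.length = s.card ∧ ∀ w ∈ l, w ∈ s.biUnion S
  bd : ∀ s ∈ K, 2 ≤ s.card → extend simplexBoundary (F s) =
    ∑ j ∈ Finset.range s.card, (-1 : ℤ) ^ j • F (faceF s j)
  aug : ∀ s ∈ K, s.card = 1 → (F s).sum (fun _ n => n) = 1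
  van : ∀ s ∈ K, D < s.card → F s = 0

end Vale.Agent.P093.T
end

section

/-!
The chain homotopy between a simplicial map and a carried chain map.
-/

namespace Vale.Agent.P093.T

section lists

open Vale.Agent.P093.Hom

/-- boundary of ordered chains -/
noncomputable def bd {V : Type*} : OChain V →+ OChain V :=
  Finsupp.liftAddHom fun s => zmultiplesHom _ (simplexBoundary s)

/-- augmentation: sum of the coefficients -/
noncomputable def aug {V : Type*} : OChain V →+ ℤ := Finsupp.liftAddHom fun _ => AddMonoidHom.id ℤ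

theorem bd_single {V : Type*} (s : List V) : bd (Finsupp.single s 1) = simplexBoundary s := by
  simp [bd]

theorem bd_eq_extend {V : Type*} (c : OChain V) : bd c = extend simplexBoundary c := by
  rw [bd, Finsupp.liftAddHom_apply, extend]
  rfl

theorem aug_eq_sum {V : Type*} (c : OChain V) : aug c = c.sum fun _ n => n := by
  rw [aug, Finsupp.liftAddHom_apply]
  rfl

theorem chh_dl_eq_sum {X : Type*} {M : Type*} [AddCommGroup M] (F : List X → M)
    (l : List X) : dl F l = ∑ i ∈ Finset.range l.length, (-1 : ℤ) ^ i • F (l.eraseIdx i) := by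
  induction l generalizing F with
  | nil => simp
  | cons y l ih =>
    rw [dl_cons, ih, List.length_cons, Finset.sum_range_succ', List.eraseIdx_cons_zero, pow_zero,
      one_smul, add_comm, sub_eq_add_neg, ← Finset.sum_neg_distrib]
    congr 1
    refine Finset.sum_congr rfl fun i _ => ?_
    rw [List.eraseIdx_cons_succ, pow_succ, mul_neg_one, neg_smul]

/-- the cone with apex `w` -/
noncomputable def chhCone {V : Type*} (w : V) : OChain V →+ OChain V :=
  Finsupp.liftAddHom fun s => zmultiplesHom _ (Finsupp.single (w :: s) 1)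

section cone

variable {V : Type*}

theorem chh_cone_single (w : V) (s : List V) :
    chhCone w (Finsupp.single s 1) = Finsupp.single (w :: s) 1 := by
  simp [chhCone]

theorem chh_ext {A : Type*} [AddCommGroup A] (f g : OChain V →+ A) (c : OChain V)
    (h : ∀ s ∈ c.support, f (Finsupp.single s 1) = g (Finsupp.single s 1)) : f c = g c := by
  have hc : c = ∑ s ∈ c.support, c s • Finsupp.single s (1 : ℤ) := by
    conv_lhs => rw [← Finsupp.sum_single c]
    rw [Finsupp.sum]
    refine Finset.sum_congr rfl fun s _ => ?_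
    rw [Finsupp.smul_single, smul_eq_mul, mul_one]
  rw [hc, map_sum, map_sum]
  refine Finset.sum_congr rfl fun s hs => ?_
  rw [map_zsmul, map_zsmul, h s hs]

theorem chh_bd_cons (w : V) (s : List V) (hs : s ≠ []) :
    bd (Finsupp.single (w :: s) 1) = Finsupp.single s 1 -
      chhCone w (∑ i ∈ Finset.range s.length, (-1 : ℤ) ^ i • Finsupp.single (s.eraseIdx i) 1) := by
  have h1 : ¬ (w :: s).length ≤ 1 := by
    rw [List.length_cons]
    have := List.length_pos_iff.2 hs
    omega
  rw [bd_single, simplexBoundary, if_neg h1, List.length_cons, Finset.sum_range_succ',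
    List.eraseIdx_cons_zero, pow_zero, one_smul, add_comm, sub_eq_add_neg, map_sum,
    ← Finset.sum_neg_distrib]
  congr 1
  refine Finset.sum_congr rfl fun i _ => ?_
  rw [List.eraseIdx_cons_succ, pow_succ, mul_neg_one, neg_smul, map_zsmul, chh_cone_single]

theorem chh_bd_cone (w : V) (c : OChain V) (hc : ∀ s ∈ c.support, 2 ≤ s.length) :
    bd (chhCone w c) = c - chhCone w (bd c) := by
  have := chh_ext (bd.comp (chhCone w)) (AddMonoidHom.id _ - (chhCone w).comp bd) c ?_
  · simpa using this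
  · intro s hs
    have h2 := hc s hs
    have hne : s ≠ [] := by
      rintro rfl
      simp at h2
    simp only [AddMonoidHom.coe_comp, Function.comp_apply, AddMonoidHom.sub_apply,
      AddMonoidHom.id_apply]
    rw [chh_cone_single, chh_bd_cons w s hne, bd_single, simplexBoundary, if_neg (by omega)]

theorem chh_bd_cone_one (w : V) (c : OChain V) (hc : ∀ s ∈ c.support, s.length = 1) :
    bd (chhCone w c) = c - aug c • Finsupp.single [w] 1 := by
  have := chh_ext (bd.comp (chhCone w)) (AddMonoidHom.id _ -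
    (zmultiplesHom (OChain V) (Finsupp.single [w] 1)).comp aug) c ?_
  · simpa using this
  · intro s hs
    have h2 := hc s hs
    have hne : s ≠ [] := by
      rintro rfl
      simp at h2
    have haug : aug (Finsupp.single s 1) = 1 := by simp [aug]
    have he : s.eraseIdx 0 = [] := by
      match s, h2 with
      | [x], _ => rfl
    simp only [AddMonoidHom.coe_comp, Function.comp_apply, AddMonoidHom.sub_apply,
      AddMonoidHom.id_apply]
    rw [chh_cone_single, chh_bd_cons w s hne, h2, haug]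
    simp [he, chh_cone_single]

theorem chh_cone_support (w : V) (c : OChain V) :
    ∀ s ∈ (chhCone w c).support, ∃ s' ∈ c.support, s = w :: s' := by
  classical
  intro s hs
  by_contra hcon
  push Not at hcon
  have h1 : (Finsupp.applyAddHom s : OChain V →+ ℤ).comp (chhCone w) c = (0 : OChain V →+ ℤ) c := by
    refine chh_ext _ _ c fun s' hs' => ?_
    simp only [AddMonoidHom.coe_comp, Function.comp_apply, AddMonoidHom.zero_apply,
      chh_cone_single, Finsupp.applyAddHom_apply]
    rw [Finsupp.single_apply, if_neg (fun h => hcon s' hs' h.symm)]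
  rw [Finsupp.mem_support_iff] at hs
  exact hs h1

end cone

/-- the homotopy, by recursion on the length -/
noncomputable def chhH {Y V : Type*} (v : List Y → V) (Φ Φ' : List Y → OChain V) :
    ℕ → List Y → OChain V
  | 0, _ => 0
  | n + 1, l => chhCone (v l) (Φ l - Φ' l - dl (chhH v Φ Φ' n) l)

theorem chh_exists {Y V : Type*} {S : Set (List Y)}
    (hS : ∀ l ∈ S, ∀ l' : List Y, l'.Sublist l → l' ∈ S) {C : List Y → Set V}
    (hC : ∀ l ∈ S, ∀ l' : List Y, l'.Sublist l → l' ≠ [] → C l' ⊆ C l) (v : List Y → V)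
    (hv : ∀ l ∈ S, l ≠ [] → v l ∈ C l) (Φ Φ' : List Y → OChain V)
    (hΦc : ∀ l ∈ S, bd (Φ l) = dl Φ l) (hΦc' : ∀ l ∈ S, bd (Φ' l) = dl Φ' l)
    (hΦ1 : ∀ y, [y] ∈ S → aug (Φ [y]) = 1) (hΦ1' : ∀ y, [y] ∈ S → aug (Φ' [y]) = 1)
    (hΦs : ∀ l ∈ S, l ≠ [] → ∀ s ∈ (Φ l).support, s.length = l.length ∧ ∀ w ∈ s, w ∈ C l)
    (hΦs' : ∀ l ∈ S, l ≠ [] → ∀ s ∈ (Φ' l).support, s.length = l.length ∧ ∀ w ∈ s, w ∈ C l) :
    ∃ H : List Y → OChain V, H [] = 0 ∧ ∀ l ∈ S, l ≠ [] →
      bd (H l) = Φ l - Φ' l - dl H l ∧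
      ∀ s ∈ (H l).support, s.length = l.length + 1 ∧ ∀ w ∈ s, w ∈ C l := by
  classical
  let H : List Y → OChain V := fun l => chhH v Φ Φ' l.length l
  have hH0 : H [] = 0 := rfl
  have hHrec : ∀ l, l ≠ [] → H l = chhCone (v l) (Φ l - Φ' l - dl H l) := by
    intro l hl
    obtain ⟨n, hn⟩ : ∃ n, l.length = n + 1 :=
      ⟨l.length - 1, by have := List.length_pos_iff.2 hl; omega⟩
    have h1 : dl (chhH v Φ Φ' n) l = dl H l := by
      rw [chh_dl_eq_sum, chh_dl_eq_sum]
      refine Finset.sum_congr rfl fun i hi => ?_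
      have h2 : (l.eraseIdx i).length = n := by
        rw [List.length_eraseIdx_of_lt (Finset.mem_range.1 hi), hn]
        rfl
      change _ = (-1 : ℤ) ^ i • chhH v Φ Φ' (l.eraseIdx i).length (l.eraseIdx i)
      rw [h2]
    change chhH v Φ Φ' l.length l = _
    rw [hn, chhH, h1]
  refine ⟨H, hH0, ?_⟩
  have key : ∀ n : ℕ, ∀ l ∈ S, l.length = n → l ≠ [] →
      bd (H l) = Φ l - Φ' l - dl H l ∧
      ∀ s ∈ (H l).support, s.length = l.length + 1 ∧ ∀ w ∈ s, w ∈ C l := by
    intro n
    induction n using Nat.strong_induction_on with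
    | _ n ih =>
    intro l hl hn hne
    have hpos : 0 < l.length := List.length_pos_iff.2 hne
    -- sublists
    have hsub : ∀ i < l.length, l.eraseIdx i ∈ S ∧ (l.eraseIdx i).length + 1 = l.length ∧
        (l.eraseIdx i ≠ [] → C (l.eraseIdx i) ⊆ C l) := by
      intro i hi
      refine ⟨hS l hl _ (List.eraseIdx_sublist l i), ?_, fun h => hC l hl _
        (List.eraseIdx_sublist l i) h⟩
      rw [List.length_eraseIdx_of_lt hi]
      omega
    have hIH : ∀ i < l.length, l.eraseIdx i ≠ [] →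
        bd (H (l.eraseIdx i)) = Φ (l.eraseIdx i) - Φ' (l.eraseIdx i) - dl H (l.eraseIdx i) ∧
        ∀ s ∈ (H (l.eraseIdx i)).support, s.length = (l.eraseIdx i).length + 1 ∧
          ∀ w ∈ s, w ∈ C (l.eraseIdx i) := by
      intro i hi hne'
      obtain ⟨h1, h2, -⟩ := hsub i hi
      exact ih _ (by omega) _ h1 rfl hne'
    -- support of `dl H l`
    have hdl : ∀ s ∈ (dl H l).support, s.length = l.length ∧ ∀ w ∈ s, w ∈ C l := by
      intro s hs
      rw [chh_dl_eq_sum] at hs
      have h1 := Finsupp.support_finsetSum hs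
      rw [Finset.mem_biUnion] at h1
      obtain ⟨i, hi, h2⟩ := h1
      rw [Finset.mem_range] at hi
      have h3 := Finsupp.support_smul h2
      by_cases he : l.eraseIdx i = []
      · rw [he, hH0] at h3
        simp at h3
      · obtain ⟨-, h5⟩ := hIH i hi he
        obtain ⟨h6, h7, h8⟩ := hsub i hi
        obtain ⟨h9, h10⟩ := h5 s h3
        exact ⟨by omega, fun w hw => h8 he (h10 w hw)⟩
    have hK : ∀ s ∈ (Φ l - Φ' l - dl H l).support, s.length = l.length ∧ ∀ w ∈ s, w ∈ C l := by
      intro s hs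
      rcases Finset.mem_union.1 (Finsupp.support_sub hs) with h1 | h1
      · rcases Finset.mem_union.1 (Finsupp.support_sub h1) with h2 | h2
        · exact hΦs l hl hne s h2
        · exact hΦs' l hl hne s h2
      · exact hdl s h1
    refine ⟨?_, ?_⟩
    · rw [hHrec l hne]
      by_cases h2 : 2 ≤ l.length
      · rw [← hHrec l hne, hHrec l hne, chh_bd_cone _ _ fun s hs => by rw [(hK s hs).1]; exact h2]
        have hb : bd (Φ l - Φ' l - dl H l) = 0 := by
          rw [map_sub, map_sub, hΦc l hl, hΦc' l hl]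
          have h3 : bd (dl H l) = dl (fun l' => bd (H l')) l := (dl_map bd H l).symm
          have h4 : dl (fun l' => bd (H l')) l = dl (fun l' => Φ l' - Φ' l' - dl H l') l := by
            rw [chh_dl_eq_sum, chh_dl_eq_sum]
            refine Finset.sum_congr rfl fun i hi => ?_
            rw [Finset.mem_range] at hi
            obtain ⟨-, h6, -⟩ := hsub i hi
            rw [(hIH i hi (by rw [← List.length_pos_iff]; omega)).1]
          rw [h3, h4, dl_sub (fun l' => Φ l' - Φ' l') (dl H), dl_sub Φ Φ', dl_dl]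
          abel
        rw [hb, map_zero, sub_zero]
      · have h1 : l.length = 1 := by omega
        obtain ⟨y, rfl⟩ := List.length_eq_one_iff.1 h1
        rw [chh_bd_cone_one _ _ fun s hs => by rw [(hK s hs).1]; exact h1]
        rw [dl_singleton, hH0, sub_zero, map_sub, hΦ1 y hl, hΦ1' y hl, sub_self, zero_smul,
          sub_zero]
    · intro s hs
      rw [hHrec l hne] at hs
      obtain ⟨s', hs', rfl⟩ := chh_cone_support _ _ s hs
      obtain ⟨h1, h2⟩ := hK s' hs'
      refine ⟨by rw [List.length_cons, h1], fun w hw => ?_⟩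
      rcases List.mem_cons.1 hw with h | h
      · rw [h]
        exact hv l hl hne
      · exact h2 w h
  exact fun l hl hne => key l.length l hl rfl hne


end lists

variable {U W : Type*} [LinearOrder U]

theorem chh_bd_short {V : Type*} (c : OChain V) (hc : ∀ l ∈ c.support, l.length ≤ 1) :
    bd c = 0 := by
  have h := chh_ext bd (0 : OChain V →+ OChain V) c fun s hs => by
    rw [bd_single, simplexBoundary, if_pos (hc s hs), AddMonoidHom.zero_apply]
  simpa using h

theorem chh_bd_list {V : Type*} (s : List V) (h : 2 ≤ s.length) :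
    bd (Finsupp.single s 1) = Hom.dl (fun l => Finsupp.single l (1 : ℤ)) s := by
  rw [bd_single, simplexBoundary, if_neg (by omega), chh_dl_eq_sum]

theorem chh_bd_bd {V : Type*} (c : OChain V) : bd (bd c) = 0 := by
  classical
  have h := chh_ext ((bd (V := V)).comp bd) (0 : OChain V →+ OChain V) c fun s _ => by
    rw [AddMonoidHom.comp_apply, AddMonoidHom.zero_apply]
    by_cases h1 : s.length ≤ 1
    · rw [bd_single, simplexBoundary, if_pos h1, map_zero]
    · by_cases h2 : s.length = 2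
      · refine chh_bd_short _ fun l hl => ?_
        rw [bd_single, simplexBoundary, if_neg h1] at hl
        obtain ⟨i, hi, h3⟩ := Finset.mem_biUnion.1 (Finsupp.support_finsetSum hl)
        have h4 := Finsupp.support_smul h3
        have h5 := Finset.mem_singleton.1 (Finsupp.support_single_subset h4)
        rw [h5, List.length_eraseIdx_of_lt (Finset.mem_range.1 hi)]
        omega
      · rw [chh_bd_list s (by omega), ← Hom.dl_map bd]
        have h3 : Hom.dl (fun l => bd (Finsupp.single l (1 : ℤ))) s =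
            Hom.dl (Hom.dl (fun l => Finsupp.single l (1 : ℤ))) s := by
          rw [chh_dl_eq_sum, chh_dl_eq_sum]
          refine Finset.sum_congr rfl fun i hi => ?_
          rw [chh_bd_list]
          rw [List.length_eraseIdx_of_lt (Finset.mem_range.1 hi)]
          omega
        rw [h3, Hom.dl_dl]
  simpa using h

/-- `∂∂ = 0` for ordered chains -/
theorem bd_bd (c : OChain W) : extend simplexBoundary (extend simplexBoundary c) = 0 := by
  rw [← bd_eq_extend, ← bd_eq_extend, chh_bd_bd]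

open Classical in
/-- There is a carried chain homotopy `H` between the simplicial map `φ` and the chain map `F`
(construct `H s` by induction on the cardinality as the cone with apex `φ u`, `u ∈ s`, over
`φ(s) - F s - Σ (-1)^j H (face j)`), hence: for `s` with `D + 1` vertices the chain
`φ(s) - Σ_j (-1)^j H (face j s)` is a cycle. -/
theorem exists_homotopy (K : Set (Finset U)) (hK : ∀ s ∈ K, ∀ t ⊆ s, t.Nonempty → t ∈ K)
    (hne : ∀ s ∈ K, s.Nonempty) (S : U → Finset W) (φ : U → W) (hφ : ∀ u, φ u ∈ S u) (D : ℕ)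
    (hD : 1 ≤ D) (F : Finset U → OChain W) (hF : ChainData K S D F) :
    ∃ H : Finset U → OChain W,
      (∀ s ∈ K, ∀ l ∈ (H s).support, l.length = s.card + 1 ∧ ∀ w ∈ l, w ∈ s.biUnion S) ∧
      ∀ s ∈ K, s.card = D + 1 → extend simplexBoundary
        (Finsupp.single (imgList φ s) 1 -
          ∑ j ∈ Finset.range s.card, (-1 : ℤ) ^ j • H (faceF s j)) = 0 := by
  by_cases hU : Nonempty U
  swap
  · refine ⟨fun _ => 0, fun s hs => ?_, fun s hs _ => ?_⟩
    · obtain ⟨u, -⟩ := hne s hs
      exact (hU ⟨u⟩).elim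
    · obtain ⟨u, -⟩ := hne s hs
      exact (hU ⟨u⟩).elim
  obtain ⟨u0⟩ := hU
  let SL : Set (List U) := {l | l.Pairwise (· < ·) ∧ (l ≠ [] → l.toFinset ∈ K)}
  let C : List U → Set W := fun l => ↑(l.toFinset.biUnion S)
  let v : List U → W := fun l => φ (l.headD u0)
  let Φ : List U → OChain W := fun l => if l = [] then 0 else Finsupp.single (l.map φ) 1
  let Φ' : List U → OChain W := fun l => if l = [] then 0 else F l.toFinset
  -- sorted lists
  have hsort : ∀ l : List U, l.Pairwise (· < ·) → l.toFinset.sort (· ≤ ·) = l := by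
    intro l hl
    exact (List.toFinset_sort (· ≤ ·) (hl.imp fun h => ne_of_lt h)).2
      (hl.imp fun h => le_of_lt h)
  have hcard : ∀ l : List U, l.Pairwise (· < ·) → l.toFinset.card = l.length := by
    intro l hl
    exact List.toFinset_card_of_nodup (hl.imp fun h => ne_of_lt h)
  have hSL : ∀ l ∈ SL, ∀ l' : List U, l'.Sublist l → l' ∈ SL := by
    intro l hl l' h
    refine ⟨hl.1.sublist h, fun h' => ?_⟩
    have h1 : l ≠ [] := by
      rintro rfl
      exact h' (List.sublist_nil.1 h)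
    refine hK _ (hl.2 h1) _ ?_ ?_
    · intro x hx
      rw [List.mem_toFinset] at hx ⊢
      exact h.subset hx
    · obtain ⟨x, hx⟩ := List.exists_mem_of_ne_nil _ h'
      exact ⟨x, List.mem_toFinset.2 hx⟩
  obtain ⟨H, hH0, hH⟩ := chh_exists (S := SL) hSL (C := C)
    (by
      intro l hl l' h _ w hw
      have hw' := Finset.mem_biUnion.1 (Finset.mem_coe.1 hw)
      obtain ⟨x, hx, hx2⟩ := hw'
      refine Finset.mem_coe.2 (Finset.mem_biUnion.2 ⟨x, ?_, hx2⟩)
      rw [List.mem_toFinset] at hx ⊢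
      exact h.subset hx)
    v
    (by
      intro l hl hl'
      cases l with
      | nil => exact absurd rfl hl'
      | cons a l =>
        refine Finset.mem_coe.2 (Finset.mem_biUnion.2 ⟨a, ?_, hφ a⟩)
        rw [List.mem_toFinset]
        exact List.mem_cons_self)
    Φ Φ'
    (by
      intro l hl
      by_cases h2 : 2 ≤ l.length
      · have hl0 : l ≠ [] := by
          rintro rfl
          simp at h2
        have e1 : Φ l = Finsupp.single (l.map φ) 1 := if_neg hl0
        rw [e1, chh_bd_list _ (by rw [List.length_map]; exact h2), chh_dl_eq_sum, chh_dl_eq_sum,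
          List.length_map]
        refine Finset.sum_congr rfl fun i hi => ?_
        have hi' := Finset.mem_range.1 hi
        have h3 : l.eraseIdx i ≠ [] := by
          rw [← List.length_pos_iff, List.length_eraseIdx_of_lt hi']
          omega
        have e2 : Φ (l.eraseIdx i) = Finsupp.single ((l.eraseIdx i).map φ) 1 := if_neg h3
        rw [e2, List.eraseIdx_map]
      · match l, h2 with
        | [], _ =>
          have e1 : Φ [] = 0 := if_pos rfl
          rw [e1, map_zero]
          rfl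
        | [y], _ =>
          have e1 : Φ [] = 0 := if_pos rfl
          have e2 : Φ [y] = Finsupp.single [φ y] 1 := if_neg (by simp)
          rw [Hom.dl_singleton, e1, e2, bd_single, simplexBoundary, if_pos (by simp)]
        | _ :: _ :: _, h2 => exact absurd (by simp) h2)
    (by
      intro l hl
      by_cases h2 : 2 ≤ l.length
      · have hl0 : l ≠ [] := by
          rintro rfl
          simp at h2
        have e1 : Φ' l = F l.toFinset := if_neg hl0
        rw [e1, bd_eq_extend, hF.bd _ (hl.2 hl0) (by rw [hcard l hl.1]; exact h2), chh_dl_eq_sum,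
          hcard l hl.1]
        refine Finset.sum_congr rfl fun i hi => ?_
        have hi' := Finset.mem_range.1 hi
        have h3 : l.eraseIdx i ≠ [] := by
          rw [← List.length_pos_iff, List.length_eraseIdx_of_lt hi']
          omega
        have e2 : Φ' (l.eraseIdx i) = F (l.eraseIdx i).toFinset := if_neg h3
        rw [e2, faceF, hsort l hl.1]
      · match l, h2 with
        | [], _ =>
          have e1 : Φ' [] = 0 := if_pos rfl
          rw [e1, map_zero]
          rfl
        | [y], _ =>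
          have e1 : Φ' [] = 0 := if_pos rfl
          have e2 : Φ' [y] = F [y].toFinset := if_neg (by simp)
          rw [Hom.dl_singleton, e1, e2]
          refine chh_bd_short _ fun l' hl' => ?_
          have h3 := (hF.supp _ (hl.2 (by simp)) l' hl').1
          rw [h3, hcard [y] hl.1]
          simp
        | _ :: _ :: _, h2 => exact absurd (by simp) h2)
    (by
      intro y hy
      have e2 : Φ [y] = Finsupp.single [φ y] 1 := if_neg (by simp)
      rw [e2]
      simp [aug])
    (by
      intro y hy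
      have e2 : Φ' [y] = F [y].toFinset := if_neg (by simp)
      rw [e2, aug_eq_sum]
      exact hF.aug _ (hy.2 (by simp)) (by rw [hcard [y] hy.1]; rfl))
    (by
      intro l hl hl' s hs
      have e1 : Φ l = Finsupp.single (l.map φ) 1 := if_neg hl'
      rw [e1] at hs
      have h5 := Finset.mem_singleton.1 (Finsupp.support_single_subset hs)
      rw [h5]
      refine ⟨List.length_map _, fun w hw => ?_⟩
      obtain ⟨u, hu, rfl⟩ := List.mem_map.1 hw
      exact Finset.mem_coe.2 (Finset.mem_biUnion.2 ⟨u, List.mem_toFinset.2 hu, hφ u⟩))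
    (by
      intro l hl hl' s hs
      have e1 : Φ' l = F l.toFinset := if_neg hl'
      rw [e1] at hs
      obtain ⟨h3, h4⟩ := hF.supp _ (hl.2 hl') s hs
      exact ⟨h3.trans (hcard l hl.1), fun w hw => Finset.mem_coe.2 (h4 w hw)⟩)
  have hmem : ∀ s ∈ K, s.sort (· ≤ ·) ∈ SL ∧ s.sort (· ≤ ·) ≠ [] := by
    intro s hs
    refine ⟨⟨Finset.sortedLT_sort s |>.pairwise, fun _ => ?_⟩, ?_⟩
    · rw [Finset.sort_toFinset]
      exact hs
    · rw [← List.length_pos_iff, Finset.length_sort]
      exact Finset.card_pos.2 (hne s hs)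
  refine ⟨fun s => H (s.sort (· ≤ ·)), fun s hs l hl => ?_, fun s hs hc => ?_⟩
  · obtain ⟨h1, h2⟩ := hmem s hs
    obtain ⟨h3, h4⟩ := (hH _ h1 h2).2 l hl
    rw [Finset.length_sort] at h3
    refine ⟨h3, fun w hw => ?_⟩
    have h5 := Finset.mem_coe.1 (h4 w hw)
    rwa [Finset.sort_toFinset] at h5
  · obtain ⟨h1, h2⟩ := hmem s hs
    have h3 := (hH _ h1 h2).1
    have e1 : Φ (s.sort (· ≤ ·)) = Finsupp.single (imgList φ s) 1 := if_neg h2
    have e2 : Φ' (s.sort (· ≤ ·)) = 0 := by
      have : Φ' (s.sort (· ≤ ·)) = F (s.sort (· ≤ ·)).toFinset := if_neg h2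
      rw [this, Finset.sort_toFinset]
      exact hF.van s hs (by omega)
    have e3 : Hom.dl H (s.sort (· ≤ ·)) =
        ∑ j ∈ Finset.range s.card, (-1 : ℤ) ^ j • H ((faceF s j).sort (· ≤ ·)) := by
      rw [chh_dl_eq_sum, Finset.length_sort]
      refine Finset.sum_congr rfl fun j _ => ?_
      rw [faceF, hsort]
      exact h1.1.sublist (List.eraseIdx_sublist _ _)
    rw [e1, e2, e3, sub_zero] at h3
    rw [← h3, ← bd_eq_extend, chh_bd_bd]

end Vale.Agent.P093.T
end

section

/-!
The affine extension of a vertex map, and the retraction of a simplex onto a face.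
-/

open Set

namespace Vale.Agent.P093.T

variable {U W : Type*} [Fintype U] [Fintype W]

omit [Fintype W] in
/-- the affine extension of a vertex map -/
noncomputable def affMap (φ : U → W) (z : U → ℝ) : W → ℝ := fun w => ∑ u, z u * vtx (φ u) w

omit [Fintype W] in
theorem continuous_affMap (φ : U → W) : Continuous (affMap φ) := by
  refine continuous_pi fun w => ?_
  exact continuous_finsetSum _ fun u _ => (continuous_apply u).mul continuous_const

omit [Fintype W] in
theorem affMapAux_vtx_nonneg (v w : W) : (0 : ℝ) ≤ vtx v w := by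
  by_cases h : w = v
  · rw [h, vtx_self]
    exact zero_le_one
  · rw [vtx_of_ne h]

theorem affMapAux_vtx_sum (v : W) : ∑ w, (vtx v w : ℝ) = 1 := by
  rw [Finset.sum_eq_single v]
  · exact vtx_self v
  · intro w _ h
    exact vtx_of_ne h
  · intro h
    exact absurd (Finset.mem_univ v) h

theorem affMapAux_mem_spt (y : W → ℝ) (w : W) : w ∈ spt y ↔ y w ≠ 0 := by
  simp [spt]

open Classical in
theorem affMapAux_spt (φ : U → W) (z : U → ℝ) : spt (affMap φ z) ⊆ (spt z).image φ := by
  intro w hw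
  rw [affMapAux_mem_spt] at hw
  obtain ⟨u, _, hu⟩ := Finset.exists_ne_zero_of_sum_ne_zero hw
  rw [Finset.mem_image]
  refine ⟨u, (affMapAux_mem_spt z u).2 (left_ne_zero_of_mul hu), ?_⟩
  by_contra h
  exact right_ne_zero_of_mul hu (vtx_of_ne (fun h' => h h'.symm))

open Classical in
theorem affMap_mem (φ : U → W) (S : U → Finset W) (hφ : ∀ u, φ u ∈ S u) (z : U → ℝ)
    (hz : z ∈ stdSimplex ℝ U) : affMap φ z ∈ stdSimplex ℝ W ∧
      spt (affMap φ z) ⊆ (spt z).biUnion S ∧ (spt (affMap φ z)).card ≤ (spt z).card := by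
  refine ⟨⟨fun w => ?_, ?_⟩, ?_, ?_⟩
  · exact Finset.sum_nonneg fun u _ => mul_nonneg (hz.1 u) (affMapAux_vtx_nonneg _ _)
  · show ∑ w, ∑ u, z u * vtx (φ u) w = 1
    rw [Finset.sum_comm]
    rw [← hz.2]
    refine Finset.sum_congr rfl fun u _ => ?_
    rw [← Finset.mul_sum, affMapAux_vtx_sum, mul_one]
  · refine (affMapAux_spt φ z).trans ?_
    intro w hw
    obtain ⟨u, hu, rfl⟩ := Finset.mem_image.1 hw
    exact Finset.mem_biUnion.2 ⟨u, hu, hφ u⟩
  · exact (Finset.card_le_card (affMapAux_spt φ z)).trans Finset.card_image_le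

theorem affMapAux_fix (ρ : W → W) (y : W → ℝ) (h : ∀ u, y u ≠ 0 → ρ u = u) :
    affMap ρ y = y := by
  funext w
  show ∑ u, y u * vtx (ρ u) w = y w
  rw [Finset.sum_eq_single w]
  · by_cases hw : y w = 0
    · rw [hw, zero_mul]
    · rw [h w hw, vtx_self, mul_one]
  · intro u _ hu
    by_cases hy : y u = 0
    · rw [hy, zero_mul]
    · rw [h u hy, vtx_of_ne (fun e => hu e.symm), mul_zero]
  · intro hw
    exact absurd (Finset.mem_univ w) hw

open Classical in
/-- the retraction of the simplex on `W` onto the face spanned by `S` -/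
theorem exists_retract (S : Finset W) (hS : S.Nonempty) :
    ∃ r : (W → ℝ) → (W → ℝ), Continuous r ∧ (∀ y, y ∈ stdSimplex ℝ W → r y ∈ stdSimplex ℝ W ∧
      spt (r y) ⊆ S ∧ (spt (r y)).card ≤ (spt y).card) ∧
      ∀ y, y ∈ stdSimplex ℝ W → spt y ⊆ S → r y = y := by
  obtain ⟨s0, hs0⟩ := hS
  refine ⟨affMap fun w => if w ∈ S then w else s0, continuous_affMap _, ?_, ?_⟩
  · intro y hy
    obtain ⟨h1, h2, h3⟩ := affMap_mem (fun w => if w ∈ S then w else s0) (fun _ => S)
      (fun w => by
        by_cases h : w ∈ S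
        · simp [h]
        · simp [h, hs0]) y hy
    refine ⟨h1, h2.trans ?_, h3⟩
    intro w hw
    obtain ⟨_, _, h⟩ := Finset.mem_biUnion.1 hw
    exact h
  · intro y _ hyS
    refine affMapAux_fix _ y fun u hu => ?_
    have : u ∈ S := hyS ((affMapAux_mem_spt y u).2 hu)
    simp [this]

end Vale.Agent.P093.T
end

section

/-!
The modified map on one simplex with `m + 3` vertices.
-/

open Set

namespace Vale.Agent.P093.T

variable {U W : Type*} [Fintype U] [LinearOrder U] [Fintype W]

theorem hopfDisk_extend_neg {V M : Type*} [AddCommGroup M] (F : List V → M) (c : OChain V) :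
    extend F (-c) = -extend F c := by
  classical
  unfold extend
  rw [Finsupp.sum_neg_index (fun s => zero_smul ℤ (F s))]
  unfold Finsupp.sum
  rw [← Finset.sum_neg_distrib]
  exact Finset.sum_congr rfl fun s _ => neg_smul _ _

theorem hopfDisk_extend_single {V M : Type*} [AddCommGroup M] (F : List V → M) (l : List V) :
    extend F (Finsupp.single l 1) = F l := by
  classical
  unfold extend
  rw [Finsupp.sum_single_index (zero_smul ℤ (F l)), one_smul]

omit [Fintype U] in
theorem hopfDisk_sum {m : ℕ} (s : Finset U) (hs : s.card = m + 3) (f : U → ℝ) :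
    ∑ i, f (s.orderEmbOfFin hs i) = ∑ u ∈ s, f u := by
  conv_rhs => rw [← Finset.map_orderEmbOfFin_univ s hs]
  rw [Finset.sum_map]
  rfl

omit [LinearOrder U] in
theorem hopfDisk_off (s : Finset U) (z : U → ℝ) (hz : spt z ⊆ s) (u : U) (hu : u ∉ s) :
    z u = 0 := by
  by_contra h
  apply hu
  apply hz
  unfold spt
  simp [h]

theorem hopfDisk_mem {m : ℕ} (s : Finset U) (hs : s.card = m + 3) (z : U → ℝ)
    (hz : z ∈ Face s) : (fun i => z (s.orderEmbOfFin hs i)) ∈ stdSimplex ℝ (Fin (m + 3)) := by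
  refine ⟨fun i => hz.1.1 _, ?_⟩
  rw [hopfDisk_sum s hs z, ← hz.1.2]
  refine Finset.sum_subset (Finset.subset_univ s) fun u _ hu => ?_
  exact hopfDisk_off s z hz.2 u hu

theorem hopfDisk_aff {m : ℕ} (φ : U → W) (s : Finset U) (hs : s.card = m + 3) (z : U → ℝ)
    (hz : z ∈ Face s) (h : (fun i => z (s.orderEmbOfFin hs i)) ∈ stdSimplex ℝ (Fin (m + 3))) :
    ((aff (fun i => φ (s.orderEmbOfFin hs i)) : DiskMap m W).toFun
      ⟨fun i => z (s.orderEmbOfFin hs i), h⟩ : W → ℝ) = affMap φ z := by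
  funext w
  show ∑ i, z (s.orderEmbOfFin hs i) * vtx (φ (s.orderEmbOfFin hs i)) w =
    ∑ u, z u * vtx (φ u) w
  rw [hopfDisk_sum s hs (fun u => z u * vtx (φ u) w)]
  refine Finset.sum_subset (Finset.subset_univ s) fun u _ hu => ?_
  rw [hopfDisk_off s z hz.2 u hu, zero_mul]

omit [Fintype U] in
theorem hopfDisk_cl {m : ℕ} (w₀ : W) (φ : U → W) (s : Finset U) (hs : s.card = m + 3) :
    (aff (fun i => φ (s.orderEmbOfFin hs i)) : DiskMap m W).cl w₀ =
      theta w₀ (Finsupp.single (imgList φ s) 1) := by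
  unfold theta
  rw [hopfDisk_extend_single]
  unfold thetaList
  have hl : (imgList φ s).length = m + 3 := by
    unfold imgList
    rw [List.length_map, Finset.length_sort, hs]
  rw [dif_pos hl]
  congr 2
  funext i
  unfold imgList
  simp only [Finset.orderEmbOfFin_apply, List.get_eq_getElem, List.getElem_map]
  rfl

open Classical in
/-- the modified map on one simplex with `m + 3` vertices: `insert_chain` applied to
`aff (φ ∘ sorted vertices)` and the chain `-H` -/
theorem disk_step {m : ℕ} (w₀ : W) (φ : U → W) (S : U → Finset W) (hφ : ∀ u, φ u ∈ S u)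
    (s : Finset U) (hs : s.card = m + 3) (H : OChain W)
    (hH : ∀ l ∈ H.support, l.length = m + 4 ∧ ∀ w ∈ l, w ∈ s.biUnion S) :
    ∃ (a : DiskMap m W) (g : (U → ℝ) → (W → ℝ)), ContinuousOn g (Face s) ∧
      (∀ z ∈ Face s, spt z ≠ s → g z = affMap φ z) ∧
      (∀ z ∈ Face s, g z ∈ Sk W (m + 2) ∧ spt (g z) ⊆ s.biUnion S) ∧
      (∀ (z : stdSimplex ℝ (Fin (m + 3))) (z' : U → ℝ), z' ∈ Face s →
        (∀ i, z' ((s.orderEmbOfFin hs) i) = z.1 i) → g z' = a.toFun z) ∧
      a.cl w₀ = theta w₀ (Finsupp.single (imgList φ s) 1 - extend simplexBoundary H) := by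
  have hmem : ∀ i, φ (s.orderEmbOfFin hs i) ∈ s.biUnion S := fun i =>
    Finset.mem_biUnion.2 ⟨_, Finset.orderEmbOfFin_mem s hs i, hφ _⟩
  obtain ⟨a, ha1, ha2, ha3⟩ := insert_chain w₀ (s.biUnion S)
    (aff (fun i => φ (s.orderEmbOfFin hs i)) : DiskMap m W) (φ (s.orderEmbOfFin hs 0)) (hmem 0)
    (by
      intro z hz
      have h0 : ∀ i, i ≠ 0 → z.1 i = 0 := by
        intro i hi
        have h1 := z.2.2
        have h2 : ∑ j ∈ Finset.univ.erase (0 : Fin (m + 3)), z.1 j = 0 := by
          rw [← Finset.add_sum_erase _ _ (Finset.mem_univ (0 : Fin (m + 3)))] at h1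
          have : z.1 0 = 1 := hz
          linarith
        have h3 := (Finset.sum_eq_zero_iff_of_nonneg (fun j _ => z.2.1 j)).1 h2 i
          (Finset.mem_erase.2 ⟨hi, Finset.mem_univ i⟩)
        exact h3
      funext w
      show ∑ i, z.1 i * vtx (φ (s.orderEmbOfFin hs i)) w = _
      rw [Finset.sum_eq_single 0]
      · rw [hz, one_mul]
      · intro i _ hi
        rw [h0 i hi, zero_mul]
      · intro h
        exact absurd (Finset.mem_univ _) h)
    (by
      intro z w hw
      have h1 : (∑ i, z.1 i * vtx (φ (s.orderEmbOfFin hs i)) w) ≠ 0 :=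
        (Finset.mem_filter.1 hw).2
      obtain ⟨i, -, hi⟩ := Finset.exists_ne_zero_of_sum_ne_zero h1
      have h2 : w = φ (s.orderEmbOfFin hs i) := by
        by_contra hne
        exact hi (by rw [vtx_of_ne hne, mul_zero])
      rw [h2]
      exact hmem i)
    (-H) (by
      intro l hl
      rw [Finsupp.support_neg] at hl
      exact hH l hl)
  refine ⟨a, fun z => if h : (fun i => z (s.orderEmbOfFin hs i)) ∈ stdSimplex ℝ (Fin (m + 3))
    then (a.toFun ⟨_, h⟩ : W → ℝ) else 0, ?_, ?_, ?_, ?_, ?_⟩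
  · rw [continuousOn_iff_continuous_domRestrict]
    have h0 : Continuous fun z : Face s => (fun i => z.1 (s.orderEmbOfFin hs i)) :=
      continuous_pi fun i =>
        (continuous_apply (s.orderEmbOfFin hs i)).comp continuous_subtype_val
    have h1 : Continuous fun z : Face s => (⟨fun i => z.1 (s.orderEmbOfFin hs i),
        hopfDisk_mem s hs z.1 z.2⟩ : stdSimplex ℝ (Fin (m + 3))) :=
      h0.subtype_mk _
    have h2 := continuous_subtype_val.comp (a.cont.comp h1)
    refine h2.congr fun z => ?_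
    show _ = dite _ _ _
    rw [dif_pos (hopfDisk_mem s hs z.1 z.2)]
    rfl
  · intro z hz hne
    have h := hopfDisk_mem s hs z hz
    show dite _ _ _ = _
    rw [dif_pos h]
    have hex : ∃ u ∈ s, z u = 0 := by
      by_contra hcon
      push Not at hcon
      apply hne
      refine Finset.Subset.antisymm hz.2 fun u hu => ?_
      unfold spt
      simp [hcon u hu]
    obtain ⟨u, hu, hu0⟩ := hex
    have hrange : u ∈ Set.range (s.orderEmbOfFin hs) := by
      rw [Finset.range_orderEmbOfFin]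
      exact hu
    obtain ⟨i, rfl⟩ := hrange
    rw [ha1 ⟨_, h⟩ ⟨i, hu0⟩]
    exact hopfDisk_aff φ s hs z hz h
  · intro z hz
    have h := hopfDisk_mem s hs z hz
    show dite _ _ _ ∈ _ ∧ spt (dite _ _ _) ⊆ _
    rw [dif_pos h]
    exact ⟨(a.toFun ⟨_, h⟩).2, ha2 _⟩
  · intro z z' hz' hzz
    have h := hopfDisk_mem s hs z' hz'
    show dite _ _ _ = _
    rw [dif_pos h]
    have : (⟨fun i => z' (s.orderEmbOfFin hs i), h⟩ : stdSimplex ℝ (Fin (m + 3))) = z :=
      Subtype.ext (funext hzz)
    rw [this]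
  · rw [ha3, hopfDisk_cl, hopfDisk_extend_neg, ← theta_add, sub_eq_add_neg]

end Vale.Agent.P093.T
end

section

/-!
Filling one simplex with `m + 4` vertices.
-/

open Set

namespace Vale.Agent.P093.T

variable {U W : Type*} [Fintype U] [LinearOrder U] [Fintype W]

omit [LinearOrder U] in
theorem hfill_spt_iff (z : U → ℝ) (u : U) : u ∈ spt z ↔ z u ≠ 0 := by
  classical
  unfold spt
  simp

omit [Fintype U] in
/-- extension by zero of a point of the standard simplex through the sorted vertices -/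
noncomputable def hfillUp {k : ℕ} (s : Finset U) (hs : s.card = k) (y : Fin k → ℝ) : U → ℝ :=
  Function.extend (s.orderEmbOfFin hs) y 0

omit [Fintype U] in
theorem hfillUp_apply {k : ℕ} (s : Finset U) (hs : s.card = k) (y : Fin k → ℝ) (i : Fin k) :
    hfillUp s hs y (s.orderEmbOfFin hs i) = y i :=
  (s.orderEmbOfFin hs).injective.extend_apply y 0 i

omit [Fintype U] in
theorem hfillUp_off {k : ℕ} (s : Finset U) (hs : s.card = k) (y : Fin k → ℝ) (u : U)
    (hu : u ∉ s) : hfillUp s hs y u = 0 := by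
  unfold hfillUp
  rw [Function.extend_apply']
  · rfl
  · rintro ⟨i, hi⟩
    exact hu (hi ▸ s.orderEmbOfFin_mem hs i)

omit [Fintype U] in
theorem hfill_exists {k : ℕ} (s : Finset U) (hs : s.card = k) (u : U) (hu : u ∈ s) :
    ∃ i, s.orderEmbOfFin hs i = u := by
  have h := s.range_orderEmbOfFin hs
  have h2 : u ∈ Set.range (s.orderEmbOfFin hs) := by
    rw [h]
    exact hu
  exact h2

omit [Fintype U] in
theorem hfillUp_cont {k : ℕ} (s : Finset U) (hs : s.card = k) :
    Continuous (hfillUp s hs) := by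
  refine continuous_pi fun u => ?_
  by_cases hu : u ∈ s
  · obtain ⟨i, rfl⟩ := hfill_exists s hs u hu
    simp only [hfillUp_apply]
    exact continuous_apply i
  · simp only [hfillUp_off s hs _ u hu]
    exact continuous_const

/-- sums over the face -/
theorem hfill_sum {k : ℕ} (s : Finset U) (hs : s.card = k) (z : U → ℝ)
    (hz : ∀ u, u ∉ s → z u = 0) : ∑ i, z (s.orderEmbOfFin hs i) = ∑ u, z u := by
  classical
  have h1 : ∑ u, z u = ∑ u ∈ s, z u := by
    symm
    refine Finset.sum_subset (Finset.subset_univ s) fun u _ hu => hz u hu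
  rw [h1]
  have h2 : s = Finset.univ.map (s.orderEmbOfFin hs).toEmbedding := by
    ext u
    constructor
    · intro hu
      obtain ⟨i, hi⟩ := hfill_exists s hs u hu
      exact Finset.mem_map.2 ⟨i, Finset.mem_univ i, hi⟩
    · intro hu
      obtain ⟨i, _, hi⟩ := Finset.mem_map.1 hu
      rw [← hi]
      exact s.orderEmbOfFin_mem hs i
  conv_rhs => rw [h2]
  rw [Finset.sum_map]
  rfl

theorem hfillUp_face {k : ℕ} (s : Finset U) (hs : s.card = k) (y : Fin k → ℝ)
    (hy : y ∈ stdSimplex ℝ (Fin k)) : hfillUp s hs y ∈ Face s := by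
  refine ⟨⟨fun u => ?_, ?_⟩, fun u hu => ?_⟩
  · by_cases hu : u ∈ s
    · obtain ⟨i, rfl⟩ := hfill_exists s hs u hu
      rw [hfillUp_apply]
      exact hy.1 i
    · rw [hfillUp_off s hs y u hu]
  · rw [← hfill_sum s hs _ fun u hu => hfillUp_off s hs y u hu, ← hy.2]
    exact Finset.sum_congr rfl fun i _ => hfillUp_apply s hs y i
  · by_contra hus
    exact (hfill_spt_iff _ _).1 hu (hfillUp_off s hs y u hus)

omit [LinearOrder U] in
theorem hfill_zero_off (s : Finset U) (z : U → ℝ) (hz : z ∈ Face s) (u : U) (hu : u ∉ s) :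
    z u = 0 := by
  by_contra h
  exact hu (hz.2 ((hfill_spt_iff z u).2 h))

theorem hfill_down {k : ℕ} (s : Finset U) (hs : s.card = k) (z : U → ℝ) (hz : z ∈ Face s) :
    (fun i => z (s.orderEmbOfFin hs i)) ∈ stdSimplex ℝ (Fin k) := by
  refine ⟨fun i => hz.1.1 _, ?_⟩
  rw [hfill_sum s hs z fun u hu => hfill_zero_off s z hz u hu]
  exact hz.1.2

theorem hfill_up_down {k : ℕ} (s : Finset U) (hs : s.card = k) (z : U → ℝ) (hz : z ∈ Face s) :
    hfillUp s hs (fun i => z (s.orderEmbOfFin hs i)) = z := by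
  funext u
  by_cases hu : u ∈ s
  · obtain ⟨i, rfl⟩ := hfill_exists s hs u hu
    rw [hfillUp_apply]
  · rw [hfillUp_off s hs _ u hu, hfill_zero_off s z hz u hu]

theorem hfill_bd {k : ℕ} (s : Finset U) (hs : s.card = k) (z : U → ℝ) (hz : z ∈ Face s) :
    spt z ≠ s ↔ ∃ i, z (s.orderEmbOfFin hs i) = 0 := by
  constructor
  · intro h
    by_contra hcon
    push Not at hcon
    refine h (Finset.Subset.antisymm hz.2 fun u hu => ?_)
    obtain ⟨i, rfl⟩ := hfill_exists s hs u hu
    exact (hfill_spt_iff _ _).2 (hcon i)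
  · rintro ⟨i, hi⟩ h
    have h1 : s.orderEmbOfFin hs i ∈ spt z := by
      rw [h]
      exact s.orderEmbOfFin_mem hs i
    exact (hfill_spt_iff _ _).1 h1 hi

omit [Fintype U] [LinearOrder U] in
/-- the retraction of the simplex on `W` onto the face spanned by `S` -/
theorem hfill_retract (S : Finset W) (hS : S.Nonempty) :
    ∃ r : (W → ℝ) → (W → ℝ), Continuous r ∧ (∀ y, y ∈ stdSimplex ℝ W → r y ∈ stdSimplex ℝ W ∧
      spt (r y) ⊆ S ∧ (spt (r y)).card ≤ (spt y).card) ∧
      ∀ y, y ∈ stdSimplex ℝ W → spt y ⊆ S → r y = y := by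
  classical
  obtain ⟨s0, hs0⟩ := hS
  let q : W → W := fun w => if w ∈ S then w else s0
  have hq : ∀ w, q w ∈ S := by
    intro w
    by_cases h : w ∈ S
    · have : q w = w := if_pos h
      rw [this]
      exact h
    · have : q w = s0 := if_neg h
      rw [this]
      exact hs0
  have hsp : ∀ (y : W → ℝ) (w : W), w ∈ spt y ↔ y w ≠ 0 := by
    intro y w
    unfold spt
    simp
  have hv0 : ∀ w v : W, 0 ≤ vtx w v := by
    intro w v
    by_cases h : v = w
    · rw [h, vtx_self]
      exact zero_le_one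
    · rw [vtx_of_ne h]
  have hv1 : ∀ w : W, ∑ v, vtx w v = 1 := by
    intro w
    rw [Finset.sum_eq_single w]
    · exact vtx_self w
    · intro v _ hv
      exact vtx_of_ne hv
    · intro h
      exact absurd (Finset.mem_univ w) h
  have hsub : ∀ y : W → ℝ, spt (fun v => ∑ w, y w * vtx (q w) v) ⊆ (spt y).image q := by
    intro y v hv
    rw [hsp] at hv
    by_contra hcon
    apply hv
    refine Finset.sum_eq_zero fun w _ => ?_
    by_cases hw : y w = 0
    · rw [hw, zero_mul]
    · have hne : v ≠ q w := by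
        rintro rfl
        exact hcon (Finset.mem_image_of_mem q ((hsp y w).2 hw))
      rw [vtx_of_ne hne, mul_zero]
  refine ⟨fun y v => ∑ w, y w * vtx (q w) v, ?_, ?_, ?_⟩
  · refine continuous_pi fun v => ?_
    refine continuous_finsetSum _ fun w _ => ?_
    exact (continuous_apply w).mul continuous_const
  · intro y hy
    refine ⟨⟨fun v => Finset.sum_nonneg fun w _ => mul_nonneg (hy.1 w) (hv0 _ _), ?_⟩, ?_, ?_⟩
    · rw [Finset.sum_comm, ← hy.2]
      refine Finset.sum_congr rfl fun w _ => ?_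
      rw [← Finset.mul_sum, hv1, mul_one]
    · intro v hv
      obtain ⟨w, _, hw⟩ := Finset.mem_image.1 (hsub y hv)
      rw [← hw]
      exact hq w
    · exact (Finset.card_le_card (hsub y)).trans Finset.card_image_le
  · intro y _ hyS
    funext v
    show ∑ w, y w * vtx (q w) v = y v
    rw [Finset.sum_eq_single v]
    · by_cases hv : y v = 0
      · rw [hv, zero_mul]
      · have h1 : q v = v := if_pos (hyS ((hsp y v).2 hv))
        rw [h1, vtx_self, mul_one]
    · intro w _ hwv
      by_cases hw : y w = 0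
      · rw [hw, zero_mul]
      · have h1 : q w = w := if_pos (hyS ((hsp y w).2 hw))
        rw [h1, vtx_of_ne (Ne.symm hwv), mul_zero]
    · intro h
      exact absurd (Finset.mem_univ v) h

open Classical in
/-- filling one simplex with `m + 4` vertices -/
theorem fill_step {m : ℕ} (w₀ : W) (S : Finset W) (hS : S.Nonempty) (s : Finset U)
    (hs : s.card = m + 4) (f : (U → ℝ) → (W → ℝ))
    (hf : ContinuousOn f {z | z ∈ Face s ∧ spt z ≠ s})
    (hfm : ∀ z ∈ Face s, spt z ≠ s → f z ∈ Sk W (m + 2) ∧ spt (f z) ⊆ S)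
    (a : Fin (m + 4) → DiskMap m W)
    (ha : ∀ (j : Fin (m + 4)) (z : stdSimplex ℝ (Fin (m + 3))) (z' : U → ℝ), z' ∈ Face s →
      (∀ i, z' ((s.orderEmbOfFin hs) i) = (Fin.insertNth j 0 z.1 : Fin (m + 4) → ℝ) i) →
        f z' = (a j).toFun z)
    (hsum : ∑ j : Fin (m + 4), ((-1 : ℤ) ^ (j : ℕ)) • (a j).cl w₀ = 0) :
    ∃ g : (U → ℝ) → (W → ℝ), ContinuousOn g (Face s) ∧
      (∀ z ∈ Face s, spt z ≠ s → g z = f z) ∧
      ∀ z ∈ Face s, g z ∈ Sk W (m + 2) ∧ spt (g z) ⊆ S := by
  -- boundary points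
  have hbd : ∀ y : BdSimplex m, hfillUp s hs y.1 ∈ Face s ∧ spt (hfillUp s hs y.1) ≠ s := by
    intro y
    have h1 := hfillUp_face s hs y.1 y.2.1
    refine ⟨h1, (hfill_bd s hs _ h1).2 ?_⟩
    obtain ⟨i, hi⟩ := y.2.2
    exact ⟨i, by rw [hfillUp_apply]; exact hi⟩
  let b : BdSimplex m → Sk W (m + 2) := fun y =>
    ⟨f (hfillUp s hs y.1), (hfm _ (hbd y).1 (hbd y).2).1⟩
  have hb : Continuous b := by
    refine Continuous.subtype_mk ?_ _
    exact hf.comp_continuous ((hfillUp_cont s hs).comp continuous_subtype_val) fun y => hbd y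
  have hbf : ∀ j z, b (faceIn j z) = (a j).toFun z := by
    intro j z
    refine Subtype.ext ?_
    refine ha j z _ (hbd (faceIn j z)).1 fun i => ?_
    rw [hfillUp_apply]
    rfl
  obtain ⟨B, hB, hBb⟩ := fill w₀ b hb a hbf hsum
  obtain ⟨r, hr, hr1, hr2⟩ := hfill_retract S hS
  let g : (U → ℝ) → (W → ℝ) := fun z =>
    if h : (fun i => z (s.orderEmbOfFin hs i)) ∈ stdSimplex ℝ (Fin (m + 4)) then
      r (B ⟨fun i => z (s.orderEmbOfFin hs i), h⟩) else 0
  have hg : ∀ z (hz : z ∈ Face s), g z = r (B ⟨fun i => z (s.orderEmbOfFin hs i),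
      hfill_down s hs z hz⟩) := fun z hz => dif_pos (hfill_down s hs z hz)
  refine ⟨g, ?_, ?_, ?_⟩
  · rw [continuousOn_iff_continuous_domRestrict]
    have h1 : (Face s).domRestrict g = fun z : Face s => r (B ⟨fun i =>
        z.1 (s.orderEmbOfFin hs i), hfill_down s hs z.1 z.2⟩) := by
      funext z
      exact hg z.1 z.2
    rw [h1]
    refine hr.comp (continuous_subtype_val.comp (hB.comp ?_))
    refine Continuous.subtype_mk ?_ _
    exact continuous_pi fun i => (continuous_apply _).comp continuous_subtype_val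
  · intro z hz hne
    rw [hg z hz]
    obtain ⟨i, hi⟩ := (hfill_bd s hs z hz).1 hne
    have h1 := hBb ⟨fun i => z (s.orderEmbOfFin hs i), hfill_down s hs z hz, i, hi⟩
    have h2 : ((b ⟨fun i => z (s.orderEmbOfFin hs i), hfill_down s hs z hz, i, hi⟩ :
        Sk W (m + 2)) : W → ℝ) = f z := by
      show f (hfillUp s hs fun i => z (s.orderEmbOfFin hs i)) = f z
      rw [hfill_up_down s hs z hz]
    have h3 : ((B ⟨fun i => z (s.orderEmbOfFin hs i), hfill_down s hs z hz⟩ :
        Sk W (m + 2)) : W → ℝ) = f z := by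
      rw [← h2, ← h1]
    rw [h3]
    exact hr2 (f z) (hfm z hz hne).1.1 (hfm z hz hne).2
  · intro z hz
    rw [hg z hz]
    have h1 := (B ⟨fun i => z (s.orderEmbOfFin hs i), hfill_down s hs z hz⟩).2
    obtain ⟨h2, h3, h4⟩ := hr1 _ h1.1
    exact ⟨⟨h2, h4.trans h1.2⟩, h3⟩

end Vale.Agent.P093.T
end

section

/-!
The Hopf step: a map of a complex which is affine on the simplices with at most `m + 2` vertices,
modified on the simplices with `m + 3` vertices, extends over the simplices with `m + 4` vertices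
with values in the `(m+2)`-skeleton.
-/

open Set

namespace Vale.Agent.P093.T

variable {U W : Type*} [Fintype U] [LinearOrder U] [Fintype W]

theorem hopfStep_extend_add {V M : Type*} [AddCommGroup M] (F : List V → M) (c c' : OChain V) :
    extend F (c + c') = extend F c + extend F c' := by
  classical
  unfold extend
  exact Finsupp.sum_add_index' (fun s => zero_smul ℤ _) (fun s a b => add_smul a b _)

theorem hopfStep_extend_smul {V M : Type*} [AddCommGroup M] (F : List V → M) (k : ℤ)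
    (c : OChain V) : extend F (k • c) = k • extend F c := by
  classical
  unfold extend
  have h : (k • c).sum (fun s n => n • F s) = c.sum (fun s n => (k * n) • F s) :=
    Finsupp.sum_smul_index (fun s => zero_smul ℤ _)
  rw [h, Finsupp.smul_sum]
  exact Finsupp.sum_congr fun s _ => mul_smul _ _ _

theorem hopfStep_extend_zero {V M : Type*} [AddCommGroup M] (F : List V → M) :
    extend F (0 : OChain V) = 0 := by
  unfold extend
  exact Finsupp.sum_zero_index

theorem hopfStep_extend_sub {V M : Type*} [AddCommGroup M] (F : List V → M) (c c' : OChain V) :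
    extend F (c - c') = extend F c - extend F c' := by
  have h := hopfStep_extend_add F (c - c') c'
  rw [sub_add_cancel] at h
  rw [h, add_sub_cancel_right]

theorem hopfStep_extend_sum {V M ι : Type*} [AddCommGroup M] (F : List V → M) (T : Finset ι)
    (c : ι → OChain V) : extend F (∑ i ∈ T, c i) = ∑ i ∈ T, extend F (c i) := by
  classical
  induction T using Finset.induction_on with
  | empty => simp [hopfStep_extend_zero]
  | insert i T hi ih =>
    rw [Finset.sum_insert hi, Finset.sum_insert hi, hopfStep_extend_add, ih]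

theorem hopfStep_extend_single {V M : Type*} [AddCommGroup M] (F : List V → M) (l : List V) :
    extend F (Finsupp.single l 1) = F l := by
  classical
  unfold extend
  rw [Finsupp.sum_single_index (zero_smul ℤ (F l)), one_smul]

omit [Fintype U] [Fintype W] in
theorem hopfStep_sort_face (s : Finset U) (j : ℕ) :
    (faceF s j).sort (· ≤ ·) = (s.sort (· ≤ ·)).eraseIdx j := by
  unfold faceF
  have hsub : ((s.sort (· ≤ ·)).eraseIdx j).Sublist (s.sort (· ≤ ·)) := List.eraseIdx_sublist _ _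
  have h1 : ((s.sort (· ≤ ·)).eraseIdx j).Nodup := (Finset.sort_nodup s (· ≤ ·)).sublist hsub
  rw [List.toFinset_sort _ h1]
  exact (Finset.pairwise_sort s (· ≤ ·)).sublist hsub

omit [Fintype U] [Fintype W] in
theorem hopfStep_img_face (φ : U → W) (s : Finset U) (j : ℕ) :
    imgList φ (faceF s j) = (imgList φ s).eraseIdx j := by
  unfold imgList
  rw [hopfStep_sort_face, List.eraseIdx_map]

omit [Fintype U] in
theorem hopfStep_face_erase {k : ℕ} (s : Finset U) (hs : s.card = k) (j : Fin k) :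
    faceF s j = s.erase (s.orderEmbOfFin hs j) := by
  have hj : (j : ℕ) < (s.sort (· ≤ ·)).length := by
    rw [Finset.length_sort, hs]
    exact j.2
  have h1 := (Finset.sort_nodup s (· ≤ ·)).erase_getElem (j : ℕ) hj
  unfold faceF
  rw [← h1, Finset.orderEmbOfFin_apply]
  ext u
  rw [List.mem_toFinset, (Finset.sort_nodup s (· ≤ ·)).mem_erase_iff, Finset.mem_erase,
    Finset.mem_sort]
  rfl

omit [Fintype U] in
theorem hopfStep_face_card {k : ℕ} (s : Finset U) (hs : s.card = k + 1) (j : Fin (k + 1)) :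
    (faceF s j).card = k := by
  rw [hopfStep_face_erase s hs j, Finset.card_erase_of_mem (Finset.orderEmbOfFin_mem _ _ _), hs]
  rfl

omit [Fintype U] in
theorem hopfStep_face_emb {k : ℕ} (s : Finset U) (hs : s.card = k + 1) (j : Fin (k + 1))
    (i : Fin k) : (faceF s j).orderEmbOfFin (hopfStep_face_card s hs j) i =
      s.orderEmbOfFin hs (j.succAbove i) := by
  have h := Finset.orderEmbOfFin_unique (hopfStep_face_card s hs j)
    (f := fun i => s.orderEmbOfFin hs (j.succAbove i)) (fun i => by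
      rw [hopfStep_face_erase s hs j, Finset.mem_erase]
      refine ⟨fun h => ?_, Finset.orderEmbOfFin_mem _ _ _⟩
      exact Fin.succAbove_ne j i ((s.orderEmbOfFin hs).injective h))
    (fun a b hab => (s.orderEmbOfFin hs).strictMono (Fin.strictMono_succAbove j hab))
  exact (congrFun h i).symm

open Classical in
/-- THE HOPF STEP -/
theorem hopf_step {m : ℕ} (w₀ : W) (K : Set (Finset U))
    (hK : ∀ s ∈ K, ∀ t ⊆ s, t.Nonempty → t ∈ K) (φ : U → W) (S : U → Finset W)
    (hφ : ∀ u, φ u ∈ S u) (H : Finset U → OChain W)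
    (hH : ∀ s ∈ K, s.card = m + 3 → ∀ l ∈ (H s).support, l.length = m + 4 ∧
      ∀ w ∈ l, w ∈ s.biUnion S)
    (hcyc : ∀ s ∈ K, s.card = m + 4 → extend simplexBoundary
        (Finsupp.single (imgList φ s) 1 -
          ∑ j ∈ Finset.range s.card, (-1 : ℤ) ^ j • H (faceF s j)) = 0) :
    ∃ ψ : (U → ℝ) → (W → ℝ), ContinuousOn ψ (Rlz K (m + 4)) ∧
      ∀ z ∈ Rlz K (m + 4), ψ z ∈ stdSimplex ℝ W ∧ spt (ψ z) ⊆ (spt z).biUnion S ∧
        (spt (ψ z)).card ≤ min (spt z).card (m + 3) := by
  -- the maps on the simplices with `m + 3` vertices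
  have hd : ∀ t : Finset U, ∃ (a : DiskMap m W) (g : (U → ℝ) → (W → ℝ)), t ∈ K →
      ∀ ht : t.card = m + 3, ContinuousOn g (Face t) ∧
      (∀ z ∈ Face t, spt z ≠ t → g z = affMap φ z) ∧
      (∀ z ∈ Face t, g z ∈ Sk W (m + 2) ∧ spt (g z) ⊆ t.biUnion S) ∧
      (∀ (z : stdSimplex ℝ (Fin (m + 3))) (z' : U → ℝ), z' ∈ Face t →
        (∀ i, z' ((t.orderEmbOfFin ht) i) = z.1 i) → g z' = a.toFun z) ∧
      a.cl w₀ = theta w₀ (Finsupp.single (imgList φ t) 1 - extend simplexBoundary (H t)) := by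
    intro t
    by_cases htK : t ∈ K
    · by_cases ht : t.card = m + 3
      · obtain ⟨a, g, h⟩ := disk_step w₀ φ S hφ t ht (H t) (hH t htK ht)
        exact ⟨a, g, fun _ _ => h⟩
      · exact ⟨aff (fun _ => w₀), fun _ _ => 0, fun _ h => absurd h ht⟩
    · exact ⟨aff (fun _ => w₀), fun _ _ => 0, fun h => absurd h htK⟩
  choose A G hAG using hd
  set f1 : (U → ℝ) → (W → ℝ) := fun z => if (spt z).card = m + 2 + 1 then G (spt z) z
    else affMap φ z with hf1
  have hf1c : ContinuousOn f1 (Rlz K (m + 2 + 1)) := by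
    refine glue_step K hK (m + 2) (affMap φ) (continuous_affMap φ).continuousOn G ?_
    intro s hs hsc
    have h := hAG s hs hsc
    exact ⟨h.1, h.2.1⟩
  have hne : ∀ z : U → ℝ, z ∈ stdSimplex ℝ U → (spt z).Nonempty := fun z hz =>
    spt_nonempty_of_mem hz
  have hf1m : ∀ z ∈ Rlz K (m + 2 + 1), f1 z ∈ stdSimplex ℝ W ∧
      spt (f1 z) ⊆ (spt z).biUnion S ∧ (spt (f1 z)).card ≤ (spt z).card := by
    intro z hz
    by_cases h : (spt z).card = m + 2 + 1
    · have e : f1 z = G (spt z) z := by simp only [hf1, if_pos h]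
      have h2 := (hAG (spt z) hz.2.1 h).2.2.1 z ⟨hz.1, Finset.Subset.refl _⟩
      rw [e]
      exact ⟨h2.1.1, h2.2, h2.1.2.trans_eq h.symm⟩
    · have e : f1 z = affMap φ z := by simp only [hf1, if_neg h]
      rw [e]
      exact affMap_mem φ S hφ z hz.1
  -- the faces of a simplex with `m + 4` vertices
  have hfc : ∀ s ∈ K, ∀ (hs : s.card = m + 4) (j : Fin (m + 4)), faceF s j ∈ K := by
    intro s hs hsc j
    refine hK s hs _ ?_ ?_
    · rw [hopfStep_face_erase s hsc j]
      exact Finset.erase_subset _ _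
    · rw [← Finset.card_pos, hopfStep_face_card s hsc j]
      omega
  have hfill : ∀ s : Finset U, ∃ g : (U → ℝ) → (W → ℝ), s ∈ K → s.card = m + 4 →
      ContinuousOn g (Face s) ∧ (∀ z ∈ Face s, spt z ≠ s → g z = f1 z) ∧
      ∀ z ∈ Face s, g z ∈ Sk W (m + 2) ∧ spt (g z) ⊆ s.biUnion S := by
    intro s
    by_cases hsK : s ∈ K
    swap
    · exact ⟨f1, fun h => absurd h hsK⟩
    by_cases hs : s.card = m + 4
    swap
    · exact ⟨f1, fun _ h => absurd h hs⟩
    have hbd : ∀ z ∈ Face s, spt z ≠ s → z ∈ Rlz K (m + 2 + 1) := by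
      intro z hz hzs
      refine ⟨hz.1, hK s hsK _ hz.2 (hne z hz.1), ?_⟩
      have := Finset.card_lt_card (Finset.ssubset_iff_subset_ne.mpr ⟨hz.2, hzs⟩)
      omega
    have hSne : (s.biUnion S).Nonempty := by
      have h1 : s.Nonempty := by
        rw [← Finset.card_pos]
        omega
      obtain ⟨u, hu⟩ := h1
      exact ⟨φ u, Finset.mem_biUnion.mpr ⟨u, hu, hφ u⟩⟩
    have hA : ∀ j : Fin (m + 4), (A (faceF s j)).cl w₀ = theta w₀
        (Finsupp.single (imgList φ (faceF s j)) 1 -
          extend simplexBoundary (H (faceF s j))) := fun j =>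
      (hAG (faceF s j) (hfc s hsK hs j) (hopfStep_face_card s hs j)).2.2.2.2
    obtain ⟨g, h1, h2, h3⟩ := fill_step w₀ (s.biUnion S) hSne s hs f1
      (hf1c.mono (fun z hz => hbd z hz.1 hz.2))
      (fun z hz hzs => by
        have h := hf1m z (hbd z hz hzs)
        refine ⟨⟨h.1, h.2.2.trans ?_⟩, h.2.1.trans (Finset.biUnion_subset_biUnion_of_subset_left _ hz.2)⟩
        exact (hbd z hz hzs).2.2)
      (fun j => A (faceF s j))
      (fun j z z' hz' h => by
        have hfcard := hopfStep_face_card s hs j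
        have hj0 : z' (s.orderEmbOfFin hs j) = 0 := by
          rw [h j, Fin.insertNth_apply_same]
        have hzf : z' ∈ Face (faceF s j) := by
          refine ⟨hz'.1, fun u hu => ?_⟩
          rw [hopfStep_face_erase s hs j, Finset.mem_erase]
          refine ⟨?_, hz'.2 hu⟩
          rintro rfl
          have := (Finset.mem_filter.mp hu).2
          exact this hj0
        have h4 := (hAG (faceF s j) (hfc s hsK hs j) hfcard)
        have h5 : G (faceF s j) z' = (A (faceF s j)).toFun z := by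
          refine h4.2.2.2.1 z z' hzf (fun i => ?_)
          rw [hopfStep_face_emb s hs j i, h (j.succAbove i), Fin.insertNth_apply_succAbove]
        rw [← h5]
        by_cases h6 : spt z' = faceF s j
        · have : (spt z').card = m + 2 + 1 := by rw [h6]; exact hfcard
          simp only [hf1, if_pos this]
          rw [h6]
        · have h7 := h4.2.1 z' hzf h6
          have : (spt z').card ≠ m + 2 + 1 := by
            have := Finset.card_lt_card (Finset.ssubset_iff_subset_ne.mpr ⟨hzf.2, h6⟩)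
            omega
          simp only [hf1, if_neg this]
          exact h7.symm)
      (by
        have h0 := hcyc s hsK hs
        have h1 : (theta w₀ (extend simplexBoundary (Finsupp.single (imgList φ s) 1 -
          ∑ j ∈ Finset.range s.card, (-1 : ℤ) ^ j • H (faceF s j))) :
            PiGrp m (Sk W (m + 2)) (base m w₀)) = 0 := by
          rw [h0]
          exact hopfStep_extend_zero _
        have hlen : (imgList φ s).length = m + 4 := by
          unfold imgList
          rw [List.length_map, Finset.length_sort, hs]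
        have h2 : extend simplexBoundary (Finsupp.single (imgList φ s) 1 -
          ∑ j ∈ Finset.range s.card, (-1 : ℤ) ^ j • H (faceF s j)) =
          ∑ j : Fin (m + 4), (-1 : ℤ) ^ (j : ℕ) • (Finsupp.single (imgList φ (faceF s j)) 1 -
          extend simplexBoundary (H (faceF s j))) := by
          rw [hopfStep_extend_sub, hopfStep_extend_single, hopfStep_extend_sum, hs]
          have e1 : simplexBoundary (imgList φ s) = ∑ j ∈ Finset.range (m + 4),
              (-1 : ℤ) ^ j • Finsupp.single (imgList φ (faceF s j)) 1 := by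
            unfold simplexBoundary
            rw [if_neg (by omega), hlen]
            exact Finset.sum_congr rfl (fun j _ => by rw [hopfStep_img_face])
          rw [e1, ← Finset.sum_sub_distrib, Finset.sum_range]
          refine Finset.sum_congr rfl (fun j _ => ?_)
          rw [hopfStep_extend_smul, smul_sub]
        rw [h2] at h1
        unfold theta at h1
        rw [hopfStep_extend_sum] at h1
        rw [← h1]
        refine Finset.sum_congr rfl (fun j _ => ?_)
        rw [hopfStep_extend_smul, hA j]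
        rfl)
    exact ⟨g, fun _ _ => ⟨h1, h2, h3⟩⟩
  choose G2 hG2 using hfill
  set f2 : (U → ℝ) → (W → ℝ) := fun z => if (spt z).card = m + 3 + 1 then G2 (spt z) z
    else f1 z with hf2
  refine ⟨f2, glue_step K hK (m + 3) f1 hf1c G2 (fun s hs hsc => ?_), fun z hz => ?_⟩
  · have h := hG2 s hs hsc
    exact ⟨h.1, h.2.1⟩
  · by_cases h : (spt z).card = m + 3 + 1
    · have e : f2 z = G2 (spt z) z := by simp only [hf2, if_pos h]
      have h2 := (hG2 (spt z) hz.2.1 h).2.2 z ⟨hz.1, Finset.Subset.refl _⟩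
      rw [e]
      refine ⟨h2.1.1, h2.2, ?_⟩
      rw [h, min_eq_right (by omega)]
      exact h2.1.2
    · have e : f2 z = f1 z := by simp only [hf2, if_neg h]
      have hz3 : (spt z).card ≤ m + 2 + 1 := by
        have := hz.2.2
        omega
      rw [e]
      have h2 := hf1m z ⟨hz.1, hz.2.1, hz3⟩
      exact ⟨h2.1, h2.2.1, le_min h2.2.2 (h2.2.2.trans hz3)⟩

end Vale.Agent.P093.T
end

section

/-!
The block lemma: a chain map which vanishes above degree `m + 2` gives a continuous map lowering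
the dimension by one above degree `m + 2`.
-/

open Set

namespace Vale.Agent.P093.T

variable {U W : Type*} [Fintype U] [LinearOrder U] [Fintype W]

/-- number of vertices allowed over a simplex with `k` vertices -/
def allow (m k : ℕ) : ℕ := if k ≤ m + 3 then k else k - 1

open Classical in
theorem block_map {m : ℕ} (K : Set (Finset U))
    (hK : ∀ s ∈ K, ∀ t ⊆ s, t.Nonempty → t ∈ K) (hne : ∀ s ∈ K, s.Nonempty)
    (S : U → Finset W) (hS : ∀ u, (S u).Nonempty)
    (F : Finset U → OChain W) (hF : ChainData K S (m + 3) F) :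
    ∃ ψ : (U → ℝ) → (W → ℝ), ContinuousOn ψ {z | z ∈ stdSimplex ℝ U ∧ spt z ∈ K} ∧
      ∀ z, z ∈ stdSimplex ℝ U → spt z ∈ K → ψ z ∈ stdSimplex ℝ W ∧
        spt (ψ z) ⊆ (spt z).biUnion S ∧ (spt (ψ z)).card ≤ allow m (spt z).card := by
  rcases isEmpty_or_nonempty U with hU | ⟨⟨u₀⟩⟩
  · have hemp : ∀ z : U → ℝ, z ∉ stdSimplex ℝ U := by
      intro z hz
      have h1 := hz.2
      rw [Finset.univ_eq_empty, Finset.sum_empty] at h1
      exact zero_ne_one h1
    refine ⟨fun _ _ => 0, ?_, fun z hz => absurd hz (hemp z)⟩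
    exact continuousOn_const
  · choose φ hφ using hS
    obtain ⟨H, hH1, hH2⟩ := exists_homotopy K hK hne S φ hφ (m + 3) (by omega) F hF
    obtain ⟨ψ, hψ, hψm⟩ := hopf_step (m := m) (φ u₀) K hK φ S hφ H
      (fun s hs hc l hl => ⟨by rw [(hH1 s hs l hl).1, hc], (hH1 s hs l hl).2⟩)
      (fun s hs hc => hH2 s hs hc)
    obtain ⟨ψ', hψ', heq, hm'⟩ := cone_all K hK S (fun u => ⟨φ u, hφ u⟩) (m + 4) (by omega) ψ hψ
      (fun z hz => ⟨(hψm z hz).1, (hψm z hz).2.1,
        ((hψm z hz).2.2.trans (min_le_right _ _)).trans (by omega)⟩)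
    refine ⟨ψ', hψ', fun z hz hzK => ?_⟩
    rcases Nat.lt_or_ge (m + 4) (spt z).card with hlt | hle
    · obtain ⟨h1, h2, h3⟩ := hm' z hz hzK hlt
      refine ⟨h1, h2, h3.trans ?_⟩
      unfold allow
      rw [if_neg (by omega)]
    · have hz' : z ∈ Rlz K (m + 4) := ⟨hz, hzK, hle⟩
      rw [heq z hz']
      obtain ⟨h1, h2, h3⟩ := hψm z hz'
      refine ⟨h1, h2, ?_⟩
      unfold allow
      split_ifs with hc
      · exact h3.trans (min_le_left _ _)
      · exact (h3.trans (min_le_right _ _)).trans (by omega)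

end Vale.Agent.P093.T
end

section

/-!
The threshold trick: a product of maps to simplices with small total support size gives an open
cover of small order refining the product of the stars.

PROOF. Fix a linear order on `W`. For a tuple `w : Fin J → W` let `U_w` be the set of `x` with
`S_j^-(w_j)(x) < S_k(w_k)(x)` for all `j, k`, where `S_j(v)(x) = ∑_{v' ≤ v} y_j(x)(v')` and
`S_j^-(v)(x) = ∑_{v' < v} y_j(x)(v')`. It is open; the tuple of the least elements of the supports
shows that these sets cover `X`; `x ∈ U_w` implies `y_j(x)(w_j) > 0` for all `j`. The numbers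
`max_j S_j^-(w_j)(x)` of the tuples with `x ∈ U_w` are distinct, and they are `0` or one of the at
most `∑_j (card (spt (y_j x)) - 1)` partial sums in `(0,1)`.
-/

open Set

namespace Vale.Agent.P093.T

variable {X : Type*} [TopologicalSpace X] {W : Type*} [Fintype W]

theorem threshold {J : ℕ} (hJ : 0 < J) (y : Fin J → X → (W → ℝ)) (hy : ∀ j, Continuous (y j))
    (hm : ∀ j x, y j x ∈ stdSimplex ℝ W) (E : ℕ)
    (hE : ∀ x, ∑ j, ((spt (y j x)).card - 1) ≤ E)
    (O : Fin J → W → Set X) (hO : ∀ j x, ∀ w ∈ spt (y j x), x ∈ O j w) :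
    ∃ 𝒱 : Set (Set X), IsFinOpenCover 𝒱 ∧ (∀ A ∈ 𝒱, ∃ w : Fin J → W, A ⊆ ⋂ j, O j (w j)) ∧
      ∀ S ⊆ 𝒱, (⋂₀ S).Nonempty → S.encard ≤ E + 1 := by
  classical
  letI : LinearOrder W := LinearOrder.lift' (Fintype.equivFin W) (Fintype.equivFin W).injective
  have hJne : (Finset.univ : Finset (Fin J)).Nonempty := ⟨⟨0, hJ⟩, Finset.mem_univ _⟩
  let Sm : Fin J → W → X → ℝ := fun j v x => ∑ u ∈ Finset.univ.filter (fun u => u < v), y j x u
  let Sp : Fin J → W → X → ℝ := fun j v x => ∑ u ∈ Finset.univ.filter (fun u => u ≤ v), y j x u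
  have hyc : ∀ j u, Continuous fun x => y j x u := fun j u => (continuous_apply u).comp (hy j)
  have hSmc : ∀ j v, Continuous (Sm j v) := fun j v =>
    continuous_finsetSum _ fun u _ => hyc j u
  have hSpc : ∀ j v, Continuous (Sp j v) := fun j v =>
    continuous_finsetSum _ fun u _ => hyc j u
  have hy0 : ∀ j x u, 0 ≤ y j x u := fun j x u => (hm j x).1 u
  have hSp : ∀ j v x, Sp j v x = Sm j v x + y j x v := by
    intro j v x
    have h1 : Finset.univ.filter (fun u => u ≤ v) = insert v (Finset.univ.filter (fun u => u < v)) := by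
      ext u
      simp only [Finset.mem_filter, Finset.mem_univ, true_and, Finset.mem_insert]
      exact le_iff_eq_or_lt
    show ∑ u ∈ Finset.univ.filter (fun u => u ≤ v), y j x u = _
    rw [h1, Finset.sum_insert (by simp), add_comm]
  have hmono : ∀ j v v' x, v < v' → Sp j v x ≤ Sm j v' x := by
    intro j v v' x h
    refine Finset.sum_le_sum_of_subset_of_nonneg ?_ fun u _ _ => hy0 j x u
    intro u hu
    simp only [Finset.mem_filter, Finset.mem_univ, true_and] at hu ⊢
    exact lt_of_le_of_lt hu h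
  have hnn : ∀ j v x, 0 ≤ Sm j v x := fun j v x => Finset.sum_nonneg fun u _ => hy0 j x u
  have hspt : ∀ j x, (spt (y j x)).Nonempty := by
    intro j x
    by_contra h
    rw [Finset.not_nonempty_iff_eq_empty] at h
    have h1 : ∑ u, y j x u = 0 := by
      apply Finset.sum_eq_zero
      intro u _
      by_contra h2
      have : u ∈ spt (y j x) := Finset.mem_filter.2 ⟨Finset.mem_univ _, h2⟩
      rw [h] at this
      exact absurd this (Finset.notMem_empty u)
    rw [(hm j x).2] at h1
    exact one_ne_zero h1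
  have hmin : ∀ j x, Sm j ((spt (y j x)).min' (hspt j x)) x = 0 := by
    intro j x
    apply Finset.sum_eq_zero
    intro u hu
    by_contra h2
    have h3 : u ∈ spt (y j x) := Finset.mem_filter.2 ⟨Finset.mem_univ _, h2⟩
    have h4 := Finset.min'_le _ u h3
    simp only [Finset.mem_filter, Finset.mem_univ, true_and] at hu
    exact absurd hu (not_lt.2 h4)
  let U : (Fin J → W) → Set X := fun w => {x | ∀ j k, Sm j (w j) x < Sp k (w k) x}
  have hUspt : ∀ w x, x ∈ U w → ∀ j, w j ∈ spt (y j x) := by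
    intro w x hx j
    have h1 := hx j j
    rw [hSp] at h1
    refine Finset.mem_filter.2 ⟨Finset.mem_univ _, ?_⟩
    intro h0
    rw [h0, add_zero] at h1
    exact lt_irrefl _ h1
  refine ⟨Set.range U, ?_, ?_, ?_⟩
  · refine ⟨Set.finite_range U, ?_, ?_⟩
    · rintro A ⟨w, rfl⟩
      have : U w = ⋂ j, ⋂ k, {x | Sm j (w j) x < Sp k (w k) x} := by
        ext x
        simp [U]
      rw [this]
      exact isOpen_iInter_of_finite fun j => isOpen_iInter_of_finite fun k =>
        isOpen_lt (hSmc _ _) (hSpc _ _)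
    · rw [Set.eq_univ_iff_forall]
      intro x
      refine ⟨U fun j => (spt (y j x)).min' (hspt j x), ⟨_, rfl⟩, ?_⟩
      intro j k
      rw [hSp, hmin j x, hmin k x, zero_add]
      have h1 := (Finset.mem_filter.1 (Finset.min'_mem _ (hspt k x))).2
      exact lt_of_le_of_ne (hy0 k x _) (Ne.symm h1)
  · rintro A ⟨w, rfl⟩
    refine ⟨w, fun x hx => ?_⟩
    rw [Set.mem_iInter]
    exact fun j => hO j x _ (hUspt w x hx j)
  · intro S hS hne
    obtain ⟨x, hx⟩ := hne
    -- the tuples containing `x`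
    let T : Finset (Fin J → W) := Finset.univ.filter fun w => x ∈ U w
    let a : (Fin J → W) → ℝ := fun w => Finset.univ.sup' hJne fun j => Sm j (w j) x
    let P : Fin J → Finset ℝ := fun j => (spt (y j x)).image fun v => Sm j v x
    let Q : Finset ℝ := insert 0 (Finset.univ.biUnion fun j => (P j).erase 0)
    have hQ : Q.card ≤ E + 1 := by
      refine (Finset.card_insert_le _ _).trans ?_
      gcongr
      refine Finset.card_biUnion_le.trans ((Finset.sum_le_sum fun j _ => ?_).trans (hE x))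
      have h0 : (0 : ℝ) ∈ P j :=
        Finset.mem_image.2 ⟨_, Finset.min'_mem _ (hspt j x), hmin j x⟩
      rw [Finset.card_erase_of_mem h0]
      exact Nat.sub_le_sub_right Finset.card_image_le 1
    have haQ : ∀ w ∈ T, a w ∈ Q := by
      intro w hw
      have hw' : x ∈ U w := (Finset.mem_filter.1 hw).2
      obtain ⟨j, -, hj⟩ := Finset.exists_mem_eq_sup' hJne fun j => Sm j (w j) x
      show Finset.univ.sup' hJne (fun j => Sm j (w j) x) ∈ Q
      rw [hj]
      rcases eq_or_ne (Sm j (w j) x) 0 with h0 | h0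
      · rw [h0]
        exact Finset.mem_insert_self _ _
      · refine Finset.mem_insert_of_mem (Finset.mem_biUnion.2 ⟨j, Finset.mem_univ _, ?_⟩)
        exact Finset.mem_erase.2 ⟨h0, Finset.mem_image.2 ⟨w j, hUspt w x hw' j, rfl⟩⟩
    have hlt : ∀ w ∈ T, ∀ j, Sm j (w j) x ≤ a w ∧ a w < Sp j (w j) x := by
      intro w hw j
      have hw' : x ∈ U w := (Finset.mem_filter.1 hw).2
      refine ⟨Finset.le_sup' (fun j => Sm j (w j) x) (Finset.mem_univ j), ?_⟩
      exact (Finset.sup'_lt_iff hJne).2 fun i _ => hw' i j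
    have hinj : Set.InjOn a (T : Set (Fin J → W)) := by
      intro w hw w' hw' h
      funext j
      obtain ⟨h1, h2⟩ := hlt w hw j
      obtain ⟨h3, h4⟩ := hlt w' hw' j
      rcases lt_trichotomy (w j) (w' j) with h5 | h5 | h5
      · have := hmono j _ _ x h5
        linarith
      · exact h5
      · have := hmono j _ _ x h5
        linarith
    have hT : T.card ≤ Q.card := Finset.card_le_card_of_injOn a haQ hinj
    have hST : S ⊆ U '' (T : Set (Fin J → W)) := by
      intro A hA
      obtain ⟨w, rfl⟩ := hS hA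
      refine ⟨w, ?_, rfl⟩
      exact Finset.mem_coe.2 (Finset.mem_filter.2 ⟨Finset.mem_univ _, hx _ hA⟩)
    calc S.encard ≤ (U '' (T : Set (Fin J → W))).encard := Set.encard_le_encard hST
      _ ≤ (T : Set (Fin J → W)).encard := Set.encard_image_le _ _
      _ = (T.card : ℕ∞) := Set.encard_coe_eq_coe_finsetCard T
      _ ≤ ((E + 1 : ℕ) : ℕ∞) := by exact_mod_cast hT.trans hQ
      _ = E + 1 := by push_cast; rfl

end Vale.Agent.P093.T
end

section

/-!
From a homological order bound of a cover `𝒲` to chain data on the nerve of a fine cover.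
-/

open Set

namespace Vale.Agent.P093.T

/-- the nerve of a finite family of sets -/
def nerve {X ι : Type*} (V : ι → Set X) : Set (Finset ι) :=
  {s | s.Nonempty ∧ (⋂ i ∈ s, V i).Nonempty}

namespace Sample

/-- push-forward of ordered chains under a map of vertices -/
private noncomputable def push {A B : Type*} (f : A → B) : OChain A →+ OChain B :=
  Finsupp.mapDomain.addMonoidHom (List.map f)

private lemma push_apply {A B : Type*} (f : A → B) (c : OChain A) :
    push f c = c.mapDomain (List.map f) := rfl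

private lemma push_single {A B : Type*} (f : A → B) (s : List A) (n : ℤ) :
    push f (Finsupp.single s n) = Finsupp.single (s.map f) n := by
  rw [push_apply, Finsupp.mapDomain_single]

/-- `extend F` as an additive map -/
private noncomputable def exHom {V M : Type*} [AddCommGroup M] (F : List V → M) : OChain V →+ M where
  toFun := extend F
  map_zero' := by simp [extend]
  map_add' a b := by
    unfold extend
    exact Finsupp.sum_add_index' (fun _ => zero_smul _ _) (fun _ _ _ => add_smul _ _ _)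

private lemma exHom_apply {V M : Type*} [AddCommGroup M] (F : List V → M) (c : OChain V) :
    exHom F c = extend F c := rfl

private lemma extend_single {V M : Type*} [AddCommGroup M] (F : List V → M) (s : List V) (n : ℤ) :
    extend F (Finsupp.single s n) = n • F s := by
  unfold extend
  exact Finsupp.sum_single_index (h := fun s (n : ℤ) => n • F s) (zero_smul ℤ (F s))

private lemma extend_push {A B M : Type*} [AddCommGroup M] (f : A → B) (F : List B → M) (c : OChain A) :
    extend F (push f c) = extend (fun s => F (s.map f)) c := by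
  unfold extend
  rw [push_apply]
  exact Finsupp.sum_mapDomain_index (h := fun s (n : ℤ) => n • F s) (fun _ => zero_smul _ _)
    (fun _ _ _ => add_smul _ _ _)

private lemma push_extend {V A B : Type*} (f : A → B) (F : List V → OChain A) (c : OChain V) :
    push f (extend F c) = extend (fun s => push f (F s)) c := by
  unfold extend
  rw [map_finsuppSum]
  refine Finsupp.sum_congr fun s _ => ?_
  rw [map_zsmul]

private lemma boundary_map {A B : Type*} (f : A → B) (s : List A) :
    simplexBoundary (s.map f) = push f (simplexBoundary s) := by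
  unfold simplexBoundary
  rw [List.length_map]
  split_ifs with h
  · rw [map_zero]
  · rw [map_sum]
    refine Finset.sum_congr rfl fun i _ => ?_
    rw [map_zsmul, push_single, List.eraseIdx_map]

private lemma boundary_push {A B : Type*} (f : A → B) (c : OChain A) :
    extend simplexBoundary (push f c) = push f (extend simplexBoundary c) := by
  rw [extend_push, push_extend]
  simp only [boundary_map]

private lemma extend_boundary {V M : Type*} [AddCommGroup M] (F : List V → M) (x : List V)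
    (hx : 2 ≤ x.length) :
    extend F (simplexBoundary x) = ∑ i ∈ Finset.range x.length, (-1 : ℤ) ^ i • F (x.eraseIdx i) := by
  rw [simplexBoundary, if_neg (by omega), ← exHom_apply, map_sum]
  refine Finset.sum_congr rfl fun i _ => ?_
  rw [map_zsmul, exHom_apply, extend_single, one_smul]

private lemma sort_face {U : Type*} [LinearOrder U] (s : Finset U) (j : ℕ) :
    (faceF s j).sort (· ≤ ·) = (s.sort (· ≤ ·)).eraseIdx j := by
  unfold faceF
  have hsub : ((s.sort (· ≤ ·)).eraseIdx j).Sublist (s.sort (· ≤ ·)) := List.eraseIdx_sublist _ _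
  have hn : ((s.sort (· ≤ ·)).eraseIdx j).Nodup := hsub.nodup (s.sort_nodup _)
  have hs := (s.pairwise_sort (· ≤ ·)).sublist hsub
  exact (List.toFinset_sort (· ≤ ·) hn).2 hs

end Sample

open Sample in
/-- `𝒲` has homological order `≤ m + 2`; `e A` is an open set containing the closure of `A` for
`A ∈ 𝒲`. Then there are a finite open cover `V` of `X`, indexed by `Fin r`, a finite index set of
members of `𝒲` (`name`) and chain data on the nerve of `V` with carriers `S i`, such that
`V i ⊆ e (name w)` for `w ∈ S i`. (Lebesgue number: choose the `V i` so small that `V i ∩ A ≠ ∅`,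
`A ∈ 𝒲`, implies `V i ⊆ e A`, and that the union of any members with a common point lies in a member
of the cover `𝒢` of the chain map; choose `x i ∈ V i`, `V i ≠ ∅`, `S i = {A ∈ 𝒲 | x i ∈ A}`,
`F s = Φ (the list of the x i, i ∈ s)`.) The space is compact Hausdorff (uniform structure, or
finite combinations of covers); metrizable may be assumed. -/
theorem exists_sample {X : Type*} [TopologicalSpace X] [CompactSpace X]
    [TopologicalSpace.MetrizableSpace X] (𝒲 : Set (Set X)) (h𝒲 : IsFinOpenCover 𝒲)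
    (e : Set X → Set X) (he : ∀ A ∈ 𝒲, IsOpen (e A) ∧ closure A ⊆ e A) (m : ℕ)
    (hd : HomOrderLE 𝒲 (m + 2)) :
    ∃ (r : ℕ) (V : Fin r → Set X) (q : ℕ) (name : Fin q → Set X) (S : Fin r → Finset (Fin q))
      (F : Finset (Fin r) → OChain (Fin q)),
      (∀ i, IsOpen (V i)) ∧ (⋃ i, V i) = univ ∧ (∀ w, name w ∈ 𝒲) ∧ (∀ i, (S i).Nonempty) ∧
      (∀ i, ∀ w ∈ S i, V i ⊆ e (name w)) ∧ ChainData (nerve V) S (m + 3) F := by
  classical
  let _ : MetricSpace X := TopologicalSpace.metrizableSpaceMetric X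
  obtain ⟨hfin, hop, hcov⟩ := h𝒲
  obtain ⟨𝒢, Φ, ⟨-, h𝒢o, h𝒢c⟩, hΦ⟩ := hd
  -- enumeration of the members of `𝒲`
  obtain ⟨q, name, hname, hidx⟩ : ∃ (q : ℕ) (name : Fin q → Set X), (∀ w, name w ∈ 𝒲) ∧
      ∀ A ∈ 𝒲, ∃ w, name w = A := by
    have _ : Fintype 𝒲 := hfin.fintype
    refine ⟨Fintype.card 𝒲, fun w => ((Fintype.equivFin 𝒲).symm w : Set X), fun w => Subtype.coe_prop _,
      fun A hA => ⟨Fintype.equivFin 𝒲 ⟨A, hA⟩, ?_⟩⟩
    simp
  -- first radius
  obtain ⟨δ₁, hδ₁, hδ₁'⟩ : ∃ δ : ℝ, 0 < δ ∧ ∀ A ∈ 𝒲, ∀ x ∈ A, Metric.ball x δ ⊆ e A := by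
    have h1 : ∀ A : Set X, ∃ δ : ℝ, 0 < δ ∧ (A ∈ 𝒲 → ∀ x ∈ A, Metric.ball x δ ⊆ e A) := by
      intro A
      by_cases hA : A ∈ 𝒲
      · obtain ⟨δ, hδ, h⟩ := isClosed_closure.isCompact.exists_thickening_subset_open (he A hA).1 (he A hA).2
        refine ⟨δ, hδ, fun _ x hx => (Metric.ball_subset_thickening (subset_closure hx) δ).trans h⟩
      · exact ⟨1, one_pos, fun h => absurd h hA⟩
    choose δ hδ h using h1
    by_cases hne : 𝒲.Nonempty
    · obtain ⟨A₀, hA₀, hmin⟩ := hfin.exists_minimalFor δ 𝒲 hne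
      refine ⟨δ A₀, hδ _, fun A hA x hx => ?_⟩
      refine (Metric.ball_subset_ball ?_).trans (h A hA x hx)
      by_contra hlt
      exact hlt ((hmin hA (le_of_not_ge hlt)))
    · rw [Set.not_nonempty_iff_eq_empty] at hne
      exact ⟨1, one_pos, fun A hA => by simp [hne] at hA⟩
  -- second radius
  obtain ⟨δ₂, hδ₂, hδ₂'⟩ := lebesgue_number_lemma_of_metric_sUnion (s := (univ : Set X)) isCompact_univ
    h𝒢o h𝒢c.ge
  set δ := min δ₁ δ₂ with hδdef
  have hδ : 0 < δ := lt_min hδ₁ hδ₂
  -- the cover by balls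
  obtain ⟨t, -, htf, htc⟩ := (isCompact_univ (X := X)).finite_cover_balls hδ
  obtain ⟨r, x, hx⟩ : ∃ (r : ℕ) (x : Fin r → X), (⋃ i, Metric.ball (x i) δ) = univ := by
    have _ : Fintype t := htf.fintype
    refine ⟨Fintype.card t, fun i => ((Fintype.equivFin t).symm i : X), ?_⟩
    rw [eq_univ_iff_forall]
    intro y
    have := htc (mem_univ y)
    simp only [mem_iUnion] at this
    obtain ⟨z, hz, hyz⟩ := this
    refine mem_iUnion.2 ⟨Fintype.equivFin t ⟨z, hz⟩, ?_⟩
    simpa using hyz
  -- index function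
  by_cases hX : IsEmpty X
  · refine ⟨0, fun i => i.elim0, q, name, fun i => i.elim0, fun _ => 0, fun i => i.elim0, ?_, hname,
      fun i => i.elim0, fun i => i.elim0, ?_⟩
    · exact Subsingleton.elim _ _
    · refine ⟨?_, ?_, ?_, ?_⟩ <;>
      · rintro s ⟨⟨i, -⟩, -⟩
        exact i.elim0
  rw [not_isEmpty_iff] at hX
  obtain ⟨x₀⟩ := hX
  have hmem : ∀ z : X, ∃ A ∈ 𝒲, z ∈ A := fun z => by
    have : z ∈ ⋃₀ 𝒲 := by rw [hcov]; exact mem_univ z
    exact this
  obtain ⟨A₁, hA₁, -⟩ := hmem x₀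
  obtain ⟨w₁, -⟩ := hidx A₁ hA₁
  obtain ⟨idx, hidx'⟩ : ∃ idx : Set X → Fin q, ∀ A ∈ 𝒲, name (idx A) = A := by
    refine ⟨fun A => if h : A ∈ 𝒲 then (hidx A h).choose else w₁, fun A hA => ?_⟩
    simp only [dif_pos hA]
    exact (hidx A hA).choose_spec
  -- smallness of the sample lists
  have hsmall : ∀ s ∈ nerve (fun i => Metric.ball (x i) δ), imgList x s ≠ [] ∧
      ∃ G ∈ 𝒢, ∀ y ∈ imgList x s, y ∈ G := by
    rintro s ⟨⟨i, hi⟩, ⟨z, hz⟩⟩
    constructor
    · intro h0
      have : (imgList x s).length = s.card := by simp [imgList]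
      rw [h0, List.length_nil] at this
      exact (Finset.card_pos.2 ⟨i, hi⟩).ne this
    · obtain ⟨G, hG, hzG⟩ := hδ₂' z (mem_univ z)
      refine ⟨G, hG, fun y hy => hzG ?_⟩
      simp only [imgList, List.mem_map, Finset.mem_sort] at hy
      obtain ⟨j, hj, rfl⟩ := hy
      simp only [mem_iInter] at hz
      have := hz j hj
      rw [Metric.mem_ball] at this ⊢
      rw [dist_comm]
      exact this.trans_le (min_le_right _ _)
  have hlen : ∀ s : Finset (Fin r), (imgList x s).length = s.card := fun s => by simp [imgList]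
  refine ⟨r, fun i => Metric.ball (x i) δ, q, name, fun i => Finset.univ.filter fun w => x i ∈ name w,
    fun s => push idx (Φ (imgList x s)), fun i => Metric.isOpen_ball, hx, hname, ?_, ?_, ?_⟩
  · intro i
    obtain ⟨A, hA, hxA⟩ := hmem (x i)
    refine ⟨idx A, ?_⟩
    simp only [Finset.mem_filter, Finset.mem_univ, true_and]
    rw [hidx' A hA]
    exact hxA
  · intro i w hw
    simp only [Finset.mem_filter, Finset.mem_univ, true_and] at hw
    exact (Metric.ball_subset_ball (min_le_left _ _)).trans (hδ₁' _ (hname w) _ hw)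
  · refine ⟨?_, ?_, ?_, ?_⟩
    · intro s hs l hl
      obtain ⟨hne, hG⟩ := hsmall s hs
      have hsup := (hΦ _ hne hG).1
      have hl' := Finsupp.mapDomain_support hl
      rw [Finset.mem_image] at hl'
      obtain ⟨l', hl', rfl⟩ := hl'
      obtain ⟨h1, h2⟩ := hsup l' hl'
      refine ⟨by rw [List.length_map, h1, hlen], fun w hw => ?_⟩
      rw [List.mem_map] at hw
      obtain ⟨W, hW, rfl⟩ := hw
      obtain ⟨hW1, hW2⟩ := h2 W hW
      obtain ⟨⟨i, hi⟩, -⟩ := hs
      simp only [Finset.mem_biUnion, Finset.mem_filter, Finset.mem_univ, true_and]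
      refine ⟨i, hi, ?_⟩
      rw [hidx' W hW1]
      refine hW2 (x i) ?_
      simp only [imgList, List.mem_map, Finset.mem_sort]
      exact ⟨i, hi, rfl⟩
    · intro s hs hc
      obtain ⟨hne, hG⟩ := hsmall s hs
      have hb := (hΦ _ hne hG).2.1
      rw [boundary_push, hb, extend_boundary Φ _ (by rw [hlen]; exact hc), map_sum, hlen]
      refine Finset.sum_congr rfl fun j _ => ?_
      rw [map_zsmul]
      congr 3
      unfold imgList
      rw [sort_face, List.eraseIdx_map]
    · intro s hs hc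
      obtain ⟨hne, hG⟩ := hsmall s hs
      have ha := (hΦ _ hne hG).2.2.1 (by rw [hlen]; exact hc)
      rw [push_apply, Finsupp.sum_mapDomain_index (fun _ => rfl) (fun _ _ _ => rfl)]
      exact ha
    · intro s hs hc
      obtain ⟨hne, hG⟩ := hsmall s hs
      have hv := (hΦ _ hne hG).2.2.2 (by rw [hlen]; omega)
      rw [hv, map_zero]

end Vale.Agent.P093.T
end

section

/-!
Functions version of coloured covers.
-/

open Set

namespace Vale.Agent.P093.T

/-- `k - q` colours are full at every point: functions version of `Colored`. -/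
theorem exists_full_functions {X : Type*} [TopologicalSpace X] [NormalSpace X]
    {W : Set (Set X)} {q k : ℕ} (C : Fin k → Set (Set X)) (hC : Colored W q k C) :
    ∃ ψ : Fin k → X → ℝ, (∀ c, Continuous (ψ c)) ∧ (∀ c x, 0 ≤ ψ c x ∧ ψ c x ≤ 1) ∧
      (∀ c x, 0 < ψ c x → ∃ s ∈ C c, x ∈ s) ∧
      ∀ x, (open Classical in (Finset.univ.filter fun c => ψ c x < 1).card) ≤ q := by
  classical
  have hU : ∀ c, IsOpen (⋃₀ C c) := fun c => isOpen_sUnion fun s hs => hC.op c s hs
  let u : {T : Finset (Fin k) // (Tᶜ).card ≤ q} → Set X := fun T => ⋂ c ∈ T.1, ⋃₀ C c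
  have uo : ∀ T, IsOpen (u T) := fun T => isOpen_biInter_finset fun c _ => hU c
  have uU : (⋃ T, u T) = univ := by
    refine eq_univ_of_forall fun x => mem_iUnion.2
      ⟨⟨Finset.univ.filter fun c => x ∈ ⋃₀ C c, ?_⟩, ?_⟩
    · have h := hC.miss x
      unfold misses at h
      have e : (Finset.univ.filter fun c => x ∈ ⋃₀ C c)ᶜ =
          Finset.univ.filter fun c => ¬ (x ∈ ⋃₀ C c) := by
        ext c; simp
      rw [e, Finset.card_filter]
      refine le_trans (le_of_eq (Finset.sum_congr rfl fun c _ => ?_)) h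
      by_cases hx : x ∈ ⋃₀ C c <;> simp only [hx, not_true_eq_false, not_false_eq_true, if_true,
        if_false]
    · exact mem_iInter₂.2 fun c hc => (Finset.mem_filter.1 hc).2
  obtain ⟨B, hB, hBc, hBu⟩ := exists_iUnion_eq_closed_subset uo (fun x => Set.toFinite _) uU
  let F : Fin k → Set X := fun c => ⋃ T, ⋃ _ : c ∈ T.1, B T
  have hF : ∀ c, IsClosed (F c) := fun c =>
    isClosed_iUnion_of_finite fun T => isClosed_iUnion_of_finite fun _ => hBc T
  have hFU : ∀ c, F c ⊆ ⋃₀ C c := by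
    intro c x hx
    obtain ⟨T, hT⟩ := mem_iUnion.1 hx
    obtain ⟨hc, hT⟩ := mem_iUnion.1 hT
    exact mem_iInter₂.1 (hBu T hT) c hc
  have key : ∀ c, ∃ f : C(X, ℝ), EqOn f 0 (⋃₀ C c)ᶜ ∧ EqOn f 1 (F c) ∧ ∀ x, f x ∈ Icc (0:ℝ) 1 :=
    fun c => exists_continuous_zero_one_of_isClosed (hU c).isClosed_compl (hF c)
      (disjoint_left.2 fun x hx hx' => hx (hFU c hx'))
  choose f hf0 hf1 hf using key
  refine ⟨fun c => f c, fun c => (f c).continuous, fun c x => hf c x, fun c x hx => ?_,
    fun x => ?_⟩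
  · by_contra hcon
    have : x ∈ (⋃₀ C c)ᶜ := fun h => hcon h
    have h0 := hf0 c this
    simp only [Pi.zero_apply] at h0
    exact (ne_of_gt hx) h0
  · obtain ⟨T, hT⟩ := mem_iUnion.1 (hB.symm ▸ mem_univ x : x ∈ ⋃ T, B T)
    refine le_trans (Finset.card_le_card ?_) T.2
    intro c hc
    have h1 := (Finset.mem_filter.1 hc).2
    rw [Finset.mem_compl]
    intro hcT
    have h2 := hf1 c (mem_iUnion.2 ⟨T, mem_iUnion.2 ⟨hcT, hT⟩⟩ : x ∈ F c)
    simp only [Pi.one_apply] at h2
    exact (ne_of_lt h1) h2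

end Vale.Agent.P093.T
end

section

/-!
Coloured covers give maps to the nerves of the covers `h^{-jM} V` with few vertices in total.
-/

open Set

namespace Vale.Agent.P093.T

/-- The part of a continuous function carried by one of two disjoint open sets is continuous. -/
theorem bm969_cont {X : Type*} [TopologicalSpace X] {f : X → ℝ} (hf : Continuous f)
    {U U' : Set X} (hU : IsOpen U) (hU' : IsOpen U') (hd : ∀ x, x ∈ U → x ∉ U')
    (h : ∀ x, f x ≠ 0 → x ∈ U ∨ x ∈ U') : Continuous (U.indicator f) := by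
  refine continuous_indicator (fun a ha => ?_) hf.continuousOn
  by_contra h0
  rw [hU.frontier_eq] at ha
  rcases h a h0 with h1 | h1
  · exact ha.2 h1
  · obtain ⟨y, hy', hy⟩ := mem_closure_iff.1 ha.1 U' hU' h1
    exact hd y hy hy'

/-- Finite open refinement of the join of small order. -/
theorem bm969_refine {X : Type*} [TopologicalSpace X] [Nonempty X] (h : X ≃ₜ X) {r : ℕ}
    (V : Fin r → Set X) (hV : ∀ i, IsOpen (V i)) (hcov : (⋃ i, V i) = univ) {N D : ℕ}
    (hdim : coverDim (iterCover h (Set.range V) N) ≤ D) :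
    ∃ 𝒱 : Set (Set X), IsFinCover 𝒱 ∧ Refines 𝒱 (iterCover h (Set.range V) N) ∧
      ∀ x : X, ∀ S : Finset (Set X), ↑S ⊆ 𝒱 → (∀ s ∈ S, x ∈ s) → S.card ≤ D + 1 := by
  have hR : IsFinCover (Set.range V) := by
    refine ⟨Set.finite_range V, ?_, ?_⟩
    · rintro _ ⟨i, rfl⟩
      exact hV i
    · rw [Set.sUnion_range]
      exact hcov
  have hne : (Set.range V).Nonempty := by
    obtain ⟨x⟩ := (inferInstance : Nonempty X)
    have hx : x ∈ ⋃ i, V i := by rw [hcov]; trivial
    obtain ⟨i, -⟩ := Set.mem_iUnion.1 hx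
    exact ⟨V i, i, rfl⟩
  have hF : IsFinCover (iterCover h (Set.range V) N) := by
    rw [iterCover_eq_coverJoin h hne]
    exact isFinCover_coverJoin h hR N
  have hset : {d : ℕ | ∃ 𝒱 : Set (Set X), IsFinOpenCover 𝒱 ∧
      (∀ W ∈ 𝒱, ∃ U ∈ iterCover h (Set.range V) N, W ⊆ U) ∧
      ∀ S ⊆ 𝒱, (⋂₀ S).Nonempty → S.encard ≤ d + 1}.Nonempty := by
    refine ⟨hF.1.toFinset.card, _, hF, fun u hu => ⟨u, hu, le_rfl⟩, fun S hS _ => ?_⟩
    have h1 : S.encard ≤ (iterCover h (Set.range V) N).encard := Set.encard_le_encard hS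
    rw [hF.1.encard_eq_coe_toFinset_card] at h1
    exact h1.trans (by exact_mod_cast Nat.le_succ _)
  obtain ⟨𝒱, h1, h2, h3⟩ := Nat.sInf_mem hset
  refine ⟨𝒱, h1, h2, fun x S hS hx => ?_⟩
  have h4 := h3 S hS ⟨x, fun s hs => hx s hs⟩
  rw [Set.encard_coe_eq_coe_finsetCard] at h4
  have h5 : S.card ≤ coverDim (iterCover h (Set.range V) N) + 1 := by exact_mod_cast h4
  omega

/-- `K₀` colours for each of the `J` blocks of length `M`. For the block `j` use the weights
`ω_c = ψ_c ∏_{c' < c} (1 - ψ_{c'})` of its colours `c < K₀`, put the weight `ω_c x` on the member of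
`V` (moved by `h^{jM}`) containing the piece of colour `c` at `x`, and the remaining weight
`∏_c (1 - ψ_c)` on the partition of unity subordinate to `V` at `h^{jM} x`. `mm j` is the number of
colours of the block `j` with `ψ_c x < 1`. -/
theorem exists_block_maps {X : Type*} [TopologicalSpace X] [CompactSpace X] [T2Space X]
    (h : X ≃ₜ X) {r : ℕ} (V : Fin r → Set X) (hV : ∀ i, IsOpen (V i)) (hcov : (⋃ i, V i) = univ)
    (M J K₀ D : ℕ) (hM : 0 < M) (hJ : 0 < J) (hD : D < J * K₀)
    (hdim : coverDim (iterCover h (Set.range V) (J * M)) ≤ D) :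
    ∃ g : Fin J → X → (Fin r → ℝ), (∀ j, Continuous (g j)) ∧
      ∀ x, ∃ mm : Fin J → ℕ, (∀ j, mm j ≤ K₀) ∧ ∑ j, mm j ≤ D ∧
        ∀ j : Fin J, g j x ∈ stdSimplex ℝ (Fin r) ∧
          (∀ i ∈ spt (g j x), (h ^ ((j : ℕ) * M)) x ∈ V i) ∧
          (mm j < K₀ → (spt (g j x)).card ≤ mm j + 1) := by
  classical
  rcases isEmpty_or_nonempty X with hX | hX
  · exact ⟨fun _ _ => 0, fun _ => continuous_const, fun x => isEmptyElim x⟩
  obtain ⟨𝒱, hV1, hV2, hV3⟩ := bm969_refine h V hV hcov hdim
  obtain ⟨C, hC⟩ := exists_colored hV1 hV2 hV3 (J * K₀)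
  obtain ⟨ψ, hψc, hψ01, hψs, hψq⟩ := exists_full_functions C hC
  -- labels
  have lab : ∀ (j : Fin J) (c : Fin (J * K₀)) (s : Set X), s ∈ C c →
      ∃ i, ∀ x ∈ s, (h ^ ((j : ℕ) * M)) x ∈ V i := by
    intro j c s hs
    obtain ⟨u, ⟨f, hf, rfl⟩, hsu⟩ := hC.ref c s hs
    obtain ⟨i, hi⟩ := hf ((j : ℕ) * M)
    refine ⟨i, fun x hx => ?_⟩
    have h1 := hsu hx
    rw [Set.mem_iInter₂] at h1
    have h2 := h1 ((j : ℕ) * M) (Finset.mem_range.2 (Nat.mul_lt_mul_of_pos_right j.2 hM))
    rw [hi]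
    exact h2
  choose L hL using lab
  let U : Fin J → Fin (J * K₀) → Fin r → Set X := fun j c i =>
    {x | ∃ s, ∃ hs : s ∈ C c, L j c s hs = i ∧ x ∈ s}
  have hUo : ∀ j c i, IsOpen (U j c i) := by
    intro j c i
    refine isOpen_iff_forall_mem_open.2 ?_
    rintro x ⟨s, hs, hi, hx⟩
    exact ⟨s, fun y hy => ⟨s, hs, hi, hy⟩, hC.op c s hs, hx⟩
  have hUu : ∀ j c i i' x, x ∈ U j c i → x ∈ U j c i' → i = i' := by
    rintro j c i i' x ⟨s, hs, hi, hx⟩ ⟨s', hs', hi', hx'⟩
    have h1 := hC.disj c s hs s' hs' ⟨x, hx, hx'⟩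
    subst h1
    rw [← hi, ← hi']
  have hUe : ∀ j c x, 0 < ψ c x → ∃ i, x ∈ U j c i := by
    intro j c x hx
    obtain ⟨s, hs, hxs⟩ := hψs c x hx
    exact ⟨L j c s hs, s, hs, rfl, hxs⟩
  have hUV : ∀ j c i x, x ∈ U j c i → (h ^ ((j : ℕ) * M)) x ∈ V i := by
    rintro j c i x ⟨s, hs, hi, hx⟩
    rw [← hi]
    exact hL j c s hs x hx
  -- partition of unity
  obtain ⟨φ, hφ⟩ := PartitionOfUnity.exists_isSubordinate_of_locallyFinite (s := (Set.univ : Set X))
    isClosed_univ V hV (locallyFinite_of_finite _) (by rw [hcov])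
  have hφ1 : ∀ x, ∑ i, φ i x = 1 := by
    intro x
    have := φ.sum_eq_one (x := x) (Set.mem_univ x)
    rwa [finsum_eq_sum_of_fintype] at this
  have hφV : ∀ i x, φ i x ≠ 0 → x ∈ V i := fun i x hx => hφ i (subset_tsupport _ hx)
  -- weights
  let e : Fin J × Fin K₀ ≃ Fin (J * K₀) := finProdFinEquiv
  let ω : Fin J → Fin K₀ → X → ℝ := fun j c x =>
    ψ (e (j, c)) x * ∏ c' ∈ Finset.univ.filter (· < c), (1 - ψ (e (j, c')) x)
  have hωc : ∀ j c, Continuous (ω j c) := fun j c => (hψc _).mul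
    (continuous_finsetProd _ fun c' _ => continuous_const.sub (hψc _))
  have hω0 : ∀ j c x, 0 ≤ ω j c x := fun j c x => mul_nonneg (hψ01 _ x).1
    (Finset.prod_nonneg fun c' _ => sub_nonneg.2 (hψ01 _ x).2)
  have hωψ : ∀ j c x, ω j c x ≠ 0 → 0 < ψ (e (j, c)) x := by
    intro j c x hx
    refine lt_of_le_of_ne (hψ01 _ x).1 fun h0 => hx ?_
    show ψ (e (j, c)) x * _ = 0
    rw [← h0, zero_mul]
  have hind : ∀ j c i, Continuous ((U j (e (j, c)) i).indicator (ω j c)) := by
    intro j c i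
    refine bm969_cont (hωc j c) (hUo _ _ _) (U' := {x | ∃ i', i' ≠ i ∧ x ∈ U j (e (j, c)) i'}) ?_ ?_ ?_
    · refine isOpen_iff_forall_mem_open.2 ?_
      rintro x ⟨i', hi', hx⟩
      exact ⟨U j (e (j, c)) i', fun y hy => ⟨i', hi', hy⟩, hUo _ _ _, hx⟩
    · rintro x hx ⟨i', hi', hx'⟩
      exact hi' (hUu _ _ _ _ x hx' hx)
    · intro x hx
      obtain ⟨i', hi'⟩ := hUe j (e (j, c)) x (hωψ j c x hx)
      by_cases hii : i' = i
      · left; rw [← hii]; exact hi'
      · right; exact ⟨i', hii, hi'⟩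
  have hsum1 : ∀ j c x, ∑ i, (U j (e (j, c)) i).indicator (ω j c) x = ω j c x := by
    intro j c x
    by_cases hx : ω j c x = 0
    · rw [hx]
      refine Finset.sum_eq_zero fun i _ => ?_
      rw [Set.indicator_apply, hx, ite_self]
    · obtain ⟨i, hi⟩ := hUe j (e (j, c)) x (hωψ j c x hx)
      rw [Finset.sum_eq_single i, Set.indicator_of_mem hi]
      · intro i' _ hi'
        exact Set.indicator_of_notMem (fun h1 => hi' (hUu _ _ _ _ x h1 hi)) _
      · intro h1
        exact absurd (Finset.mem_univ i) h1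
  have htel : ∀ j x, ∑ c, ω j c x + ∏ c, (1 - ψ (e (j, c)) x) = 1 := by
    intro j x
    have h1 := Finset.prod_one_sub_ordered (Finset.univ : Finset (Fin K₀)) fun c => ψ (e (j, c)) x
    rw [h1]
    show ∑ c, ψ (e (j, c)) x * ∏ c' ∈ Finset.univ.filter (· < c), (1 - ψ (e (j, c')) x) + _ = 1
    ring
  refine ⟨fun j x i => ∑ c, (U j (e (j, c)) i).indicator (ω j c) x +
    (∏ c, (1 - ψ (e (j, c)) x)) * φ i ((h ^ ((j : ℕ) * M)) x), ?_, ?_⟩
  · intro j
    refine continuous_pi fun i => (continuous_finsetSum _ fun c _ => hind j c i).add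
      ((continuous_finsetProd _ fun c _ => continuous_const.sub (hψc _)).mul
        ((φ i).continuous.comp (h ^ ((j : ℕ) * M)).continuous))
  · intro x
    refine ⟨fun j => (Finset.univ.filter fun c : Fin K₀ => ψ (e (j, c)) x < 1).card, ?_, ?_, ?_⟩
    · intro j
      exact (Finset.card_le_univ _).trans (by simp)
    · have h1 : ∑ j, (Finset.univ.filter fun c : Fin K₀ => ψ (e (j, c)) x < 1).card =
          (Finset.univ.filter fun c => ψ c x < 1).card := by
        simp only [Finset.card_filter]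
        rw [← Fintype.sum_prod_type' (f := fun j c => if ψ (e (j, c)) x < 1 then 1 else 0)]
        exact Fintype.sum_equiv e _ _ fun p => rfl
      show ∑ j, (Finset.univ.filter fun c : Fin K₀ => ψ (e (j, c)) x < 1).card ≤ D
      rw [h1]
      exact hψq x
    · intro j
      have hnz : ∀ i, i ∈ spt (fun i => ∑ c, (U j (e (j, c)) i).indicator (ω j c) x +
          (∏ c, (1 - ψ (e (j, c)) x)) * φ i ((h ^ ((j : ℕ) * M)) x)) →
          (∃ c, x ∈ U j (e (j, c)) i ∧ ω j c x ≠ 0) ∨
          (∏ c, (1 - ψ (e (j, c)) x) ≠ 0 ∧ φ i ((h ^ ((j : ℕ) * M)) x) ≠ 0) := by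
        intro i hi
        have h1 := (Finset.mem_filter.1 hi).2
        by_contra hcon
        push Not at hcon
        obtain ⟨ha, hb⟩ := hcon
        apply h1
        show ∑ c, (U j (e (j, c)) i).indicator (ω j c) x +
          (∏ c, (1 - ψ (e (j, c)) x)) * φ i ((h ^ ((j : ℕ) * M)) x) = 0
        have h2 : ∑ c, (U j (e (j, c)) i).indicator (ω j c) x = 0 := by
          refine Finset.sum_eq_zero fun c _ => ?_
          by_cases hc : x ∈ U j (e (j, c)) i
          · rw [Set.indicator_of_mem hc]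
            exact ha c hc
          · exact Set.indicator_of_notMem hc _
        rw [h2, zero_add]
        by_cases hp : ∏ c, (1 - ψ (e (j, c)) x) = 0
        · rw [hp, zero_mul]
        · rw [hb hp, mul_zero]
      refine ⟨⟨?_, ?_⟩, ?_, ?_⟩
      · intro i
        exact add_nonneg (Finset.sum_nonneg fun c _ => Set.indicator_nonneg (fun y _ => hω0 j c y) x)
          (mul_nonneg (Finset.prod_nonneg fun c _ => sub_nonneg.2 (hψ01 _ x).2) (φ.nonneg i _))
      · show ∑ i, (∑ c, (U j (e (j, c)) i).indicator (ω j c) x +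
          (∏ c, (1 - ψ (e (j, c)) x)) * φ i ((h ^ ((j : ℕ) * M)) x)) = 1
        rw [Finset.sum_add_distrib, Finset.sum_comm, ← Finset.mul_sum, hφ1, mul_one,
          Finset.sum_congr rfl fun c _ => hsum1 j c x]
        exact htel j x
      · intro i hi
        rcases hnz i hi with ⟨c, hc, -⟩ | ⟨-, h2⟩
        · exact hUV j _ i x hc
        · exact hφV i _ h2
      · intro hmm
        replace hmm : (Finset.univ.filter fun c : Fin K₀ => ψ (e (j, c)) x < 1).card < K₀ := hmm
        -- some colour is full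
        have hfull : ∃ c : Fin K₀, ψ (e (j, c)) x = 1 := by
          by_contra hcon
          push Not at hcon
          have h1 : (Finset.univ.filter fun c : Fin K₀ => ψ (e (j, c)) x < 1) = Finset.univ :=
            Finset.filter_true_of_mem fun c _ => lt_of_le_of_ne (hψ01 _ x).2 (hcon c)
          have h2 : (Finset.univ.filter fun c : Fin K₀ => ψ (e (j, c)) x < 1).card = K₀ := by
            rw [h1, Finset.card_univ, Fintype.card_fin]
          omega
        obtain ⟨cs, hcs⟩ := hfull
        have hp0 : ∏ c, (1 - ψ (e (j, c)) x) = 0 :=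
          Finset.prod_eq_zero (Finset.mem_univ cs) (by rw [hcs, sub_self])
        have hex : ∀ i, i ∈ spt (fun i => ∑ c, (U j (e (j, c)) i).indicator (ω j c) x +
            (∏ c, (1 - ψ (e (j, c)) x)) * φ i ((h ^ ((j : ℕ) * M)) x)) →
            ∃ c, x ∈ U j (e (j, c)) i ∧ ω j c x ≠ 0 := by
          intro i hi
          rcases hnz i hi with h1 | ⟨h1, -⟩
          · exact h1
          · exact absurd hp0 h1
        -- injection
        have hcard : (spt (fun i => ∑ c, (U j (e (j, c)) i).indicator (ω j c) x +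
            (∏ c, (1 - ψ (e (j, c)) x)) * φ i ((h ^ ((j : ℕ) * M)) x))).card ≤
            (Finset.univ.filter fun c : Fin K₀ => ω j c x ≠ 0).card := by
          refine Finset.card_le_card_of_forall_subsingleton
            (fun i c => x ∈ U j (e (j, c)) i) ?_ ?_
          · intro i hi
            obtain ⟨c, hc1, hc2⟩ := hex i hi
            exact ⟨c, Finset.mem_filter.2 ⟨Finset.mem_univ _, hc2⟩, hc1⟩
          · intro c _ i hi i' hi'
            exact hUu _ _ _ _ x hi.2 hi'.2
        have hone : (Finset.univ.filter fun c : Fin K₀ => ω j c x ≠ 0 ∧ ψ (e (j, c)) x = 1).card ≤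
            1 := by
          refine Finset.card_le_one.2 fun c hc c' hc' => ?_
          have key : ∀ a b : Fin K₀, ω j b x ≠ 0 → ψ (e (j, a)) x = 1 → ¬ a < b := by
            intro a b hb ha hab
            apply hb
            show ψ (e (j, b)) x * ∏ c' ∈ Finset.univ.filter (· < b), (1 - ψ (e (j, c')) x) = 0
            rw [Finset.prod_eq_zero (Finset.mem_filter.2 ⟨Finset.mem_univ a, hab⟩)
              (by rw [ha, sub_self]), mul_zero]
          obtain ⟨-, h1, h2⟩ := Finset.mem_filter.1 hc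
          obtain ⟨-, h3, h4⟩ := Finset.mem_filter.1 hc'
          exact le_antisymm (not_lt.1 (key c' c h1 h4)) (not_lt.1 (key c c' h3 h2))
        have hsub : (Finset.univ.filter fun c : Fin K₀ => ω j c x ≠ 0) ⊆
            (Finset.univ.filter fun c : Fin K₀ => ψ (e (j, c)) x < 1) ∪
            (Finset.univ.filter fun c : Fin K₀ => ω j c x ≠ 0 ∧ ψ (e (j, c)) x = 1) := by
          intro c hc
          have h1 := (Finset.mem_filter.1 hc).2
          rw [Finset.mem_union, Finset.mem_filter, Finset.mem_filter]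
          rcases lt_or_eq_of_le (hψ01 (e (j, c)) x).2 with h2 | h2
          · exact Or.inl ⟨Finset.mem_univ _, h2⟩
          · exact Or.inr ⟨Finset.mem_univ _, h1, h2⟩
        have h1 := Finset.card_le_card hsub
        have h2 := Finset.card_union_le
          (Finset.univ.filter fun c : Fin K₀ => ψ (e (j, c)) x < 1)
          (Finset.univ.filter fun c : Fin K₀ => ω j c x ≠ 0 ∧ ψ (e (j, c)) x = 1)
        refine hcard.trans ?_
        show (Finset.univ.filter fun c : Fin K₀ => ω j c x ≠ 0).card ≤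
          (Finset.univ.filter fun c : Fin K₀ => ψ (e (j, c)) x < 1).card + 1
        omega

end Vale.Agent.P093.T
end

section

/-!
Closed shrinking of a finite open cover; monotonicity of the order of the iterated covers.
-/

open Set Filter
open scoped ENNReal

namespace Vale.Agent.P093.T

/-- closed shrinking of a finite open cover -/
theorem exists_shrink {X : Type*} [TopologicalSpace X] [NormalSpace X] {𝒰 : Set (Set X)}
    (h𝒰 : IsFinOpenCover 𝒰) :
    ∃ 𝒰' : Set (Set X), IsFinOpenCover 𝒰' ∧ ∀ A ∈ 𝒰', ∃ U ∈ 𝒰, closure A ⊆ U := by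
  have hfin : Finite 𝒰 := h𝒰.1.to_subtype
  obtain ⟨v, hv1, hv2, hv3⟩ := exists_iUnion_eq_closure_subset (u := fun U : 𝒰 => (U : Set X))
    (fun U => h𝒰.2.1 _ U.2) (fun x => Set.toFinite _)
    (by rw [← Set.sUnion_eq_iUnion]; exact h𝒰.2.2)
  refine ⟨Set.range v, ⟨Set.finite_range v, ?_, ?_⟩, ?_⟩
  · rintro _ ⟨U, rfl⟩
    exact hv2 U
  · rw [Set.sUnion_range]
    exact hv1
  · rintro _ ⟨U, rfl⟩
    exact ⟨U, U.2, hv3 U⟩

theorem att_iterCover_fin {X : Type*} [TopologicalSpace X] (h : X ≃ₜ X) {𝒰 : Set (Set X)}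
    (h𝒰 : IsFinOpenCover 𝒰) (N : ℕ) : IsFinOpenCover (iterCover h 𝒰 N) := by
  refine ⟨?_, ?_, ?_⟩
  · have := h𝒰.1.to_subtype
    refine (Set.finite_range fun g : Fin N → 𝒰 =>
      ⋂ j : Fin N, (⇑(h ^ (j : ℕ))) ⁻¹' (g j : Set X)).subset ?_
    rintro W ⟨f, hf, rfl⟩
    refine ⟨fun j => ⟨f j, hf j⟩, ?_⟩
    ext x
    simp only [mem_iInter, mem_preimage, Finset.mem_range]
    exact ⟨fun H j hj => H ⟨j, hj⟩, fun H j => H j j.2⟩
  · rintro W ⟨f, hf, rfl⟩
    exact isOpen_biInter_finset fun j _ => (h𝒰.2.1 _ (hf j)).preimage (h ^ j).continuous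
  · rw [eq_univ_iff_forall]
    intro x
    have h1 : ∀ j : ℕ, ∃ U ∈ 𝒰, (h ^ j) x ∈ U := fun j => by
      have h2 : (h ^ j) x ∈ ⋃₀ 𝒰 := by rw [h𝒰.2.2]; trivial
      exact h2
    choose f hf hfx using h1
    refine ⟨_, ⟨f, hf, rfl⟩, ?_⟩
    simp only [mem_iInter, mem_preimage]
    exact fun j _ => hfx j

/-- monotonicity of the order under refinement -/
theorem coverDim_le_of_refines {X : Type*} [TopologicalSpace X] {𝒱 𝒲 : Set (Set X)}
    (h𝒲 : IsFinOpenCover 𝒲) (hr : ∀ W ∈ 𝒲, ∃ V ∈ 𝒱, W ⊆ V) : coverDim 𝒱 ≤ coverDim 𝒲 := by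
  have hne : {d : ℕ | ∃ 𝒱' : Set (Set X), IsFinOpenCover 𝒱' ∧ (∀ V ∈ 𝒱', ∃ U ∈ 𝒲, V ⊆ U) ∧
      ∀ S ⊆ 𝒱', (⋂₀ S).Nonempty → S.encard ≤ d + 1}.Nonempty := by
    refine ⟨h𝒲.1.toFinset.card, 𝒲, h𝒲, fun u hu => ⟨u, hu, le_rfl⟩, fun S hS _ => ?_⟩
    have h1 : S.encard ≤ 𝒲.encard := Set.encard_le_encard hS
    rw [h𝒲.1.encard_eq_coe_toFinset_card] at h1
    exact h1.trans (by exact_mod_cast Nat.le_succ _)
  obtain ⟨𝒱', h1, h2, h3⟩ := Nat.sInf_mem hne
  refine Nat.sInf_le ⟨𝒱', h1, fun V hV => ?_, h3⟩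
  obtain ⟨W, hW, hVW⟩ := h2 V hV
  obtain ⟨U, hU, hWU⟩ := hr W hW
  exact ⟨U, hU, hVW.trans hWU⟩

/-- monotonicity of the order in the length -/
theorem coverDim_iterCover_mono {X : Type*} [TopologicalSpace X] (h : X ≃ₜ X) {𝒰 : Set (Set X)}
    (h𝒰 : IsFinOpenCover 𝒰) {N N' : ℕ} (hN : N ≤ N') :
    coverDim (iterCover h 𝒰 N) ≤ coverDim (iterCover h 𝒰 N') := by
  refine coverDim_le_of_refines (att_iterCover_fin h h𝒰 N') ?_
  rintro _ ⟨f, hf, rfl⟩
  refine ⟨_, ⟨f, hf, rfl⟩, ?_⟩
  intro x hx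
  simp only [mem_iInter, mem_preimage, Finset.mem_range] at hx ⊢
  exact fun j hj => hx j (hj.trans_le hN)

end Vale.Agent.P093.T
end

section

/-!
The bound for the order of long iterated covers from the homological order of one block.
-/

open Set

namespace Vale.Agent.P093.T

/-- If `s` of the numbers `mm j` are `> d` ... : the elementary count. -/
theorem count_le {J K₀ D d : ℕ} (mm : Fin J → ℕ) (hK : ∀ j, mm j ≤ K₀) (hD : ∑ j, mm j ≤ D)
    (s : ℕ) : ∑ j, (if mm j ≤ d then mm j else mm j - 1) ≤ max (D - s) (d * J + s * K₀) := by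
  classical
  set A : Finset (Fin J) := Finset.univ.filter fun j => ¬ mm j ≤ d with hA
  have h1 : ∑ j, (if mm j ≤ d then mm j else mm j - 1) + A.card = ∑ j, mm j := by
    have h2 : A.card = ∑ j, (if mm j ≤ d then 0 else 1) := by
      rw [hA, Finset.card_filter]
      refine Finset.sum_congr rfl fun j _ => ?_
      split_ifs <;> simp_all
    rw [h2, ← Finset.sum_add_distrib]
    refine Finset.sum_congr rfl fun j _ => ?_
    split_ifs <;> omega
  rcases Nat.lt_or_ge A.card s with h | h
  · refine le_max_of_le_right ?_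
    have h3 : ∀ j, (if mm j ≤ d then mm j else mm j - 1) ≤ d + (if ¬ mm j ≤ d then K₀ else 0) := by
      intro j
      have := hK j
      split_ifs <;> omega
    calc ∑ j, (if mm j ≤ d then mm j else mm j - 1)
        ≤ ∑ j, (d + (if ¬ mm j ≤ d then K₀ else 0)) := Finset.sum_le_sum fun j _ => h3 j
      _ = d * J + A.card * K₀ := by
          rw [Finset.sum_add_distrib, Finset.sum_const, Finset.card_univ, Fintype.card_fin,
            smul_eq_mul, mul_comm, ← Finset.sum_filter, Finset.sum_const, smul_eq_mul]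
      _ ≤ d * J + s * K₀ := by gcongr
  · refine le_max_of_le_left ?_
    omega

/-- closures of the members of the iterated cover -/
theorem asm_closure {X : Type*} [TopologicalSpace X] (h : X ≃ₜ X) {𝒰 𝒰' : Set (Set X)}
    (hcl : ∀ A ∈ 𝒰', ∃ U ∈ 𝒰, closure A ⊆ U) (M : ℕ) :
    ∀ A ∈ iterCover h 𝒰' M, ∃ U ∈ iterCover h 𝒰 M, closure A ⊆ U := by
  rintro _ ⟨f, hf, rfl⟩
  choose! g hg hfg using hcl
  refine ⟨_, ⟨fun j => g (f j), fun j => hg _ (hf j), rfl⟩, ?_⟩
  intro x hx
  simp only [mem_iInter, mem_preimage, Finset.mem_range]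
  intro j hj
  refine hfg _ (hf j) ?_
  have h1 : closure (⋂ j ∈ Finset.range M, (⇑(h ^ j)) ⁻¹' (f j)) ⊆ (⇑(h ^ j)) ⁻¹' closure (f j) := by
    refine closure_minimal ?_ (isClosed_closure.preimage (h ^ j).continuous)
    intro y hy
    simp only [mem_iInter, mem_preimage, Finset.mem_range] at hy
    exact subset_closure (hy j hj)
  exact h1 hx

/-- blocks of length `M` -/
theorem asm_blocks {X : Type*} [TopologicalSpace X] (h : X ≃ₜ X) {𝒰 : Set (Set X)} {M J : ℕ}
    (hM : 0 < M) (hJ : 0 < J) (W : Fin J → Set X) (hW : ∀ j, W j ∈ iterCover h 𝒰 M) :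
    ∃ U ∈ iterCover h 𝒰 (J * M), ⋂ j : Fin J, (⇑(h ^ ((j : ℕ) * M))) ⁻¹' (W j) ⊆ U := by
  choose f hf hWf using hW
  let g : ℕ → Set X := fun k => if hk : k / M < J then f ⟨k / M, hk⟩ (k % M) else f ⟨0, hJ⟩ 0
  refine ⟨_, ⟨g, fun k => ?_, rfl⟩, ?_⟩
  · show (if hk : k / M < J then f ⟨k / M, hk⟩ (k % M) else f ⟨0, hJ⟩ 0) ∈ 𝒰
    split_ifs
    · exact hf _ _
    · exact hf _ _
  · intro x hx
    simp only [mem_iInter, mem_preimage, Finset.mem_range] at hx ⊢
    intro k hk
    have hkJ : k / M < J := Nat.div_lt_of_lt_mul (by rw [mul_comm]; exact hk)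
    have h1 := hx ⟨k / M, hkJ⟩
    rw [hWf] at h1
    simp only [mem_iInter, mem_preimage, Finset.mem_range] at h1
    have h2 := h1 (k % M) (Nat.mod_lt _ hM)
    have h3 : (h ^ (k % M)) ((h ^ (k / M * M)) x) = (h ^ k) x := by
      have : h ^ k = h ^ (k % M) * h ^ (k / M * M) := by
        rw [← pow_add, add_comm, Nat.div_add_mod']
      rw [this]
      rfl
    rw [h3] at h2
    show (h ^ k) x ∈ (if hk : k / M < J then f ⟨k / M, hk⟩ (k % M) else f ⟨0, hJ⟩ 0)
    rw [dif_pos hkJ]
    exact h2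

/-- support of a point of the simplex -/
theorem asm_spt_nonempty {W : Type*} [Fintype W] {y : W → ℝ} (hy : y ∈ stdSimplex ℝ W) :
    (spt y).Nonempty := by
  classical
  by_contra h
  rw [Finset.not_nonempty_iff_eq_empty] at h
  have h1 : ∑ u, y u = 0 := by
    apply Finset.sum_eq_zero
    intro u _
    by_contra h2
    have : u ∈ spt y := Finset.mem_filter.2 ⟨Finset.mem_univ _, h2⟩
    rw [h] at this
    exact absurd this (Finset.notMem_empty u)
  rw [hy.2] at h1
  exact one_ne_zero h1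

/-- membership in a union, any decidability instance -/
theorem asm_mem_biUnion {α β : Type*} (inst : DecidableEq β) (s : Finset α) (S : α → Finset β)
    (w : β) (h : w ∈ @Finset.biUnion α β inst s S) : ∃ i ∈ s, w ∈ S i :=
  Finset.mem_biUnion.1 h

/-- One block: a finite open cover `𝒱₀` and a constant `B`, such that orders of the iterated covers
of `𝒱₀` bound the orders of the iterated covers of `𝒰` with a gain. (Apply `exists_sample` to
`iterCover h 𝒰' M`, `block_map`, `exists_block_maps`, and `threshold` with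
`O j w = (h ^ (j M)) ⁻¹' (e (name w))`; `e A` a member of `iterCover h 𝒰 M` containing
the closure of `A`. `B ≥ q`, the number of names, so that `(spt (ψ z)).card - 1 ≤ B - 1` always.
If `mm j < K₀` the support of `ψ (g j x)` has at most `allow m (mm j + 1)` elements, i.e. its
size minus one is at most `mm j` if `mm j ≤ m + 2` and at most `mm j - 1` otherwise; if
`mm j = K₀ ≥ B`, `K₀ ≥ m + 4`, it is at most `K₀ - 1`.) -/
theorem block_bound {X : Type*} [TopologicalSpace X] [CompactSpace X]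
    [TopologicalSpace.MetrizableSpace X] (h : X ≃ₜ X) {𝒰 𝒰' : Set (Set X)}
    (h𝒰 : IsFinOpenCover 𝒰) (h𝒰' : IsFinOpenCover 𝒰') (hcl : ∀ A ∈ 𝒰', ∃ U ∈ 𝒰, closure A ⊆ U)
    {M m : ℕ} (hM : 0 < M) (hd : HomOrderLE (iterCover h 𝒰' M) (m + 2)) :
    ∃ (𝒱₀ : Set (Set X)) (B : ℕ), IsFinOpenCover 𝒱₀ ∧
      ∀ K₀ ≥ B, ∀ J > 0, ∀ D < J * K₀, coverDim (iterCover h 𝒱₀ (J * M)) ≤ D →
        ∀ s : ℕ, coverDim (iterCover h 𝒰 (J * M)) ≤ max (D - s) ((m + 2) * J + s * K₀) := by
  classical
  have hcl' := asm_closure h hcl M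
  choose! e he1 he2 using hcl'
  have hopen : ∀ A ∈ iterCover h 𝒰' M, IsOpen (e A) ∧ closure A ⊆ e A := fun A hA =>
    ⟨(att_iterCover_fin h h𝒰 M).2.1 _ (he1 A hA), he2 A hA⟩
  obtain ⟨r, V, q, name, S, F, hV, hcov, hname, hS, hSe, hF⟩ :=
    exists_sample (iterCover h 𝒰' M) (att_iterCover_fin h h𝒰' M) e hopen m hd
  obtain ⟨ψ, hψc, hψ⟩ := block_map (m := m) (nerve V)
    (fun s hs t hts ht => ⟨ht, hs.2.mono (Set.biInter_mono hts fun _ _ => le_rfl)⟩)
    (fun s hs => hs.1) S hS F hF
  refine ⟨Set.range V, q + m + 5, ⟨Set.finite_range V, ?_, ?_⟩, ?_⟩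
  · rintro _ ⟨i, rfl⟩
    exact hV i
  · rw [Set.sUnion_range]
    exact hcov
  intro K₀ hK₀ J hJ D hD hdim s
  obtain ⟨g, hgc, hg⟩ := exists_block_maps h V hV hcov M J K₀ D hM hJ hD hdim
  have hmem : ∀ j x, g j x ∈ {z | z ∈ stdSimplex ℝ (Fin r) ∧ spt z ∈ nerve V} := by
    intro j x
    obtain ⟨mm, -, -, h3⟩ := hg x
    refine ⟨(h3 j).1, asm_spt_nonempty (h3 j).1, ⟨(h ^ ((j : ℕ) * M)) x, ?_⟩⟩
    rw [Set.mem_iInter₂]
    exact (h3 j).2.1
  set E := max (D - s) ((m + 2) * J + s * K₀) with hE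
  have hcard : ∀ x, ∑ j, ((spt (ψ (g j x))).card - 1) ≤ E := by
    intro x
    obtain ⟨mm, hmm1, hmm2, hmm3⟩ := hg x
    refine le_trans (Finset.sum_le_sum fun j _ => ?_) (count_le (d := m + 2) mm hmm1 hmm2 s)
    have h4 := (hψ (g j x) (hmem j x).1 (hmem j x).2).2.2
    have h5 : (spt (ψ (g j x))).card ≤ q := by
      have := Finset.card_le_univ (spt (ψ (g j x)))
      rwa [Fintype.card_fin] at this
    have h6 := (hmm3 j).2.2
    have h7 := hmm1 j
    unfold allow at h4
    rcases Nat.lt_or_ge (mm j) K₀ with h8 | h8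
    · have h9 := h6 h8
      split_ifs at h4 ⊢ <;> omega
    · split_ifs <;> omega
  have hstar : ∀ (j : Fin J) (x : X), ∀ w ∈ spt (ψ (g j x)),
      x ∈ (⇑(h ^ ((j : ℕ) * M))) ⁻¹' (e (name w)) := by
    intro j x w hw
    have h4 := (hψ (g j x) (hmem j x).1 (hmem j x).2).2.1 hw
    obtain ⟨i, hi, hwi⟩ := asm_mem_biUnion _ _ _ _ h4
    obtain ⟨mm, -, -, hmm3⟩ := hg x
    exact hSe i w hwi ((hmm3 j).2.1 i hi)
  obtain ⟨𝒱, h1, h2, h3⟩ := threshold hJ (fun j x => ψ (g j x))
    (fun j => hψc.comp_continuous (hgc j) (hmem j))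
    (fun j x => (hψ (g j x) (hmem j x).1 (hmem j x).2).1) E hcard
    (fun j w => (⇑(h ^ ((j : ℕ) * M))) ⁻¹' (e (name w))) hstar
  refine Nat.sInf_le ⟨𝒱, h1, fun A hA => ?_, h3⟩
  obtain ⟨w, hw⟩ := h2 A hA
  obtain ⟨U, hU, hUW⟩ := asm_blocks h hM hJ (fun j => e (name (w j)))
    (fun j => he1 _ (hname (w j)))
  exact ⟨U, hU, hw.trans hUW⟩

end Vale.Agent.P093.T
end

section

/-!
If the mean dimension is finite and attained by a finite open cover, it is detected by homology.
-/

open Set Filter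
open scoped ENNReal

namespace Vale.Agent.P093.T

/-- from a strict bound for the rate to an eventual bound -/
theorem att_ev_of_lt {u : ℕ → ℕ} {a : ℝ} (h : limsup (fun N : ℕ => (u N : ℝ≥0∞) / N) atTop <
    ENNReal.ofReal a) : ∀ᶠ N : ℕ in atTop, (u N : ℝ) ≤ a * N := by
  have ha : 0 < a := ENNReal.ofReal_pos.1 (bot_le.trans_lt h)
  have h1 := eventually_lt_of_limsup_lt h
  filter_upwards [h1, eventually_gt_atTop 0] with N hN hN0
  have hN0' : (N : ℝ≥0∞) ≠ 0 := by exact_mod_cast hN0.ne'
  rw [ENNReal.div_lt_iff (Or.inl hN0') (Or.inl (ENNReal.natCast_ne_top N))] at hN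
  have h2 : ENNReal.ofReal a * (N : ℝ≥0∞) = ENNReal.ofReal (a * N) := by
    rw [ENNReal.ofReal_mul ha.le, ENNReal.ofReal_natCast]
  rw [h2, ← ENNReal.ofReal_natCast (u N)] at hN
  exact (ENNReal.ofReal_lt_ofReal_iff_of_nonneg (Nat.cast_nonneg _)).1 hN |>.le

/-- from an eventual bound to a bound for the rate -/
theorem att_limsup_le {u : ℕ → ℕ} {a C : ℝ} (ha : 0 ≤ a)
    (h : ∀ᶠ N : ℕ in atTop, (u N : ℝ) ≤ a * N + C) :
    limsup (fun N : ℕ => (u N : ℝ≥0∞) / N) atTop ≤ ENNReal.ofReal a := by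
  refine ENNReal.le_of_forall_pos_le_add fun ε hε _ => ?_
  have h0 : ENNReal.ofReal a + (ε : ℝ≥0∞) = ENNReal.ofReal (a + (ε : ℝ)) := by
    rw [ENNReal.ofReal_add ha (NNReal.coe_nonneg ε), ENNReal.ofReal_coe_nnreal]
  rw [h0]
  refine limsup_le_of_le (by isBoundedDefault) ?_
  have hε' : (0 : ℝ) < (ε : ℝ) := NNReal.coe_pos.2 hε
  have h1 : ∀ᶠ N : ℕ in atTop, C ≤ (ε : ℝ) * N := by
    have := (tendsto_natCast_atTop_atTop (R := ℝ)).const_mul_atTop hε'
    exact this.eventually_ge_atTop C
  filter_upwards [h, h1, eventually_gt_atTop 0] with N hN hN1 hN0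
  have hN0' : (N : ℝ≥0∞) ≠ 0 := by exact_mod_cast hN0.ne'
  rw [ENNReal.div_le_iff hN0' (ENNReal.natCast_ne_top N), ← ENNReal.ofReal_natCast (u N),
    ← ENNReal.ofReal_natCast N, ← ENNReal.ofReal_mul (by positivity)]
  apply ENNReal.ofReal_le_ofReal
  nlinarith

/-- iterated covers are finite open covers -/
theorem att_iterCover {X : Type*} [TopologicalSpace X] (h : X ≃ₜ X)
    {𝒰 : Set (Set X)} (h𝒰 : IsFinOpenCover 𝒰) (N : ℕ) : IsFinOpenCover (iterCover h 𝒰 N) := by
  refine ⟨?_, ?_, ?_⟩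
  · have := h𝒰.1.to_subtype
    refine (Set.finite_range fun g : Fin N → 𝒰 =>
      ⋂ j : Fin N, (⇑(h ^ (j : ℕ))) ⁻¹' (g j : Set X)).subset ?_
    rintro W ⟨f, hf, rfl⟩
    refine ⟨fun j => ⟨f j, hf j⟩, ?_⟩
    ext x
    simp only [mem_iInter, mem_preimage, Finset.mem_range]
    exact ⟨fun H j hj => H ⟨j, hj⟩, fun H j => H j j.2⟩
  · rintro W ⟨f, hf, rfl⟩
    exact isOpen_biInter_finset fun j _ => (h𝒰.2.1 _ (hf j)).preimage (h ^ j).continuous
  · rw [eq_univ_iff_forall]
    intro x
    have h1 : ∀ j : ℕ, ∃ U ∈ 𝒰, (h ^ j) x ∈ U := fun j => by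
      have h2 : (h ^ j) x ∈ ⋃₀ 𝒰 := by rw [h𝒰.2.2]; trivial
      exact h2
    choose f hf hfx using h1
    refine ⟨_, ⟨f, hf, rfl⟩, ?_⟩
    simp only [mem_iInter, mem_preimage]
    exact fun j _ => hfx j

/-- the homological order is attained -/
theorem att_homOrderLE {X : Type*} [TopologicalSpace X] [CompactSpace X]
    [TopologicalSpace.MetrizableSpace X] {𝒲 : Set (Set X)} (h𝒲 : IsFinOpenCover 𝒲) :
    HomOrderLE 𝒲 (homOrder 𝒲) := by
  let _ := TopologicalSpace.metrizableSpaceMetric X
  exact Nat.sInf_mem (s := {d | HomOrderLE 𝒲 d}) ⟨_, Hom.homOrderLE_coverDim 𝒲 h𝒲⟩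

/-- `HomOrderLE` is monotone in `d` -/
theorem att_mono {X : Type*} [TopologicalSpace X] {𝒲 : Set (Set X)} {d d' : ℕ} (hd : d ≤ d')
    (h : HomOrderLE 𝒲 d) : HomOrderLE 𝒲 d' := by
  obtain ⟨𝒢, Φ, h𝒢, hΦ⟩ := h
  refine ⟨𝒢, Φ, h𝒢, fun x hx hxG => ?_⟩
  obtain ⟨h1, h2, h3, h4⟩ := hΦ x hx hxG
  exact ⟨h1, h2, h3, fun hl => h4 (by omega)⟩

/-- the arithmetic of one block -/
theorem att_block {M m K₀ J D a s : ℕ} {μ c ε : ℝ} (hc : (m : ℝ) + 2 ≤ (μ - 2 * c) * M)
    (hεc : ε ≤ c) (hεK : 2 * ε * K₀ ≤ c)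
    (hD : (D : ℝ) ≤ (μ + ε) * (J * M) + 1) (hs1 : 2 * ε * (M * J) ≤ s)
    (hs2 : (s : ℝ) ≤ 2 * ε * (M * J) + 1) (hμ : ε ≤ μ)
    (ha : a ≤ max (D - s) ((m + 2) * J + s * K₀)) :
    (a : ℝ) ≤ (μ - ε) * (J * M) + (K₀ + 1) := by
  have hJM : (0 : ℝ) ≤ J * M := by positivity
  have hK : (0 : ℝ) ≤ K₀ := Nat.cast_nonneg _
  rcases le_max_iff.1 ha with h1 | h1
  · rcases le_or_gt s D with h2 | h2
    · have h3 : (a : ℝ) ≤ (D : ℝ) - s := by
        have : (a : ℝ) ≤ ((D - s : ℕ) : ℝ) := by exact_mod_cast h1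
        rwa [Nat.cast_sub h2] at this
      nlinarith
    · have h3 : a = 0 := by omega
      rw [h3, Nat.cast_zero]
      have : 0 ≤ (μ - ε) * (J * M) := mul_nonneg (by linarith) hJM
      linarith
  · have h3 : (a : ℝ) ≤ ((m : ℝ) + 2) * J + s * K₀ := by exact_mod_cast h1
    have hJ : (0 : ℝ) ≤ J := Nat.cast_nonneg _
    have h4 : ((m : ℝ) + 2) * J ≤ (μ - 2 * c) * M * J := mul_le_mul_of_nonneg_right hc hJ
    have h5 : (s : ℝ) * K₀ ≤ (2 * ε * (M * J) + 1) * K₀ := mul_le_mul_of_nonneg_right hs2 hK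
    have h6 : (2 * ε * K₀) * (M * J) ≤ c * (M * J) :=
      mul_le_mul_of_nonneg_right hεK (by positivity)
    have h7 : ε * (J * M) ≤ c * (J * M) := mul_le_mul_of_nonneg_right hεc hJM
    nlinarith

/-- Numerical limit: if the homological rate of the shrinking were smaller than the mean dimension
`μ`, choose `c > 0` and a large `M` with `HomOrderLE (iterCover h 𝒰' M) (m + 2)`,
`m + 2 ≤ (μ - 2c) M` (`HomOrderLE` is monotone in `d`), take `𝒱₀`, `B` from `block_bound`,
`K₀ = max B ⌈(μ + 1) M⌉ + 1`, `ε` small, `D = ⌈(μ + ε) J M⌉`, `s = ⌈2 ε M J⌉ + 1`: for all large `J`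
`coverDim (iterCover h 𝒰 (J M)) ≤ (μ - ε) J M + const`, so `coverRate h 𝒰 < μ`. -/
theorem homRate_ge {X : Type*} [TopologicalSpace X] [CompactSpace X]
    [TopologicalSpace.MetrizableSpace X] (h : X ≃ₜ X) {𝒰 𝒰' : Set (Set X)}
    (h𝒰 : IsFinOpenCover 𝒰) (h𝒰' : IsFinOpenCover 𝒰') (hcl : ∀ A ∈ 𝒰', ∃ U ∈ 𝒰, closure A ⊆ U)
    (hfin : meanDim h ≠ ∞) (hatt : coverRate h 𝒰 = meanDim h) :
    meanDim h ≤ homRate h 𝒰' := by
  by_contra hlt
  rw [not_le] at hlt
  obtain ⟨b, hb1, hb2⟩ := exists_between hlt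
  obtain ⟨μ, hμe⟩ : ∃ μ, μ = (meanDim h).toReal := ⟨_, rfl⟩
  have hμ : ENNReal.ofReal μ = meanDim h := by rw [hμe]; exact ENNReal.ofReal_toReal hfin
  have hbtop : b ≠ ∞ := ne_top_of_lt hb2
  obtain ⟨a, hae⟩ : ∃ a, a = b.toReal := ⟨_, rfl⟩
  have ha : ENNReal.ofReal a = b := by rw [hae]; exact ENNReal.ofReal_toReal hbtop
  have haμ : a < μ := by
    rw [hae, hμe]
    exact (ENNReal.toReal_lt_toReal hbtop hfin).2 hb2
  have ha0 : 0 ≤ a := by rw [hae]; exact ENNReal.toReal_nonneg
  obtain ⟨c, hce⟩ : ∃ c, c = (μ - a) / 3 := ⟨_, rfl⟩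
  have hc : 0 < c := by rw [hce]; linarith
  -- the length of one block
  have ev1 : ∀ᶠ M : ℕ in atTop, (homOrder (iterCover h 𝒰' M) : ℝ) ≤ a * M := by
    refine att_ev_of_lt (u := fun M => homOrder (iterCover h 𝒰' M)) ?_
    rw [ha]
    exact hb1
  have ev2 : ∀ᶠ M : ℕ in atTop, 2 ≤ c * (M : ℝ) :=
    ((tendsto_natCast_atTop_atTop (R := ℝ)).const_mul_atTop hc).eventually_ge_atTop 2
  obtain ⟨M, hM1, hM2, hM⟩ := (ev1.and (ev2.and (eventually_gt_atTop 0))).exists
  obtain ⟨m, hme⟩ : ∃ m, m = homOrder (iterCover h 𝒰' M) := ⟨_, rfl⟩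
  have hd : HomOrderLE (iterCover h 𝒰' M) (m + 2) := by
    refine att_mono (Nat.le_add_right m 2) ?_
    rw [hme]
    exact att_homOrderLE (att_iterCover h h𝒰' M)
  have hmM : (m : ℝ) + 2 ≤ (μ - 2 * c) * M := by
    rw [← hme] at hM1
    have : (μ - 2 * c) * M = a * M + c * M := by rw [hce]; ring
    linarith
  obtain ⟨𝒱₀, B, h𝒱, hblock⟩ := block_bound h h𝒰 h𝒰' hcl hM hd
  obtain ⟨K₀, hK₀e⟩ : ∃ K₀, K₀ = max B (⌈(μ + 1) * M⌉₊ + 1) := ⟨_, rfl⟩
  have hK₀B : B ≤ K₀ := hK₀e ▸ le_max_left _ _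
  have hK₀M : (μ + 1) * M + 1 ≤ K₀ := by
    have h1 : ⌈(μ + 1) * M⌉₊ + 1 ≤ K₀ := hK₀e ▸ le_max_right _ _
    have h2 : ((⌈(μ + 1) * M⌉₊ : ℝ)) + 1 ≤ K₀ := by exact_mod_cast h1
    have h3 := Nat.le_ceil ((μ + 1) * M)
    linarith
  have hM' : (0 : ℝ) < M := by exact_mod_cast hM
  have hμ0 : 0 < μ := ha0.trans_lt haμ
  have hK₀pos : (0 : ℝ) < K₀ := by
    have : 0 < (μ + 1) * M := by positivity
    linarith
  obtain ⟨ε, hε, hε1, hεc, hεK⟩ : ∃ ε : ℝ, 0 < ε ∧ ε ≤ 1 ∧ ε ≤ c ∧ 2 * ε * K₀ ≤ c := by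
    refine ⟨min 1 (min c (c / (2 * K₀))), by positivity, min_le_left _ _,
      (min_le_right _ _).trans (min_le_left _ _), ?_⟩
    have h1 : min 1 (min c (c / (2 * K₀))) ≤ c / (2 * K₀) :=
      (min_le_right _ _).trans (min_le_right _ _)
    rw [le_div_iff₀ (by positivity)] at h1
    linarith
  have hεμ : ε ≤ μ := by
    have : c ≤ μ := by rw [hce]; linarith
    linarith
  have evV : ∀ᶠ N : ℕ in atTop, (coverDim (iterCover h 𝒱₀ N) : ℝ) ≤ (μ + ε) * N := by
    refine att_ev_of_lt (u := fun N => coverDim (iterCover h 𝒱₀ N)) ?_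
    have h1 : coverRate h 𝒱₀ ≤ meanDim h :=
      le_iSup (fun 𝒱 : {𝒱 : Set (Set X) // IsFinOpenCover 𝒱} => coverRate h 𝒱.1) ⟨𝒱₀, h𝒱⟩
    refine lt_of_le_of_lt h1 ?_
    rw [← hμ]
    exact (ENNReal.ofReal_lt_ofReal_iff (by positivity)).2 (by linarith)
  have evJ : ∀ᶠ J : ℕ in atTop, (coverDim (iterCover h 𝒰 (J * M)) : ℝ) ≤
      (μ - ε) * (J * M) + (K₀ + 1) := by
    have h1 : Tendsto (fun J : ℕ => J * M) atTop atTop :=
      tendsto_id.atTop_mul_const' hM
    filter_upwards [h1.eventually evV, eventually_gt_atTop 0] with J hJ hJ0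
    have hJ' : (coverDim (iterCover h 𝒱₀ (J * M)) : ℝ) ≤ (μ + ε) * (J * M) := by
      rw [← Nat.cast_mul]; exact hJ
    obtain ⟨D, hDe⟩ : ∃ D, D = ⌈(μ + ε) * (J * M)⌉₊ := ⟨_, rfl⟩
    have hJR : (0 : ℝ) < J := by exact_mod_cast hJ0
    have hD1 : (D : ℝ) ≤ (μ + ε) * (J * M) + 1 := by
      rw [hDe]; exact (Nat.ceil_lt_add_one (by positivity)).le
    have hD2 : coverDim (iterCover h 𝒱₀ (J * M)) ≤ D := by
      have : (coverDim (iterCover h 𝒱₀ (J * M)) : ℝ) ≤ D := by
        rw [hDe]; exact hJ'.trans (Nat.le_ceil _)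
      exact_mod_cast this
    have hD3 : D < J * K₀ := by
      have h2 : (D : ℝ) < J * K₀ := by
        rw [hDe]
        refine (Nat.ceil_lt_add_one (by positivity)).trans_le ?_
        have hJ1 : (1 : ℝ) ≤ J := by exact_mod_cast hJ0
        have h3 : (J : ℝ) * ((μ + 1) * M + 1) ≤ J * K₀ := mul_le_mul_of_nonneg_left hK₀M hJR.le
        have h4 : ε * (J * M) ≤ 1 * (J * M) := mul_le_mul_of_nonneg_right hε1 (by positivity)
        nlinarith
      exact_mod_cast h2
    refine att_block (s := ⌈2 * ε * (M * J)⌉₊) hmM hεc hεK hD1 (Nat.le_ceil _)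
      (Nat.ceil_lt_add_one (by positivity)).le hεμ ?_
    exact hblock K₀ hK₀B J hJ0 D hD3 hD2 _
  -- all lengths
  have evN : ∀ᶠ N : ℕ in atTop, (coverDim (iterCover h 𝒰 N) : ℝ) ≤
      (μ - ε) * N + ((μ - ε) * M + (K₀ + 1)) := by
    have h1 : Tendsto (fun N : ℕ => N / M + 1) atTop atTop :=
      tendsto_atTop_mono (fun N => Nat.le_succ _) (Nat.tendsto_div_const_atTop hM.ne')
    filter_upwards [h1.eventually evJ] with N hN
    have h2 : N ≤ (N / M + 1) * M := by
      have := Nat.lt_mul_div_succ N hM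
      rw [mul_comm]
      exact this.le
    have h3 : (N / M + 1) * M ≤ N + M := by
      have := Nat.div_mul_le_self N M
      rw [add_mul, one_mul]
      omega
    have h4 : (coverDim (iterCover h 𝒰 N) : ℝ) ≤ coverDim (iterCover h 𝒰 ((N / M + 1) * M)) := by
      exact_mod_cast coverDim_iterCover_mono h h𝒰 h2
    have h5 : (((N / M + 1 : ℕ) : ℝ)) * M ≤ (N : ℝ) + M := by exact_mod_cast h3
    have h6 : (μ - ε) * (((N / M + 1 : ℕ) : ℝ) * M) ≤ (μ - ε) * ((N : ℝ) + M) :=
      mul_le_mul_of_nonneg_left h5 (by linarith)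
    linarith
  have hfinal : coverRate h 𝒰 ≤ ENNReal.ofReal (μ - ε) :=
    att_limsup_le (u := fun N => coverDim (iterCover h 𝒰 N)) (by linarith) evN
  rw [hatt, ← hμ] at hfinal
  have h9 : ENNReal.ofReal (μ - ε) < ENNReal.ofReal μ :=
    (ENNReal.ofReal_lt_ofReal_iff hμ0).2 (by linarith)
  exact absurd hfinal (not_le.2 h9)

/-- If the mean dimension is finite and attained by a finite open cover, then the homological mean
dimension is equal to it. -/
theorem homMeanDim_eq_of_attained {X : Type*} [TopologicalSpace X] [CompactSpace X]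
    [TopologicalSpace.MetrizableSpace X] (h : X ≃ₜ X) (hfin : meanDim h ≠ ∞)
    (hatt : ∃ 𝒰 : Set (Set X), IsFinOpenCover 𝒰 ∧ coverRate h 𝒰 = meanDim h) :
    meanDim h ≤ homMeanDim h := by
  obtain ⟨𝒰, h𝒰, he⟩ := hatt
  obtain ⟨𝒰', h𝒰', hcl⟩ := exists_shrink h𝒰
  refine (homRate_ge h h𝒰 h𝒰' hcl hfin he).trans ?_
  exact le_iSup (fun 𝒱 : {𝒱 : Set (Set X) // IsFinOpenCover 𝒱} => homRate h 𝒱.1) ⟨𝒰', h𝒰'⟩

end Vale.Agent.P093.T
end

section

/-!
The statements for a minimal homeomorphism, put together, with the attained case.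
-/

open Filter TopologicalSpace
open scoped ENNReal

namespace Vale.Agent.P093.T

universe u v

theorem assembledT (X : Type u) [TopologicalSpace X] [CompactSpace X] [MetrizableSpace X]
    [Infinite X] (h : X ≃ₜ X) (hmin : IsMinimalHomeo h) :
    (∀ (A : Type v) [CStarAlgebra A] [PartialOrder A] [StarOrderedRing A],
        IsCrossedProduct h A →
        (HomDetected h → meanDim h / 2 ≤ radiusOfComparison A) ∧
        (∀ (𝒰 : Set (Set X)) (κ : ℕ), IsFinOpenCover 𝒰 →
          2 * κ * homRate h 𝒰 ≤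
            radiusOfComparison A + κ * (4 * κ + 1) / (2 * κ + 1) * coverRate h 𝒰)) ∧
      (meanDim h ≠ ∞ → ((∃ 𝒰, IsFinOpenCover 𝒰 ∧ coverRate h 𝒰 = meanDim h) →
        homMeanDim h = meanDim h) ∧ (homMeanDim h = meanDim h → HomDetected h)) ∧
      (∀ 𝒲 : Set (Set X), IsFinOpenCover 𝒲 → homOrder 𝒲 ≤ coverDim 𝒲 ∧ coverRate h 𝒲 ≠ ∞ ∧
        ∀ (B : Set X) (n : ℕ), NerveClass 𝒲 B n → n ≤ homOrder 𝒲) ∧
      (∀ (q : ℕ) (f : X → Fin q → unitInterval) (N : ℕ → ℕ) (J : ℕ → Finset (ℕ × Fin q))
        (Ψ : ℕ → (ℕ → Fin q → unitInterval) → X), Continuous f → Tendsto N atTop atTop →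
        (∀ k, Continuous (Ψ k)) →
        (∀ k, ∀ p ∈ J k, p.1 < N k ∧ ∀ y, f ((h ^ p.1) (Ψ k y)) p.2 = y p.1 p.2) →
        limsup (fun k => ((J k).card : ℝ≥0∞) / N k) atTop ≤ homMeanDim h) :=
  ⟨fun _ _ _ _ hA => ⟨fun hd => Hom.detected_bound hmin hA hd,
      fun _ κ h𝒰 => Hom.cover_bound hmin hA h𝒰 κ⟩,
    fun hfin => ⟨fun hatt => le_antisymm (Hom.homMeanDim_le h)
      (homMeanDim_eq_of_attained h hfin hatt), Hom.homDetected_of_eq h hfin⟩,
    fun _ h𝒲 => ⟨Hom.homOrder_le_coverDim h𝒲, Hom.coverRate_ne_top h h𝒲,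
      fun _ _ hn => Hom.nerveClass_le h𝒲 hn⟩,
    fun _ _ _ _ _ hf hN hΨ hJ => Hom.cubes_bound hf hN hΨ hJ⟩

end Vale.Agent.P093.T
end
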